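import Mathlib
import Vale.Agent.PNT.Main

set_option linter.all false

section

section

/-!
Definitions for P031 (distinct values of Euler's totient function).
-/

namespace Vale.Agent.P031

open Finset

/-- `v` is a value of the totient function. -/
def IsTot (v : ℕ) : Prop := ∃ n : ℕ, 1 ≤ n ∧ Nat.totient n = v

/-- number of distinct totient values up to `x` -/
noncomputable def V (x : ℝ) : ℕ := Set.ncard {v : ℕ | IsTot v ∧ (v : ℝ) ≤ x}

/-- `log log` -/
noncomputable def ll (z : ℝ) : ℝ := Real.log (Real.log z)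

/-- level of an integer `q` in the grid of mesh `M^13` -/
noncomputable def lev (M q : ℕ) : ℕ := ⌊ll (q : ℝ) / (M : ℝ) ^ 13⌋₊

/-- big primes: `log log q ≥ M^15` -/
def Big (M q : ℕ) : Prop := q.Prime ∧ (M : ℝ) ^ 15 ≤ ll (q : ℝ)

/-- positive integers without big prime factors -/
def Small (M D : ℕ) : Prop := D ≠ 0 ∧ ∀ q : ℕ, q ∣ D → ¬ Big M q

/-- number of prime factors (with multiplicity) of `n` in level `k` -/
noncomputable def prof (M n k : ℕ) : ℕ :=
  ∑ q ∈ n.primeFactors.filter (fun q => lev M q = k), n.factorization q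

/-- total number of prime factors with multiplicity -/
def Om (n : ℕ) : ℕ := n.primeFactorsList.length

/-- the convex function `u log (u/lam) - u` -/
noncomputable def ph (lam u : ℝ) : ℝ := u * Real.log (u / lam) - u

/-- number of levels used -/
def KK (M : ℕ) : ℕ := 6 * M ^ 7

/-- the functional `H_j` -/
noncomputable def HH (M j n : ℕ) : ℝ :=
  ∑ k ∈ Finset.Ico (M ^ 2) (KK M),
    (ph ((M : ℝ) ^ 13) ((prof M n k : ℝ) + (j : ℝ) * (M : ℝ) ^ 13) -
      ph ((M : ℝ) ^ 13) ((j : ℝ) * (M : ℝ) ^ 13))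

/-- the functional `G = H_0` -/
noncomputable def GG (M n : ℕ) : ℝ :=
  ∑ k ∈ Finset.Ico (M ^ 2) (KK M), ph ((M : ℝ) ^ 13) (prof M n k : ℝ)

/-- `a_j = (j+1) log (j+1) - j log j - 1` -/
noncomputable def aa (j : ℕ) : ℝ :=
  ((j : ℝ) + 1) * Real.log ((j : ℝ) + 1) - (j : ℝ) * Real.log (j : ℝ) - 1

/-- no square of a big prime divides `n` -/
def NoSq (M n : ℕ) : Prop := ∀ q : ℕ, Big M q → ¬ q ^ 2 ∣ n

/-- normal primes -/
structure Nrm (M p : ℕ) : Prop where
  big : Big M p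
  nosq : NoSq M (p - 1)
  om_le : Om (p - 1) ≤ M ^ 25
  om_ge : (9 / 10 : ℝ) * ll (p : ℝ) ≤ (Om (p - 1) : ℝ)
  prof_near : ∀ k : ℕ, M ^ 2 ≤ k → ((k : ℝ) + 1) * (M : ℝ) ^ 13 ≤ ll (p : ℝ) →
    |(prof M (p - 1) k : ℝ) - (M : ℝ) ^ 13| ≤ (M : ℝ) ^ 9
  prof_le : ∀ k : ℕ, M ^ 2 ≤ k → (prof M (p - 1) k : ℝ) ≤ 2 * (M : ℝ) ^ 13

/-- chains: `Ch M J P D` says that `D = ∏ (p_i - 1) * s` with `J` big normal primes
`p_1 > p_2 > ...`, `P = p_1` the largest of them (`P = 1` if there is none), `s = φ(n')` with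
`n'` free of big primes, with the bound `G ≤ M^18` for all terminal products. -/
inductive Ch (M : ℕ) : ℕ → ℕ → ℕ → Prop
  | nil (n s : ℕ) (hn : Small M n) (hs : Nat.totient n = s) : Ch M 0 1 s
  | cons (p J P D : ℕ) (hp : Nrm M p) (hP : P < p) (hD : Ch M J P D)
      (hG : GG M ((p - 1) * D) ≤ (M : ℝ) ^ 18) (hsq : NoSq M ((p - 1) * D)) :
      Ch M (J + 1) p ((p - 1) * D)

/-- good totients with parameter `r` -/
def DD (M r : ℕ) : Set ℕ := {D | (∃ J P : ℕ, J ≤ M + r ∧ Ch M J P D) ∧ Om D ≤ (r + 1) * M ^ 25}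

/-- greatest prime factor (0 for `D ≤ 1`) -/
def gpf (D : ℕ) : ℕ := D.primeFactors.sup id

/-- shifted scale of the largest prime factor -/
noncomputable def YY (M D : ℕ) : ℝ := max 0 (ll (gpf D : ℝ) - (M : ℝ) ^ 15)

/-- the cost functional on vectors; index `0` corresponds to the first level -/
noncomputable def Psi : ℕ → ℝ → (ℕ → ℝ) → ℝ
  | 0, Y, h => max Y (h 1)
  | (j + 1), Y, h => Psi j (max Y (h 1)) (fun i => aa i * max Y (h 1) + h (i + 1))

/-- cost of a totient at level `j` (`j = 1` is the first level) -/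
noncomputable def Cost (M j D : ℕ) : ℝ := Psi (j - 1) (YY M D) (fun i => HH M i D)

/-- representations `v = ∏_{p ∈ S} (p-1) * D` -/
structure Rep (M : ℕ) (S : Finset ℕ) (D v : ℕ) : Prop where
  big : ∀ p ∈ S, Big M p
  card : S.card ≤ 2 * M
  small : Small M D
  val : v = (∏ p ∈ S, (p - 1)) * D

end Vale.Agent.P031
end
end

section

section

/-!
# P031: definitions for the recursion over levels
-/

namespace Vale.Agent.P031

open Finset

/-- cut-off for the finite sums -/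
noncomputable def NN (M : ℕ) : ℕ := ⌊Real.exp (Real.exp (5 * (M : ℝ) ^ 20))⌋₊

open Classical in
/-- good totients with cost at most `T` at level `j` -/
noncomputable def DF (M r j : ℕ) (T : ℝ) : Finset ℕ :=
  (Finset.Ico 1 (NN M)).filter (fun D => D ∈ DD M r ∧ Cost M j D ≤ T)

/-- weighted masses -/
noncomputable def FF (M r j q : ℕ) (T : ℝ) : ℝ :=
  ∑ D ∈ DF M r j T, (T - Cost M j D) ^ q / (D : ℝ)

theorem mem_DF {M r j : ℕ} {T : ℝ} {D : ℕ} :
    D ∈ DF M r j T ↔ (1 ≤ D ∧ D < NN M) ∧ D ∈ DD M r ∧ Cost M j D ≤ T := by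
  simp [DF, Finset.mem_Ico]

theorem FF_nonneg (M r j q : ℕ) (T : ℝ) : 0 ≤ FF M r j q T := by
  refine Finset.sum_nonneg fun D hD => ?_
  have h := (mem_DF.1 hD).2.2
  have h1 : 0 ≤ T - Cost M j D := by linarith
  positivity

theorem DF_mono {M r j : ℕ} {T T' : ℝ} (h : T ≤ T') : DF M r j T ⊆ DF M r j T' := by
  intro D hD
  rw [mem_DF] at hD ⊢
  exact ⟨hD.1, hD.2.1, hD.2.2.trans h⟩

theorem FF_mono {M r j q : ℕ} {T T' : ℝ} (h : T ≤ T') : FF M r j q T ≤ FF M r j q T' := by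
  unfold FF
  calc ∑ D ∈ DF M r j T, (T - Cost M j D) ^ q / (D : ℝ)
      ≤ ∑ D ∈ DF M r j T, (T' - Cost M j D) ^ q / (D : ℝ) := by
        refine Finset.sum_le_sum fun D hD => ?_
        have h1 := (mem_DF.1 hD).2.2
        have h2 : 0 ≤ T - Cost M j D := by linarith
        gcongr
    _ ≤ ∑ D ∈ DF M r j T', (T' - Cost M j D) ^ q / (D : ℝ) := by
        refine Finset.sum_le_sum_of_subset_of_nonneg (DF_mono h) fun D hD _ => ?_
        have h1 := (mem_DF.1 hD).2.2
        have h2 : 0 ≤ T' - Cost M j D := by linarith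
        positivity

theorem NN_le (M : ℕ) : (NN M : ℝ) ≤ Real.exp (Real.exp (5 * (M : ℝ) ^ 20)) :=
  Nat.floor_le (Real.exp_pos _).le

theorem ll_mono {a b : ℝ} (ha : 1 < a) (hab : a ≤ b) : ll a ≤ ll b :=
  Real.log_le_log (Real.log_pos ha) (Real.log_le_log (by linarith) hab)

/-- integers up to `NN M` have `log log` at most `5 M ^ 20`. -/
theorem ll_le_of_le_NN {M n : ℕ} (h : n ≤ NN M) : ll (n : ℝ) ≤ 5 * (M : ℝ) ^ 20 := by
  rcases Nat.lt_or_ge n 2 with h2 | h2
  · have h0 : (0 : ℝ) ≤ 5 * (M : ℝ) ^ 20 := by positivity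
    interval_cases n
    · simp [ll, h0]
    · simp [ll, h0]
  · have h1 : (1 : ℝ) < n := by exact_mod_cast h2
    have h3 : (n : ℝ) ≤ Real.exp (Real.exp (5 * (M : ℝ) ^ 20)) :=
      (by exact_mod_cast h : (n : ℝ) ≤ NN M).trans (NN_le M)
    have h4 := ll_mono h1 h3
    simpa [ll] using h4

end Vale.Agent.P031
end
end

section

section

/-! Definitions for the collision part of P031 and the black-box statements as propositions. -/

namespace Vale.Agent.P031

open Finset Filter Topology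

/-- colliding representations -/
structure ColPair (M : ℕ) (x : ℝ) (q : Finset ℕ × ℕ × Finset ℕ × ℕ) (u : ℕ) : Prop where
  rep : Rep M q.1 q.2.1 u
  rep' : Rep M q.2.2.1 q.2.2.2 u
  le : (u : ℝ) ≤ x
  om : Om u ≤ M ^ 26
  nosq : NoSq M u
  gg : GG M u ≤ -(M : ℝ) ^ 18
  top : ∃ p p' : ℕ, p ∈ q.1 ∧ p' ∈ q.2.2.1 ∧ (∀ t ∈ q.1, t ≤ p) ∧ (∀ t ∈ q.2.2.1, t ≤ p') ∧
    p ≠ p' ∧ Nrm M p ∧ Nrm M p'

/-- data for a pair `(p, D)` with a chain for `D` -/
structure PD (M r : ℕ) (x : ℝ) (a : ℕ × ℕ) : Prop where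
  nrm : Nrm M a.1
  dd : ∃ J P : ℕ, J ≤ M + r ∧ Ch M J P a.2 ∧ P < a.1
  om : Om ((a.1 - 1) * a.2) ≤ M ^ 26
  nosq : NoSq M ((a.1 - 1) * a.2)
  gg : GG M ((a.1 - 1) * a.2) ≤ -(M : ℝ) ^ 18
  le : (((a.1 - 1) * a.2 : ℕ) : ℝ) ≤ x

/-- statement of `cl_disj` -/
def ClDisj : Prop :=
  ∀ᶠ M : ℕ in atTop, ∀ (z g : ℝ) (Q : Finset (Finset ℕ × ℕ × Finset ℕ × ℕ)),
    (M : ℝ) ^ 16 - M ≤ ll z → ll z ≤ 5 * (M : ℝ) ^ 20 →
    (∀ q ∈ Q, Disjoint q.1 q.2.2.1 ∧ ∃ u : ℕ, Rep M q.1 q.2.1 u ∧ Rep M q.2.2.1 q.2.2.2 u ∧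
      (u : ℝ) ≤ z ∧ Real.log z ≤ 10 * M * Real.log u ∧ Om u ≤ M ^ 26 ∧ NoSq M u ∧
      GG M u ≤ -g) →
    (Q.card : ℝ) ≤ z / Real.log z * Real.exp (-g + (M : ℝ) ^ 18 / 8)

/-- statement of `cl_count` -/
def ClCount : Prop :=
  ∀ᶠ M : ℕ in atTop, ∀ (x : ℝ) (Q : Finset (Finset ℕ × ℕ × Finset ℕ × ℕ)),
    3 ≤ x → ll x ≤ 5 * (M : ℝ) ^ 20 → (∀ q ∈ Q, ∃ u : ℕ, ColPair M x q u) →
    (Q.card : ℝ) ≤ x / Real.log x * Real.exp (-(M : ℝ) ^ 18 / 2)

/-- statement of `cl_mass` -/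
def ClMass : Prop :=
  ∀ᶠ M : ℕ in atTop, ∀ (x : ℝ) (Q : Finset (Finset ℕ × ℕ × Finset ℕ × ℕ))
    (u : Finset ℕ × ℕ × Finset ℕ × ℕ → ℕ), 3 ≤ x → ll x ≤ 5 * (M : ℝ) ^ 20 →
    (∀ q ∈ Q, ColPair M x q (u q)) →
    ∑ q ∈ Q, 1 / (u q : ℝ) ≤ Real.exp (-(M : ℝ) ^ 18 / 4)

end Vale.Agent.P031
end
end

section

section

/-!
# P031: final step, from an approximation of `V` by sums of prime counting functions to
`V(cx)/V(x) → c`.
-/

namespace Vale.Agent.P031

open Filter Topology Finset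

/-- `π(y+1)` as a real number: the number of primes `p` with `p - 1 ≤ y`. -/
noncomputable def pc1 (y : ℝ) : ℝ := (Nat.primeCounting ⌊y + 1⌋₊ : ℝ)

lemma pc1_nonneg (y : ℝ) : 0 ≤ pc1 y := Nat.cast_nonneg _

/-- `π(y+1) log (y+1) / (y+1) → 1`. -/
lemma pc1_mul_log_tendsto :
    Tendsto (fun y : ℝ => pc1 y * Real.log (y + 1) / (y + 1)) atTop (𝓝 1) := by
  have h := Vale.Agent.PNT.primeCounting_mul_log_div_tendsto
  exact h.comp (tendsto_atTop_add_const_right atTop (1 : ℝ) tendsto_id)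

lemma tendsto_lin_div {c : ℝ} :
    Tendsto (fun y : ℝ => (c * y + 1) / (y + 1)) atTop (𝓝 c) := by
  have h1 : Tendsto (fun y : ℝ => (y + 1)⁻¹) atTop (𝓝 0) :=
    tendsto_inv_atTop_zero.comp (tendsto_atTop_add_const_right atTop (1 : ℝ) tendsto_id)
  have h2 : Tendsto (fun y : ℝ => c + (1 - c) * (y + 1)⁻¹) atTop (𝓝 (c + (1 - c) * 0)) :=
    tendsto_const_nhds.add (tendsto_const_nhds.mul h1)
  rw [mul_zero, add_zero] at h2
  refine h2.congr' ?_
  filter_upwards [eventually_gt_atTop 0] with y hy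
  have : y + 1 ≠ 0 := by positivity
  field_simp
  ring

lemma tendsto_log_div {c : ℝ} (hc : 0 < c) :
    Tendsto (fun y : ℝ => Real.log (y + 1) / Real.log (c * y + 1)) atTop (𝓝 1) := by
  have h1 : Tendsto (fun y : ℝ => Real.log ((c * y + 1) / (y + 1))) atTop (𝓝 (Real.log c)) :=
    (Real.continuousAt_log hc.ne').tendsto.comp tendsto_lin_div
  have h2 : Tendsto (fun y : ℝ => Real.log (c * y + 1)) atTop atTop :=
    Real.tendsto_log_atTop.comp (tendsto_atTop_add_const_right atTop (1 : ℝ)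
      (tendsto_id.const_mul_atTop hc))
  have h3 : Tendsto (fun y : ℝ => 1 - Real.log ((c * y + 1) / (y + 1)) *
      (Real.log (c * y + 1))⁻¹) atTop (𝓝 (1 - Real.log c * 0)) :=
    tendsto_const_nhds.sub (h1.mul (tendsto_inv_atTop_zero.comp h2))
  rw [mul_zero, sub_zero] at h3
  refine h3.congr' ?_
  filter_upwards [eventually_gt_atTop 0, h2.eventually_gt_atTop 0] with y hy hl
  have h4 : y + 1 ≠ 0 := by positivity
  have h5 : c * y + 1 ≠ 0 := by positivity
  rw [Real.log_div h5 h4]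
  field_simp
  ring

/-- consequence of the prime number theorem: `π(cy+1)/π(y+1) → c`. -/
lemma pc1_ratio_tendsto {c : ℝ} (hc : 0 < c) :
    Tendsto (fun y : ℝ => pc1 (c * y) / pc1 y) atTop (𝓝 c) := by
  have h1 := pc1_mul_log_tendsto
  have h2 : Tendsto (fun y : ℝ => pc1 (c * y) * Real.log (c * y + 1) / (c * y + 1)) atTop (𝓝 1) :=
    h1.comp (tendsto_id.const_mul_atTop hc)
  have h3 := ((h2.div h1 one_ne_zero).mul (tendsto_lin_div (c := c))).mul (tendsto_log_div hc)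
  rw [div_one, one_mul, mul_one] at h3
  refine h3.congr' ?_
  filter_upwards [eventually_gt_atTop 0,
    (Real.tendsto_log_atTop.comp (tendsto_atTop_add_const_right atTop (1 : ℝ)
      (tendsto_id.const_mul_atTop hc))).eventually_gt_atTop 0,
    (Real.tendsto_log_atTop.comp (tendsto_atTop_add_const_right atTop (1 : ℝ)
      tendsto_id)).eventually_gt_atTop 0] with y hy hl1 hl2
  simp only [Function.comp_apply, id_eq] at hl1 hl2
  have h4 : y + 1 ≠ 0 := by positivity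
  have h5 : c * y + 1 ≠ 0 := by positivity
  simp only [Pi.div_apply]
  by_cases h6 : pc1 y = 0
  · simp [h6]
  · field_simp

lemma pc1_near {c : ℝ} (hc : 0 < c) {ε : ℝ} (hε : 0 < ε) :
    ∃ K : ℝ, 1 ≤ K ∧ ∀ y : ℝ, K ≤ y → |pc1 (c * y) - c * pc1 y| ≤ ε * pc1 y := by
  have h := (pc1_ratio_tendsto hc)
  rw [Metric.tendsto_atTop] at h
  obtain ⟨K, hK⟩ := h ε hε
  refine ⟨max K 1, le_max_right _ _, fun y hy => ?_⟩
  have hy1 : 1 ≤ y := le_trans (le_max_right _ _) hy
  have h1 := hK y (le_trans (le_max_left _ _) hy)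
  rw [Real.dist_eq] at h1
  have h2 : 0 < pc1 y := by
    unfold pc1
    have h3 : 2 ≤ ⌊y + 1⌋₊ := Nat.le_floor (by push_cast; linarith)
    have h4 : Nat.primeCounting 2 ≤ Nat.primeCounting ⌊y + 1⌋₊ := Nat.monotone_primeCounting h3
    have h5 : 0 < Nat.primeCounting 2 := by decide
    exact_mod_cast lt_of_lt_of_le h5 h4
  have h3 : pc1 (c * y) / pc1 y - c = (pc1 (c * y) - c * pc1 y) / pc1 y := by
    field_simp
  rw [h3, abs_div, abs_of_pos h2, div_lt_iff₀ h2] at h1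
  exact h1.le

/-- **Assembly.**  If for every `ε > 0` and `K`, for all large `x` there is a finite set `D` of
positive integers `d ≤ x/K` with `|V(x') - ∑_{d ∈ D} π(x'/d+1)| ≤ ε V(x')` for both `x' = x` and
`x' = c x`, then `V(cx)/V(x) → c`. -/
theorem tendsto_ratio_of_approx (V : ℝ → ℝ) {c : ℝ} (hc : 0 < c)
    (hV : ∀ᶠ x in atTop, 0 < V x)
    (h : ∀ ε : ℝ, 0 < ε → ∀ K : ℝ, ∃ x₀ : ℝ, ∀ x : ℝ, x₀ ≤ x → ∃ D : Finset ℕ,
      (∀ d ∈ D, 1 ≤ d ∧ K ≤ x / d) ∧
      |V x - ∑ d ∈ D, pc1 (x / d)| ≤ ε * V x ∧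
      |V (c * x) - ∑ d ∈ D, pc1 (c * x / d)| ≤ ε * V (c * x)) :
    Tendsto (fun x : ℝ => V (c * x) / V x) atTop (𝓝 c) := by
  have key : ∀ ε : ℝ, 0 < ε → ε ≤ 1 / 4 → ∃ x₀ : ℝ, ∀ x : ℝ, x₀ ≤ x →
      |V (c * x) / V x - c| ≤ ε * (8 * c + 8) := by
    intro ε hε hε4
    obtain ⟨K, hK1, hK⟩ := pc1_near hc hε
    obtain ⟨x₀, hx₀⟩ := h ε hε K
    rw [eventually_atTop] at hV
    obtain ⟨x₁, hx₁⟩ := hV
    refine ⟨max x₀ (max x₁ (x₁ / c)), fun x hx => ?_⟩
    have hxa : x₀ ≤ x := le_trans (le_max_left _ _) hx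
    have hxb : x₁ ≤ x := le_trans (le_trans (le_max_left _ _) (le_max_right _ _)) hx
    have hxc : x₁ ≤ c * x := by
      have := le_trans (le_trans (le_max_right _ _) (le_max_right _ _)) hx
      rw [div_le_iff₀ hc] at this
      linarith [mul_comm x c]
    obtain ⟨D, hD, h1, h2⟩ := hx₀ x hxa
    have hVx := hx₁ x hxb
    have hVcx := hx₁ (c * x) hxc
    have h3 : |∑ d ∈ D, pc1 (c * x / d) - c * ∑ d ∈ D, pc1 (x / d)| ≤
        ε * ∑ d ∈ D, pc1 (x / d) := by
      rw [Finset.mul_sum, Finset.mul_sum, ← Finset.sum_sub_distrib]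
      refine (Finset.abs_sum_le_sum_abs _ _).trans (Finset.sum_le_sum fun d hd => ?_)
      have h4 := hK (x / d) (hD d hd).2
      rw [mul_div_assoc]
      exact h4
    set A := ∑ d ∈ D, pc1 (x / d) with hA
    set B := ∑ d ∈ D, pc1 (c * x / d) with hB
    rw [abs_le] at h1 h2 h3
    have hdiv : V (c * x) / V x - c = (V (c * x) - c * V x) / V x := by
      field_simp
    rw [hdiv, abs_div, abs_of_pos hVx, div_le_iff₀ hVx, abs_le]
    have hA0 : 0 ≤ A := Finset.sum_nonneg fun _ _ => pc1_nonneg _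
    -- bounds for A and B in terms of V x
    have hA1 : A ≤ 2 * V x := by (by_contra nlg; linarith only [nlg, mul_nonneg (le_of_lt (sub_pos.2 hVx)) (sub_nonneg.2 hε4), mul_nonneg (mul_self_nonneg (1 : ℝ)) (sub_nonneg.2 h1.1), mul_nonneg (mul_self_nonneg (1 : ℝ)) (le_of_lt (sub_pos.2 (not_le.1 nlg))), hVx])
    have hB1 : B ≤ (c + 1) * (2 * V x) := by
      have : B ≤ (c + ε) * A := by nlinarith only [h3.2]
      nlinarith only [hVx, hε4, h3, hε, hA1, hc]
    have hC1 : V (c * x) ≤ 2 * B := by nlinarith only [hVcx, hε4, h2.2]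
    have hC2 : V (c * x) ≤ 4 * (c + 1) * V x := by nlinarith only [hB1, hC1]
    constructor
    · nlinarith only [hVcx, h2.1, h3.1, mul_pos hε hVcx, mul_le_mul_of_nonneg_left hC2 hε.le, mul_le_mul_of_nonneg_left hA1 hε.le, mul_le_mul_of_nonneg_left h1.2 hc.le]
    · linarith only [mul_pos hc (mul_pos hε hVx), mul_le_mul_of_nonneg_left h1.1 hc.le, mul_le_mul_of_nonneg_left hA1 hε.le, mul_le_mul_of_nonneg_left hC2 hε.le, mul_pos hε hVcx, h3.2, h2.2]
  rw [Metric.tendsto_atTop]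
  intro δ hδ
  have hpos : 0 < 8 * c + 8 := by positivity
  set ε := min (1 / 4) (δ / (2 * (8 * c + 8))) with hεdef
  have hε : 0 < ε := lt_min (by norm_num) (by positivity)
  obtain ⟨x₀, hx₀⟩ := key ε hε (min_le_left _ _)
  refine ⟨x₀, fun x hx => ?_⟩
  rw [Real.dist_eq]
  refine lt_of_le_of_lt (hx₀ x hx) ?_
  have : ε ≤ δ / (2 * (8 * c + 8)) := min_le_right _ _
  calc ε * (8 * c + 8) ≤ δ / (2 * (8 * c + 8)) * (8 * c + 8) := by gcongr
    _ = δ / 2 := by field_simp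
    _ < δ := by linarith only [hδ]

end Vale.Agent.P031
end
end

section

section

/-!
# P031: final assembly

The theorem `main_of` derives `V(cx)/V(x) → c` from the recursion (`up`, `low`), the lower bounds
(`v_low`, `v_low_sharp`), the growth bound, the bound for the boundary layer and the bound for the
totients that are not good.
-/

namespace Vale.Agent.P031

open Finset Filter Topology

/-- statement of `up` -/
def UpP : Prop := ∀ J₀ : ℕ, ∃ C : ℝ, 0 < C ∧ ∀ᶠ M : ℕ in atTop, ∀ (r j q : ℕ) (T : ℝ), r ≤ J₀ →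
    1 ≤ j → j ≤ J₀ → q ≤ J₀ → (M : ℝ) ^ 19 ≤ T → T ≤ 9 / 2 * (M : ℝ) ^ 20 →
    FF M r j q T ≤ C * FF M r (j + 1) (q + 1) (T + C * (M : ℝ) ^ 18)

/-- statement of `low` -/
def LowP : Prop := ∀ J₀ : ℕ, ∃ C : ℝ, 0 < C ∧ ∀ᶠ M : ℕ in atTop, ∀ (r j q : ℕ) (T : ℝ), r ≤ J₀ →
    1 ≤ j → j ≤ J₀ → q ≤ J₀ → (M : ℝ) ^ 19 ≤ T → T ≤ 9 / 2 * (M : ℝ) ^ 20 →
    FF M r (j + 1) (q + 1) (T - C * (M : ℝ) ^ 18) ≤ C * FF M (r + 1) j q T

/-- statement of `v_low` -/
def VLowP : Prop := ∀ J₀ : ℕ, ∃ C : ℝ, 0 < C ∧ ∀ᶠ M : ℕ in atTop, ∀ (r : ℕ) (x : ℝ), r ≤ J₀ →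
    3 ≤ x → (M : ℝ) ^ 19 ≤ ll x → ll x ≤ 9 / 2 * (M : ℝ) ^ 20 →
    x / Real.log x * FF M r 1 0 (ll x - C * (M : ℝ) ^ 18) ≤ C * V x

/-- statement of `v_low_sharp` -/
def VLowSharpP : Prop := ∃ C : ℝ, 0 < C ∧ ∀ ε : ℝ, 0 < ε → ∀ᶠ M : ℕ in atTop, ∀ (x T : ℝ), 3 ≤ x →
    |ll x - (M : ℝ) ^ 15 - T| ≤ 1 → 1 / 2 * (M : ℝ) ^ 20 ≤ T → T ≤ 3 * (M : ℝ) ^ 20 →
    (1 - ε) * ∑ D ∈ DF M 0 1 (T - C * (M : ℝ) ^ 18), (Nat.primeCounting (⌊x / (D : ℝ)⌋₊ + 1) : ℝ)
      ≤ V x

/-- statement of `v_growth` -/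
def VGrowthP : Prop := ∀ᶠ M : ℕ in atTop, ∀ (x T : ℝ), 3 ≤ x →
    1 / 2 * (M : ℝ) ^ 20 ≤ T → T ≤ 21 / 10 * (M : ℝ) ^ 20 → T ≤ ll x → ll x ≤ 21 / 10 * T →
    (V x : ℝ) ≤ x / Real.log x * (M : ℝ) ^ 61 * FF M 0 1 0 (9 / 10 * T)

/-- statement of `v_bad` -/
def VBadP : Prop := ∃ C : ℝ, 0 < C ∧ ∀ᶠ M : ℕ in atTop, ∀ (E x T : ℝ) (s : Finset ℕ), 3 ≤ x →
    (M : ℝ) ^ 18 ≤ E → E ≤ (M : ℝ) ^ 19 →
    |ll x - (M : ℝ) ^ 15 - T| ≤ 1 → 1 / 2 * (M : ℝ) ^ 20 ≤ T → T ≤ 3 * (M : ℝ) ^ 20 →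
    (∀ v ∈ s, (v : ℝ) ≤ x ∧ v ∈ DD M 0 ∧ ∀ p D : ℕ, v = (p - 1) * D → p.Prime →
      D ∈ DD M 0 → D ∉ DF M 0 1 (T - E)) →
    (s.card : ℝ) ≤ x / Real.log x * (C * E * FF M 0 2 0 (T + C * E) + Real.exp (-(M : ℝ)))

/-- statement of `th` -/
def ThP : Prop := ∀ᶠ M : ℕ in atTop, ∀ (z : ℝ) (s : Finset ℕ), 3 ≤ z → (M : ℝ) ^ 16 ≤ ll z →
    ll z ≤ 5 * (M : ℝ) ^ 20 → (∀ v ∈ s, IsTot v ∧ (v : ℝ) ≤ z ∧ v ∉ DD M 0) →
    (s.card : ℝ) ≤ z / Real.log z * Real.exp (-(M : ℝ) ^ 2)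

namespace KA

/-! basic facts on `DF`, `FF` -/

lemma mem_DF_cost {M r j : ℕ} {T : ℝ} {D : ℕ} (hD : D ∈ DF M r j T) : Cost M j D ≤ T :=
  (mem_DF.1 hD).2.2

lemma mem_DF_pos {M r j : ℕ} {T : ℝ} {D : ℕ} (hD : D ∈ DF M r j T) : 1 ≤ D :=
  (mem_DF.1 hD).1.1

lemma mem_DF_DD {M r j : ℕ} {T : ℝ} {D : ℕ} (hD : D ∈ DF M r j T) : D ∈ DD M r :=
  (mem_DF.1 hD).2.1

/-- eventually `a * M^i ≤ b * M^(i+1)` -/
lemma ev_pow_le (a b : ℝ) (hb : 0 < b) (i : ℕ) :
    ∀ᶠ M : ℕ in atTop, a * (M : ℝ) ^ i ≤ b * (M : ℝ) ^ (i + 1) := by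
  filter_upwards [(tendsto_natCast_atTop_atTop (R := ℝ)).eventually_ge_atTop (a / b),
    eventually_ge_atTop 1] with M hM h1
  have h0 : (0 : ℝ) < (M : ℝ) ^ i := by positivity
  rw [div_le_iff₀ hb] at hM
  rw [pow_succ]
  linarith only [mul_nonneg (le_of_lt (sub_pos.2 h0)) (sub_nonneg.2 hM)]

lemma up_iter (hU : UpP) (n : ℕ) : ∀ a : ℝ, a < 9 / 2 → ∃ C : ℝ, 0 < C ∧ ∀ᶠ M : ℕ in atTop, ∀ T : ℝ,
    (M : ℝ) ^ 19 ≤ T → T ≤ a * (M : ℝ) ^ 20 →
    FF M 0 2 0 T ≤ C * FF M 0 (n + 2) n (T + C * (M : ℝ) ^ 18) := by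
  induction n with
  | zero =>
    intro a ha
    refine ⟨1, one_pos, Filter.Eventually.of_forall fun M T _ _ => ?_⟩
    rw [one_mul, one_mul]
    refine FF_mono ?_
    have : (0 : ℝ) ≤ (M : ℝ) ^ 18 := by positivity
    linarith
  | succ n ih =>
    intro a ha
    obtain ⟨C, hC, h1⟩ := ih a ha
    obtain ⟨C', hC', h2⟩ := hU (n + 2)
    refine ⟨C * C' + C + C', by positivity, ?_⟩
    filter_upwards [h1, h2, ev_pow_le C ((9 / 2 - a)) (by linarith only [ha]) 19,
      ev_pow_le 1 1 one_pos 18, eventually_ge_atTop 1] with M h1 h2 h3 h4 hM T hT1 hT2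
    have hM1 : (1 : ℝ) ≤ M := by exact_mod_cast hM
    have h18 : (0 : ℝ) ≤ (M : ℝ) ^ 18 := by positivity
    have h1819 : (M : ℝ) ^ 18 ≤ (M : ℝ) ^ 19 := pow_le_pow_right₀ hM1 (by norm_num)
    have h5 := h1 T hT1 hT2
    have h6 := h2 0 (n + 2) n (T + C * (M : ℝ) ^ 18) (Nat.zero_le _) (by omega) le_rfl (by omega)
      (by linarith only [mul_nonneg (sub_nonneg.2 h18) (le_of_lt (sub_pos.2 hC)), hT1]) (by nlinarith only [h1819, hT2, hC, h3])
    calc FF M 0 2 0 T ≤ C * FF M 0 (n + 2) n (T + C * (M : ℝ) ^ 18) := h5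
      _ ≤ C * (C' * FF M 0 (n + 2 + 1) (n + 1) (T + C * (M : ℝ) ^ 18 + C' * (M : ℝ) ^ 18)) := by
          gcongr
      _ ≤ (C * C' + C + C') * FF M 0 (n + 2 + 1) (n + 1)
            (T + C * (M : ℝ) ^ 18 + C' * (M : ℝ) ^ 18) := by
          have := FF_nonneg M 0 (n + 2 + 1) (n + 1) (T + C * (M : ℝ) ^ 18 + C' * (M : ℝ) ^ 18)
          linarith only [mul_nonneg (sub_nonneg.2 this) (le_of_lt (sub_pos.2 hC)), mul_nonneg (le_of_lt (sub_pos.2 hC')) (sub_nonneg.2 this)]
      _ ≤ (C * C' + C + C') * FF M 0 (n + 1 + 2) (n + 1)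
            (T + (C * C' + C + C') * (M : ℝ) ^ 18) := by
          rw [show n + 1 + 2 = n + 2 + 1 by ring]
          refine mul_le_mul_of_nonneg_left (FF_mono ?_) (by positivity)
          nlinarith only [mul_nonneg (mul_nonneg hC.le hC'.le) h18]

lemma low_iter (hL : LowP) (n : ℕ) : ∀ (r : ℕ) (a : ℝ), a < 9 / 2 → ∃ C : ℝ, 0 < C ∧ ∀ᶠ M : ℕ in atTop,
    ∀ T : ℝ, (M : ℝ) ^ 19 ≤ T → T ≤ a * (M : ℝ) ^ 20 →
    FF M r (n + 1) n T ≤ C * FF M (r + n) 1 0 (T + C * (M : ℝ) ^ 18) := by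
  induction n with
  | zero =>
    intro r a ha
    refine ⟨1, one_pos, Filter.Eventually.of_forall fun M T _ _ => ?_⟩
    rw [one_mul, one_mul]
    refine FF_mono ?_
    have : (0 : ℝ) ≤ (M : ℝ) ^ 18 := by positivity
    linarith
  | succ n ih =>
    intro r a ha
    obtain ⟨C, hC, h1⟩ := ih (r + 1) ((a + 9 / 2) / 2) (by linarith only [ha])
    obtain ⟨C', hC', h2⟩ := hL (r + n + 1)
    refine ⟨C * C' + C + C', by positivity, ?_⟩
    filter_upwards [h1, h2, ev_pow_le C' ((9 / 2 - a) / 2) (by linarith only [ha]) 19,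
      ev_pow_le 1 1 one_pos 18, eventually_ge_atTop 1] with M h1 h2 h3 h4 hM T hT1 hT2
    have hM1 : (1 : ℝ) ≤ M := by exact_mod_cast hM
    have h18 : (0 : ℝ) ≤ (M : ℝ) ^ 18 := by positivity
    have h1819 : (M : ℝ) ^ 18 ≤ (M : ℝ) ^ 19 := pow_le_pow_right₀ hM1 (by norm_num)
    have h6 := h2 r (n + 1) n (T + C' * (M : ℝ) ^ 18) (by omega) (by omega) (by omega) (by omega)
      (by nlinarith only [hT1, h18, hC']) (by linarith only [mul_nonneg (sub_nonneg.2 h1819) (le_of_lt (sub_pos.2 hC')), mul_nonneg (sub_nonneg.2 h18) (le_of_lt (sub_pos.2 hC')), hT2, h3])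
    have h5 := h1 (T + C' * (M : ℝ) ^ 18) (by nlinarith only [hT1, h18, hC']) (by nlinarith only [h1819, hC', h3, hT2])
    rw [show T + C' * (M : ℝ) ^ 18 - C' * (M : ℝ) ^ 18 = T by ring] at h6
    calc FF M r (n + 1 + 1) (n + 1) T ≤ C' * FF M (r + 1) (n + 1) n (T + C' * (M : ℝ) ^ 18) := h6
      _ ≤ C' * (C * FF M (r + 1 + n) 1 0 (T + C' * (M : ℝ) ^ 18 + C * (M : ℝ) ^ 18)) := by
          gcongr
      _ ≤ (C * C' + C + C') * FF M (r + 1 + n) 1 0
            (T + C' * (M : ℝ) ^ 18 + C * (M : ℝ) ^ 18) := by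
          have := FF_nonneg M (r + 1 + n) 1 0 (T + C' * (M : ℝ) ^ 18 + C * (M : ℝ) ^ 18)
          linarith only [mul_nonneg (sub_nonneg.2 this) (le_of_lt (sub_pos.2 hC')), mul_nonneg (le_of_lt (sub_pos.2 hC)) (sub_nonneg.2 this)]
      _ ≤ (C * C' + C + C') * FF M (r + (n + 1)) 1 0
            (T + (C * C' + C + C') * (M : ℝ) ^ 18) := by
          rw [show r + (n + 1) = r + 1 + n by ring]
          refine mul_le_mul_of_nonneg_left (FF_mono ?_) (by positivity)
          nlinarith only [mul_nonneg (mul_nonneg hC.le hC'.le) h18]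

/-- splitting according to the size of the slack -/
lemma FF_split (M n : ℕ) (T a b : ℝ) (hM : 1 ≤ (M : ℝ)) (ha : 0 ≤ a) (hb : 0 ≤ b)
    (hab : 2 * (a + b) * (M : ℝ) ^ 18 ≤ (M : ℝ) ^ 19) (hT : 4 * (M : ℝ) ^ 19 ≤ T) :
    FF M 0 (n + 2) n (T + a * (M : ℝ) ^ 18) ≤
      2 ^ (n + 1) / (M : ℝ) ^ 19 * FF M 0 (n + 2) (n + 1) (T - b * (M : ℝ) ^ 18) +
      (2 * (M : ℝ) ^ 19) ^ n * (2 / T) ^ (n + 1) * FF M 0 (n + 2) (n + 1) (2 * T) := by
  classical
  set m18 : ℝ := (M : ℝ) ^ 18 with hm18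
  set h : ℝ := (M : ℝ) ^ 19 with hh
  have h18 : 1 ≤ m18 := one_le_pow₀ hM
  have hh0 : 0 < h := by positivity
  have hT0 : 0 < T := by linarith
  have ham : 0 ≤ a * m18 := by positivity
  have hbm : 0 ≤ b * m18 := by positivity
  unfold FF
  set τ : ℝ := T + a * m18 with hτ
  set τ₂ : ℝ := T - b * m18 with hτ₂
  have hsplit : DF M 0 (n + 2) τ = (DF M 0 (n + 2) τ).filter (fun D => Cost M (n + 2) D ≤ T - h) ∪
      (DF M 0 (n + 2) τ).filter (fun D => ¬ Cost M (n + 2) D ≤ T - h) := by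
    rw [Finset.filter_union_filter_not_eq]
  rw [hsplit, Finset.sum_union (Finset.disjoint_filter_filter_not _ _ _)]
  refine add_le_add ?_ ?_
  · rw [Finset.mul_sum]
    refine (Finset.sum_le_sum (g := fun D => 2 ^ (n + 1) / h *
      ((τ₂ - Cost M (n + 2) D) ^ (n + 1) / (D : ℝ))) fun D hD => ?_).trans
      (Finset.sum_le_sum_of_subset_of_nonneg ?_ fun D hD _ => ?_)
    · simp only [Finset.mem_filter] at hD
      obtain ⟨hD, hc⟩ := hD
      have hD1 : (0 : ℝ) < D := by exact_mod_cast mem_DF_pos hD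
      set u := τ - Cost M (n + 2) D with hu
      have hu1 : h ≤ u := by rw [hu, hτ]; linarith
      have hu2 : u ≤ 2 * (τ₂ - Cost M (n + 2) D) := by
        have : τ₂ - Cost M (n + 2) D = u - (a + b) * m18 := by rw [hu, hτ, hτ₂]; ring
        rw [this]; nlinarith only [hab, hc, ham]
      have hu0 : 0 < u := by linarith
      have h1 : u ^ n * h ≤ 2 ^ (n + 1) * (τ₂ - Cost M (n + 2) D) ^ (n + 1) := by
        calc u ^ n * h ≤ u ^ n * u := by gcongr
          _ = u ^ (n + 1) := by rw [pow_succ]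
          _ ≤ (2 * (τ₂ - Cost M (n + 2) D)) ^ (n + 1) := by gcongr
          _ = _ := by rw [mul_pow]
      rw [← mul_div_assoc, div_mul_eq_mul_div, div_div, le_div_iff₀ (by positivity),
        div_mul_eq_mul_div, div_le_iff₀ hD1]
      calc u ^ n * (h * (D : ℝ)) = u ^ n * h * D := by ring
        _ ≤ 2 ^ (n + 1) * (τ₂ - Cost M (n + 2) D) ^ (n + 1) * D := by gcongr
    · intro D hD
      simp only [Finset.mem_filter] at hD
      have h1 := hD.1
      simp only [DF, Finset.mem_filter] at h1 ⊢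
      refine ⟨h1.1, h1.2.1, hD.2.trans ?_⟩
      rw [hτ₂]
      linarith only [hh0, ham, hab]
    · have := mem_DF_cost hD
      have h2 : (0 : ℝ) ≤ (τ₂ - Cost M (n + 2) D) ^ (n + 1) := pow_nonneg (by linarith) _
      positivity
  · rw [Finset.mul_sum]
    refine (Finset.sum_le_sum (g := fun D => (2 * h) ^ n * (2 / T) ^ (n + 1) *
      ((2 * T - Cost M (n + 2) D) ^ (n + 1) / (D : ℝ))) fun D hD => ?_).trans
      (Finset.sum_le_sum_of_subset_of_nonneg ?_ fun D hD _ => ?_)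
    · simp only [Finset.mem_filter] at hD
      obtain ⟨hD, hc⟩ := hD
      have hD1 : (0 : ℝ) < D := by exact_mod_cast mem_DF_pos hD
      have hcost := mem_DF_cost hD
      set u := τ - Cost M (n + 2) D with hu
      have hu1 : u ≤ 2 * h := by rw [hu, hτ]; push Not at hc; linarith only [hc, hh0, hbm, hab]
      have hu0 : 0 ≤ u := by linarith
      have h2 : 1 ≤ (2 / T) * (2 * T - Cost M (n + 2) D) := by
        rw [div_mul_eq_mul_div, le_div_iff₀ hT0]
        have : Cost M (n + 2) D ≤ T + a * m18 := hcost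
        linarith only [hT, hh0, hcost, hbm, hab]
      have h3 : u ^ n ≤ (2 * h) ^ n * (2 / T) ^ (n + 1) * (2 * T - Cost M (n + 2) D) ^ (n + 1) := by
        calc u ^ n ≤ (2 * h) ^ n * 1 := by rw [mul_one]; gcongr
          _ ≤ (2 * h) ^ n * ((2 / T) * (2 * T - Cost M (n + 2) D)) ^ (n + 1) := by
              gcongr; exact one_le_pow₀ h2
          _ = _ := by rw [mul_pow (2 / T), mul_assoc]
      rw [← mul_div_assoc]
      gcongr
    · intro D hD
      simp only [Finset.mem_filter] at hD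
      have h1 := hD.1
      simp only [DF, Finset.mem_filter] at h1 ⊢
      refine ⟨h1.1, h1.2.1, h1.2.2.trans ?_⟩
      rw [hτ]
      linarith only [hT, hh0, hbm, hab]
    · have := mem_DF_cost hD
      have h2 : (0 : ℝ) ≤ (2 * T - Cost M (n + 2) D) ^ (n + 1) := pow_nonneg (by linarith) _
      positivity

/-- numerical part of the regularity lemma -/
lemma reg_num (M : ℕ) (C₁ Cu Cl Cv F100 F0 X Vx A B G T : ℝ) (hM1 : (1 : ℝ) ≤ M)
    (hC₁ : 0 < C₁) (hCu : 0 < Cu) (hCl : 0 < Cl) (hCv : 0 < Cv) (hX : 0 < X)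
    (hT : 1 / 2 * (M : ℝ) ^ 20 ≤ T)
    (hA : A ≤ Cl * F100) (hB : B ≤ Cl * (Cv * ((M : ℝ) ^ 61 * F0)))
    (hF0 : 0 ≤ F0)
    (hG : G ≤ Cu * (2 ^ 100 / (M : ℝ) ^ 19 * A + (2 * (M : ℝ) ^ 19) ^ 99 * (2 / T) ^ 100 * B))
    (h1 : X * F100 ≤ Cv * Vx) (h0 : X * F0 ≤ Cv * Vx) :
    X * (C₁ * (M : ℝ) ^ 18 * G) ≤
      C₁ * Cu * Cl * Cv * (2 ^ 100 + 2 ^ 99 * 4 ^ 100 * Cv) / M * Vx := by
  have hM0 : (0 : ℝ) < M := by linarith only [hM1]
  have hT0 : 0 < T := by
    have : (0 : ℝ) < (M : ℝ) ^ 20 := by positivity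
    linarith only [this, hT]
  have hnum : (2 * (M : ℝ) ^ 19) ^ 99 * (2 / T) ^ 100 ≤ 2 ^ 99 * 4 ^ 100 / (M : ℝ) ^ 119 := by
    have h1 : 2 / T ≤ 4 / (M : ℝ) ^ 20 := by
      rw [div_le_div_iff₀ hT0 (by positivity)]; linarith only [hT]
    calc (2 * (M : ℝ) ^ 19) ^ 99 * (2 / T) ^ 100
        ≤ (2 * (M : ℝ) ^ 19) ^ 99 * (4 / (M : ℝ) ^ 20) ^ 100 := by gcongr
      _ = 2 ^ 99 * 4 ^ 100 / (M : ℝ) ^ 119 := by
          rw [mul_pow, div_pow, ← pow_mul, ← pow_mul, mul_div_assoc', div_eq_div_iff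
            (by positivity) (by positivity), show (20 * 100 : ℕ) = 19 * 99 + 119 by norm_num,
            pow_add (M : ℝ) (19 * 99) 119]
          generalize (M : ℝ) ^ (19 * 99) = u
          generalize (M : ℝ) ^ 119 = v
          generalize (2 : ℝ) ^ 99 = w
          generalize (4 : ℝ) ^ 100 = z
          ring
  obtain ⟨P, hP⟩ : ∃ P : ℝ, P = (2 * (M : ℝ) ^ 19) ^ 99 * (2 / T) ^ 100 := ⟨_, rfl⟩
  obtain ⟨W, hW⟩ : ∃ W : ℝ, W = 2 ^ 99 * 4 ^ 100 := ⟨_, rfl⟩
  obtain ⟨Z, hZ⟩ : ∃ Z : ℝ, Z = 2 ^ 100 := ⟨_, rfl⟩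
  have hP0 : 0 ≤ P := by rw [hP]; positivity
  have hW0 : 0 ≤ W := by rw [hW]; positivity
  have hZ0 : 0 ≤ Z := by rw [hZ]; positivity
  rw [← hP, ← hW] at hnum
  rw [← hP, ← hZ] at hG
  rw [← hW, ← hZ]
  clear hP hW hZ
  have hV0 : 0 ≤ Vx := by
    have h3 : 0 ≤ X * F0 := by positivity
    have h4 : 0 ≤ Cv * Vx := h3.trans h0
    exact nonneg_of_mul_nonneg_right h4 hCv
  have hPM : P * (M : ℝ) ^ 61 ≤ W / (M : ℝ) ^ 19 := by
    have h2 : (M : ℝ) ^ 119 = (M : ℝ) ^ 61 * (M : ℝ) ^ 58 := by rw [← pow_add]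
    have h3 : (M : ℝ) ^ 19 ≤ (M : ℝ) ^ 58 := pow_le_pow_right₀ hM1 (by norm_num)
    calc P * (M : ℝ) ^ 61 ≤ W / (M : ℝ) ^ 119 * (M : ℝ) ^ 61 := by gcongr
      _ = W / (M : ℝ) ^ 58 := by
          rw [h2, div_mul_eq_mul_div, mul_comm W, mul_div_mul_left _ _ (by positivity)]
      _ ≤ W / (M : ℝ) ^ 19 := by gcongr
  have e1 : X * A ≤ Cl * (Cv * Vx) := by
    calc X * A ≤ X * (Cl * F100) := by gcongr
      _ = Cl * (X * F100) := by ring
      _ ≤ Cl * (Cv * Vx) := by gcongr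
  have e2 : X * (P * B) ≤ W / (M : ℝ) ^ 19 * (Cl * (Cv * (Cv * Vx))) := by
    calc X * (P * B) ≤ X * (P * (Cl * (Cv * ((M : ℝ) ^ 61 * F0)))) := by gcongr
      _ = P * (M : ℝ) ^ 61 * (Cl * (Cv * (X * F0))) := by ring
      _ ≤ W / (M : ℝ) ^ 19 * (Cl * (Cv * (Cv * Vx))) := by gcongr
  calc X * (C₁ * (M : ℝ) ^ 18 * G)
      ≤ X * (C₁ * (M : ℝ) ^ 18 * (Cu * (Z / (M : ℝ) ^ 19 * A + P * B))) := by gcongr
    _ = C₁ * (M : ℝ) ^ 18 * Cu * (Z / (M : ℝ) ^ 19 * (X * A) + X * (P * B)) := by ring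
    _ ≤ C₁ * (M : ℝ) ^ 18 * Cu * (Z / (M : ℝ) ^ 19 * (Cl * (Cv * Vx)) +
          W / (M : ℝ) ^ 19 * (Cl * (Cv * (Cv * Vx)))) := by gcongr
    _ = C₁ * Cu * Cl * Cv * (Z + W * Cv) / M * Vx := by
        have h3 : (M : ℝ) ^ 19 = (M : ℝ) ^ 18 * M := pow_succ _ _
        rw [h3]
        have h4 : (M : ℝ) ^ 18 ≠ 0 := by positivity
        generalize (M : ℝ) ^ 18 = m at h4
        field_simp

/-- regularity: the boundary layer is negligible -/
lemma reg (hU : UpP) (hL : LowP) (hV : VLowP) (hG : VGrowthP) (C₁ ε : ℝ) (hC₁ : 0 < C₁) (hε : 0 < ε) : ∀ᶠ M : ℕ in atTop, ∀ (x T : ℝ), 3 ≤ x →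
    |ll x - (M : ℝ) ^ 15 - T| ≤ 1 → 1 / 2 * (M : ℝ) ^ 20 ≤ T → T ≤ 41 / 20 * (M : ℝ) ^ 20 →
    x / Real.log x * (C₁ * (M : ℝ) ^ 18 * FF M 0 2 0 (T + C₁ * (M : ℝ) ^ 18)) ≤ ε * V x := by
  obtain ⟨Cu, hCu, hup⟩ := up_iter hU 99 (21 / 5) (by norm_num)
  obtain ⟨Cl, hCl, hlow⟩ := low_iter hL 100 0 (21 / 5) (by norm_num)
  obtain ⟨Cv, hCv, hv⟩ := hV 100
  have hK : ∃ K : ℝ, K = C₁ * Cu * Cl * Cv * (2 ^ 100 + 2 ^ 99 * 4 ^ 100 * Cv) := ⟨_, rfl⟩
  obtain ⟨K, hK⟩ := hK
  filter_upwards [hup, hlow, hv, hG, ev_pow_le C₁ (1 / 100) (by norm_num) 18,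
    ev_pow_le Cu (1 / 100) (by norm_num) 18, ev_pow_le Cl (1 / 100) (by norm_num) 18,
    ev_pow_le Cv (1 / 100) (by norm_num) 18, ev_pow_le 1 (1 / 100) (by norm_num) 18,
    ev_pow_le 1 (1 / 100) (by norm_num) 19, ev_pow_le 1 1 one_pos 17,
    ev_pow_le K ε hε 0, eventually_ge_atTop 1] with
      M hup hlow hv hgr e1 e2 e3 e4 e5 e6 e7 e8 hM x T hx hxT hT1 hT2
  have hM1 : (1 : ℝ) ≤ M := by exact_mod_cast hM
  have hM0 : (0 : ℝ) < M := by linarith only [hM1]
  simp only [pow_zero, zero_add, pow_one, mul_one] at e8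
  have h15 : 1 ≤ (M : ℝ) ^ 15 := one_le_pow₀ hM1
  have h1518 : (M : ℝ) ^ 15 ≤ (M : ℝ) ^ 18 := pow_le_pow_right₀ hM1 (by norm_num)
  norm_num at e1 e2 e3 e4 e5 e6
  obtain ⟨hxT1, hxT2⟩ := abs_le.1 hxT
  have hlogx : 0 < Real.log x := Real.log_pos (by linarith only [hx])
  have hxl : 0 < x / Real.log x := div_pos (by linarith only [hx]) hlogx
  have h18 : 1 ≤ (M : ℝ) ^ 18 := one_le_pow₀ hM1
  have hab : 2 * (C₁ + Cu + (Cl + Cv + 3)) * (M : ℝ) ^ 18 ≤ (M : ℝ) ^ 19 := by linarith only [e2, e3, e1, h1518, e4, h15, e5]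
  have hT4 : 4 * (M : ℝ) ^ 19 ≤ T := by linarith only [hT1, h1518, e6, h15, e5]
  have s2 := FF_split M 99 T (C₁ + Cu) (Cl + Cv + 3) hM1 (by positivity) (by positivity) hab hT4
  obtain ⟨y, hy⟩ : ∃ y : ℝ, y = Real.exp (Real.exp (2 * T + (Cl + Cv) * (M : ℝ) ^ 18)) := ⟨_, rfl⟩
  have hlly : ll y = 2 * T + (Cl + Cv) * (M : ℝ) ^ 18 := by
    rw [hy, ll, Real.log_exp, Real.log_exp]
  have hexp1 : 2 ≤ Real.exp (2 * T + (Cl + Cv) * (M : ℝ) ^ 18) := by
    have h1 := Real.add_one_le_exp (2 * T + (Cl + Cv) * (M : ℝ) ^ 18)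
    have h2 : 0 ≤ (Cl + Cv) * (M : ℝ) ^ 18 := by positivity
    linarith only [hT1, h1518, h2, h1, e6, h15, e5]
  have hy3 : 3 ≤ y := by
    rw [hy]
    have := Real.add_one_le_exp (Real.exp (2 * T + (Cl + Cv) * (M : ℝ) ^ 18))
    linarith only [hexp1, this]
  have hlogy : 0 < Real.log y := Real.log_pos (by linarith only [hy3])
  have hyl : 0 < y / Real.log y := div_pos (by linarith only [hy3]) hlogy
  have hC1m : 0 < C₁ * (M : ℝ) ^ 18 := mul_pos hC₁ (by linarith only [h1518, h15])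
  have hCum : 0 < Cu * (M : ℝ) ^ 18 := mul_pos hCu (by linarith only [h1518, h15])
  have hClm : 0 < Cl * (M : ℝ) ^ 18 := mul_pos hCl (by linarith only [h1518, h15])
  have hCvm : 0 < Cv * (M : ℝ) ^ 18 := mul_pos hCv (by linarith only [h1518, h15])
  have s1 := hup (T + C₁ * (M : ℝ) ^ 18) (by linarith only [hC1m, hT1, h1518, e6, h15, e5]) (by linarith only [e5, h15, e6, h1518, e1, hT2])
  have s3 := hlow (T - (Cl + Cv + 3) * (M : ℝ) ^ 18) (by linarith only [e3, hT1, h1518, e4, e6, h15, e5]) (by linarith only [hClm, hT2, h1518, hCvm, e6, h15, e5])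
  have s4 := hlow (2 * T) (by linarith only [hT1, h1518, e6, h15, e5]) (by linarith only [hT2, h1518, e6, h15, e5])
  have s5 := hv 100 x le_rfl hx (by linarith only [e5, h15, e6, h1518, hT1, hxT1]) (by linarith only [hxT2, hT2, h1518, e6, h15, e5])
  have s6 := hv 0 x (by norm_num) hx (by linarith only [e5, h15, e6, h1518, hT1, hxT1]) (by linarith only [hxT2, hT2, h1518, e6, h15, e5])
  have s7 := hv 100 y le_rfl hy3 (by rw [hlly]; linarith only [e5, h15, e6, hCvm, h1518, hT1, hClm]) (by rw [hlly]; linarith only [e3, hT2, h1518, e4, e6, h15, e5])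
  rw [hlly] at s7
  have s8 := hgr y T hy3 hT1 (by linarith only [hT2, h1518, e6, h15, e5]) (by rw [hlly]; linarith only [e5, h15, e6, hCvm, h1518, hT1, hClm]) (by rw [hlly]; linarith only [e3, hT1, h1518, e4, e6, h15, e5])
  simp only [zero_add] at s3 s4
  have t1 : FF M 100 1 0 (2 * T + Cl * (M : ℝ) ^ 18) ≤
      Cv * ((M : ℝ) ^ 61 * FF M 0 1 0 (9 / 10 * T)) := by
    have h1 : y / Real.log y * FF M 100 1 0 (2 * T + Cl * (M : ℝ) ^ 18) ≤
        y / Real.log y * (Cv * ((M : ℝ) ^ 61 * FF M 0 1 0 (9 / 10 * T))) := by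
      have h2 : 2 * T + (Cl + Cv) * (M : ℝ) ^ 18 - Cv * (M : ℝ) ^ 18 = 2 * T + Cl * (M : ℝ) ^ 18 := by ring
      rw [h2] at s7
      calc _ ≤ Cv * (V y : ℝ) := s7
        _ ≤ Cv * (y / Real.log y * (M : ℝ) ^ 61 * FF M 0 1 0 (9 / 10 * T)) := by gcongr
        _ = _ := by ring
    exact le_of_mul_le_mul_left h1 hyl
  have t2 : FF M 0 1 0 (9 / 10 * T) ≤ FF M 0 1 0 (ll x - Cv * (M : ℝ) ^ 18) :=
    FF_mono (by linarith only [hxT1, hT1, h1518, e4, e6, h15, e5])
  have t3 : FF M 100 1 0 (T - (Cl + Cv + 3) * (M : ℝ) ^ 18 + Cl * (M : ℝ) ^ 18) ≤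
      FF M 100 1 0 (ll x - Cv * (M : ℝ) ^ 18) := FF_mono (by linarith only [hxT1, h1518, h15])
  have hA : FF M 0 101 100 (T - (Cl + Cv + 3) * (M : ℝ) ^ 18) ≤ Cl * FF M 100 1 0 (ll x - Cv * (M : ℝ) ^ 18) :=
    s3.trans (mul_le_mul_of_nonneg_left t3 hCl.le)
  have hB : FF M 0 101 100 (2 * T) ≤
      Cl * (Cv * ((M : ℝ) ^ 61 * FF M 0 1 0 (ll x - Cv * (M : ℝ) ^ 18))) := by
    refine s4.trans (mul_le_mul_of_nonneg_left (t1.trans ?_) hCl.le)
    gcongr
  have hG : FF M 0 2 0 (T + C₁ * (M : ℝ) ^ 18) ≤ Cu * (2 ^ 100 / (M : ℝ) ^ 19 *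
      FF M 0 101 100 (T - (Cl + Cv + 3) * (M : ℝ) ^ 18) + (2 * (M : ℝ) ^ 19) ^ 99 * (2 / T) ^ 100 *
      FF M 0 101 100 (2 * T)) := by
    refine s1.trans (mul_le_mul_of_nonneg_left ?_ hCu.le)
    rw [show T + C₁ * (M : ℝ) ^ 18 + Cu * (M : ℝ) ^ 18 = T + (C₁ + Cu) * (M : ℝ) ^ 18 by ring]
    exact s2
  have key := reg_num M C₁ Cu Cl Cv (FF M 100 1 0 (ll x - Cv * (M : ℝ) ^ 18))
    (FF M 0 1 0 (ll x - Cv * (M : ℝ) ^ 18)) (x / Real.log x) (V x) _ _ _ T hM1 hC₁ hCu hCl hCv hxl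
    hT1 hA hB (FF_nonneg _ _ _ _ _) hG s5 s6
  rw [← hK] at key
  refine key.trans ?_
  gcongr
  rw [div_le_iff₀ hM0]
  exact e8

lemma YY_one (M : ℕ) : YY M 1 = 0 := by
  have h : gpf 1 = 0 := by simp [gpf]
  unfold YY
  rw [h]
  refine max_eq_left ?_
  have : (0 : ℝ) ≤ (M : ℝ) ^ 15 := by positivity
  simp [ll]

lemma HH_one (M j : ℕ) : HH M j 1 = 0 := by
  unfold HH
  refine Finset.sum_eq_zero fun k _ => ?_
  simp [prof]

lemma one_mem_DF (M r : ℕ) (T : ℝ) (hT : 0 ≤ T) : 1 ∈ DF M r 1 T := by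
  rw [mem_DF]
  refine ⟨⟨le_rfl, ?_⟩, ⟨⟨0, 1, Nat.zero_le _, ?_⟩, ?_⟩, ?_⟩
  · have h2 : 2 ≤ NN M := by
      unfold NN
      refine Nat.le_floor ?_
      have h5 : (0 : ℝ) ≤ 5 * (M : ℝ) ^ 20 := by positivity
      have h1 := Real.add_one_le_exp (5 * (M : ℝ) ^ 20)
      have h2 := Real.add_one_le_exp (Real.exp (5 * (M : ℝ) ^ 20))
      push_cast
      linarith
    omega
  · refine Ch.nil 1 1 ⟨one_ne_zero, fun q hq hb => ?_⟩ (by simp)
    have : q = 1 := Nat.dvd_one.1 hq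
    exact hb.1.ne_one this
  · simp [Om]
  · have h : Cost M 1 1 = max (YY M 1) (HH M 1 1) := rfl
    rw [h, YY_one, HH_one]
    simpa using hT

lemma one_le_FF (M r : ℕ) (T : ℝ) (hT : 0 ≤ T) : 1 ≤ FF M r 1 0 T := by
  unfold FF
  have h := Finset.single_le_sum (f := fun D : ℕ => (T - Cost M 1 D) ^ 0 / (D : ℝ))
    (fun D _ => by positivity) (one_mem_DF M r T hT)
  simpa using h

/-- `V x` as the cardinality of a finset -/
lemma V_eq_card (x : ℝ) (hx : 0 ≤ x) [DecidablePred IsTot] :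
    V x = ((Finset.Icc 1 ⌊x⌋₊).filter IsTot).card := by
  unfold V
  rw [← Set.ncard_coe_finset]
  congr 1
  ext v
  simp only [Set.mem_ofPred_eq, Finset.coe_filter, Finset.mem_Icc]
  constructor
  · rintro ⟨h1, h2⟩
    refine ⟨⟨?_, Nat.le_floor h2⟩, h1⟩
    obtain ⟨n, hn, rfl⟩ := h1
    exact Nat.totient_pos.2 hn
  · rintro ⟨⟨h1, h2⟩, h3⟩
    exact ⟨h3, (Nat.le_floor_iff hx).1 h2⟩

/-- counting totients of the form `(p-1) D` -/
lemma card_repr_le (x : ℝ) (F s : Finset ℕ) (hF : ∀ D ∈ F, 1 ≤ D)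
    (hs : ∀ v ∈ s, (v : ℝ) ≤ x ∧ ∃ p D : ℕ, p.Prime ∧ D ∈ F ∧ v = (p - 1) * D) :
    (s.card : ℝ) ≤ ∑ D ∈ F, pc1 (x / (D : ℝ)) := by
  classical
  have h1 : s ⊆ F.biUnion (fun D => (((Finset.range (⌊x / (D : ℝ) + 1⌋₊ + 1)).filter
      Nat.Prime).image (fun p => (p - 1) * D))) := by
    intro v hv
    obtain ⟨hvx, p, D, hp, hD, rfl⟩ := hs v hv
    simp only [Finset.mem_biUnion, Finset.mem_image, Finset.mem_filter, Finset.mem_range]
    refine ⟨D, hD, p, ⟨?_, hp⟩, rfl⟩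
    have hD1 : (0 : ℝ) < D := by exact_mod_cast hF D hD
    refine Nat.lt_succ_of_le (Nat.le_floor ?_)
    have hp1 : ((p - 1 : ℕ) : ℝ) = p - 1 := by
      rw [Nat.cast_sub hp.one_lt.le]; simp
    rw [Nat.cast_mul, hp1] at hvx
    rw [← sub_le_iff_le_add, le_div_iff₀ hD1]
    exact hvx
  have h2 : s.card ≤ ∑ D ∈ F, Nat.primeCounting ⌊x / (D : ℝ) + 1⌋₊ := by
    refine (Finset.card_le_card h1).trans (Finset.card_biUnion_le.trans ?_)
    refine Finset.sum_le_sum fun D _ => Finset.card_image_le.trans (le_of_eq ?_)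
    rw [Nat.primeCounting, Nat.primeCounting', Nat.count_eq_card_filter_range]
  calc (s.card : ℝ) ≤ ((∑ D ∈ F, Nat.primeCounting ⌊x / (D : ℝ) + 1⌋₊ : ℕ) : ℝ) := by
        exact_mod_cast h2
    _ = ∑ D ∈ F, pc1 (x / (D : ℝ)) := by
        rw [Nat.cast_sum]; rfl

lemma fin_abs (v S δ ε : ℝ) (hδ0 : 0 < δ) (hδ1 : δ ≤ 1 / 2) (hδ2 : δ ≤ ε / 4) (hv : 0 ≤ v)
    (hS : 0 ≤ S) (hlow : (1 - δ) * S ≤ v) (hup : v ≤ S + 2 * δ * v) : |v - S| ≤ ε * v := by
  have h1 : S ≤ 2 * v := by linarith only [mul_nonneg (sub_nonneg.2 hδ1) (sub_nonneg.2 hS), mul_nonneg (mul_self_nonneg (1 : ℝ)) (sub_nonneg.2 hlow)]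
  have h2 : δ * S ≤ δ * (2 * v) := by gcongr
  have h3 : δ * v ≤ ε / 4 * v := by gcongr
  have h4 : 0 ≤ δ * v := by positivity
  rw [abs_le]
  constructor <;> linarith only [h3, hup, h2, hlow]

/-- the asymptotic formula -/
lemma approx (hU : UpP) (hL : LowP) (hV : VLowP) (hVS : VLowSharpP) (hG : VGrowthP)
    (hB : VBadP) (hTh : ThP) : ∃ C₀ : ℝ, 1 ≤ C₀ ∧ ∀ ε : ℝ, 0 < ε → ∀ᶠ M : ℕ in atTop, ∀ (x T : ℝ), 3 ≤ x →
    |ll x - (M : ℝ) ^ 15 - T| ≤ 1 → 1 / 2 * (M : ℝ) ^ 20 ≤ T → T ≤ 41 / 20 * (M : ℝ) ^ 20 →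
    |(V x : ℝ) - ∑ D ∈ DF M 0 1 (T - C₀ * (M : ℝ) ^ 18), pc1 (x / (D : ℝ))| ≤ ε * V x := by
  classical
  obtain ⟨Cs, hCs, hsharp⟩ := hVS
  obtain ⟨Cb, hCb, hbad⟩ := hB
  obtain ⟨Cv, hCv, hv⟩ := hV 0
  refine ⟨max 1 Cs, le_max_left _ _, fun ε hε => ?_⟩
  set C₀ := max 1 Cs with hC₀
  have hC1 : 1 ≤ C₀ := le_max_left _ _
  have hCsC : Cs ≤ C₀ := le_max_right _ _
  have hC0 : 0 < C₀ := by linarith
  have hδ : ∃ δ : ℝ, 0 < δ ∧ δ ≤ 1 / 2 ∧ δ ≤ ε / 4 := ⟨min (1 / 2) (ε / 4), by positivity,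
    min_le_left _ _, min_le_right _ _⟩
  obtain ⟨δ, hδ0, hδ1, hδ2⟩ := hδ
  have hexpM : ∀ᶠ M : ℕ in atTop, Cv * (Real.exp (-(M : ℝ) ^ 2) + Real.exp (-(M : ℝ))) ≤ δ := by
    have h1 : Tendsto (fun M : ℕ => Real.exp (-(M : ℝ))) atTop (𝓝 0) :=
      Real.tendsto_exp_neg_atTop_nhds_zero.comp tendsto_natCast_atTop_atTop
    have h2 : ∀ᶠ M : ℕ in atTop, Real.exp (-(M : ℝ)) < δ / (2 * Cv) :=
      h1.eventually_lt_const (by positivity)
    filter_upwards [h2, eventually_ge_atTop 1] with M h2 hM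
    have hM1 : (1 : ℝ) ≤ M := by exact_mod_cast hM
    have h3 : Real.exp (-(M : ℝ) ^ 2) ≤ Real.exp (-(M : ℝ)) := by
      apply Real.exp_le_exp.2
      (by_contra nlg; linarith only [nlg, mul_pos (sub_pos.2 (not_le.1 nlg)) (sub_pos.2 (not_le.1 nlg)), mul_nonneg (sq_nonneg (↑M : ℝ)) (sub_nonneg.2 hM1), mul_nonneg (sq_nonneg (↑M : ℝ)) (le_of_lt (sub_pos.2 (not_le.1 nlg)))])
    have h4 : Cv * (δ / (2 * Cv)) = δ / 2 := by field_simp
    nlinarith only [hCv, h3, h2, h4]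
  filter_upwards [hsharp δ hδ0, hbad, hv, reg hU hL hV hG (Cb * C₀) δ (by positivity) hδ0, hTh, hexpM,
    ev_pow_le C₀ (1 / 100) (by norm_num) 18, ev_pow_le Cv (1 / 100) (by norm_num) 18,
    ev_pow_le 1 (1 / 100) (by norm_num) 18,
    ev_pow_le 1 (1 / 100) (by norm_num) 19, eventually_ge_atTop 1] with
    M hsharp hbad hv hreg hth hexpM e1 e2 e3 e4 hM x T hx hxT hT1 hT2
  have hM1 : (1 : ℝ) ≤ M := by exact_mod_cast hM
  norm_num at e1 e2 e3 e4
  obtain ⟨hxT1, hxT2⟩ := abs_le.1 hxT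
  have h15 : 1 ≤ (M : ℝ) ^ 15 := one_le_pow₀ hM1
  have h18 : 1 ≤ (M : ℝ) ^ 18 := one_le_pow₀ hM1
  have h1518 : (M : ℝ) ^ 15 ≤ (M : ℝ) ^ 18 := pow_le_pow_right₀ hM1 (by norm_num)
  have h1618 : (M : ℝ) ^ 16 ≤ (M : ℝ) ^ 18 := pow_le_pow_right₀ hM1 (by norm_num)
  have hlogx : 0 < Real.log x := Real.log_pos (by linarith only [hx])
  have hxl : 0 < x / Real.log x := div_pos (by linarith only [hx]) hlogx
  have hV0 : (0 : ℝ) ≤ V x := Nat.cast_nonneg _
  have hCsm : 0 < Cs * (M : ℝ) ^ 18 := by positivity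
  have hCvm : 0 < Cv * (M : ℝ) ^ 18 := by positivity
  have hC0m : (M : ℝ) ^ 18 ≤ C₀ * (M : ℝ) ^ 18 := by linarith only [mul_nonneg (sub_nonneg.2 hC1) (sub_nonneg.2 h18), hC1]
  set S : ℝ := ∑ D ∈ DF M 0 1 (T - C₀ * (M : ℝ) ^ 18), pc1 (x / (D : ℝ)) with hS
  have hS0 : 0 ≤ S := Finset.sum_nonneg fun _ _ => pc1_nonneg _
  -- lower bound
  have hlow : (1 - δ) * S ≤ V x := by
    refine le_trans ?_ (hsharp x T hx hxT hT1 (by linarith only [hT2, e4, e3, h18]))
    refine mul_le_mul_of_nonneg_left ?_ (by linarith only [hδ1])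
    rw [hS]
    refine (Finset.sum_le_sum_of_subset_of_nonneg (DF_mono (M := M) (r := 0) (j := 1)
        (T' := T - Cs * (M : ℝ) ^ 18) ?_)
      fun _ _ _ => pc1_nonneg _).trans (le_of_eq ?_)
    · have : Cs * (M : ℝ) ^ 18 ≤ C₀ * (M : ℝ) ^ 18 := by gcongr
      linarith only [this]
    · refine Finset.sum_congr rfl fun D _ => ?_
      rw [pc1, Nat.floor_add_one (by positivity)]
  -- V x is at least of order x / log x
  have hxV : x / Real.log x ≤ Cv * V x := by
    have h1 := hv 0 x le_rfl hx (by linarith only [e4, e3, hxT1, h18, h15, hT1]) (by linarith only [hxT2, hT2, h1518, e4, e3, h18])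
    have h2 := one_le_FF M 0 (ll x - Cv * (M : ℝ) ^ 18) (by linarith only [e4, e3, e2, hxT1, h18, h15, hT1])
    calc x / Real.log x = x / Real.log x * 1 := by ring
      _ ≤ x / Real.log x * FF M 0 1 0 (ll x - Cv * (M : ℝ) ^ 18) := by gcongr
      _ ≤ _ := h1
  -- upper bound
  set s := (Finset.Icc 1 ⌊x⌋₊).filter IsTot with hs
  have hVs : (V x : ℝ) = s.card := by rw [V_eq_card x (by linarith only [hx])]
  set A := s.filter (fun v => v ∉ DD M 0) with hAdef
  set B := (s.filter (fun v => v ∈ DD M 0)).filter (fun v => ¬ ∃ p D : ℕ, p.Prime ∧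
    D ∈ DF M 0 1 (T - C₀ * (M : ℝ) ^ 18) ∧ v = (p - 1) * D) with hBdef
  set C := (s.filter (fun v => v ∈ DD M 0)).filter (fun v => ∃ p D : ℕ, p.Prime ∧
    D ∈ DF M 0 1 (T - C₀ * (M : ℝ) ^ 18) ∧ v = (p - 1) * D) with hCdef
  have hmem : ∀ v ∈ s, IsTot v ∧ (v : ℝ) ≤ x := by
    intro v hv
    simp only [hs, Finset.mem_filter, Finset.mem_Icc] at hv
    exact ⟨hv.2, (Nat.le_floor_iff (by linarith only [hx])).1 hv.1.2⟩
  have hcard : (s.card : ℝ) ≤ A.card + B.card + C.card := by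
    have h1 : s ⊆ A ∪ B ∪ C := by
      intro v hv
      simp only [hAdef, hBdef, hCdef, Finset.mem_union, Finset.mem_filter]
      tauto
    have h2 := (Finset.card_le_card h1).trans (Finset.card_union_le _ _)
    have h3 := Finset.card_union_le A B
    exact_mod_cast h2.trans (Nat.add_le_add_right h3 _)
  have hA : (A.card : ℝ) ≤ x / Real.log x * Real.exp (-(M : ℝ) ^ 2) := by
    refine hth x A hx (by linarith only [hT1, h15, h18, hxT1, e3, e4, h1618]) (by linarith only [hxT2, hT2, h1518, e4, e3, h18]) fun v hv => ?_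
    simp only [hAdef, Finset.mem_filter] at hv
    exact ⟨(hmem v hv.1).1, (hmem v hv.1).2, hv.2⟩
  have hB : (B.card : ℝ) ≤ x / Real.log x * (Cb * (C₀ * (M : ℝ) ^ 18) *
      FF M 0 2 0 (T + Cb * (C₀ * (M : ℝ) ^ 18)) + Real.exp (-(M : ℝ))) := by
    refine hbad (C₀ * (M : ℝ) ^ 18) x T B hx hC0m (by linarith only [e1, e3, h18]) hxT hT1 (by linarith only [hT2, e4, e3, h18])
      fun v hv => ?_
    simp only [hBdef, Finset.mem_filter] at hv
    refine ⟨(hmem v hv.1.1).2, hv.1.2, fun p D h1 h2 _ h4 => hv.2 ⟨p, D, h2, h4, h1⟩⟩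
  have hC : (C.card : ℝ) ≤ S := by
    refine card_repr_le x _ _ (fun D hD => mem_DF_pos hD) fun v hv => ?_
    simp only [hCdef, Finset.mem_filter] at hv
    exact ⟨(hmem v hv.1.1).2, hv.2⟩
  have hreg' := hreg x T hx hxT hT1 hT2
  rw [mul_assoc Cb C₀] at hreg'
  have hup : (V x : ℝ) ≤ S + 2 * δ * V x := by
    have h1 : x / Real.log x * Real.exp (-(M : ℝ) ^ 2) + x / Real.log x * Real.exp (-(M : ℝ)) ≤
        δ * V x := by
      calc x / Real.log x * Real.exp (-(M : ℝ) ^ 2) + x / Real.log x * Real.exp (-(M : ℝ))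
          = x / Real.log x * (Real.exp (-(M : ℝ) ^ 2) + Real.exp (-(M : ℝ))) := by ring
        _ ≤ (Cv * V x) * (Real.exp (-(M : ℝ) ^ 2) + Real.exp (-(M : ℝ))) := by gcongr
        _ = (Cv * (Real.exp (-(M : ℝ) ^ 2) + Real.exp (-(M : ℝ)))) * V x := by ring
        _ ≤ δ * V x := by gcongr
    have h2 : (V x : ℝ) ≤ x / Real.log x * Real.exp (-(M : ℝ) ^ 2) +
        x / Real.log x * (Cb * (C₀ * (M : ℝ) ^ 18) *
        FF M 0 2 0 (T + Cb * (C₀ * (M : ℝ) ^ 18)) + Real.exp (-(M : ℝ))) + S := by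
      rw [hVs]; linarith only [hB, hA, hC, hcard]
    rw [mul_add] at h2
    linarith only [hcard, hreg', hC, hVs, hA, hB, h1]
  exact fin_abs _ _ δ ε hδ0 hδ1 hδ2 hV0 hS0 hlow hup

lemma le_gpf_pow (D : ℕ) (hD : 1 ≤ D) : D ≤ gpf D ^ Om D := by
  have h := Nat.prod_primeFactorsList (n := D) (by omega)
  unfold Om
  calc D = D.primeFactorsList.prod := h.symm
    _ ≤ gpf D ^ D.primeFactorsList.length := by
        refine List.prod_le_pow_card _ _ fun q hq => ?_
        unfold gpf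
        exact Finset.le_sup (f := id) (Nat.mem_primeFactors_iff_mem_primeFactorsList.2 hq)

lemma DF_size : ∀ᶠ M : ℕ in atTop, ∀ (x T C₀ : ℝ) (D : ℕ), 3 ≤ x → 1 ≤ C₀ →
    |ll x - (M : ℝ) ^ 15 - T| ≤ 1 → D ∈ DF M 0 1 (T - C₀ * (M : ℝ) ^ 18) →
    Real.log D ≤ Real.log x / 2 := by
  have hexp : ∀ᶠ M : ℕ in atTop, (M : ℝ) ^ 25 * Real.exp (-(M : ℝ)) < 1 / 2 / Real.exp 1 :=
    ((Real.tendsto_pow_mul_exp_neg_atTop_nhds_zero 25).comp
      tendsto_natCast_atTop_atTop).eventually_lt_const (by positivity)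
  filter_upwards [hexp, eventually_ge_atTop 1] with M hexp hM x T C₀ D hx hC hxT hD
  have hM1 : (1 : ℝ) ≤ M := by exact_mod_cast hM
  have hlogx : 0 < Real.log x := Real.log_pos (by linarith only [hx])
  have hD1 := mem_DF_pos hD
  have hDD := mem_DF_DD hD
  have hcost := mem_DF_cost hD
  have hOm : Om D ≤ M ^ 25 := by simpa using hDD.2
  have h18 : 1 ≤ (M : ℝ) ^ 18 := one_le_pow₀ hM1
  by_cases hg : gpf D ≤ 1
  · have h1 := le_gpf_pow D hD1
    have h2 : D ≤ 1 := h1.trans ((Nat.pow_le_pow_left hg _).trans (by simp))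
    have h3 : D = 1 := by omega
    rw [h3]; simp; positivity
  · push Not at hg
    have hg1 : (1 : ℝ) < gpf D := by exact_mod_cast hg
    have hlg : 0 < Real.log (gpf D) := Real.log_pos hg1
    have hY : YY M D ≤ Cost M 1 D := le_max_left _ _
    have hY2 : ll (gpf D : ℝ) - (M : ℝ) ^ 15 ≤ YY M D := le_max_right _ _
    obtain ⟨hxT1, hxT2⟩ := abs_le.1 hxT
    have hC18 : (M : ℝ) ^ 18 ≤ C₀ * (M : ℝ) ^ 18 := by linarith only [mul_nonneg (sub_nonneg.2 h18) (sub_nonneg.2 hC), hC]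
    have hll : ll (gpf D : ℝ) ≤ ll x + (1 - (M : ℝ) ^ 18) := by linarith only [hC18, hY, hxT1, hY2, hcost]
    have hM18 : (M : ℝ) ≤ (M : ℝ) ^ 18 := by
      calc (M : ℝ) = (M : ℝ) ^ 1 := (pow_one _).symm
        _ ≤ (M : ℝ) ^ 18 := pow_le_pow_right₀ hM1 (by norm_num)
    have h1 : Real.log (gpf D) ≤ Real.log x * (Real.exp 1 * Real.exp (-(M : ℝ))) := by
      have h2 : Real.log (gpf D) = Real.exp (ll (gpf D : ℝ)) := by
        rw [ll, Real.exp_log hlg]
      have h3 : Real.log x = Real.exp (ll x) := by rw [ll, Real.exp_log hlogx]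
      rw [h2, h3, ← Real.exp_add, ← Real.exp_add]
      apply Real.exp_le_exp.2
      linarith only [hC18, hM18, hY, hxT1, hY2, hcost]
    have h4 : Real.log D ≤ Om D * Real.log (gpf D) := by
      rw [← Real.log_pow]
      apply Real.log_le_log (by exact_mod_cast hD1)
      exact_mod_cast le_gpf_pow D hD1
    have h5 : (Om D : ℝ) ≤ (M : ℝ) ^ 25 := by exact_mod_cast hOm
    calc Real.log D ≤ Om D * Real.log (gpf D) := h4
      _ ≤ (M : ℝ) ^ 25 * (Real.log x * (Real.exp 1 * Real.exp (-(M : ℝ)))) := by gcongr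
      _ = Real.log x * Real.exp 1 * ((M : ℝ) ^ 25 * Real.exp (-(M : ℝ))) := by ring
      _ ≤ Real.log x * Real.exp 1 * (1 / 2 / Real.exp 1) := by gcongr
      _ = Real.log x / 2 := by field_simp

lemma exists_M (x : ℝ) (M₀ : ℕ) (hx : ((M₀ : ℝ) + 1) ^ 20 ≤ ll x) :
    ∃ M : ℕ, M₀ ≤ M ∧ (M : ℝ) ^ 20 ≤ ll x ∧ ll x ≤ ((M : ℝ) + 1) ^ 20 := by
  have h0 : 0 ≤ ll x := le_trans (by positivity) hx
  refine ⟨⌊(ll x) ^ ((1 : ℝ) / 20)⌋₊, ?_, ?_, ?_⟩
  · refine Nat.le_floor ?_
    have h1 : (((M₀ : ℝ) + 1) ^ 20) ^ ((1 : ℝ) / 20) ≤ (ll x) ^ ((1 : ℝ) / 20) :=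
      Real.rpow_le_rpow (by positivity) hx (by norm_num)
    rw [← Real.rpow_natCast, ← Real.rpow_mul (by positivity)] at h1
    norm_num at h1
    norm_num
    linarith only [h1]
  · have h1 := Nat.floor_le (Real.rpow_nonneg h0 ((1 : ℝ) / 20))
    calc ((⌊(ll x) ^ ((1 : ℝ) / 20)⌋₊ : ℕ) : ℝ) ^ 20 ≤ ((ll x) ^ ((1 : ℝ) / 20)) ^ 20 := by gcongr
      _ = ll x := by
          rw [← Real.rpow_natCast, ← Real.rpow_mul h0]; norm_num
  · have h1 := (Nat.lt_floor_add_one ((ll x) ^ ((1 : ℝ) / 20))).le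
    calc ll x = ((ll x) ^ ((1 : ℝ) / 20)) ^ 20 := by
          rw [← Real.rpow_natCast, ← Real.rpow_mul h0]; norm_num
      _ ≤ _ := by gcongr

end KA

open KA in
/-- **Q2**: `V(cx)/V(x) → c`. -/
theorem main_of (hU : UpP) (hL : LowP) (hV : VLowP) (hVS : VLowSharpP) (hG : VGrowthP)
    (hB : VBadP) (hTh : ThP) (c : ℝ) (hc : 0 < c) :
    Tendsto (fun x : ℝ => (V (c * x) : ℝ) / (V x : ℝ)) atTop (𝓝 c) := by
  classical
  obtain ⟨C₀, hC₀, happ⟩ := approx hU hL hV hVS hG hB hTh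
  refine tendsto_ratio_of_approx (fun x => (V x : ℝ)) hc ?_ ?_
  · filter_upwards [eventually_ge_atTop (1 : ℝ)] with x hx
    rw [V_eq_card x (by linarith)]
    have : 0 < ((Finset.Icc 1 ⌊x⌋₊).filter IsTot).card := by
      refine Finset.card_pos.2 ⟨1, ?_⟩
      simp only [Finset.mem_filter, Finset.mem_Icc]
      exact ⟨⟨le_rfl, Nat.le_floor (by simpa using hx)⟩, ⟨1, le_rfl, by simp⟩⟩
    exact_mod_cast this
  · intro ε hε K
    have h1 := happ ε hε
    have h2 := DF_size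
    obtain ⟨M₀, hM₀⟩ := eventually_atTop.1 ((h1.and h2).and (eventually_ge_atTop 100))
    -- large x
    have hlim : Tendsto (fun x : ℝ => ll x) atTop atTop :=
      Real.tendsto_log_atTop.comp Real.tendsto_log_atTop
    have e1 : ∀ᶠ x : ℝ in atTop, ((M₀ : ℝ) + 1) ^ 20 ≤ ll x := hlim.eventually_ge_atTop _
    have e2 : ∀ᶠ x : ℝ in atTop, 3 ≤ c * x :=
      (tendsto_id.const_mul_atTop hc).eventually_ge_atTop 3
    have e3 : ∀ᶠ x : ℝ in atTop, 2 * |Real.log c| ≤ Real.log x :=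
      Real.tendsto_log_atTop.eventually_ge_atTop _
    have e4 : ∀ᶠ x : ℝ in atTop, K ^ 2 ≤ x := eventually_ge_atTop _
    obtain ⟨x₀, hx₀⟩ := eventually_atTop.1 (((e1.and e2).and (e3.and e4)).and
      (eventually_ge_atTop (3 : ℝ)))
    refine ⟨x₀, fun x hx => ?_⟩
    obtain ⟨⟨⟨g1, g2⟩, g3, g4⟩, g5⟩ := hx₀ x hx
    obtain ⟨M, hM0, hMx, hxM⟩ := exists_M x M₀ g1
    obtain ⟨⟨h1, h2⟩, h3⟩ := hM₀ M hM0
    have hM100 : (100 : ℝ) ≤ M := by exact_mod_cast h3
    have hM1 : (1 : ℝ) ≤ M := by linarith only [hM100]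
    have hlogx : 0 < Real.log x := Real.log_pos (by linarith only [g5])
    -- comparison of ll x and ll (c x)
    have hcx : |ll (c * x) - ll x| ≤ 1 := by
      have hlc : Real.log (c * x) = Real.log c + Real.log x :=
        Real.log_mul hc.ne' (by linarith)
      have ha := neg_abs_le (Real.log c)
      have hb := le_abs_self (Real.log c)
      have hpos : 0 < Real.log c + Real.log x := by linarith only [g3, hlogx, ha]
      have h4 : ll (c * x) - ll x = Real.log ((Real.log c + Real.log x) / Real.log x) := by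
        rw [ll, ll, hlc, Real.log_div hpos.ne' hlogx.ne']
      have h5 : (Real.log c + Real.log x) / Real.log x ≤ 3 / 2 := by
        rw [div_le_iff₀ hlogx]; linarith only [hb, g3]
      have h6 : 1 / 2 ≤ (Real.log c + Real.log x) / Real.log x := by
        rw [le_div_iff₀ hlogx]; linarith only [g3, ha]
      rw [h4, abs_le]
      constructor
      · have h7 : Real.log (1 / 2) ≤ Real.log ((Real.log c + Real.log x) / Real.log x) :=
          Real.log_le_log (by norm_num) h6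
        have h8 : -1 ≤ Real.log (1 / 2) := by
          rw [Real.le_log_iff_exp_le (by norm_num)]
          have := Real.exp_neg_one_lt_d9
          linarith only [this]
        linarith only [h7, h8]
      · have h7 : Real.log ((Real.log c + Real.log x) / Real.log x) ≤ Real.log (3 / 2) :=
          Real.log_le_log (by linarith only [h6]) h5
        have h8 : Real.log (3 / 2) ≤ 3 / 2 - 1 := Real.log_le_sub_one_of_pos (by norm_num)
        linarith only [h7, h8]
    have h20 : ((M : ℝ) + 1) ^ 20 ≤ 41 / 20 * (M : ℝ) ^ 20 := by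
      have h4 : (M : ℝ) + 1 ≤ 101 / 100 * M := by linarith only [hM100]
      calc ((M : ℝ) + 1) ^ 20 ≤ (101 / 100 * M) ^ 20 := by gcongr
        _ = (101 / 100) ^ 20 * (M : ℝ) ^ 20 := by rw [mul_pow]
        _ ≤ 41 / 20 * (M : ℝ) ^ 20 := by gcongr; norm_num
    have h1520 : 2 * (M : ℝ) ^ 15 ≤ (M : ℝ) ^ 20 := by
      calc 2 * (M : ℝ) ^ 15 ≤ M * (M : ℝ) ^ 15 := by gcongr; linarith only [hM100]
        _ = (M : ℝ) ^ 16 := by ring
        _ ≤ (M : ℝ) ^ 20 := pow_le_pow_right₀ hM1 (by norm_num)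
    have h15 : 0 < (M : ℝ) ^ 15 := by positivity
    obtain ⟨T, hT⟩ : ∃ T : ℝ, T = ll x - (M : ℝ) ^ 15 := ⟨_, rfl⟩
    have hT1 : |ll x - (M : ℝ) ^ 15 - T| ≤ 1 := by rw [hT]; simp
    have hT2 : |ll (c * x) - (M : ℝ) ^ 15 - T| ≤ 1 := by
      rw [hT]
      have : ll (c * x) - (M : ℝ) ^ 15 - (ll x - (M : ℝ) ^ 15) = ll (c * x) - ll x := by ring
      rw [this]; exact hcx
    refine ⟨DF M 0 1 (T - C₀ * (M : ℝ) ^ 18), fun d hd => ⟨mem_DF_pos hd, ?_⟩, ?_, ?_⟩
    · have hs := h2 x T C₀ d g5 hC₀ hT1 hd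
      have hd1 : (0 : ℝ) < d := by exact_mod_cast mem_DF_pos hd
      have hx0 : 0 < x := by linarith only [g5]
      have hs2 : (d : ℝ) ≤ Real.sqrt x := by
        rw [← Real.exp_log hd1, ← Real.exp_log (Real.sqrt_pos.2 hx0)]
        apply Real.exp_le_exp.2
        rw [Real.log_sqrt hx0.le]
        exact hs
      have hK : K ≤ Real.sqrt x := Real.le_sqrt_of_sq_le g4
      rw [le_div_iff₀ hd1]
      have hs0 : 0 ≤ Real.sqrt x := Real.sqrt_nonneg x
      calc K * d ≤ Real.sqrt x * Real.sqrt x := by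
            by_cases hK0 : 0 ≤ K
            · gcongr
            · push Not at hK0
              have : K * d ≤ 0 := by nlinarith only [hK0]
              nlinarith only [this]
        _ = x := Real.mul_self_sqrt hx0.le
    · exact h1 x T g5 hT1 (by linarith only [hT, hMx, h1520]) (by linarith only [hT, h20, hxM, h15])
    · exact h1 (c * x) T g2 hT2 (by linarith only [hT, hMx, h1520]) (by linarith only [hT, h20, hxM, h15])

end Vale.Agent.P031
end
end

section

section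

/-!
Basic facts about `ll`, `Om`, `Small`, `Big` and chains.
-/

namespace Vale.Agent.P031

open Finset

theorem ll_le_ll {a b : ℝ} (ha : 1 < a) (hab : a ≤ b) : ll a ≤ ll b := by
  unfold ll
  exact Real.log_le_log (Real.log_pos ha) (Real.log_le_log (by linarith) hab)

theorem lt_of_ll_lt {a b : ℝ} (hb : 1 < b) (h : ll a < ll b) : a < b := by
  by_contra hab
  exact absurd h (not_lt.mpr (ll_le_ll hb (not_lt.mp hab)))

theorem exp_ll {a : ℝ} (ha : 1 < a) : Real.exp (ll a) = Real.log a := by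
  unfold ll
  exact Real.exp_log (Real.log_pos ha)

theorem log_lt_exp_of_ll_lt {a t : ℝ} (ha : 1 < a) (h : ll a < t) :
    Real.log a < Real.exp t := by
  rw [← exp_ll ha]
  exact Real.exp_lt_exp.mpr h

theorem log_le_exp_of_ll_le {a t : ℝ} (ha : 1 < a) (h : ll a ≤ t) :
    Real.log a ≤ Real.exp t := by
  rw [← exp_ll ha]
  exact Real.exp_le_exp.mpr h

theorem prime_one_lt {q : ℕ} (hq : q.Prime) : (1 : ℝ) < q := by
  exact_mod_cast hq.one_lt

/-! ### `Om` -/

theorem Om_mul {a b : ℕ} (ha : a ≠ 0) (hb : b ≠ 0) : Om (a * b) = Om a + Om b := by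
  unfold Om
  rw [(Nat.perm_primeFactorsList_mul ha hb).length_eq, List.length_append]

theorem Om_one : Om 1 = 0 := by
  simp [Om]

theorem log_le_Om_mul {D : ℕ} (hD : D ≠ 0) {B : ℝ}
    (h : ∀ q : ℕ, q.Prime → q ∣ D → Real.log (q : ℝ) ≤ B) :
    Real.log (D : ℝ) ≤ (Om D : ℝ) * B := by
  have h1 : ∀ l : List ℕ, (∀ q ∈ l, q ≠ 0) → (∀ q ∈ l, Real.log (q : ℝ) ≤ B) →
      Real.log ((l.prod : ℕ) : ℝ) ≤ (l.length : ℝ) * B := by
    intro l
    induction l with
    | nil => intro _ _; simp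
    | cons a l ih =>
      intro h0 h2
      have ha : a ≠ 0 := h0 a (by simp)
      have hl : l.prod ≠ 0 := by
        intro hz
        rw [List.prod_eq_zero_iff] at hz
        exact h0 0 (by simp [hz]) rfl
      rw [List.prod_cons, Nat.cast_mul, Real.log_mul (by exact_mod_cast ha)
        (by exact_mod_cast hl)]
      have h3 := ih (fun q hq => h0 q (by simp [hq])) (fun q hq => h2 q (by simp [hq]))
      have h4 := h2 a (by simp)
      have h5 : (((a :: l).length : ℕ) : ℝ) = (l.length : ℝ) + 1 := by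
        rw [List.length_cons, Nat.cast_add, Nat.cast_one]
      rw [h5]
      linarith
  have h2 := h1 D.primeFactorsList
    (fun q hq => (Nat.prime_of_mem_primeFactorsList hq).ne_zero)
    (fun q hq => h q (Nat.prime_of_mem_primeFactorsList hq) (Nat.dvd_of_mem_primeFactorsList hq))
  rw [Nat.prod_primeFactorsList hD] at h2
  exact h2

/-! ### `Big` and `Small` -/

theorem Big_of_le {M p q : ℕ} (hq : Big M q) (hp : p.Prime) (h : q ≤ p) : Big M p := by
  refine ⟨hp, hq.2.trans ?_⟩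
  exact ll_le_ll (prime_one_lt hq.1) (by exact_mod_cast h)

theorem Small_one (M : ℕ) : Small M 1 := by
  refine ⟨one_ne_zero, fun q hq hb => ?_⟩
  have := Nat.dvd_one.mp hq
  rw [this] at hb
  exact Nat.not_prime_one hb.1

theorem Small_totient {M n : ℕ} (h : Small M n) : Small M (Nat.totient n) := by
  have hn : 0 < n := Nat.pos_of_ne_zero h.1
  refine ⟨(Nat.totient_pos.mpr hn).ne', fun q hq hb => ?_⟩
  have hqp : q.Prime := hb.1
  rw [Nat.totient_eq_prod_factorization h.1, Finsupp.prod] at hq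
  rw [Prime.dvd_finsetProd_iff hqp.prime] at hq
  obtain ⟨p, hp, hqp2⟩ := hq
  rw [Nat.support_factorization, Nat.mem_primeFactors] at hp
  rcases (hqp.dvd_mul).mp hqp2 with h1 | h1
  · have h2 := hqp.dvd_of_dvd_pow h1
    have h3 : q = p := (Nat.prime_dvd_prime_iff_eq hqp hp.1).mp h2
    exact h.2 p hp.2.1 (h3 ▸ hb)
  · have h2 : q ≤ p - 1 := Nat.le_of_dvd (Nat.sub_pos_of_lt hp.1.one_lt) h1
    exact h.2 p hp.2.1 (Big_of_le hb hp.1 (by omega))

theorem Small.not_big {M D q : ℕ} (h : Small M D) (hq : q.Prime) (hd : q ∣ D) :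
    ll (q : ℝ) < (M : ℝ) ^ 15 := by
  by_contra hc
  exact h.2 q hd ⟨hq, not_lt.mp hc⟩

theorem Small.log_le {M D : ℕ} (h : Small M D) :
    Real.log (D : ℝ) ≤ (Om D : ℝ) * Real.exp ((M : ℝ) ^ 15) :=
  log_le_Om_mul h.1 fun _ hq hd =>
    (log_lt_exp_of_ll_lt (prime_one_lt hq) (h.not_big hq hd)).le

/-! ### chains -/

theorem Ch_ne_zero {M J P D : ℕ} (h : Ch M J P D) : D ≠ 0 := by
  induction h with
  | nil n s hn hs =>
    rw [← hs]
    exact (Nat.totient_pos.mpr (Nat.pos_of_ne_zero hn.1)).ne'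
  | cons p J P D hp hP hD hG hsq ih =>
    have := hp.big.1.one_lt
    exact Nat.mul_ne_zero (by omega) ih

theorem Ch_zero {M P D : ℕ} (h : Ch M 0 P D) : P = 1 ∧ Small M D := by
  cases h with
  | nil n s hn hs =>
    refine ⟨rfl, ?_⟩
    rw [← hs]
    exact Small_totient hn

theorem Ch_succ {M J P D : ℕ} (h : Ch M (J + 1) P D) :
    ∃ P' D' : ℕ, D = (P - 1) * D' ∧ Nrm M P ∧ P' < P ∧ Ch M J P' D' ∧
      GG M ((P - 1) * D') ≤ (M : ℝ) ^ 18 ∧ NoSq M ((P - 1) * D') := by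
  cases h with
  | cons p J P' D' hp hP hD hG hsq => exact ⟨P', D', rfl, hp, hP, hD, hG, hsq⟩

theorem Nrm.ge_two {M p : ℕ} (h : Nrm M p) : 2 ≤ p := h.big.1.two_le

/-- all prime factors of the terminal product of a chain are smaller than every big prime
above the top prime -/
theorem Ch_prime_lt {M J P D : ℕ} (h : Ch M J P D) :
    ∀ p : ℕ, Big M p → P < p → ∀ q : ℕ, q.Prime → q ∣ D → q < p := by
  induction h with
  | nil n s hn hs =>
    intro p hp _ q hq hd
    have hs' : Small M s := by rw [← hs]; exact Small_totient hn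
    have h1 := hs'.not_big hq hd
    have h2 : ll (q : ℝ) < ll (p : ℝ) := lt_of_lt_of_le h1 hp.2
    exact_mod_cast lt_of_ll_lt (prime_one_lt hp.1) h2
  | cons p' J P D hp' hP hD hG hsq ih =>
    intro p hp hlt q hq hd
    rcases (hq.dvd_mul).mp hd with h1 | h1
    · have h2 : q ≤ p' - 1 := Nat.le_of_dvd (Nat.sub_pos_of_lt hp'.big.1.one_lt) h1
      omega
    · exact (ih p' hp'.big hP q hq h1).trans hlt

theorem Ch_prime_lt_top {M J P D : ℕ} (h : Ch M (J + 1) P D) :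
    ∀ q : ℕ, q.Prime → q ∣ D → q < P := by
  obtain ⟨P', D', rfl, hp, hP, hD, -, -⟩ := Ch_succ h
  intro q hq hd
  rcases (hq.dvd_mul).mp hd with h1 | h1
  · have h2 : q ≤ P - 1 := Nat.le_of_dvd (Nat.sub_pos_of_lt hp.big.1.one_lt) h1
    have := hp.ge_two
    omega
  · exact Ch_prime_lt hD P hp.big hP q hq h1

theorem Ch_log_le {M J P D : ℕ} (h : Ch M (J + 1) P D) :
    Real.log (D : ℝ) ≤ (Om D : ℝ) * Real.log (P : ℝ) :=
  log_le_Om_mul (Ch_ne_zero h) fun q hq hd => by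
    apply Real.log_le_log
    · exact_mod_cast hq.pos
    · exact_mod_cast (Ch_prime_lt_top h q hq hd).le

theorem Om_le_Om_mul {P D : ℕ} (hD : D ≠ 0) (hP : 2 ≤ P) :
    Om D ≤ Om ((P - 1) * D) := by
  rw [Om_mul (by omega) hD]
  omega

end Vale.Agent.P031
end
end

section

section

/-! Section I of the blueprint: the numbers `aa j` and the functional `Psi`. -/

namespace Vale.Agent.P031

theorem aa_zero : aa 0 = -1 := by
  simp [aa]

theorem aa_one_eq : aa 1 = 2 * Real.log 2 - 1 := by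
  unfold aa
  norm_num

theorem aa_succ_sub_nonneg (j : ℕ) : aa j ≤ aa (j + 1) := by
  have hc := Real.convexOn_mul_log
  have h0 : (0 : ℝ) ≤ j := Nat.cast_nonneg j
  have hx : (j : ℝ) ∈ Set.Ici (0 : ℝ) := h0
  have hy : (j : ℝ) + 2 ∈ Set.Ici (0 : ℝ) := Set.mem_Ici.2 (by linarith)
  have ha : (0 : ℝ) ≤ 1 / 2 := by norm_num
  have hab : (1 : ℝ) / 2 + 1 / 2 = 1 := by norm_num
  have h := hc.2 hx hy ha ha hab
  simp only [smul_eq_mul] at h
  have e1 : (1 : ℝ) / 2 * j + 1 / 2 * (j + 2) = j + 1 := by ring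
  rw [e1] at h
  unfold aa
  push_cast
  have e2 : (j : ℝ) + 1 + 1 = j + 2 := by ring
  rw [e2]
  linarith only [h]

theorem aa_mono (i j : ℕ) (h : i ≤ j) : aa i ≤ aa j :=
  monotone_nat_of_le_succ aa_succ_sub_nonneg h

theorem aa_nonneg (j : ℕ) (hj : 1 ≤ j) : 0 < aa j := by
  refine lt_of_lt_of_le ?_ (aa_mono 1 j hj)
  rw [aa_one_eq]
  have := Real.log_two_gt_d9
  linarith only [this]

theorem aa_one_le_one : aa 1 ≤ 1 := by
  rw [aa_one_eq]
  have := Real.log_two_lt_d9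
  linarith only [this]

theorem Psi_mono (j : ℕ) (Y Y' : ℝ) (h h' : ℕ → ℝ) (hY : Y ≤ Y') (hh : ∀ i, 1 ≤ i → h i ≤ h' i) :
    Psi j Y h ≤ Psi j Y' h' := by
  induction j generalizing Y Y' h h' with
  | zero => exact max_le_max hY (hh 1 le_rfl)
  | succ j ih =>
    have h1 : max Y (h 1) ≤ max Y' (h' 1) := max_le_max hY (hh 1 le_rfl)
    refine ih _ _ _ _ h1 fun i hi => ?_
    exact add_le_add (mul_le_mul_of_nonneg_left h1 (aa_nonneg i hi).le) (hh (i + 1) (by omega))

theorem Psi_lip (j : ℕ) : ∃ C : ℝ, 1 ≤ C ∧ ∀ (Y Y' e : ℝ) (h h' : ℕ → ℝ), 0 ≤ e →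
    Y ≤ Y' + e → (∀ i, 1 ≤ i → i ≤ j + 1 → h i ≤ h' i + e) →
    Psi j Y h ≤ Psi j Y' h' + C * e := by
  induction j with
  | zero =>
    refine ⟨1, le_rfl, fun Y Y' e h h' he hY hh => ?_⟩
    have h1 := hh 1 le_rfl le_rfl
    rw [one_mul]
    exact max_le (hY.trans (add_le_add_left (le_max_left _ _) _))
      (h1.trans (add_le_add_left (le_max_right _ _) _))
  | succ j ih =>
    obtain ⟨C, hC1, hC⟩ := ih
    have ha : 0 < aa (j + 1) := aa_nonneg _ (by omega)
    refine ⟨C * (aa (j + 1) + 1), by linarith [mul_nonneg (sub_nonneg.2 hC1) (le_of_lt (sub_pos.2 ha)), ha, hC1], fun Y Y' e h h' he hY hh => ?_⟩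
    have h1 : max Y (h 1) ≤ max Y' (h' 1) + e :=
      max_le (hY.trans (add_le_add_left (le_max_left _ _) _))
        ((hh 1 le_rfl (by omega)).trans (add_le_add_left (le_max_right _ _) _))
    have he' : e ≤ (aa (j + 1) + 1) * e := by nlinarith only [he, ha]
    have h2 := hC (max Y (h 1)) (max Y' (h' 1)) ((aa (j + 1) + 1) * e)
      (fun i => aa i * max Y (h 1) + h (i + 1)) (fun i => aa i * max Y' (h' 1) + h' (i + 1))
      (by positivity) (h1.trans (by linarith)) (fun i hi1 hi2 => by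
        have h3 := hh (i + 1) (by omega) (by omega)
        have h4 : aa i * max Y (h 1) ≤ aa i * (max Y' (h' 1) + e) :=
          mul_le_mul_of_nonneg_left h1 (aa_nonneg i hi1).le
        have h5 : aa i * e ≤ aa (j + 1) * e := mul_le_mul_of_nonneg_right (aa_mono i _ hi2) he
        linarith only [h3, h5, h4])
    calc Psi (j + 1) Y h ≤ Psi (j + 1) Y' h' + C * ((aa (j + 1) + 1) * e) := h2
      _ = Psi (j + 1) Y' h' + C * (aa (j + 1) + 1) * e := by ring

theorem Psi_growth (j : ℕ) : ∃ c : ℝ, 0 < c ∧ ∀ (Y t : ℝ) (h : ℕ → ℝ), 0 ≤ t →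
    Psi j Y h + c * t ≤ Psi j (Y + t) (fun i => h i + aa i * t) := by
  have ha1 : 0 < aa 1 := aa_nonneg 1 le_rfl
  have ha2 := aa_one_le_one
  have key : ∀ (Y t : ℝ) (h : ℕ → ℝ), 0 ≤ t →
      max Y (h 1) + aa 1 * t ≤ max (Y + t) (h 1 + aa 1 * t) := by
    intro Y t h ht
    rcases le_total Y (h 1) with h1 | h1
    · rw [max_eq_right h1]; exact le_max_right _ _
    · rw [max_eq_left h1]
      refine le_trans ?_ (le_max_left _ _)
      (by_contra nlg; linarith only [nlg, mul_nonneg (sub_nonneg.2 ha2) (sub_nonneg.2 ht), mul_nonneg (le_of_lt (sub_pos.2 (not_le.1 nlg))) (sub_nonneg.2 ha2), mul_pos (sub_pos.2 (not_le.1 nlg)) (sub_pos.2 ha1)])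
  induction j with
  | zero => exact ⟨aa 1, ha1, fun Y t h ht => key Y t h ht⟩
  | succ j ih =>
    obtain ⟨c, hc0, hc⟩ := ih
    refine ⟨c * aa 1, by positivity, fun Y t h ht => ?_⟩
    have hξ := key Y t h ht
    set ξ := max Y (h 1) with hξdef
    set ξ' := max (Y + t) (h 1 + aa 1 * t) with hξ'def
    have h1 := hc ξ (aa 1 * t) (fun i => aa i * ξ + h (i + 1)) (by positivity)
    have h2 : Psi j (ξ + aa 1 * t) (fun i => (aa i * ξ + h (i + 1)) + aa i * (aa 1 * t)) ≤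
        Psi j ξ' (fun i => aa i * ξ' + (h (i + 1) + aa (i + 1) * t)) := by
      apply Psi_mono _ _ _ _ _ hξ
      intro i hi
      have h3 : aa i * (ξ + aa 1 * t) ≤ aa i * ξ' :=
        mul_le_mul_of_nonneg_left hξ (aa_nonneg i hi).le
      have h4 : 0 ≤ aa (i + 1) * t := mul_nonneg (aa_nonneg _ (by omega)).le ht
      linarith only [h4, h3]
    calc Psi (j + 1) Y h + c * aa 1 * t
        = Psi j ξ (fun i => aa i * ξ + h (i + 1)) + c * (aa 1 * t) := by
          rw [mul_assoc]; rfl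
      _ ≤ _ := h1
      _ ≤ _ := h2

theorem Psi_zero (j : ℕ) : Psi j 0 (fun _ => 0) = 0 := by
  induction j with
  | zero => simp [Psi]
  | succ j ih =>
    change Psi j (max 0 0) (fun i => aa i * max 0 0 + 0) = 0
    simpa using ih

theorem le_Psi (j : ℕ) (Y : ℝ) (h : ℕ → ℝ) : Y ≤ Psi j Y h := by
  induction j generalizing Y h with
  | zero => exact le_max_left _ _
  | succ j ih => exact (le_max_left _ _).trans (ih _ _)

end Vale.Agent.P031
end
end

section

section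

/-! Section H of the blueprint: one step lemmas. -/

namespace Vale.Agent.P031

open Finset Filter Topology

namespace St

/-- the function `x log x - x` -/
noncomputable def gph (x : ℝ) : ℝ := x * Real.log x - x

theorem ph_eq (lam u : ℝ) (h : 0 < lam) : ph lam u = lam * gph (u / lam) := by
  unfold ph gph
  field_simp

theorem gph_sub_le (x y : ℝ) (hx : 0 < x) (hy : 0 < y) : gph x - gph y ≤ (x - y) * Real.log x := by
  have h1 : Real.log (x / y) ≤ x / y - 1 := Real.log_le_sub_one_of_pos (by positivity)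
  rw [Real.log_div hx.ne' hy.ne'] at h1
  have h2 : y * (Real.log x - Real.log y) ≤ y * (x / y - 1) := mul_le_mul_of_nonneg_left h1 hy.le
  have h3 : y * (x / y - 1) = x - y := by field_simp
  unfold gph
  linarith only [h2, h3]

theorem gph_abs1 (x y B : ℝ) (hx : 0 < x) (hy : 0 < y) (hB1 : |Real.log x| ≤ B)
    (hB2 : |Real.log y| ≤ B) : |gph x - gph y| ≤ |x - y| * B := by
  rw [abs_le]
  constructor
  · have h1 := gph_sub_le y x hy hx
    have h2 : (y - x) * Real.log y ≤ |x - y| * B := by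
      refine (le_abs_self _).trans ?_
      rw [abs_mul, abs_sub_comm y x]
      exact mul_le_mul_of_nonneg_left hB2 (abs_nonneg _)
    linarith
  · have h1 := gph_sub_le x y hx hy
    have h2 : (x - y) * Real.log x ≤ |x - y| * B := by
      refine (le_abs_self _).trans ?_
      rw [abs_mul]
      exact mul_le_mul_of_nonneg_left hB1 (abs_nonneg _)
    linarith

theorem gph_small (x : ℝ) (h0 : 0 ≤ x) (h1 : x ≤ 1) : -1 ≤ gph x ∧ gph x ≤ 0 := by
  constructor
  · rcases h0.eq_or_lt with h | h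
    · rw [← h]; simp [gph]
    · have h2 := gph_sub_le 1 x one_pos h
      simp [gph] at h2 ⊢
      linarith
  · unfold gph
    have h2 : Real.log x ≤ 0 := Real.log_nonpos h0 h1
    linarith only [mul_nonneg (sub_nonneg.2 h0) (sub_nonneg.2 h2), mul_nonneg (sub_nonneg.2 h0) (sub_nonneg.2 h1), mul_nonneg (sub_nonneg.2 h0) (sub_nonneg.2 h0)]

theorem gph_mono (x y : ℝ) (hx : 1 ≤ x) (hxy : x ≤ y) : gph x ≤ gph y := by
  have h1 := gph_sub_le x y (by linarith) (by linarith)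
  have h2 : 0 ≤ Real.log x := Real.log_nonneg hx
  linarith only [mul_nonneg (sub_nonneg.2 hxy) (sub_nonneg.2 h2), h1]

theorem gph_abs2 (x y X : ℝ) (hx : 0 ≤ x) (hxX : x ≤ X) (hy : 0 ≤ y) (hyX : y ≤ X)
    (hX : 1 ≤ X) : |gph x - gph y| ≤ 1 + |x - y| * Real.log X := by
  have hlX : 0 ≤ Real.log X := Real.log_nonneg hX
  wlog hxy : y ≤ x generalizing x y with H
  · rw [abs_sub_comm, abs_sub_comm x y]
    exact H y x hy hyX hx hxX (not_le.1 hxy).le
  rcases le_total 1 y with h1 | h1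
  · have hx1 : 1 ≤ x := h1.trans hxy
    have h2 := gph_abs1 x y (Real.log X) (by linarith) (by linarith)
      (by rw [abs_of_nonneg (Real.log_nonneg hx1)]; exact Real.log_le_log (by linarith) hxX)
      (by rw [abs_of_nonneg (Real.log_nonneg h1)]; exact Real.log_le_log (by linarith) hyX)
    linarith
  · have hs := gph_small y hy h1
    rcases le_total x 1 with h2 | h2
    · have hs' := gph_small x hx h2
      have h3 : 0 ≤ |x - y| * Real.log X := by positivity
      rw [abs_le]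
      constructor <;> linarith
    · have h3 : gph 1 ≤ gph x := gph_mono 1 x le_rfl h2
      have h4 := gph_sub_le x 1 (by linarith) one_pos
      have h5 : gph 1 = -1 := by simp [gph]
      have h6 : (x - 1) * Real.log x ≤ |x - y| * Real.log X := by
        apply mul_le_mul _ (Real.log_le_log (by linarith) hxX) (Real.log_nonneg h2) (abs_nonneg _)
        exact (by linarith : x - 1 ≤ x - y).trans (le_abs_self _)
      rw [h5] at h3 h4
      rw [abs_le]
      constructor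
      · have h7 : 0 ≤ |x - y| * Real.log X := by positivity
        linarith
      · linarith

theorem prof_mul (M a b k : ℕ) (ha : a ≠ 0) (hb : b ≠ 0) :
    prof M (a * b) k = prof M a k + prof M b k := by
  unfold prof
  have key : ∀ c : ℕ, c ∣ a * b → 
      ∑ q ∈ c.primeFactors.filter (fun q => lev M q = k), c.factorization q =
      ∑ q ∈ (a * b).primeFactors.filter (fun q => lev M q = k), c.factorization q := by
    intro c hc
    apply Finset.sum_subset
    · apply Finset.filter_subset_filter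
      exact Nat.primeFactors_mono hc (Nat.mul_ne_zero ha hb)
    · intro q hq hq'
      rw [Finset.mem_filter] at hq hq'
      by_contra hne
      apply hq'
      refine ⟨?_, hq.2⟩
      rw [← Nat.support_factorization, Finsupp.mem_support_iff]
      exact hne
  rw [key a (Dvd.intro _ rfl), key b (Dvd.intro_left _ rfl), ← Finset.sum_add_distrib]
  apply Finset.sum_congr rfl
  intro q _
  rw [Nat.factorization_mul ha hb]
  rfl

theorem Om_eq_sum (n : ℕ) : Om n = ∑ q ∈ n.primeFactors, n.factorization q := by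
  unfold Om
  rw [← List.sum_toFinset_count_eq_length]
  apply Finset.sum_congr
  · rfl
  · intro q _
    rw [Nat.primeFactorsList_count_eq]

theorem prof_le_Om (M n k : ℕ) : prof M n k ≤ Om n := by
  rw [Om_eq_sum]
  exact Finset.sum_le_sum_of_subset (Finset.filter_subset _ _)

theorem prof_eq_zero (M n k : ℕ) (h : ∀ q : ℕ, q.Prime → q ∣ n → lev M q ≠ k) :
    prof M n k = 0 := by
  unfold prof
  rw [Finset.filter_eq_empty_iff.2, Finset.sum_empty]
  intro q hq
  rw [Nat.mem_primeFactors] at hq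
  exact h q hq.1 hq.2.1

theorem lev_le_lev {M q p : ℕ} (hq : q.Prime) (h : q ≤ p) : lev M q ≤ lev M p := by
  unfold lev
  apply Nat.floor_le_floor
  apply div_le_div_of_nonneg_right _ (by positivity)
  exact ll_le_ll (prime_one_lt hq) (by exact_mod_cast h)

end St

open St

theorem HH_zero (M n : ℕ) : HH M 0 n = GG M n := by
  unfold HH GG
  apply Finset.sum_congr rfl
  intro k _
  simp [ph]

theorem HH_nonneg (M j n : ℕ) (hM : 1 ≤ M) (hj : 1 ≤ j) : 0 ≤ HH M j n := by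
  unfold HH
  apply Finset.sum_nonneg
  intro k _
  have hlam : (0 : ℝ) < (M : ℝ) ^ 13 := by
    have : (0 : ℝ) < M := by exact_mod_cast hM
    positivity
  rw [ph_eq _ _ hlam, ph_eq _ _ hlam, ← mul_sub]
  apply mul_nonneg hlam.le
  rw [sub_nonneg]
  have hj' : (1 : ℝ) ≤ j := by exact_mod_cast hj
  apply gph_mono
  · rw [mul_div_assoc, div_self hlam.ne']; linarith
  · apply div_le_div_of_nonneg_right _ hlam.le
    have : (0 : ℝ) ≤ prof M n k := Nat.cast_nonneg _
    linarith only []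

theorem prof_small (M D k : ℕ) (hM : 1 ≤ M) (hD : Small M D) (hk : M ^ 2 ≤ k) :
    prof M D k = 0 := by
  apply prof_eq_zero
  intro q hq hqD hlev
  have hM0 : (0 : ℝ) < M := by exact_mod_cast hM
  have h1 := hD.not_big hq hqD
  have h2 : (k : ℝ) ≤ ll (q : ℝ) / (M : ℝ) ^ 13 := by
    have hk0 : lev M q ≠ 0 := by
      have : 1 ≤ M ^ 2 := Nat.one_le_pow _ _ hM
      omega
    have h3 := Nat.floor_le (a := ll (q : ℝ) / (M : ℝ) ^ 13) (by
      by_contra hneg
      push Not at hneg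
      apply hk0
      unfold lev
      exact Nat.floor_of_nonpos hneg.le)
    rw [← hlev]
    exact h3
  rw [le_div_iff₀ (by positivity)] at h2
  have h4 : ((M ^ 2 : ℕ) : ℝ) ≤ k := by exact_mod_cast hk
  push_cast at h4
  have h5 : (M : ℝ) ^ 15 ≤ k * (M : ℝ) ^ 13 := by
    calc (M : ℝ) ^ 15 = (M : ℝ) ^ 2 * (M : ℝ) ^ 13 := by ring
      _ ≤ k * (M : ℝ) ^ 13 := mul_le_mul_of_nonneg_right h4 (by positivity)
  linarith only [h1, h5, h2]

theorem HH_small (M j D : ℕ) (hM : 1 ≤ M) (hD : Small M D) : HH M j D = 0 := by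
  unfold HH
  apply Finset.sum_eq_zero
  intro k hk
  rw [prof_small M D k hM hD (Finset.mem_Ico.1 hk).1]
  simp

theorem Ch_prime_le (M J P D : ℕ) (h : Ch M J P D) (_hM : 1 ≤ M) :
    ∀ q : ℕ, Big M q → q ∣ D → q < P := by
  intro q hq hqD
  rcases Nat.eq_zero_or_pos J with h0 | h0
  · subst h0
    exact absurd hq ((Ch_zero h).2.2 q hqD)
  · obtain ⟨J', rfl⟩ : ∃ J', J = J' + 1 := ⟨J - 1, by omega⟩
    exact Ch_prime_lt_top h q hq.1 hqD

/-! ### asymptotic inequalities -/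

namespace St

theorem ev_log_le (c : ℝ) (hc : 0 < c) : ∀ᶠ M : ℕ in atTop, Real.log (M : ℝ) ≤ c * M := by
  have h1 := (Real.isLittleO_log_id_atTop.bound hc).filter_mono le_rfl
  have h2 := tendsto_natCast_atTop_atTop.eventually h1
  filter_upwards [h2] with M hM
  simp only [id, Real.norm_eq_abs] at hM
  refine (le_abs_self _).trans (hM.trans ?_)
  rw [abs_of_nonneg (Nat.cast_nonneg M)]

theorem ev_ge (c : ℝ) : ∀ᶠ M : ℕ in atTop, c ≤ (M : ℝ) :=
  tendsto_natCast_atTop_atTop.eventually (eventually_ge_atTop c)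

end St

theorem step (J₀ : ℕ) : ∀ᶠ M : ℕ in atTop, ∀ (j p D : ℕ), j ≤ J₀ → Nrm M p →
    ll (p : ℝ) ≤ 5 * (M : ℝ) ^ 20 → D ≠ 0 → Om D ≤ M ^ 26 →
    (∀ q : ℕ, q.Prime → q ∣ D → q ≤ p) →
    |HH M j ((p - 1) * D) - HH M (j + 1) D - aa j * (ll (p : ℝ) - (M : ℝ) ^ 15)|
      ≤ (M : ℝ) ^ 17 := by
  filter_upwards [ev_log_le (1 / 300) (by norm_num), ev_ge 2, ev_ge ((J₀ : ℝ) + 4),
    ev_ge (3 + 2 * (1 + |aa J₀|))] with M hlog hM2 hMJ hMa
  intro j p D hj hp hL hD hOm hqp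
  have hM0 : (0 : ℝ) < M := by linarith only [hMJ]
  have hM1 : (1 : ℝ) ≤ M := by linarith only [hMJ]
  have hMnat : 1 ≤ M := by exact_mod_cast hM1
  set lam : ℝ := (M : ℝ) ^ 13 with hlam
  have hlam0 : 0 < lam := by positivity
  set L := ll (p : ℝ) with hLdef
  have hLb : (M : ℝ) ^ 15 ≤ L := hp.big.2
  set K0 := lev M p with hK0
  have hL0 : 0 ≤ L / lam := by
    apply div_nonneg _ hlam0.le
    exact le_trans (by positivity) hLb
  have hK0a : (K0 : ℝ) * lam ≤ L := by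
    have := Nat.floor_le hL0
    rw [le_div_iff₀ hlam0] at this
    exact this
  have hK0b : L < ((K0 : ℝ) + 1) * lam := by
    have := Nat.lt_floor_add_one (L / lam)
    rw [div_lt_iff₀ hlam0] at this
    exact this
  have hM2K : M ^ 2 ≤ K0 := by
    apply Nat.le_floor
    push_cast
    rw [le_div_iff₀ hlam0]
    calc (M : ℝ) ^ 2 * lam = (M : ℝ) ^ 15 := by rw [hlam]; ring
      _ ≤ L := hLb
  have hKK : K0 < KK M := by
    have h1 : (K0 : ℝ) * lam ≤ 5 * (M : ℝ) ^ 7 * lam := by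
      calc (K0 : ℝ) * lam ≤ L := hK0a
        _ ≤ 5 * (M : ℝ) ^ 20 := hL
        _ = 5 * (M : ℝ) ^ 7 * lam := by rw [hlam]; ring
    have h2 : (K0 : ℝ) ≤ 5 * (M : ℝ) ^ 7 := le_of_mul_le_mul_right h1 hlam0
    have h3 : (K0 : ℝ) < ((KK M : ℕ) : ℝ) := by
      unfold KK
      push_cast
      have : (0 : ℝ) < (M : ℝ) ^ 7 := by positivity
      linarith only [this, h2]
    exact_mod_cast h3
  -- notation
  have hp2 : 2 ≤ p := hp.ge_two
  have hp1 : p - 1 ≠ 0 := by omega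
  set B : ℕ → ℝ := fun k => (prof M (p - 1) k : ℝ) with hB
  set N : ℕ → ℝ := fun k => (prof M D k : ℝ) with hN
  set T : ℕ → ℝ := fun k => (ph lam (B k + N k + j * lam) - ph lam (j * lam)) -
    (ph lam (N k + ((j : ℝ) + 1) * lam) - ph lam (((j : ℝ) + 1) * lam)) with hT
  have hsum : HH M j ((p - 1) * D) - HH M (j + 1) D = ∑ k ∈ Finset.Ico (M ^ 2) (KK M), T k := by
    unfold HH
    rw [← Finset.sum_sub_distrib]
    apply Finset.sum_congr rfl
    intro k _
    rw [prof_mul M _ _ k hp1 hD, Nat.cast_add, Nat.cast_add, Nat.cast_one]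
  -- main increment
  have hinc : ph lam (((j : ℝ) + 1) * lam) - ph lam (j * lam) = lam * aa j := by
    rw [ph_eq _ _ hlam0, ph_eq _ _ hlam0, mul_div_assoc, mul_div_assoc, div_self hlam0.ne',
      mul_one, mul_one]
    unfold gph aa
    ring
  -- bounds on logarithms
  have hlogX : 0 ≤ Real.log (M : ℝ) := Real.log_nonneg hM1
  set X : ℝ := (M : ℝ) ^ 14 with hX
  have hX1 : 1 ≤ X := one_le_pow₀ hM1
  have hlX : Real.log X = 14 * Real.log M := by rw [hX, Real.log_pow]; norm_num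
  have hNle : ∀ k, N k ≤ (M : ℝ) ^ 26 := by
    intro k
    have h1 : prof M D k ≤ M ^ 26 := (prof_le_Om M D k).trans hOm
    simp only [hN]
    exact_mod_cast h1
  have hN0 : ∀ k, 0 ≤ N k := fun k => Nat.cast_nonneg _
  have hB0 : ∀ k, 0 ≤ B k := fun k => Nat.cast_nonneg _
  have hjJ : (j : ℝ) ≤ J₀ := by exact_mod_cast hj
  have hj0 : (0 : ℝ) ≤ j := Nat.cast_nonneg _
  have hNlam : ∀ k, N k / lam ≤ (M : ℝ) ^ 13 := by
    intro k
    rw [div_le_iff₀ hlam0]
    calc N k ≤ (M : ℝ) ^ 26 := hNle k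
      _ = (M : ℝ) ^ 13 * lam := by rw [hlam]; ring
  have hXbig : (M : ℝ) ^ 13 + J₀ + 3 ≤ X := by
    have h1 : (1 : ℝ) ≤ (M : ℝ) ^ 13 := one_le_pow₀ hM1
    have h2 : ((J₀ : ℝ) + 4) * (M : ℝ) ^ 13 ≤ M * (M : ℝ) ^ 13 :=
      mul_le_mul_of_nonneg_right hMJ (by positivity)
    have h3 : M * (M : ℝ) ^ 13 = X := by rw [hX]; ring
    have h4 : (0 : ℝ) ≤ J₀ := Nat.cast_nonneg _
    nlinarith only [h2, h1]
  have hlog2 : Real.log 2 ≤ Real.log X := by
    apply Real.log_le_log (by norm_num)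
    calc (2 : ℝ) ≤ M := hM2
      _ ≤ X := by rw [hX]; exact le_self_pow₀ hM1 (by norm_num)
  -- the difference of the `ph`
  have hdiff : ∀ k, T k - lam * aa j =
      lam * (gph ((B k + N k + j * lam) / lam) - gph ((N k + ((j : ℝ) + 1) * lam) / lam)) := by
    intro k
    simp only [hT]
    rw [mul_sub, ← ph_eq _ _ hlam0, ← ph_eq _ _ hlam0, ← hinc]
    ring
  have hxy : ∀ k, (B k + N k + j * lam) / lam - (N k + ((j : ℝ) + 1) * lam) / lam =
      (B k - lam) / lam := by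
    intro k
    rw [← sub_div]
    congr 1
    ring
  have hx1 : ∀ k, (B k + N k + j * lam) / lam = B k / lam + N k / lam + j := by
    intro k
    rw [add_div, add_div, mul_div_assoc, div_self hlam0.ne', mul_one]
  have hx2 : ∀ k, (N k + ((j : ℝ) + 1) * lam) / lam = N k / lam + (j + 1) := by
    intro k
    rw [add_div, mul_div_assoc, div_self hlam0.ne', mul_one]
  -- full levels
  have hfull : ∀ k ∈ Finset.Ico (M ^ 2) K0, |T k - lam * aa j| ≤ (M : ℝ) ^ 9 * (14 * Real.log M) := by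
    intro k hk
    rw [Finset.mem_Ico] at hk
    have hk1 : ((k : ℝ) + 1) * (M : ℝ) ^ 13 ≤ ll (p : ℝ) := by
      have : ((k : ℝ) + 1) ≤ K0 := by exact_mod_cast hk.2
      exact (mul_le_mul_of_nonneg_right this hlam0.le).trans hK0a
    have h1 : |B k - lam| ≤ (M : ℝ) ^ 9 := hp.prof_near k hk.1 hk1
    have h2 := abs_le.1 h1
    have hM9 : (M : ℝ) ^ 9 ≤ lam / 2 := by
      rw [hlam]
      have h3 : (2 : ℝ) * (M : ℝ) ^ 9 ≤ M * (M : ℝ) ^ 9 :=
        mul_le_mul_of_nonneg_right hM2 (by positivity)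
      have h4 : M * (M : ℝ) ^ 9 ≤ (M : ℝ) ^ 13 := by
        rw [← pow_succ']
        exact pow_le_pow_right₀ hM1 (by norm_num)
      linarith only [h4, h3]
    have hBl : 1 / 2 ≤ B k / lam := by
      rw [le_div_iff₀ hlam0]; linarith only [hM9, h2]
    have hBu : B k / lam ≤ 2 := by
      rw [div_le_iff₀ hlam0]; linarith only [hM9, h2]
    have hNl : 0 ≤ N k / lam := div_nonneg (hN0 k) hlam0.le
    rw [hdiff, abs_mul, abs_of_pos hlam0]
    have h5 := gph_abs1 ((B k + N k + j * lam) / lam) ((N k + ((j : ℝ) + 1) * lam) / lam)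
      (Real.log X) (by rw [hx1]; linarith only [hBl, hNl]) (by rw [hx2]; linarith only [hNl])
      (by
        rw [hx1, abs_le]
        constructor
        · have h6 : Real.log (1 / 2) ≤ Real.log (B k / lam + N k / lam + j) :=
            Real.log_le_log (by norm_num) (by linarith only [hBl, hNl])
          rw [one_div, Real.log_inv] at h6
          linarith only [h6, hlog2]
        · exact Real.log_le_log (by linarith only [hBl, hNl]) (by linarith only [hjJ, hXbig, hBu, hNlam k]))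
      (by
        rw [hx2, abs_of_nonneg (Real.log_nonneg (by linarith only [hNl]))]
        exact Real.log_le_log (by linarith only [hNl]) (by linarith only [hjJ, hXbig, hNlam k]))
    rw [hxy, abs_div, abs_of_pos hlam0, hlX] at h5
    calc lam * |gph ((B k + N k + j * lam) / lam) - gph ((N k + ((j : ℝ) + 1) * lam) / lam)|
        ≤ lam * (|B k - lam| / lam * (14 * Real.log M)) := mul_le_mul_of_nonneg_left h5 hlam0.le
      _ = |B k - lam| * (14 * Real.log M) := by field_simp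
      _ ≤ (M : ℝ) ^ 9 * (14 * Real.log M) := mul_le_mul_of_nonneg_right h1 (by positivity)
  -- boundary level
  have hbd : |T K0 - lam * aa j| ≤ lam * (1 + 14 * Real.log M) := by
    have h1 : B K0 ≤ 2 * lam := hp.prof_le K0 hM2K
    have h2 : |B K0 - lam| ≤ lam := by
      rw [abs_le]; constructor <;> linarith only [h1, hB0 K0]
    have hBl : 0 ≤ B K0 / lam := div_nonneg (hB0 K0) hlam0.le
    have hBu : B K0 / lam ≤ 2 := by
      rw [div_le_iff₀ hlam0]; linarith only [h1]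
    have hNl : 0 ≤ N K0 / lam := div_nonneg (hN0 K0) hlam0.le
    rw [hdiff, abs_mul, abs_of_pos hlam0]
    apply mul_le_mul_of_nonneg_left _ hlam0.le
    have h5 := gph_abs2 ((B K0 + N K0 + j * lam) / lam) ((N K0 + ((j : ℝ) + 1) * lam) / lam)
      X (by rw [hx1]; linarith only [hBl, hNl]) (by rw [hx1]; linarith only [hjJ, hXbig, hBu, hNlam K0]) (by rw [hx2]; linarith only [hNl])
      (by rw [hx2]; linarith only [hjJ, hXbig, hNlam K0]) hX1
    rw [hxy, abs_div, abs_of_pos hlam0, hlX] at h5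
    have h6 : |B K0 - lam| / lam ≤ 1 := by rw [div_le_iff₀ hlam0]; linarith only [h2]
    have h7 : |B K0 - lam| / lam * (14 * Real.log M) ≤ 1 * (14 * Real.log M) :=
      mul_le_mul_of_nonneg_right h6 (by positivity)
    linarith only [h5, h7]
  -- upper levels
  have hup : ∀ k ∈ Finset.Ico (K0 + 1) (KK M), T k = 0 := by
    intro k hk
    rw [Finset.mem_Ico] at hk
    have h1 : prof M (p - 1) k = 0 := by
      apply prof_eq_zero
      intro q hq hqd hlev
      have hqp' : q ≤ p := (Nat.le_of_dvd (by omega) hqd).trans (Nat.sub_le _ _)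
      have := lev_le_lev (M := M) hq hqp'
      omega
    have h2 : prof M D k = 0 := by
      apply prof_eq_zero
      intro q hq hqd hlev
      have := lev_le_lev (M := M) hq (hqp q hq hqd)
      omega
    simp [hT, hB, hN, h1, h2]
  -- splitting the sum
  have hsplit : ∑ k ∈ Finset.Ico (M ^ 2) (KK M), T k = ∑ k ∈ Finset.Ico (M ^ 2) K0, T k + T K0 := by
    rw [← Finset.sum_Ico_consecutive T hM2K hKK.le, Finset.sum_eq_sum_Ico_succ_bot hKK,
      Finset.sum_eq_zero hup, add_zero]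
  have hmain : |∑ k ∈ Finset.Ico (M ^ 2) K0, T k - ((K0 : ℝ) - (M : ℝ) ^ 2) * (lam * aa j)| ≤
      6 * (M : ℝ) ^ 7 * ((M : ℝ) ^ 9 * (14 * Real.log M)) := by
    have h1 : ((K0 : ℝ) - (M : ℝ) ^ 2) * (lam * aa j) =
        ∑ k ∈ Finset.Ico (M ^ 2) K0, lam * aa j := by
      rw [Finset.sum_const, Nat.card_Ico, nsmul_eq_mul, Nat.cast_sub hM2K]
      push_cast
      rfl
    rw [h1, ← Finset.sum_sub_distrib]
    refine (Finset.abs_sum_le_sum_abs _ _).trans ((Finset.sum_le_sum hfull).trans ?_)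
    rw [Finset.sum_const, Nat.card_Ico, nsmul_eq_mul]
    apply mul_le_mul_of_nonneg_right _ (by positivity)
    have h2 : K0 - M ^ 2 ≤ 6 * M ^ 7 := by unfold KK at hKK; omega
    exact_mod_cast h2
  have haj : |aa j| ≤ 1 + |aa J₀| := by
    rw [abs_le]
    constructor
    · have h1 := aa_mono 0 j (Nat.zero_le _)
      rw [aa_zero] at h1
      have := abs_nonneg (aa J₀)
      linarith only [this, h1]
    · have h1 := aa_mono j J₀ hj
      have := le_abs_self (aa J₀)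
      linarith only [h1, this]
  have hfin : |aa j * (((K0 : ℝ) + 1) * lam - L)| ≤ (1 + |aa J₀|) * lam := by
    rw [abs_mul]
    apply mul_le_mul haj _ (abs_nonneg _) (by positivity)
    rw [abs_le]; constructor <;> linarith only [hlam0, hK0b, hK0a]
  rw [hsum, hsplit]
  have hid : ∑ k ∈ Finset.Ico (M ^ 2) K0, T k + T K0 - aa j * (L - (M : ℝ) ^ 15) =
      (∑ k ∈ Finset.Ico (M ^ 2) K0, T k - ((K0 : ℝ) - (M : ℝ) ^ 2) * (lam * aa j)) +
      (T K0 - lam * aa j) + aa j * (((K0 : ℝ) + 1) * lam - L) := by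
    rw [hlam]; ring
  rw [hid]
  refine (abs_add_le _ _).trans ((add_le_add (abs_add_le _ _) le_rfl).trans ?_)
  have hpow : (M : ℝ) ^ 17 = (M : ℝ) ^ 16 * M := by ring
  have e1 : 6 * (M : ℝ) ^ 7 * ((M : ℝ) ^ 9 * (14 * Real.log M)) ≤ 84 / 300 * (M : ℝ) ^ 17 := by
    calc 6 * (M : ℝ) ^ 7 * ((M : ℝ) ^ 9 * (14 * Real.log M))
        = 84 * (M : ℝ) ^ 16 * Real.log M := by ring
      _ ≤ 84 * (M : ℝ) ^ 16 * (1 / 300 * M) := mul_le_mul_of_nonneg_left hlog (by positivity)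
      _ = 84 / 300 * (M : ℝ) ^ 17 := by ring
  have e2 : lam * (1 + 14 * Real.log M) + (1 + |aa J₀|) * lam ≤ 2 * (M : ℝ) ^ 14 := by
    have h1 : (1 + 14 * Real.log M) + (1 + |aa J₀|) ≤ 2 * M := by
      have := abs_nonneg (aa J₀)
      linarith only [hMa, hlog]
    calc lam * (1 + 14 * Real.log M) + (1 + |aa J₀|) * lam
        = lam * ((1 + 14 * Real.log M) + (1 + |aa J₀|)) := by ring
      _ ≤ lam * (2 * M) := mul_le_mul_of_nonneg_left h1 hlam0.le
      _ = 2 * (M : ℝ) ^ 14 := by rw [hlam]; ring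
  have e3 : 4 * (M : ℝ) ^ 14 ≤ (M : ℝ) ^ 17 := by
    have h1 : (4 : ℝ) ≤ M * M := by nlinarith only [hM2]
    calc 4 * (M : ℝ) ^ 14 ≤ (M * M) * (M : ℝ) ^ 14 := mul_le_mul_of_nonneg_right h1 (by positivity)
      _ = (M : ℝ) ^ 16 := by ring
      _ ≤ (M : ℝ) ^ 17 := pow_le_pow_right₀ hM1 (by norm_num)
  have e4 : (0 : ℝ) ≤ (M : ℝ) ^ 17 := by positivity
  linarith only [hlam0, e1, e2, e3, hXbig, hmain, hbd, hfin]

/-! ### the largest prime factor -/

theorem le_gpf {D q : ℕ} (hD : D ≠ 0) (hq : q.Prime) (hqD : q ∣ D) : q ≤ gpf D :=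
  Finset.le_sup (f := (id : ℕ → ℕ)) (Nat.mem_primeFactors.2 ⟨hq, hqD, hD⟩)

theorem gpf_le {D B : ℕ} (h : ∀ q : ℕ, q.Prime → q ∣ D → q ≤ B) : gpf D ≤ B := by
  apply Finset.sup_le
  intro q hq
  rw [Nat.mem_primeFactors] at hq
  exact h q hq.1 hq.2.1

theorem YY_near : ∀ᶠ M : ℕ in atTop, ∀ (J P D : ℕ), 1 ≤ J → Ch M J P D →
    ll (P : ℝ) ≤ 5 * (M : ℝ) ^ 20 →
    ll (P : ℝ) - (M : ℝ) ^ 15 - M ≤ YY M D ∧ YY M D ≤ ll (P : ℝ) - (M : ℝ) ^ 15 := by
  filter_upwards [ev_log_le (1 / 300) (by norm_num), ev_ge 4] with M hlog hM4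
  intro J P D hJ hC _
  obtain ⟨J', rfl⟩ : ∃ J', J = J' + 1 := ⟨J - 1, by omega⟩
  have hM0 : (0 : ℝ) < M := by linarith only [hM4]
  have hlt := Ch_prime_lt_top hC
  have hD0 := Ch_ne_zero hC
  obtain ⟨P', D', hDD, hP, -, hC', -, -⟩ := Ch_succ hC
  have hPb := hP.big.2
  have hP2 := hP.ge_two
  have hPpr := hP.big.1
  constructor
  · -- lower bound
    have hlogP : Real.exp ((M : ℝ) ^ 15) ≤ Real.log P := by
      rw [← exp_ll (prime_one_lt hPpr)]
      exact Real.exp_le_exp.2 hPb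
    have h15 : (M : ℝ) ^ 15 + 1 ≤ Real.exp ((M : ℝ) ^ 15) := Real.add_one_le_exp _
    have hM15 : (M : ℝ) ≤ (M : ℝ) ^ 15 := le_self_pow₀ (by linarith only [hM4]) (by norm_num)
    have hP3 : 3 ≤ P := by
      by_contra hcon
      have hP2' : P = 2 := by omega
      rw [hP2'] at hlogP
      have := Real.log_two_lt_d9
      push_cast at hlogP
      linarith only [hM15, hlogP, h15, this]
    have hP1 : P - 1 ≠ 0 := by omega
    have hdvd : ∀ q : ℕ, q.Prime → q ∣ P - 1 → q ≤ gpf D := by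
      intro q hq hqd
      apply le_gpf hD0 hq
      rw [hDD]
      exact Dvd.dvd.mul_right hqd _
    obtain ⟨q0, hq0, hq0d⟩ := Nat.exists_prime_and_dvd (n := P - 1) (by omega)
    have hg2 : 2 ≤ gpf D := hq0.two_le.trans (hdvd q0 hq0 hq0d)
    have hg1 : (1 : ℝ) < gpf D := by exact_mod_cast hg2
    have h1 : Real.log ((P - 1 : ℕ) : ℝ) ≤ (Om (P - 1) : ℝ) * Real.log (gpf D) :=
      log_le_Om_mul hP1 fun q hq hqd => by
        apply Real.log_le_log
        · exact_mod_cast hq.pos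
        · exact_mod_cast hdvd q hq hqd
    have hlg : 0 < Real.log (gpf D) := Real.log_pos hg1
    have h2 : Real.log ((P - 1 : ℕ) : ℝ) ≤ (M : ℝ) ^ 25 * Real.log (gpf D) := by
      refine h1.trans (mul_le_mul_of_nonneg_right ?_ hlg.le)
      exact_mod_cast hP.om_le
    have h3 : Real.log P ≤ 2 * Real.log ((P - 1 : ℕ) : ℝ) := by
      have h4 : (P : ℝ) ≤ ((P - 1 : ℕ) : ℝ) ^ 2 := by
        have h5 : P ≤ (P - 1) ^ 2 := by
          obtain ⟨t, rfl⟩ : ∃ t, P = t + 3 := ⟨P - 3, by omega⟩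
          have : t + 3 - 1 = t + 2 := by omega
          rw [this]
          nlinarith only []
        exact_mod_cast h5
      have h6 := Real.log_le_log (by exact_mod_cast hPpr.pos) h4
      rw [Real.log_pow] at h6
      exact_mod_cast h6
    have hPlog : 0 < Real.log P := Real.log_pos (prime_one_lt hPpr)
    have h7 : Real.log P ≤ 2 * (M : ℝ) ^ 25 * Real.log (gpf D) := by linarith only [h2, h3]
    have h8 : ll (P : ℝ) ≤ Real.log 2 + 25 * Real.log M + ll (gpf D : ℝ) := by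
      unfold ll
      have h9 := Real.log_le_log hPlog h7
      rw [Real.log_mul (by positivity) hlg.ne', Real.log_mul (by norm_num) (by positivity),
        Real.log_pow] at h9
      push_cast at h9
      exact h9
    have h10 := Real.log_two_lt_d9
    unfold YY
    refine le_trans ?_ (le_max_right _ _)
    linarith only [h8, hM4, hlog, h10]
  · -- upper bound
    unfold YY
    apply max_le (by linarith only [hPb])
    rcases Nat.lt_or_ge (gpf D) 2 with hg | hg
    · have h1 : ll (gpf D : ℝ) = 0 := by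
        unfold ll
        interval_cases (gpf D) <;> simp
      rw [h1]
      have : (0 : ℝ) ≤ (M : ℝ) ^ 15 := by positivity
      linarith only [hPb, this]
    · have h1 : gpf D ≤ P := gpf_le fun q hq hqd => (hlt q hq hqd).le
      have h2 : ll (gpf D : ℝ) ≤ ll (P : ℝ) :=
        ll_le_ll (by exact_mod_cast hg) (by exact_mod_cast h1)
      linarith only [h2]

end Vale.Agent.P031
end
end

section

section

/-!
# P031: one step bounds for the cost functional
-/

namespace Vale.Agent.P031.Rc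

open Finset Filter Topology

/-- shifted scale of a prime -/
noncomputable def xi (M p : ℕ) : ℝ := ll (p : ℝ) - (M : ℝ) ^ 15

/-- minimal admissible shifted scale above `D` -/
noncomputable def xs (M D : ℕ) : ℝ := max (YY M D) (HH M 1 D)

theorem Cost_succ (M j D : ℕ) (hj : 1 ≤ j) :
    Cost M (j + 1) D = Psi (j - 1) (xs M D) (fun i => aa i * xs M D + HH M (i + 1) D) := by
  obtain ⟨k, rfl⟩ : ∃ k, j = k + 1 := ⟨j - 1, by omega⟩
  simp [Cost, Psi, xs]

theorem Om_mul {a b : ℕ} (ha : a ≠ 0) (hb : b ≠ 0) : Om (a * b) = Om a + Om b := by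
  have := ArithmeticFunction.cardFactors_mul ha hb
  simpa [ArithmeticFunction.cardFactors_apply, Om] using this

theorem Om_le_of_dvd {a b : ℕ} (hb : b ≠ 0) (h : a ∣ b) : Om a ≤ Om b := by
  obtain ⟨c, rfl⟩ := h
  have ha : a ≠ 0 := left_ne_zero_of_mul hb
  have hc : c ≠ 0 := right_ne_zero_of_mul hb
  rw [Om_mul ha hc]
  omega

theorem YY_nonneg (M D : ℕ) : 0 ≤ YY M D := le_max_left _ _

theorem gpf_prime {D : ℕ} (hD : 2 ≤ D) : (gpf D).Prime ∧ gpf D ∣ D := by
  have hne : D.primeFactors.Nonempty := Nat.nonempty_primeFactors.2 hD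
  have h1 : gpf D ∈ D.primeFactors := by
    obtain ⟨q, hq, hq2⟩ := Finset.exists_mem_eq_sup D.primeFactors hne id
    have : gpf D = q := hq2
    rw [this]
    exact hq
  exact ⟨Nat.prime_of_mem_primeFactors h1, Nat.dvd_of_mem_primeFactors h1⟩

theorem YY_small {M D : ℕ} (hD : Small M D) : YY M D = 0 := by
  unfold YY
  apply max_eq_left
  rcases Nat.lt_or_ge D 2 with h | h
  · have h1 : D = 1 := by
      have := hD.1
      omega
    subst h1
    have : gpf 1 = 0 := by simp [gpf]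
    rw [this]
    have h2 : (0 : ℝ) ≤ (M : ℝ) ^ 15 := by positivity
    simp [ll, h2]
  · obtain ⟨h1, h2⟩ := gpf_prime h
    have h3 := hD.2 _ h2
    unfold Big at h3
    have h4 : ¬ ((M : ℝ) ^ 15 ≤ ll ((gpf D : ℕ) : ℝ)) := fun h5 => h3 ⟨h1, h5⟩
    linarith [not_le.1 h4]

theorem Small_of_Ch_zero {M P D : ℕ} (h : Ch M 0 P D) (hM : 1 ≤ M) (hD : D ≠ 0) : Small M D := by
  refine ⟨hD, fun q hq hb => ?_⟩
  cases h with
  | nil n s hn hs =>
    have := Ch_prime_le M 0 1 D (Ch.nil n D hn hs) hM q hb hq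
    have h2 := hb.1.two_le
    omega

theorem ll_prime_mono {p q : ℕ} (hp : p.Prime) (h : p ≤ q) : ll (p : ℝ) ≤ ll (q : ℝ) :=
  ll_mono (by exact_mod_cast hp.one_lt) (by exact_mod_cast h)

theorem prime_dvd_le {M J P p D : ℕ} (hM : 1 ≤ M) (hch : Ch M J P D) (hPp : P < p)
    (hp : Big M p) {q : ℕ} (hq : q.Prime) (hqD : q ∣ D) : q ≤ p := by
  by_cases hb : Big M q
  · have := Ch_prime_le M J P D hch hM q hb hqD
    omega
  · by_contra hlt
    push Not at hlt
    have h1 := ll_prime_mono hp.1 hlt.le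
    exact hb ⟨hq, hp.2.trans h1⟩

theorem Ch_top {M J P D : ℕ} (h : Ch M (J + 1) P D) : Nrm M P := by
  cases h with
  | cons p J P D hp hP hD hG hsq => exact hp

/-- `YY D ≤ ξ(p)` if `D` has a chain with top prime below `p`. -/
theorem YY_le_xi : ∀ᶠ M : ℕ in atTop, ∀ J P p D : ℕ, Nrm M p → P < p → Ch M J P D →
    ll (p : ℝ) ≤ 5 * (M : ℝ) ^ 20 → D ≠ 0 → YY M D ≤ xi M p := by
  filter_upwards [YY_near, eventually_ge_atTop 1] with M hY hM J P p D hp hPp hch hl hD
  cases J with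
  | zero =>
    rw [YY_small (Small_of_Ch_zero hch hM hD)]
    unfold xi
    have := hp.big.2
    linarith only [this]
  | succ J =>
    have hPn := Ch_top hch
    have h1 := ll_prime_mono hPn.big.1 hPp.le
    have h2 := (hY (J + 1) P D (by omega) hch (h1.trans hl)).2
    unfold xi
    linarith only [h2, h1]

/-- bound for `a_i` -/
theorem aa_bound (j : ℕ) : ∃ A : ℝ, 1 ≤ A ∧ ∀ i : ℕ, 1 ≤ i → i ≤ j → 0 < aa i ∧ aa i ≤ A := by
  refine ⟨max 1 (aa j), le_max_left _ _, fun i hi hij => ⟨aa_nonneg i hi, ?_⟩⟩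
  exact (aa_mono i j hij).trans (le_max_right _ _)

/-- Lower bound for the cost after adding a prime. -/
theorem cost_lower (J₀ j : ℕ) (hj : 1 ≤ j) (hjJ : j ≤ J₀) : ∃ c C : ℝ, 0 < c ∧ 0 < C ∧
    ∀ᶠ M : ℕ in atTop, ∀ J P p D : ℕ, Nrm M p → P < p → Ch M J P D →
      GG M ((p - 1) * D) ≤ (M : ℝ) ^ 18 → ll (p : ℝ) ≤ 5 * (M : ℝ) ^ 20 → D ≠ 0 →
      Om ((p - 1) * D) ≤ M ^ 26 → NoSq M ((p - 1) * D) →
      xs M D - 2 * (M : ℝ) ^ 18 ≤ xi M p ∧
      Cost M (j + 1) D + c * (xi M p - xs M D) - C * (M : ℝ) ^ 18 ≤ Cost M j ((p - 1) * D) := by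
  obtain ⟨A, hA1, hA⟩ := aa_bound j
  obtain ⟨C1, hC1, hlip⟩ := Psi_lip (j - 1)
  obtain ⟨c, hc, hgr⟩ := Psi_growth (j - 1)
  refine ⟨c, C1 + 2 * c + C1 * A * 2, hc, by positivity, ?_⟩
  filter_upwards [step J₀, YY_near, YY_le_xi, eventually_ge_atTop 2] with M hstep hYn hYle hM
    J P p D hp hPp hch hG hl hD hOm hsq
  have hM1 : 1 ≤ M := by omega
  have hMr : (2 : ℝ) ≤ M := by exact_mod_cast hM
  have hp1 : p - 1 ≠ 0 := by have := hp.big.1.two_le; omega
  have hDD : (p - 1) * D ≠ 0 := mul_ne_zero hp1 hD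
  have hOmD : Om D ≤ M ^ 26 := (Om_le_of_dvd hDD (dvd_mul_left D (p - 1))).trans hOm
  have hq : ∀ q : ℕ, q.Prime → q ∣ D → q ≤ p := fun q hq hqD =>
    prime_dvd_le hM1 hch hPp hp.big hq hqD
  have hch' : Ch M (J + 1) p ((p - 1) * D) := Ch.cons p J P D hp hPp hch hG hsq
  have hs : ∀ i : ℕ, i ≤ J₀ → |HH M i ((p - 1) * D) - HH M (i + 1) D - aa i * xi M p| ≤
      (M : ℝ) ^ 17 := fun i hi => hstep i p D hi hp hl hD hOmD hq
  have h17 : (M : ℝ) ^ 17 ≤ (M : ℝ) ^ 18 := pow_le_pow_right₀ (by linarith only [hMr]) (by norm_num)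
  have hM18 : (M : ℝ) ≤ (M : ℝ) ^ 18 := by
    calc (M : ℝ) = (M : ℝ) ^ 1 := (pow_one _).symm
      _ ≤ (M : ℝ) ^ 18 := pow_le_pow_right₀ (by linarith only [hMr]) (by norm_num)
  -- ξ ≥ ξ* - 2 M^18
  have hxs : xs M D - 2 * (M : ℝ) ^ 18 ≤ xi M p := by
    have h1 := hYle J P p D hp hPp hch hl hD
    have h2 := hs 0 (Nat.zero_le _)
    rw [HH_zero, aa_zero, abs_le, zero_add] at h2
    have h3 : HH M 1 D ≤ xi M p + 2 * (M : ℝ) ^ 18 := by linarith only [h17, hG, h2.1]
    have h4 : (0 : ℝ) ≤ 2 * (M : ℝ) ^ 18 := by positivity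
    have : xs M D ≤ xi M p + 2 * (M : ℝ) ^ 18 := max_le (by linarith only [hM18, h1]) h3
    linarith only [this]
  refine ⟨hxs, ?_⟩
  rw [Cost_succ M j D hj]
  -- first: replace the data of (p-1) D
  have hstep1 : Psi (j - 1) (xi M p) (fun i => aa i * xi M p + HH M (i + 1) D) ≤
      Cost M j ((p - 1) * D) + C1 * (M : ℝ) ^ 18 := by
    unfold Cost
    refine hlip _ _ _ _ _ (by positivity) ?_ ?_
    · have := (hYn (J + 1) p ((p - 1) * D) (by omega) hch' hl).1
      unfold xi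
      linarith only [hM18, this]
    · intro i hi1 hi2
      have h2 := hs i (by omega)
      rw [abs_le] at h2
      show aa i * xi M p + HH M (i + 1) D ≤ HH M i ((p - 1) * D) + (M : ℝ) ^ 18
      linarith only [h17, h2.1]
  rcases le_total (xs M D) (xi M p) with h | h
  · have h3 := hgr (xs M D) (xi M p - xs M D) (fun i => aa i * xs M D + HH M (i + 1) D)
      (by linarith only [h])
    have h4 : (fun i => aa i * xs M D + HH M (i + 1) D + aa i * (xi M p - xs M D)) =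
        (fun i => aa i * xi M p + HH M (i + 1) D) := by
      funext i; ring
    rw [h4, show xs M D + (xi M p - xs M D) = xi M p by ring] at h3
    have h5 : 0 ≤ (2 * c + C1 * A * 2) * (M : ℝ) ^ 18 := by positivity
    linarith only [h3, hstep1, h5]
  · have h6 : xs M D - xi M p ≤ 2 * (M : ℝ) ^ 18 := by linarith only [hxs]
    have h7 : Psi (j - 1) (xs M D) (fun i => aa i * xs M D + HH M (i + 1) D) ≤
        Psi (j - 1) (xi M p) (fun i => aa i * xi M p + HH M (i + 1) D) +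
          C1 * (A * (2 * (M : ℝ) ^ 18)) := by
      refine hlip _ _ _ _ _ (by positivity) ?_ ?_
      · have : (2 : ℝ) * (M : ℝ) ^ 18 ≤ A * (2 * (M : ℝ) ^ 18) := by
          have h8 : (0 : ℝ) ≤ 2 * (M : ℝ) ^ 18 := by positivity
          nlinarith only [hM18, hA1]
        linarith only [this, hxs]
      · intro i hi1 hi2
        obtain ⟨h8, h9⟩ := hA i hi1 (by omega)
        show aa i * xs M D + HH M (i + 1) D ≤ aa i * xi M p + HH M (i + 1) D + A * (2 * (M : ℝ) ^ 18)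
        have h10 : aa i * (xs M D - xi M p) ≤ A * (2 * (M : ℝ) ^ 18) := by
          apply mul_le_mul h9 h6 (by linarith only [h]) (by linarith only [hA1])
        linarith only [h10]
    have h8 : c * (xi M p - xs M D) ≤ 0 := by nlinarith only [hc, h]
    have h9 : 0 ≤ 2 * c * (M : ℝ) ^ 18 := by positivity
    linarith only [h9, h8, h7, hstep1]

/-- Upper bound for the cost after adding a prime. -/
theorem cost_upper (J₀ j : ℕ) (hj : 1 ≤ j) (hjJ : j ≤ J₀) : ∃ C : ℝ, 0 < C ∧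
    ∀ᶠ M : ℕ in atTop, ∀ J P p D : ℕ, Nrm M p → P < p → Ch M J P D →
      GG M ((p - 1) * D) ≤ (M : ℝ) ^ 18 → ll (p : ℝ) ≤ 5 * (M : ℝ) ^ 20 → D ≠ 0 →
      Om ((p - 1) * D) ≤ M ^ 26 → NoSq M ((p - 1) * D) → xs M D ≤ xi M p →
      Cost M j ((p - 1) * D) ≤ Cost M (j + 1) D + C * (xi M p - xs M D) + C * (M : ℝ) ^ 17 := by
  obtain ⟨A, hA1, hA⟩ := aa_bound j
  obtain ⟨C1, hC1, hlip⟩ := Psi_lip (j - 1)
  refine ⟨C1 * A, by positivity, ?_⟩
  filter_upwards [step J₀, YY_near, eventually_ge_atTop 2] with M hstep hYn hM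
    J P p D hp hPp hch hG hl hD hOm hsq hle
  have hM1 : 1 ≤ M := by omega
  have hMr : (2 : ℝ) ≤ M := by exact_mod_cast hM
  have hp1 : p - 1 ≠ 0 := by have := hp.big.1.two_le; omega
  have hDD : (p - 1) * D ≠ 0 := mul_ne_zero hp1 hD
  have hOmD : Om D ≤ M ^ 26 := (Om_le_of_dvd hDD (dvd_mul_left D (p - 1))).trans hOm
  have hq : ∀ q : ℕ, q.Prime → q ∣ D → q ≤ p := fun q hq hqD =>
    prime_dvd_le hM1 hch hPp hp.big hq hqD
  have hch' : Ch M (J + 1) p ((p - 1) * D) := Ch.cons p J P D hp hPp hch hG hsq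
  have hs : ∀ i : ℕ, i ≤ J₀ → |HH M i ((p - 1) * D) - HH M (i + 1) D - aa i * xi M p| ≤
      (M : ℝ) ^ 17 := fun i hi => hstep i p D hi hp hl hD hOmD hq
  set t := xi M p - xs M D with ht
  have ht0 : 0 ≤ t := by linarith only [hle]
  have h17 : (0 : ℝ) ≤ (M : ℝ) ^ 17 := by positivity
  rw [Cost_succ M j D hj]
  have key : Cost M j ((p - 1) * D) ≤
      Psi (j - 1) (xs M D) (fun i => aa i * xs M D + HH M (i + 1) D) +
        C1 * (A * t + (M : ℝ) ^ 17) := by
    unfold Cost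
    refine hlip _ _ _ _ _ (by positivity) ?_ ?_
    · have := (hYn (J + 1) p ((p - 1) * D) (by omega) hch' hl).2
      have h2 : t ≤ A * t := by linarith only [mul_nonneg (sub_nonneg.2 hle) (sub_nonneg.2 hA1)]
      have h3 : ll (p : ℝ) - (M : ℝ) ^ 15 = xs M D + t := by
        rw [ht]; unfold xi; ring
      linarith only [h3, h2, this, h17]
    · intro i hi1 hi2
      have h2 := hs i (by omega)
      rw [abs_le] at h2
      obtain ⟨h8, h9⟩ := hA i hi1 (by omega)
      show HH M i ((p - 1) * D) ≤ aa i * xs M D + HH M (i + 1) D + (A * t + (M : ℝ) ^ 17)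
      have h3 : aa i * t ≤ A * t := by linarith only [mul_nonneg (sub_nonneg.2 hle) (sub_nonneg.2 h9)]
      have h4 : aa i * xi M p = aa i * xs M D + aa i * t := by rw [ht]; ring
      linarith only [h3, h2.2]
  have hCA : C1 ≤ C1 * A := by nlinarith only [hA1, hC1]
  linarith only [mul_nonneg (sub_nonneg.2 hCA) (sub_nonneg.2 h17), key]

end Vale.Agent.P031.Rc
end
end

section

section

/-!
# P031: pairs of chains with the same product are rare (reduction to collisions)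
-/

namespace Vale.Agent.P031

open Finset Filter Topology

/-- unfolding a chain into a set of normal primes and a small cofactor -/
theorem Ch_unfold {M J P D : ℕ} (h : Ch M J P D) :
    ∃ (S : Finset ℕ) (s : ℕ), (∀ t ∈ S, Nrm M t ∧ t ≤ P) ∧ S.card = J ∧ Small M s ∧
      D = (∏ t ∈ S, (t - 1)) * s := by
  induction h with
  | nil n s hn hs =>
    refine ⟨∅, s, by simp, by simp, ?_, by simp⟩
    rw [← hs]
    exact Small_totient hn
  | cons p J P D hp hP hD hG hsq ih =>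
    obtain ⟨S, s, hS, hc, hs, hv⟩ := ih
    have hpS : p ∉ S := fun hm => absurd (hS p hm).2 (not_le.mpr hP)
    refine ⟨insert p S, s, ?_, ?_, hs, ?_⟩
    · intro t ht
      rcases Finset.mem_insert.mp ht with rfl | ht
      · exact ⟨hp, le_refl _⟩
      · exact ⟨(hS t ht).1, ((hS t ht).2.trans_lt hP).le⟩
    · rw [Finset.card_insert_of_notMem hpS, hc]
    · rw [Finset.prod_insert hpS, hv, mul_assoc]

/-- the representation attached to a pair -/
theorem PD_rep {M r : ℕ} {x : ℝ} {a : ℕ × ℕ} (hr : r < M) (h : PD M r x a) :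
    ∃ q : Finset ℕ × ℕ, Rep M q.1 q.2 ((a.1 - 1) * a.2) ∧ a.1 ∈ q.1 ∧ ∀ t ∈ q.1, t ≤ a.1 := by
  obtain ⟨J, P, hJ, hch, hP⟩ := h.dd
  obtain ⟨S, s, hS, hc, hs, hv⟩ := Ch_unfold hch
  have hpS : a.1 ∉ S := fun hm => absurd (hS _ hm).2 (not_le.mpr hP)
  refine ⟨(insert a.1 S, s), ⟨?_, ?_, hs, ?_⟩, Finset.mem_insert_self _ _, ?_⟩
  · intro t ht
    rcases Finset.mem_insert.mp ht with rfl | ht
    · exact h.nrm.big
    · exact (hS t ht).1.big
  · rw [Finset.card_insert_of_notMem hpS, hc]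
    omega
  · show (a.1 - 1) * a.2 = (∏ p ∈ insert a.1 S, (p - 1)) * s
    rw [Finset.prod_insert hpS, mul_assoc, ← hv]
  · intro t ht
    rcases Finset.mem_insert.mp ht with rfl | ht
    · exact le_refl _
    · exact ((hS t ht).2.trans_lt hP).le

/-- the common construction behind `col_use_count` and `col_use_mass` -/
theorem col_use_aux {M r : ℕ} {x : ℝ} (A : Finset (ℕ × ℕ)) (hr : r < M)
    (hA : ∀ a ∈ A, PD M r x a) :
    ∃ G : (ℕ × ℕ) × (ℕ × ℕ) → Finset ℕ × ℕ × Finset ℕ × ℕ,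
      Set.InjOn G ((A ×ˢ A).filter (fun c => c.1 ≠ c.2 ∧
        (c.1.1 - 1) * c.1.2 = (c.2.1 - 1) * c.2.2) : Finset ((ℕ × ℕ) × (ℕ × ℕ))) ∧
      ∀ c ∈ (A ×ˢ A).filter (fun c => c.1 ≠ c.2 ∧
        (c.1.1 - 1) * c.1.2 = (c.2.1 - 1) * c.2.2),
        ColPair M x (G c) ((c.1.1 - 1) * c.1.2) := by
  classical
  have hF : ∀ a : ℕ × ℕ, ∃ q : Finset ℕ × ℕ, a ∈ A →
      Rep M q.1 q.2 ((a.1 - 1) * a.2) ∧ a.1 ∈ q.1 ∧ ∀ t ∈ q.1, t ≤ a.1 := by
    intro a
    by_cases ha : a ∈ A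
    · obtain ⟨q, hq⟩ := PD_rep hr (hA a ha)
      exact ⟨q, fun _ => hq⟩
    · exact ⟨(∅, 0), fun h => absurd h ha⟩
  choose F hF using hF
  have hpos : ∀ a ∈ A, 0 < a.1 - 1 := by
    intro a ha
    have := (hA a ha).nrm.ge_two
    omega
  have hinj : ∀ a ∈ A, ∀ b ∈ A, F a = F b → a = b := by
    intro a ha b hb hab
    obtain ⟨ra, ma, ta⟩ := hF a ha
    obtain ⟨rb, mb, tb⟩ := hF b hb
    have h1 : a.1 = b.1 := by
      apply le_antisymm
      · exact tb a.1 (hab ▸ ma)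
      · exact ta b.1 (hab.symm ▸ mb)
    have h2 : (a.1 - 1) * a.2 = (b.1 - 1) * b.2 := by
      rw [ra.val, rb.val, hab]
    rw [← h1] at h2
    have h3 : a.2 = b.2 := Nat.eq_of_mul_eq_mul_left (hpos a ha) h2
    exact Prod.ext h1 h3
  refine ⟨fun c => ((F c.1).1, (F c.1).2, (F c.2).1, (F c.2).2), ?_, ?_⟩
  · intro c hc d hd hcd
    simp only [Finset.coe_filter, Finset.mem_product, Set.mem_ofPred_eq] at hc hd
    simp only [Prod.mk.injEq] at hcd
    obtain ⟨e1, e2, e3, e4⟩ := hcd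
    have h1 : c.1 = d.1 := hinj _ hc.1.1 _ hd.1.1 (Prod.ext e1 e2)
    have h2 : c.2 = d.2 := hinj _ hc.1.2 _ hd.1.2 (Prod.ext e3 e4)
    exact Prod.ext h1 h2
  · intro c hc
    simp only [Finset.mem_filter, Finset.mem_product] at hc
    obtain ⟨⟨h1, h2⟩, hne, heq⟩ := hc
    obtain ⟨ra, ma, ta⟩ := hF _ h1
    obtain ⟨rb, mb, tb⟩ := hF _ h2
    have hp := hA _ h1
    refine ⟨ra, ?_, hp.le, hp.om, hp.nosq, hp.gg, ?_⟩
    · rw [heq]
      exact rb
    · refine ⟨c.1.1, c.2.1, ma, mb, ta, tb, ?_, hp.nrm, (hA _ h2).nrm⟩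
      intro he
      apply hne
      rw [← he] at heq
      exact Prod.ext he (Nat.eq_of_mul_eq_mul_left (hpos _ h1) heq)

theorem col_use_count_of (hcl : ClCount) :
    ∀ᶠ M : ℕ in atTop, ∀ (r : ℕ) (x : ℝ) (A : Finset (ℕ × ℕ)), r < M →
    3 ≤ x → ll x ≤ 5 * (M : ℝ) ^ 20 → (∀ a ∈ A, PD M r x a) →
    (((A ×ˢ A).filter (fun c => c.1 ≠ c.2 ∧
      (c.1.1 - 1) * c.1.2 = (c.2.1 - 1) * c.2.2)).card : ℝ)
      ≤ x / Real.log x * Real.exp (-(M : ℝ) ^ 18 / 2) := by
  filter_upwards [hcl] with M hM r x A hr hx hll hA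
  classical
  obtain ⟨G, hG, hcp⟩ := col_use_aux A hr hA
  have h1 := hM x (((A ×ˢ A).filter (fun c => c.1 ≠ c.2 ∧
      (c.1.1 - 1) * c.1.2 = (c.2.1 - 1) * c.2.2)).image G) hx hll (by
    intro q hq
    obtain ⟨c, hc, rfl⟩ := Finset.mem_image.mp hq
    exact ⟨_, hcp c hc⟩)
  rwa [Finset.card_image_of_injOn hG] at h1

theorem col_use_mass_of (hcl : ClMass) :
    ∀ᶠ M : ℕ in atTop, ∀ (r : ℕ) (x : ℝ) (A : Finset (ℕ × ℕ)), r < M →
    3 ≤ x → ll x ≤ 5 * (M : ℝ) ^ 20 → (∀ a ∈ A, PD M r x a) →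
    ∑ c ∈ (A ×ˢ A).filter (fun c => c.1 ≠ c.2 ∧
      (c.1.1 - 1) * c.1.2 = (c.2.1 - 1) * c.2.2), 1 / (((c.1.1 - 1) * c.1.2 : ℕ) : ℝ)
      ≤ Real.exp (-(M : ℝ) ^ 18 / 4) := by
  filter_upwards [hcl] with M hM r x A hr hx hll hA
  classical
  obtain ⟨G, hG, hcp⟩ := col_use_aux A hr hA
  have h1 := hM x (((A ×ˢ A).filter (fun c => c.1 ≠ c.2 ∧
      (c.1.1 - 1) * c.1.2 = (c.2.1 - 1) * c.2.2)).image G)
      (fun q => (∏ p ∈ q.1, (p - 1)) * q.2.1) hx hll (by
    intro q hq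
    obtain ⟨c, hc, rfl⟩ := Finset.mem_image.mp hq
    have h2 := hcp c hc
    have h3 := h2.rep.val
    show ColPair M x (G c) ((∏ p ∈ (G c).1, (p - 1)) * (G c).2.1)
    rw [← h3]
    exact h2)
  rw [Finset.sum_image hG] at h1
  refine le_trans (le_of_eq ?_) h1
  refine Finset.sum_congr rfl fun c hc => ?_
  have h2 := (hcp c hc).rep.val
  show 1 / (((c.1.1 - 1) * c.1.2 : ℕ) : ℝ) =
    1 / (((∏ p ∈ (G c).1, (p - 1)) * (G c).2.1 : ℕ) : ℝ)
  rw [← h2]

end Vale.Agent.P031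
end
end

section

/-! The Selberg upper bound sieve on top of Mathlib's `BoundingSieve`. -/

open Finset Nat ArithmeticFunction
open scoped ArithmeticFunction.Moebius

namespace Vale.Agent.P005.Selberg

open BoundingSieve

variable (s : BoundingSieve) (z : ℕ)

/-- the divisors of `prodPrimes` up to `z` -/
def dset : Finset ℕ := s.prodPrimes.divisors.filter (· ≤ z)

/-- The Selberg main term sum. -/
noncomputable def SS : ℝ := ∑ l ∈ dset s z, s.selbergTerms l

/-- The Selberg weights. -/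
noncomputable def wt (d : ℕ) : ℝ :=
  (μ d : ℝ) / s.nu d * (∑ l ∈ dset s z, if d ∣ l then s.selbergTerms l else 0) / SS s z

variable {s z}

lemma mem_dset {d : ℕ} : d ∈ dset s z ↔ d ∣ s.prodPrimes ∧ d ≤ z := by
  simp [dset, prodPrimes_ne_zero]

lemma dset_subset : dset s z ⊆ s.prodPrimes.divisors := Finset.filter_subset _ _

lemma SS_pos (hz : 1 ≤ z) : 0 < SS s z := by
  unfold SS
  apply Finset.sum_pos
  · intro l hl
    exact selbergTerms_pos (mem_dset.1 hl).1
  · exact ⟨1, mem_dset.2 ⟨one_dvd _, hz⟩⟩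

lemma wt_one (hz : 1 ≤ z) : wt s z 1 = 1 := by
  have h := SS_pos (s := s) hz
  have h1 : s.nu 1 = 1 := s.nu_mult.map_one
  unfold wt
  rw [h1]
  simp only [moebius_apply_one, Int.cast_one, one_dvd, if_true, div_one, one_mul]
  exact div_self h.ne'

lemma sum_moebius (m : ℕ) : (∑ d ∈ m.divisors, (μ d : ℤ)) = if m = 1 then 1 else 0 := by
  rw [← ArithmeticFunction.coe_mul_zeta_apply, moebius_mul_coe_zeta, ArithmeticFunction.one_apply]

/-- `∑_{l ∣ d ∣ k} μ(d) = μ(l) [k = l]`. -/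
lemma sum_moebius_between {l k : ℕ} (hk : Squarefree k) :
    (∑ d ∈ k.divisors, if l ∣ d then (μ d : ℤ) else 0) = if k = l then μ l else 0 := by
  by_cases hlk : l ∣ k
  · obtain ⟨m, rfl⟩ := hlk
    have hl0 : l ≠ 0 := by
      rintro rfl; simp at hk
    have hm0 : m ≠ 0 := by
      rintro rfl; simp at hk
    rw [← Finset.sum_filter]
    have : (l * m).divisors.filter (fun d => l ∣ d) = m.divisors.image (fun e => l * e) := by
      ext d
      simp only [Finset.mem_filter, Nat.mem_divisors, Finset.mem_image]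
      constructor
      · rintro ⟨⟨h1, h2⟩, ⟨e, rfl⟩⟩
        exact ⟨e, ⟨Nat.dvd_of_mul_dvd_mul_left (Nat.pos_of_ne_zero hl0) h1, hm0⟩, rfl⟩
      · rintro ⟨e, ⟨h1, _⟩, rfl⟩
        exact ⟨⟨Nat.mul_dvd_mul_left l h1, mul_ne_zero hl0 hm0⟩, dvd_mul_right _ _⟩
    rw [this, Finset.sum_image (fun a _ b _ h => Nat.eq_of_mul_eq_mul_left (Nat.pos_of_ne_zero hl0) h)]
    have hcop : ∀ e ∈ m.divisors, μ (l * e) = μ l * μ e := by
      intro e he
      apply isMultiplicative_moebius.map_mul_of_coprime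
      have : Squarefree (l * m) := hk
      exact (Nat.coprime_of_squarefree_mul this).coprime_dvd_right (Nat.dvd_of_mem_divisors he)
    rw [Finset.sum_congr rfl hcop, ← Finset.mul_sum, sum_moebius]
    by_cases hm : m = 1
    · subst hm; simp
    · simp only [hm, if_false, mul_zero]
      rw [if_neg]
      intro h
      apply hm
      have : l * m = l * 1 := by simpa using h
      exact Nat.eq_of_mul_eq_mul_left (Nat.pos_of_ne_zero hl0) this
  · rw [if_neg (fun h => hlk (by rw [h]))]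
    apply Finset.sum_eq_zero
    intro d hd
    rw [if_neg]
    intro h
    exact hlk (h.trans (Nat.dvd_of_mem_divisors hd))

/-- The diagonal variables. -/
lemma diag (l : ℕ) (hl : l ∣ s.prodPrimes) :
    (∑ d ∈ s.prodPrimes.divisors, if l ∣ d then s.nu d * wt s z d else 0) =
      (if l ≤ z then (μ l : ℝ) * s.selbergTerms l else 0) / SS s z := by
  have h1 : ∀ d ∈ s.prodPrimes.divisors, (if l ∣ d then s.nu d * wt s z d else 0) =
      (∑ k ∈ dset s z, if d ∣ k then (if l ∣ d then (μ d : ℝ) else 0) * s.selbergTerms k else 0)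
        / SS s z := by
    intro d hd
    have hd' := Nat.dvd_of_mem_divisors hd
    have hnu : s.nu d ≠ 0 := nu_ne_zero hd'
    by_cases hld : l ∣ d
    · simp only [hld, if_true]
      unfold wt
      rw [mul_div_assoc', ← mul_assoc, mul_div_cancel₀ _ hnu, Finset.mul_sum]
      congr 1
      apply Finset.sum_congr rfl
      intro k _
      rw [mul_ite, mul_zero]
    · simp [hld]
  rw [Finset.sum_congr rfl h1, ← Finset.sum_div]
  congr 1
  rw [Finset.sum_comm]
  have h2 : ∀ k ∈ dset s z, (∑ d ∈ s.prodPrimes.divisors,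
      if d ∣ k then (if l ∣ d then (μ d : ℝ) else 0) * s.selbergTerms k else 0) =
      if k = l then (μ l : ℝ) * s.selbergTerms k else 0 := by
    intro k hk
    have hk' := (mem_dset.1 hk).1
    rw [← Finset.sum_filter, Nat.divisors_filter_dvd_of_dvd prodPrimes_ne_zero hk',
      ← Finset.sum_mul]
    have := sum_moebius_between (l := l) (squarefree_of_dvd_prodPrimes hk')
    have h3 : (∑ d ∈ k.divisors, if l ∣ d then (μ d : ℝ) else 0) = if k = l then (μ l : ℝ) else 0 := by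
      have h4 := congrArg (fun x : ℤ => (x : ℝ)) this
      simp only [Int.cast_sum, Int.cast_ite, Int.cast_zero] at h4
      exact h4
    rw [h3, ite_mul, zero_mul]
  rw [Finset.sum_congr rfl h2]
  by_cases hlz : l ≤ z
  · have : l ∈ dset s z := mem_dset.2 ⟨hl, hlz⟩
    rw [Finset.sum_ite_eq' (dset s z) l]
    simp [this, hlz]
  · have : l ∉ dset s z := fun h => hlz (mem_dset.1 h).2
    rw [Finset.sum_ite_eq' (dset s z) l]
    simp [this, hlz]

lemma mainSum_eq (hz : 1 ≤ z) : s.mainSum (lambdaSquared (wt s z)) = 1 / SS s z := by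
  have hS := SS_pos (s := s) hz
  rw [mainSum_lambdaSquared_eq_sum_mul_sum_sq]
  have h1 : ∀ l ∈ s.prodPrimes.divisors, (s.selbergTerms l)⁻¹ *
        (∑ d ∈ divisors s.prodPrimes, if l ∣ d then s.nu d * wt s z d else 0) ^ 2 =
        if l ≤ z then s.selbergTerms l / (SS s z)^2 else 0 := by
    intro l hl
    have hl' := Nat.dvd_of_mem_divisors hl
    rw [diag l hl']
    have hg := selbergTerms_pos hl'
    by_cases hlz : l ≤ z
    · simp only [hlz, if_true]
      have hmu : (μ l : ℝ)^2 = 1 := by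
        have := moebius_sq_eq_one_of_squarefree (squarefree_of_dvd_prodPrimes hl')
        exact_mod_cast this
      rw [div_pow, mul_pow, hmu]
      field_simp
    · simp [hlz]
  rw [Finset.sum_congr rfl h1, ← Finset.sum_filter, ← Finset.sum_div]
  change SS s z / _ = _
  field_simp

lemma abs_wt_le (hz : 1 ≤ z) (d : ℕ) (hd : d ∣ s.prodPrimes) : |wt s z d| ≤ 1 := by
  have hS := SS_pos (s := s) hz
  have hnu := nu_pos_of_dvd_prodPrimes hd
  have hmu : |(μ d : ℝ)| ≤ 1 := by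
    have := abs_moebius_le_one (n := d)
    exact_mod_cast this
  have hT0 : 0 ≤ (∑ l ∈ dset s z, if d ∣ l then s.selbergTerms l else 0) := by
    apply Finset.sum_nonneg
    intro l hl
    split_ifs
    · exact (selbergTerms_pos (mem_dset.1 hl).1).le
    · exact le_rfl
  -- key inequality
  have key : (∑ l ∈ dset s z, if d ∣ l then s.selbergTerms l else 0) / s.nu d ≤ SS s z := by
    -- the sum over multiples
    set M := (dset s z).filter (fun m => Nat.Coprime m d ∧ m * d ∈ dset s z) with hM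
    have hg : ∀ m ∈ M, s.selbergTerms (m * d) = s.selbergTerms m * s.selbergTerms d := by
      intro m hm
      exact selbergTerms_isMultiplicative.map_mul_of_coprime (Finset.mem_filter.1 hm).2.1
    have hd0 : 0 < d := Nat.pos_of_dvd_of_pos hd (Nat.pos_of_ne_zero prodPrimes_ne_zero)
    have h1 : (∑ l ∈ dset s z, if d ∣ l then s.selbergTerms l else 0) =
        s.selbergTerms d * ∑ m ∈ M, s.selbergTerms m := by
      rw [← Finset.sum_filter, Finset.mul_sum]
      have : (dset s z).filter (fun l => d ∣ l) = M.image (fun m => m * d) := by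
        ext l
        simp only [Finset.mem_filter, Finset.mem_image, hM]
        constructor
        · rintro ⟨hl, ⟨m, rfl⟩⟩
          have hsq := squarefree_of_dvd_prodPrimes (mem_dset.1 hl).1
          have hcop := Nat.coprime_of_squarefree_mul hsq
          refine ⟨m, ⟨?_, hcop.symm, by rwa [mul_comm]⟩, by rw [mul_comm]⟩
          have := mem_dset.1 hl
          refine mem_dset.2 ⟨(dvd_mul_left m d).trans this.1, ?_⟩
          exact le_trans (Nat.le_mul_of_pos_left m hd0) this.2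
        · rintro ⟨m, ⟨_, _, h3⟩, rfl⟩
          exact ⟨h3, dvd_mul_left _ _⟩
      rw [this, Finset.sum_image (fun a _ b _ h => Nat.eq_of_mul_eq_mul_right hd0 h)]
      apply Finset.sum_congr rfl
      intro m hm
      rw [hg m hm, mul_comm]
    have h2 : s.selbergTerms d / s.nu d = ∑ k ∈ d.divisors, s.selbergTerms k := by
      rw [div_eq_mul_inv, ← sum_divisors_selbergTerms_eq_selbergTerms_mul_nu_inv hd,
        ← Finset.sum_filter, Nat.divisors_filter_dvd_of_dvd prodPrimes_ne_zero hd]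
    rw [h1, mul_div_right_comm, h2, Finset.sum_mul_sum, ← Finset.sum_product']
    -- injection (k, m) ↦ k * m
    have hinj : Set.InjOn (fun x : ℕ × ℕ => x.1 * x.2) (d.divisors ×ˢ M : Finset (ℕ × ℕ)) := by
      rintro ⟨k, m⟩ h ⟨k', m'⟩ h' heq
      simp only [Finset.coe_product, Set.mem_prod, Finset.mem_coe, Nat.mem_divisors] at h h' heq
      have hc : Nat.Coprime m d := (Finset.mem_filter.1 h.2).2.1
      have hc' : Nat.Coprime m' d := (Finset.mem_filter.1 h'.2).2.1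
      have e1 : k = Nat.gcd (k * m) d := by
        rw [Nat.Coprime.gcd_mul_right_cancel k hc]
        exact (Nat.gcd_eq_left h.1.1).symm
      have e2 : k' = Nat.gcd (k' * m') d := by
        rw [Nat.Coprime.gcd_mul_right_cancel k' hc']
        exact (Nat.gcd_eq_left h'.1.1).symm
      have ek : k = k' := by rw [e1, e2, heq]
      subst ek
      have hk0 : 0 < k := Nat.pos_of_dvd_of_pos h.1.1 hd0
      have := Nat.eq_of_mul_eq_mul_left hk0 heq
      rw [this]
    have hprod : ∀ x ∈ d.divisors ×ˢ M, s.selbergTerms x.1 * s.selbergTerms x.2 =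
        s.selbergTerms (x.1 * x.2) := by
      rintro ⟨k, m⟩ h
      simp only [Finset.mem_product, Nat.mem_divisors] at h
      have hc : Nat.Coprime m d := (Finset.mem_filter.1 h.2).2.1
      exact (selbergTerms_isMultiplicative.map_mul_of_coprime
        (hc.symm.coprime_dvd_left h.1.1)).symm
    rw [Finset.sum_congr rfl hprod, ← Finset.sum_image (g := fun x : ℕ × ℕ => x.1 * x.2)
      (f := fun l => s.selbergTerms l) hinj]
    unfold SS
    apply Finset.sum_le_sum_of_subset_of_nonneg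
    · intro l hl
      obtain ⟨⟨k, m⟩, hx, rfl⟩ := Finset.mem_image.1 hl
      simp only [Finset.mem_product, Nat.mem_divisors] at hx
      have hmM := Finset.mem_filter.1 hx.2
      have hmd := mem_dset.1 hmM.2.2
      have hkd : k * m ∣ m * d := by rw [mul_comm k m]; exact Nat.mul_dvd_mul_left m hx.1.1
      refine mem_dset.2 ⟨hkd.trans hmd.1, le_trans (Nat.le_of_dvd ?_ hkd) hmd.2⟩
      exact Nat.pos_of_dvd_of_pos hmd.1 (Nat.pos_of_ne_zero prodPrimes_ne_zero)
    · intro l hl _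
      exact (selbergTerms_pos (mem_dset.1 hl).1).le
  have e : wt s z d = (μ d : ℝ) * (((∑ l ∈ dset s z, if d ∣ l then s.selbergTerms l else 0) / s.nu d)
      / SS s z) := by
    unfold wt; ring
  rw [e, abs_mul]
  have h5 : |((∑ l ∈ dset s z, if d ∣ l then s.selbergTerms l else 0) / s.nu d) / SS s z| ≤ 1 := by
    rw [abs_of_nonneg (by positivity), div_le_one hS]
    exact key
  calc _ ≤ 1 * 1 := mul_le_mul hmu h5 (abs_nonneg _) zero_le_one
    _ = 1 := one_mul 1

lemma wt_eq_zero {d : ℕ} (hdz : z < d) : wt s z d = 0 := by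
  unfold wt
  have : (∑ l ∈ dset s z, if d ∣ l then s.selbergTerms l else 0) = 0 := by
    apply Finset.sum_eq_zero
    intro l hl
    rw [if_neg]
    intro h
    have hl' := mem_dset.1 hl
    have hl0 : 0 < l := Nat.pos_of_dvd_of_pos hl'.1 (Nat.pos_of_ne_zero prodPrimes_ne_zero)
    have := Nat.le_of_dvd hl0 h
    omega
  rw [this]; simp

lemma errSum_le (hz : 1 ≤ z) : s.errSum (lambdaSquared (wt s z)) ≤
    ∑ d1 ∈ dset s z, ∑ d2 ∈ dset s z, |s.rem (Nat.lcm d1 d2)| := by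
  unfold errSum
  have h1 : ∀ d ∈ s.prodPrimes.divisors, |lambdaSquared (wt s z) d| * |s.rem d| ≤
      ∑ d1 ∈ dset s z, ∑ d2 ∈ dset s z, if d = Nat.lcm d1 d2 then |s.rem d| else 0 := by
    intro d hd
    have hd' := Nat.dvd_of_mem_divisors hd
    have hle : |lambdaSquared (wt s z) d| ≤ ∑ d1 ∈ dset s z, ∑ d2 ∈ dset s z,
        if d = Nat.lcm d1 d2 then (1:ℝ) else 0 := by
      unfold lambdaSquared
      calc |∑ d1 ∈ d.divisors, ∑ d2 ∈ d.divisors,
              if d = d1.lcm d2 then wt s z d1 * wt s z d2 else 0|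
          ≤ ∑ d1 ∈ d.divisors, ∑ d2 ∈ d.divisors,
              |if d = d1.lcm d2 then wt s z d1 * wt s z d2 else 0| := by
            refine (Finset.abs_sum_le_sum_abs _ _).trans (Finset.sum_le_sum fun d1 _ => ?_)
            exact Finset.abs_sum_le_sum_abs _ _
        _ ≤ ∑ d1 ∈ d.divisors, ∑ d2 ∈ d.divisors,
              if (d1 ∈ dset s z ∧ d2 ∈ dset s z) then (if d = d1.lcm d2 then (1:ℝ) else 0) else 0 := by
            refine Finset.sum_le_sum fun d1 hd1 => Finset.sum_le_sum fun d2 hd2 => ?_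
            have h1' : d1 ∣ s.prodPrimes := (Nat.dvd_of_mem_divisors hd1).trans hd'
            have h2' : d2 ∣ s.prodPrimes := (Nat.dvd_of_mem_divisors hd2).trans hd'
            by_cases hlcm : d = d1.lcm d2
            · rw [if_pos hlcm]
              by_cases hz1 : d1 ≤ z
              · by_cases hz2 : d2 ≤ z
                · rw [if_pos ⟨mem_dset.2 ⟨h1', hz1⟩, mem_dset.2 ⟨h2', hz2⟩⟩, if_pos hlcm, abs_mul]
                  calc _ ≤ (1:ℝ) * 1 := mul_le_mul (abs_wt_le hz _ h1') (abs_wt_le hz _ h2')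
                        (abs_nonneg _) zero_le_one
                    _ = 1 := one_mul 1
                · rw [wt_eq_zero (not_le.1 hz2), mul_zero, abs_zero]
                  split_ifs <;> norm_num
              · rw [wt_eq_zero (not_le.1 hz1), zero_mul, abs_zero]
                split_ifs <;> norm_num
            · rw [if_neg hlcm, abs_zero]
              split_ifs <;> norm_num
        _ ≤ ∑ d1 ∈ s.prodPrimes.divisors, ∑ d2 ∈ s.prodPrimes.divisors,
              if (d1 ∈ dset s z ∧ d2 ∈ dset s z) then (if d = d1.lcm d2 then (1:ℝ) else 0) else 0 := by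
            have hsub : d.divisors ⊆ s.prodPrimes.divisors := Nat.divisors_subset_of_dvd prodPrimes_ne_zero hd'
            have hnn : ∀ d1 d2 : ℕ, (0:ℝ) ≤ if (d1 ∈ dset s z ∧ d2 ∈ dset s z) then
                (if d = d1.lcm d2 then (1:ℝ) else 0) else 0 := by
              intro d1 d2; split_ifs <;> norm_num
            calc _ ≤ ∑ d1 ∈ d.divisors, ∑ d2 ∈ s.prodPrimes.divisors,
              if (d1 ∈ dset s z ∧ d2 ∈ dset s z) then (if d = d1.lcm d2 then (1:ℝ) else 0) else 0 :=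
                  Finset.sum_le_sum fun d1 _ => Finset.sum_le_sum_of_subset_of_nonneg hsub
                    (fun d2 _ _ => hnn d1 d2)
              _ ≤ _ := Finset.sum_le_sum_of_subset_of_nonneg hsub
                    (fun d1 _ _ => Finset.sum_nonneg fun d2 _ => hnn d1 d2)
        _ = ∑ d1 ∈ dset s z, ∑ d2 ∈ dset s z, if d = Nat.lcm d1 d2 then (1:ℝ) else 0 := by
            have : ∀ d1 ∈ s.prodPrimes.divisors, (∑ d2 ∈ s.prodPrimes.divisors,
              if (d1 ∈ dset s z ∧ d2 ∈ dset s z) then (if d = d1.lcm d2 then (1:ℝ) else 0) else 0)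
              = if d1 ∈ dset s z then ∑ d2 ∈ dset s z, (if d = d1.lcm d2 then (1:ℝ) else 0) else 0 := by
              intro d1 _
              by_cases h : d1 ∈ dset s z
              · simp only [h, true_and, if_true]
                rw [← Finset.sum_filter]
                apply Finset.sum_congr _ (fun _ _ => rfl)
                ext x; simp only [Finset.mem_filter]
                exact ⟨fun hx => hx.2, fun hx => ⟨dset_subset hx, hx⟩⟩
              · simp [h]
            rw [Finset.sum_congr rfl this, ← Finset.sum_filter]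
            apply Finset.sum_congr _ (fun _ _ => rfl)
            ext x; simp only [Finset.mem_filter]
            exact ⟨fun hx => hx.2, fun hx => ⟨dset_subset hx, hx⟩⟩
    calc |lambdaSquared (wt s z) d| * |s.rem d|
        ≤ (∑ d1 ∈ dset s z, ∑ d2 ∈ dset s z, if d = Nat.lcm d1 d2 then (1:ℝ) else 0) * |s.rem d| :=
          mul_le_mul_of_nonneg_right hle (abs_nonneg _)
      _ = _ := by
          rw [Finset.sum_mul]
          apply Finset.sum_congr rfl
          intro d1 _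
          rw [Finset.sum_mul]
          apply Finset.sum_congr rfl
          intro d2 _
          rw [ite_mul, one_mul, zero_mul]
  refine (Finset.sum_le_sum h1).trans (le_of_eq ?_)
  rw [Finset.sum_comm]
  apply Finset.sum_congr rfl
  intro d1 hd1
  rw [Finset.sum_comm]
  apply Finset.sum_congr rfl
  intro d2 hd2
  have : Nat.lcm d1 d2 ∈ s.prodPrimes.divisors := by
    rw [Nat.mem_divisors]
    exact ⟨Nat.lcm_dvd (mem_dset.1 hd1).1 (mem_dset.1 hd2).1, prodPrimes_ne_zero⟩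
  rw [Finset.sum_ite_eq' (s.prodPrimes.divisors)]
  simp [this]

/-- **Selberg's upper bound sieve.** -/
theorem selberg_bound (hz : 1 ≤ z) :
    s.siftedSum ≤ s.totalMass / SS s z +
      ∑ d1 ∈ dset s z, ∑ d2 ∈ dset s z, |s.rem (Nat.lcm d1 d2)| := by
  have h := siftedSum_le_mainSum_errSum_of_upperMoebius (s := s) _
    (upperMoebius_lambdaSquared (wt s z) (wt_one hz))
  rw [mainSum_eq hz, mul_one_div] at h
  exact h.trans (by gcongr; exact errSum_le hz)

end Vale.Agent.P005.Selberg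
end

section

/-! Lower bounds for the Selberg main term through completely multiplicative functions. -/

open Finset Nat ArithmeticFunction
open scoped ArithmeticFunction.Moebius

namespace Vale.Agent.P005.Selberg

open BoundingSieve

/-- The completely multiplicative extension of a function on the primes. -/
noncomputable def cm (ω : ℕ → ℝ) : ℕ →* ℝ where
  toFun n := if n = 0 then 0 else (n.primeFactorsList.map ω).prod
  map_one' := by simp
  map_mul' := by
    intro a b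
    by_cases ha : a = 0
    · simp [ha]
    by_cases hb : b = 0
    · simp [hb]
    simp only [ha, hb, mul_eq_zero, or_self, if_false]
    rw [← List.prod_append, ← List.map_append]
    exact ((Nat.perm_primeFactorsList_mul ha hb).map ω).prod_eq

lemma cm_apply {ω : ℕ → ℝ} {n : ℕ} (hn : n ≠ 0) :
    cm ω n = (n.primeFactorsList.map ω).prod := by
  change (if n = 0 then 0 else _) = _
  rw [if_neg hn]

lemma cm_zero {ω : ℕ → ℝ} : cm ω 0 = 0 := by
  simp [cm]

lemma cm_prime {ω : ℕ → ℝ} {p : ℕ} (hp : p.Prime) : cm ω p = ω p := by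
  rw [cm_apply hp.ne_zero, Nat.primeFactorsList_prime hp]
  simp

lemma cm_nonneg {ω : ℕ → ℝ} (hω : ∀ p, p.Prime → 0 ≤ ω p) (n : ℕ) : 0 ≤ cm ω n := by
  by_cases hn : n = 0
  · rw [hn, cm_zero]
  rw [cm_apply hn]
  apply List.prod_nonneg
  intro x hx
  obtain ⟨p, hp, rfl⟩ := List.mem_map.1 hx
  exact hω p (Nat.prime_of_mem_primeFactorsList hp)

lemma cm_euler_le {ω : ℕ → ℝ} (h0 : ∀ p, p.Prime → 0 ≤ ω p) (h1 : ∀ p, p.Prime → ω p < 1)
    (S T : Finset ℕ) (hT : ∀ n ∈ T, n ∈ Nat.factoredNumbers S) :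
    ∑ n ∈ T, cm ω n ≤ ∏ p ∈ S with p.Prime, (1 - ω p)⁻¹ := by
  have h := EulerProduct.summable_and_hasSum_factoredNumbers_prod_filter_prime_geometric
    (f := cm ω) (fun {p} hp => by
      rw [cm_prime hp, Real.norm_eq_abs, abs_of_nonneg (h0 p hp)]; exact h1 p hp) S
  have h2 : ∏ p ∈ S with p.Prime, (1 - cm ω p)⁻¹ = ∏ p ∈ S with p.Prime, (1 - ω p)⁻¹ := by
    apply Finset.prod_congr rfl
    intro p hp
    rw [cm_prime (Finset.mem_filter.1 hp).2]
  rw [← h2, ← h.2.tsum_eq]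
  let T' : Finset (Nat.factoredNumbers S) := T.subtype (fun n => n ∈ Nat.factoredNumbers S)
  have h3 : ∑ n ∈ T, cm ω n = ∑ n ∈ T', cm ω n := by
    rw [Finset.sum_subtype_of_mem (fun n => cm ω n) hT]
  rw [h3]
  exact h.2.summable.sum_le_tsum T' (fun n _ => cm_nonneg h0 n)

variable {s : BoundingSieve} {z : ℕ}

/-- product of the prime divisors -/
def rad (n : ℕ) : ℕ := ∏ p ∈ n.primeFactors, p

lemma rad_dvd (n : ℕ) : rad n ∣ n := Nat.prod_primeFactors_dvd n

lemma primeFactors_rad (n : ℕ) : (rad n).primeFactors = n.primeFactors := by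
  unfold rad
  exact Nat.primeFactors_prod (fun p hp => Nat.prime_of_mem_primeFactors hp)

/-- The Selberg main term is at least the sum of the completely multiplicative extension. -/
theorem le_SS : ∑ n ∈ Icc 1 z, cm (fun p => if p ∣ s.prodPrimes then s.nu p else 0) n ≤ SS s z := by
  set ω : ℕ → ℝ := fun p => if p ∣ s.prodPrimes then s.nu p else 0 with hω
  have h0 : ∀ p, p.Prime → 0 ≤ ω p := by
    intro p hp
    simp only [hω]
    split_ifs with h
    · exact (s.nu_pos_of_prime p hp h).le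
    · exact le_rfl
  have h1 : ∀ p, p.Prime → ω p < 1 := by
    intro p hp
    simp only [hω]
    split_ifs with h
    · exact s.nu_lt_one_of_prime p hp h
    · exact zero_lt_one
  -- restrict to numbers all of whose prime factors divide prodPrimes
  set A := (Icc 1 z).filter (fun n => ∀ p ∈ n.primeFactors, p ∣ s.prodPrimes) with hA
  have hsum : ∑ n ∈ Icc 1 z, cm ω n = ∑ n ∈ A, cm ω n := by
    symm
    apply Finset.sum_subset (Finset.filter_subset _ _)
    intro n hn hnA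
    have hn0 : n ≠ 0 := by have := (Finset.mem_Icc.1 hn).1; omega
    have : ∃ p ∈ n.primeFactors, ¬ p ∣ s.prodPrimes := by
      by_contra hcon
      push Not at hcon
      exact hnA (Finset.mem_filter.2 ⟨hn, hcon⟩)
    obtain ⟨p, hp, hpP⟩ := this
    rw [cm_apply hn0]
    apply List.prod_eq_zero
    rw [List.mem_map]
    exact ⟨p, (Nat.mem_primeFactors_iff_mem_primeFactorsList).1 hp, by simp [hω, hpP]⟩
  rw [hsum]
  have hmaps : ∀ n ∈ A, rad n ∈ dset s z := by
    intro n hn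
    have hn' := Finset.mem_filter.1 hn
    have hn1 := Finset.mem_Icc.1 hn'.1
    refine mem_dset.2 ⟨?_, (Nat.le_of_dvd (by omega) (rad_dvd n)).trans hn1.2⟩
    unfold rad
    exact Finset.prod_primes_dvd _ (fun p hp => (Nat.prime_of_mem_primeFactors hp).prime) hn'.2
  rw [← Finset.sum_fiberwise_of_maps_to hmaps]
  unfold SS
  apply Finset.sum_le_sum
  intro l hl
  have hlP := (mem_dset.1 hl).1
  have hlsq := squarefree_of_dvd_prodPrimes hlP
  have hl0 : l ≠ 0 := hlsq.ne_zero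
  -- factor out l
  set B := A.filter (fun n => rad n = l) with hB
  have hBl : ∀ n ∈ B, l ∣ n := by
    intro n hn
    have := (Finset.mem_filter.1 hn).2
    rw [← this]; exact rad_dvd n
  have hfac : ∀ n ∈ B, cm ω n = cm ω l * cm ω (n / l) := by
    intro n hn
    rw [← map_mul, Nat.mul_div_cancel' (hBl n hn)]
  rw [Finset.sum_congr rfl hfac, ← Finset.mul_sum]
  have hinj : Set.InjOn (fun n => n / l) (B : Set ℕ) := by
    intro a ha b hb hab
    have e1 := Nat.mul_div_cancel' (hBl a ha)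
    have e2 := Nat.mul_div_cancel' (hBl b hb)
    simp only at hab
    rw [← e1, ← e2, hab]
  rw [← Finset.sum_image (g := fun n => n / l) (f := fun n => cm ω n) hinj]
  have hT : ∀ n ∈ B.image (fun n => n / l), n ∈ Nat.factoredNumbers l.primeFactors := by
    intro k hk
    obtain ⟨n, hn, rfl⟩ := Finset.mem_image.1 hk
    have hnB := Finset.mem_filter.1 hn
    have hnA := Finset.mem_filter.1 hnB.1
    have hn1 := Finset.mem_Icc.1 hnA.1
    rw [Nat.mem_factoredNumbers_iff_forall_le]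
    have hk0 : n / l ≠ 0 := by
      have := Nat.div_pos (Nat.le_of_dvd (by omega) (hBl n hn)) (Nat.pos_of_ne_zero hl0)
      omega
    refine ⟨hk0, fun p hp hpp hpd => ?_⟩
    rw [← hnB.2, primeFactors_rad, Nat.mem_primeFactors]
    exact ⟨hpp, hpd.trans (Nat.div_dvd_of_dvd (hBl n hn)), by omega⟩
  have h2 := cm_euler_le h0 h1 l.primeFactors _ hT
  have h3 : ∏ p ∈ l.primeFactors with p.Prime, (1 - ω p)⁻¹ =
      ∏ p ∈ l.primeFactors, (1 - s.nu p)⁻¹ := by
    rw [Finset.filter_true_of_mem (fun p hp => Nat.prime_of_mem_primeFactors hp)]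
    apply Finset.prod_congr rfl
    intro p hp
    have : p ∣ s.prodPrimes := (Nat.dvd_of_mem_primeFactors hp).trans hlP
    simp [hω, this]
  have h4 : cm ω l = s.nu l := by
    rw [cm_apply hl0, ← prod_primeFactors_nu hlP]
    have hnd : l.primeFactorsList.Nodup := (Nat.squarefree_iff_nodup_primeFactorsList hl0).1 hlsq
    have : l.primeFactors = l.primeFactorsList.toFinset := rfl
    rw [this, List.prod_toFinset _ hnd]
    congr 1
    apply List.map_congr_left
    intro p hp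
    have : p ∣ s.prodPrimes := (Nat.dvd_of_mem_primeFactorsList hp).trans hlP
    simp [hω, this]
  rw [selbergTerms_apply, ← h3, h4]
  exact mul_le_mul_of_nonneg_left h2 (nu_pos_of_dvd_prodPrimes hlP).le

end Vale.Agent.P005.Selberg
end

section

open Finset Nat

namespace Vale.Agent.P005.Selberg

/-- the part of `n` composed of primes dividing `k` -/
def kpart (k n : ℕ) : ℕ := (n.primeFactorsList.filter (fun p => p ∣ k)).prod
/-- the part of `n` composed of primes not dividing `k` -/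
def kcopart (k n : ℕ) : ℕ := (n.primeFactorsList.filter (fun p => ¬ p ∣ k)).prod

lemma kpart_mul (k n : ℕ) (hn : n ≠ 0) : kpart k n * kcopart k n = n := by
  unfold kpart kcopart
  rw [← List.prod_append]
  have h := (List.filter_append_perm (fun p => decide (p ∣ k)) n.primeFactorsList).prod_eq
  have h2 : List.filter (fun x => !decide (x ∣ k)) n.primeFactorsList =
      List.filter (fun p => decide (¬ p ∣ k)) n.primeFactorsList := by
    congr 1
    funext x
    by_cases hx : x ∣ k <;> simp [hx]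
  rw [h2] at h
  rw [h, Nat.prod_primeFactorsList hn]

lemma kpart_mem (k n : ℕ) (hk : k ≠ 0) (hn : n ≠ 0) : kpart k n ∈ Nat.factoredNumbers k.primeFactors := by
  rw [Nat.mem_factoredNumbers_iff_forall_le]
  have h0 : kpart k n ≠ 0 := by
    intro h
    have := kpart_mul k n hn
    rw [h] at this; omega
  refine ⟨h0, fun p _ hp hpd => ?_⟩
  unfold kpart at hpd
  obtain ⟨q, hq, hpq⟩ := (Prime.dvd_prod_iff hp.prime).1 hpd
  rw [List.mem_filter] at hq
  have hqp := Nat.prime_of_mem_primeFactorsList hq.1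
  have : p = q := (Nat.prime_dvd_prime_iff_eq hp hqp).1 hpq
  rw [Nat.mem_primeFactors]
  refine ⟨hp, ?_, hk⟩
  rw [this]; simpa using hq.2

lemma kcopart_coprime (k n : ℕ) : Nat.Coprime (kcopart k n) k := by
  rw [Nat.coprime_iff_gcd_eq_one]
  by_contra hne
  obtain ⟨p, hp, hpd⟩ := Nat.exists_prime_and_dvd hne
  have h1 : p ∣ kcopart k n := hpd.trans (Nat.gcd_dvd_left _ _)
  have h2 : p ∣ k := hpd.trans (Nat.gcd_dvd_right _ _)
  unfold kcopart at h1
  obtain ⟨q, hq, hpq⟩ := (Prime.dvd_prod_iff hp.prime).1 h1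
  rw [List.mem_filter] at hq
  have hqp := Nat.prime_of_mem_primeFactorsList hq.1
  have : p = q := (Nat.prime_dvd_prime_iff_eq hp hqp).1 hpq
  have h3 := hq.2
  simp only [decide_eq_true_eq] at h3
  rw [← this] at h3
  exact h3 h2

lemma cm_inv (n : ℕ) (hn : n ≠ 0) : cm (fun p => (p:ℝ)⁻¹) n = (n : ℝ)⁻¹ := by
  rw [cm_apply hn]
  conv_rhs => rw [← Nat.prod_primeFactorsList hn]
  rw [Nat.cast_list_prod, List.prod_inv, List.map_map]
  rfl

/-- `∑_{a ≤ y, (a,k)=1} 1/a ≥ (φ(k)/k) ∑_{a ≤ y} 1/a`. -/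
theorem coprime_sum_ge (k y : ℕ) (hk : k ≠ 0) :
    (k.totient : ℝ) / k * ∑ n ∈ Icc 1 y, (n:ℝ)⁻¹ ≤
      ∑ a ∈ (Icc 1 y).filter (fun a => Nat.Coprime a k), (a:ℝ)⁻¹ := by
  set A := (Icc 1 y).filter (fun a => Nat.Coprime a k) with hA
  set D := (Icc 1 y).image (fun n => kpart k n) with hD
  have h1 : ∑ n ∈ Icc 1 y, (n:ℝ)⁻¹ ≤ (∑ d ∈ D, (d:ℝ)⁻¹) * ∑ a ∈ A, (a:ℝ)⁻¹ := by
    rw [Finset.sum_mul_sum, ← Finset.sum_product']
    have hinj : Set.InjOn (fun n => (kpart k n, kcopart k n)) ((Icc 1 y : Finset ℕ) : Set ℕ) := by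
      intro a ha b hb hab
      have ha0 : a ≠ 0 := by have := (Finset.mem_Icc.1 (Finset.mem_coe.1 ha)).1; omega
      have hb0 : b ≠ 0 := by have := (Finset.mem_Icc.1 (Finset.mem_coe.1 hb)).1; omega
      have e1 := kpart_mul k a ha0
      have e2 := kpart_mul k b hb0
      have := Prod.mk.inj hab
      rw [← e1, ← e2, this.1, this.2]
    have h2 : ∀ n ∈ Icc 1 y, (n:ℝ)⁻¹ = ((kpart k n : ℝ))⁻¹ * ((kcopart k n : ℝ))⁻¹ := by
      intro n hn
      have hn0 : n ≠ 0 := by have := (Finset.mem_Icc.1 hn).1; omega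
      rw [← mul_inv, ← Nat.cast_mul, kpart_mul k n hn0]
    rw [Finset.sum_congr rfl h2]
    rw [← Finset.sum_image (g := fun n => (kpart k n, kcopart k n))
      (f := fun x : ℕ × ℕ => (x.1:ℝ)⁻¹ * (x.2:ℝ)⁻¹) hinj]
    apply Finset.sum_le_sum_of_subset_of_nonneg
    · intro x hx
      obtain ⟨n, hn, rfl⟩ := Finset.mem_image.1 hx
      have hn1 := Finset.mem_Icc.1 hn
      have hn0 : n ≠ 0 := by omega
      have e1 := kpart_mul k n hn0
      have hc0 : kcopart k n ≠ 0 := by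
        intro h; rw [h] at e1; omega
      rw [Finset.mem_product]
      refine ⟨Finset.mem_image_of_mem _ hn, ?_⟩
      rw [hA, Finset.mem_filter, Finset.mem_Icc]
      refine ⟨⟨Nat.one_le_iff_ne_zero.2 hc0, ?_⟩, kcopart_coprime k n⟩
      have : kcopart k n ∣ n := ⟨kpart k n, by rw [mul_comm]; exact e1.symm⟩
      exact (Nat.le_of_dvd (by omega) this).trans hn1.2
    · intro x _ _
      positivity
  have h3 : ∑ d ∈ D, (d:ℝ)⁻¹ ≤ (k : ℝ) / k.totient := by
    have h4 : ∑ d ∈ D, (d:ℝ)⁻¹ ≤ ∑ d ∈ D, cm (fun p => if p ∣ k then (p:ℝ)⁻¹ else 0) d := by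
      apply Finset.sum_le_sum
      intro d hd
      obtain ⟨n, hn, rfl⟩ := Finset.mem_image.1 hd
      have hn0 : n ≠ 0 := by have := (Finset.mem_Icc.1 hn).1; omega
      have hm := kpart_mem k n hk hn0
      have h0 : kpart k n ≠ 0 := by
        have := kpart_mul k n hn0
        intro h; rw [h] at this; omega
      rw [← cm_inv _ h0, cm_apply h0, cm_apply h0]
      apply le_of_eq
      congr 1
      apply List.map_congr_left
      intro p hp
      have hpk : p ∣ k := by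
        rw [Nat.mem_factoredNumbers] at hm
        exact Nat.dvd_of_mem_primeFactors (hm.2 p hp)
      simp [hpk]
    refine h4.trans ?_
    have h0' : ∀ p : ℕ, p.Prime → (0:ℝ) ≤ (if p ∣ k then (p:ℝ)⁻¹ else 0) := by
      intro p _; split_ifs <;> positivity
    have h1' : ∀ p : ℕ, p.Prime → (if p ∣ k then (p:ℝ)⁻¹ else 0) < 1 := by
      intro p hp
      split_ifs
      · exact inv_lt_one_of_one_lt₀ (by exact_mod_cast hp.one_lt)
      · exact zero_lt_one
    have h5 := cm_euler_le h0' h1' k.primeFactors D (by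
      intro d hd
      obtain ⟨n, hn, rfl⟩ := Finset.mem_image.1 hd
      have hn0 : n ≠ 0 := by have := (Finset.mem_Icc.1 hn).1; omega
      exact kpart_mem k n hk hn0)
    refine h5.trans (le_of_eq ?_)
    rw [Finset.filter_true_of_mem (fun p hp => Nat.prime_of_mem_primeFactors hp)]
    have h6 : ∏ p ∈ k.primeFactors, (1 - (if p ∣ k then (p:ℝ)⁻¹ else 0))⁻¹ =
        (∏ p ∈ k.primeFactors, (1 - (p:ℝ)⁻¹))⁻¹ := by
      rw [← Finset.prod_inv_distrib]
      apply Finset.prod_congr rfl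
      intro p hp
      simp [Nat.dvd_of_mem_primeFactors hp]
    rw [h6]
    have h7 := Nat.totient_eq_mul_prod_factors k
    have h8 : (k.totient : ℝ) = k * ∏ p ∈ k.primeFactors, (1 - (p:ℝ)⁻¹) := by
      have := congrArg (fun q : ℚ => (q : ℝ)) h7
      push_cast at this
      exact this
    have hk' : (k:ℝ) ≠ 0 := by exact_mod_cast hk
    have ht : (k.totient : ℝ) ≠ 0 := by
      have := Nat.totient_pos.2 (Nat.pos_of_ne_zero hk)
      exact_mod_cast this.ne'
    have hprod : (∏ p ∈ k.primeFactors, (1 - (p:ℝ)⁻¹)) ≠ 0 := by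
      intro h; rw [h, mul_zero] at h8; exact ht h8
    rw [h8]
    field_simp
  have hA0 : 0 ≤ ∑ a ∈ A, (a:ℝ)⁻¹ := Finset.sum_nonneg (fun _ _ => by positivity)
  have hk' : (0:ℝ) < k := by exact_mod_cast Nat.pos_of_ne_zero hk
  have ht : (0:ℝ) < k.totient := by exact_mod_cast Nat.totient_pos.2 (Nat.pos_of_ne_zero hk)
  calc (k.totient : ℝ) / k * ∑ n ∈ Icc 1 y, (n:ℝ)⁻¹
      ≤ (k.totient : ℝ) / k * (((k : ℝ) / k.totient) * ∑ a ∈ A, (a:ℝ)⁻¹) := by
        gcongr
        exact h1.trans (by gcongr)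
    _ = ∑ a ∈ A, (a:ℝ)⁻¹ := by field_simp

end Vale.Agent.P005.Selberg
end

section

open Finset Nat ArithmeticFunction

namespace Vale.Agent.P005.Selberg

open BoundingSieve

lemma class_count (N r c : ℕ) (hr : 0 < r) :
    |(((Icc 1 N).filter (fun n => n ≡ c [MOD r])).card : ℝ) - (N:ℝ) / r| ≤ 1 := by
  have h := Nat.Ioc_filter_modEq_card 0 N hr c
  have hI : Ioc 0 N = Icc 1 N := by ext x; simp; omega
  rw [hI] at h
  have hr' : (0:ℚ) < r := by exact_mod_cast hr
  set A : ℚ := ((N:ℚ) - c) / r with hA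
  set B : ℚ := (((0:ℕ):ℚ) - c) / r with hB
  have hAB : A - B = N / r := by rw [hA, hB]; push_cast; ring
  have hN0 : (0:ℚ) ≤ N / r := by positivity
  have h1 := Int.floor_le A
  have h2 := Int.lt_floor_add_one A
  have h3 := Int.floor_le B
  have h4 := Int.lt_floor_add_one B
  have hmono : ⌊B⌋ ≤ ⌊A⌋ := Int.floor_le_floor (by linarith)
  rw [max_eq_left (by omega)] at h
  have h' : ((((Icc 1 N).filter (fun n => n ≡ c [MOD r])).card : ℕ) : ℚ) = (⌊A⌋ : ℚ) - ⌊B⌋ := by
    have := congrArg (fun x : ℤ => (x:ℚ)) h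
    push_cast at this
    exact this
  have h5 : |((((Icc 1 N).filter (fun n => n ≡ c [MOD r])).card : ℕ) : ℚ) - (N:ℚ) / r| ≤ 1 := by
    rw [h', abs_le]
    constructor <;> linarith
  have h6 := (Rat.cast_le (K := ℝ)).2 h5
  push_cast at h6
  exact h6

/-- number of roots of `n (m n + 1)` modulo `p`. -/
noncomputable def rho (m p : ℕ) : ℝ := if p ∣ m then 1 else 2

/-- indicator of being coprime to `m` as an arithmetic function -/
noncomputable def cop (m : ℕ) : ArithmeticFunction ℝ :=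
  ⟨fun n => if n = 0 then 0 else if Nat.Coprime n m then 1 else 0, by simp⟩

lemma cop_apply {m n : ℕ} (hn : n ≠ 0) : cop m n = if Nat.Coprime n m then 1 else 0 := by
  simp [cop, hn]

lemma cop_mult (m : ℕ) : (cop m).IsMultiplicative := by
  rw [IsMultiplicative.iff_ne_zero]
  refine ⟨by simp [cop_apply], fun {a b} ha hb _ => ?_⟩
  rw [cop_apply ha, cop_apply hb, cop_apply (mul_ne_zero ha hb)]
  by_cases h1 : Nat.Coprime a m
  · by_cases h2 : Nat.Coprime b m
    · rw [if_pos h1, if_pos h2, if_pos (Nat.Coprime.mul_left h1 h2), one_mul]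
    · have : ¬ Nat.Coprime (a * b) m := fun h => h2 (Nat.Coprime.coprime_mul_left h)
      rw [if_neg h2, if_neg this, mul_zero]
  · have : ¬ Nat.Coprime (a * b) m := fun h => h1 (Nat.Coprime.coprime_mul_right h)
    rw [if_neg h1, if_neg this, zero_mul]

lemma prod_rho_eq {m d : ℕ} (hd : Squarefree d) :
    ∏ p ∈ d.primeFactors, rho m p = ∑ e ∈ d.divisors, cop m e := by
  rw [← (cop_mult m).prodPrimeFactors_one_add_of_squarefree hd]
  apply Finset.prod_congr rfl
  intro p hp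
  have hpp := Nat.prime_of_mem_primeFactors hp
  rw [cop_apply hpp.ne_zero, rho]
  by_cases h : p ∣ m
  · have : ¬ Nat.Coprime p m := fun hc => by
      rw [Nat.Prime.coprime_iff_not_dvd hpp] at hc; exact hc h
    rw [if_pos h, if_neg this, add_zero]
  · have : Nat.Coprime p m := (Nat.Prime.coprime_iff_not_dvd hpp).2 h
    rw [if_neg h, if_pos this]; norm_num

/-- there is one residue class solving both divisibility conditions. -/
lemma exists_class {m d1 d2 : ℕ} (h12 : Nat.Coprime d1 d2) (h2 : Nat.Coprime d2 m) (hd2 : d2 ≠ 0) :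
    ∃ c, ∀ n, (d1 ∣ n ∧ d2 ∣ m * n + 1) ↔ n ≡ c [MOD d1 * d2] := by
  -- find `b` with `m b + 1 ≡ 0 mod d2`
  obtain ⟨b, hb⟩ : ∃ b, d2 ∣ m * b + 1 := by
    by_cases h1 : d2 = 1
    · exact ⟨0, by simp [h1]⟩
    have hlt : 1 < d2 := by omega
    obtain ⟨y, hy⟩ := Nat.exists_mul_mod_eq_one_of_coprime h2.symm hlt
    refine ⟨y * (d2 - 1), ?_⟩
    have e1 : m * y ≡ 1 [MOD d2] := by
      unfold Nat.ModEq; rw [hy.2, Nat.mod_eq_of_lt hlt]
    have e2 : m * (y * (d2 - 1)) + 1 ≡ 1 * (d2 - 1) + 1 [MOD d2] := by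
      rw [← mul_assoc]
      exact (e1.mul_right _).add_right 1
    have e3 : 1 * (d2 - 1) + 1 = d2 := by omega
    rw [e3] at e2
    exact (Nat.modEq_zero_iff_dvd).1 (e2.trans (by simp [Nat.ModEq]))
  obtain ⟨c, hc1, hc2⟩ := Nat.chineseRemainder h12 0 b
  refine ⟨c, fun n => ?_⟩
  rw [← Nat.modEq_and_modEq_iff_modEq_mul h12]
  have h3 : d1 ∣ n ↔ n ≡ c [MOD d1] := by
    rw [← Nat.modEq_zero_iff_dvd]
    exact ⟨fun h => h.trans hc1.symm, fun h => h.trans hc1⟩
  have h4 : d2 ∣ m * n + 1 ↔ n ≡ c [MOD d2] := by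
    have hb' : m * b + 1 ≡ 0 [MOD d2] := (Nat.modEq_zero_iff_dvd).2 hb
    constructor
    · intro h
      have h' : m * n + 1 ≡ 0 [MOD d2] := (Nat.modEq_zero_iff_dvd).2 h
      have h5 : m * n ≡ m * b [MOD d2] := Nat.ModEq.add_right_cancel' 1 (h'.trans hb'.symm)
      exact (Nat.ModEq.cancel_left_of_coprime h2 h5).trans hc2.symm
    · intro h
      rw [← Nat.modEq_zero_iff_dvd]
      exact (((h.trans hc2).mul_left m).add_right 1).trans hb'
  rw [h3, h4]

lemma coprime_self_mul_add_one (m n : ℕ) : Nat.Coprime n (m * n + 1) := by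
  rw [Nat.coprime_iff_gcd_eq_one]
  simp

lemma indicator_split (m n d : ℕ) (hd : d ≠ 0) :
    (if d ∣ n * (m * n + 1) then (1:ℝ) else 0) =
      ∑ x ∈ d.divisorsAntidiagonal, if (x.1 ∣ n ∧ x.2 ∣ m * n + 1) then (1:ℝ) else 0 := by
  have hcop := coprime_self_mul_add_one m n
  by_cases h : d ∣ n * (m * n + 1)
  · rw [if_pos h]
    have hg : Nat.gcd d n * Nat.gcd d (m * n + 1) = d := by
      rw [← Nat.Coprime.gcd_mul d hcop]
      exact Nat.gcd_eq_left h
    rw [Finset.sum_eq_single (Nat.gcd d n, Nat.gcd d (m * n + 1))]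
    · simp [Nat.gcd_dvd_right]
    · rintro ⟨a, b⟩ hab hne
      rw [if_neg]
      rintro ⟨h1, h2⟩
      simp only at h1 h2
      apply hne
      have hab' : a * b = d := (Nat.mem_divisorsAntidiagonal.1 hab).1
      have c1 : Nat.Coprime b n := (hcop.coprime_dvd_right h2).symm
      have c2 : Nat.Coprime a (m * n + 1) := hcop.coprime_dvd_left h1
      have e1 : Nat.gcd d n = a := by
        rw [← hab', Nat.Coprime.gcd_mul_right_cancel a c1]
        exact Nat.gcd_eq_left h1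
      have e2 : Nat.gcd d (m * n + 1) = b := by
        rw [← hab', mul_comm a b, Nat.Coprime.gcd_mul_right_cancel b c2]
        exact Nat.gcd_eq_left h2
      rw [e1, e2]
    · intro hnm
      exfalso
      apply hnm
      rw [Nat.mem_divisorsAntidiagonal]
      exact ⟨hg, hd⟩
  · rw [if_neg h]
    symm
    apply Finset.sum_eq_zero
    rintro ⟨a, b⟩ hab
    rw [if_neg]
    rintro ⟨h1, h2⟩
    simp only at h1 h2
    apply h
    rw [← (Nat.mem_divisorsAntidiagonal.1 hab).1]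
    exact Nat.mul_dvd_mul h1 h2

/-- the count of `n ≤ N` with `d ∣ n (m n + 1)`. -/
lemma pair_count {m d N : ℕ} (hd : Squarefree d) :
    |(((Icc 1 N).filter (fun n => d ∣ n * (m * n + 1))).card : ℝ)
      - (∏ p ∈ d.primeFactors, rho m p) / d * N| ≤ d := by
  have hd0 : d ≠ 0 := hd.ne_zero
  have hd' : (d:ℝ) ≠ 0 := by exact_mod_cast hd0
  have h1 : (((Icc 1 N).filter (fun n => d ∣ n * (m * n + 1))).card : ℝ) =
      ∑ x ∈ d.divisorsAntidiagonal,
        (((Icc 1 N).filter (fun n => x.1 ∣ n ∧ x.2 ∣ m * n + 1)).card : ℝ) := by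
    rw [Finset.card_filter]
    push_cast
    rw [Finset.sum_congr rfl (fun n _ => indicator_split m n d hd0), Finset.sum_comm]
    apply Finset.sum_congr rfl
    intro x _
    rw [Finset.card_filter]
    push_cast
    rfl
  have h2 : (∏ p ∈ d.primeFactors, rho m p) / d * N =
      ∑ x ∈ d.divisorsAntidiagonal, cop m x.2 * (N / d) := by
    rw [prod_rho_eq hd, ← Finset.sum_mul]
    have : ∑ x ∈ d.divisorsAntidiagonal, cop m x.2 = ∑ e ∈ d.divisors, cop m e := by
      rw [Nat.sum_divisorsAntidiagonal' (fun _ b => cop m b)]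
    rw [this]; field_simp
  rw [h1, h2, ← Finset.sum_sub_distrib]
  refine (Finset.abs_sum_le_sum_abs _ _).trans ?_
  have h3 : ∀ x ∈ d.divisorsAntidiagonal,
      |(((Icc 1 N).filter (fun n => x.1 ∣ n ∧ x.2 ∣ m * n + 1)).card : ℝ) - cop m x.2 * (N / d)|
        ≤ 1 := by
    rintro ⟨a, b⟩ hab
    have hab' := Nat.mem_divisorsAntidiagonal.1 hab
    simp only at hab'
    have hb0 : b ≠ 0 := by rintro rfl; simp at hab'; omega
    have ha0 : a ≠ 0 := by rintro rfl; simp at hab'; omega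
    have hcab : Nat.Coprime a b := Nat.coprime_of_squarefree_mul (by rw [hab'.1]; exact hd)
    simp only
    rw [cop_apply hb0]
    by_cases hbm : Nat.Coprime b m
    · obtain ⟨c, hc⟩ := exists_class (m := m) hcab hbm hb0
      rw [if_pos hbm, one_mul]
      have : (Icc 1 N).filter (fun n => a ∣ n ∧ b ∣ m * n + 1) =
          (Icc 1 N).filter (fun n => n ≡ c [MOD d]) := by
        apply Finset.filter_congr
        intro n _
        rw [hc n, hab'.1]
      rw [this]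
      exact class_count N d c (Nat.pos_of_ne_zero hd0)
    · rw [if_neg hbm, zero_mul, sub_zero]
      have : (Icc 1 N).filter (fun n => a ∣ n ∧ b ∣ m * n + 1) = ∅ := by
        apply Finset.filter_eq_empty_iff.2
        rintro n _ ⟨_, h⟩
        apply hbm
        rw [Nat.coprime_iff_gcd_eq_one]
        have h5 : Nat.gcd b m ∣ m * n + 1 := (Nat.gcd_dvd_left b m).trans h
        have h6 : Nat.gcd b m ∣ m * n := (Nat.gcd_dvd_right b m).trans (dvd_mul_right _ _)
        exact Nat.dvd_one.1 ((Nat.dvd_add_right h6).1 h5)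
      rw [this]; simp
  refine (Finset.sum_le_sum h3).trans ?_
  rw [Finset.sum_const, nsmul_eq_mul, mul_one]
  have : d.divisorsAntidiagonal.card = d.divisors.card := by
    rw [← Nat.map_div_right_divisors, Finset.card_map]
  rw [this]
  exact_mod_cast Nat.card_divisors_le_self d

end Vale.Agent.P005.Selberg
end

section

open Finset Nat ArithmeticFunction

namespace Vale.Agent.P005.Selberg

open BoundingSieve

/-- odd primes up to `z` -/
def oddPrimes (z : ℕ) : Finset ℕ := (Icc 3 z).filter Nat.Prime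

lemma mem_oddPrimes {z p : ℕ} : p ∈ oddPrimes z ↔ 3 ≤ p ∧ p ≤ z ∧ p.Prime := by
  simp [oddPrimes, and_assoc]

lemma squarefree_prod_primes (S : Finset ℕ) (hS : ∀ p ∈ S, p.Prime) : Squarefree (∏ p ∈ S, p) := by
  apply Finset.squarefree_prod_of_pairwise_isCoprime
  · intro p hp q hq hne
    exact (Nat.coprime_iff_isRelPrime).1 ((Nat.coprime_primes (hS p hp) (hS q hq)).2 hne)
  · intro p hp
    exact (hS p hp).squarefree

lemma prime_dvd_prod_primes {S : Finset ℕ} (hS : ∀ p ∈ S, p.Prime) {p : ℕ} (hp : p.Prime) :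
    p ∣ ∏ q ∈ S, q ↔ p ∈ S := by
  constructor
  · intro h
    obtain ⟨q, hq, hpq⟩ := (Prime.dvd_finsetProd_iff hp.prime _).1 h
    rwa [(Nat.prime_dvd_prime_iff_eq hp (hS q hq)).1 hpq]
  · intro h
    exact Finset.dvd_prod_of_mem _ h

lemma oddPrimes_prime {z : ℕ} : ∀ p ∈ oddPrimes z, p.Prime := fun _ hp => (mem_oddPrimes.1 hp).2.2

lemma rho_pos (m p : ℕ) : 0 < rho m p := by unfold rho; split_ifs <;> norm_num

lemma rho_le_two (m p : ℕ) : rho m p ≤ 2 := by unfold rho; split_ifs <;> norm_num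

/-- The sieve problem for `n (m n + 1)`, `n ≤ N`. -/
noncomputable def pairSieve (m N z : ℕ) : BoundingSieve where
  support := (Icc 1 N).image (fun n => n * (m * n + 1))
  prodPrimes := ∏ p ∈ oddPrimes z, p
  prodPrimes_squarefree := squarefree_prod_primes _ oddPrimes_prime
  weights := fun _ => 1
  weights_nonneg := fun _ => zero_le_one
  totalMass := N
  nu := prodPrimeFactors (fun p => rho m p / p)
  nu_mult := IsMultiplicative.prodPrimeFactors _
  nu_pos_of_prime := by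
    intro p hp _
    rw [prodPrimeFactors_apply hp.ne_zero, Nat.Prime.primeFactors hp, Finset.prod_singleton]
    have := rho_pos m p
    have := hp.pos
    positivity
  nu_lt_one_of_prime := by
    intro p hp hpd
    have h3 := (mem_oddPrimes.1 ((prime_dvd_prod_primes oddPrimes_prime hp).1 hpd)).1
    rw [prodPrimeFactors_apply hp.ne_zero, Nat.Prime.primeFactors hp, Finset.prod_singleton]
    have h4 : (3:ℝ) ≤ p := by exact_mod_cast h3
    rw [div_lt_one (by linarith)]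
    linarith [rho_le_two m p]

lemma pair_injOn (m N : ℕ) : Set.InjOn (fun n => n * (m * n + 1)) ((Icc 1 N : Finset ℕ) : Set ℕ) := by
  have hmono : StrictMono (fun n : ℕ => n * (m * n + 1)) := by
    intro a b hab
    simp only
    have h1 : m * a + 1 ≤ m * b + 1 := by
      have := Nat.mul_le_mul_left m hab.le; omega
    calc a * (m * a + 1) < b * (m * a + 1) := Nat.mul_lt_mul_of_pos_right hab (by omega)
      _ ≤ b * (m * b + 1) := Nat.mul_le_mul_left b h1
  exact hmono.injective.injOn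

lemma pair_nu {m N z d : ℕ} (hd : Squarefree d) :
    (pairSieve m N z).nu d = (∏ p ∈ d.primeFactors, rho m p) / d := by
  change (prodPrimeFactors (fun p => rho m p / p)) d = _
  rw [prodPrimeFactors_apply hd.ne_zero, Finset.prod_div_distrib]
  congr 1
  rw [← Nat.cast_prod, Nat.prod_primeFactors_of_squarefree hd]

lemma pair_rem {m N z d : ℕ} (hd : d ∣ (pairSieve m N z).prodPrimes) :
    |(pairSieve m N z).rem d| ≤ d := by
  have hsq := squarefree_of_dvd_prodPrimes hd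
  have h := pair_count (m := m) (N := N) hsq
  unfold rem
  rw [pair_nu hsq]
  have h2 : (pairSieve m N z).multSum d =
      (((Icc 1 N).filter (fun n => d ∣ n * (m * n + 1))).card : ℝ) := by
    unfold multSum
    change ∑ x ∈ (Icc 1 N).image (fun n => n * (m * n + 1)), (if d ∣ x then (1:ℝ) else 0) = _
    rw [Finset.sum_image (pair_injOn m N), Finset.card_filter]
    push_cast
    rfl
  rw [h2]
  exact h

lemma card_coprime_divisors_le (m : ℕ) (n : ℕ) :
    n ≠ 0 → ((n.divisors.filter (fun a => Nat.Coprime a m)).card : ℝ) ≤ cm (rho m) n := by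
  induction n using induction_on_primes with
  | zero => intro h; exact absurd rfl h
  | one =>
    intro _
    rw [map_one]
    have h1 : ((1:ℕ).divisors.filter (fun a => Nat.Coprime a m)).card ≤ (1:ℕ).divisors.card :=
      Finset.card_filter_le _ _
    rw [Nat.divisors_one, Finset.card_singleton] at h1
    exact_mod_cast h1
  | prime_mul p a hp ih =>
    intro hpa
    have ha : a ≠ 0 := by rintro rfl; simp at hpa
    rw [map_mul, cm_prime hp]
    have ih' := ih ha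
    have hnn : (0:ℝ) ≤ ((a.divisors.filter (fun a => Nat.Coprime a m)).card : ℝ) := by positivity
    by_cases hpm : p ∣ m
    · have hr : rho m p = 1 := by simp [rho, hpm]
      rw [hr, one_mul]
      refine le_trans ?_ ih'
      have : (p * a).divisors.filter (fun a => Nat.Coprime a m) ⊆
          a.divisors.filter (fun a => Nat.Coprime a m) := by
        intro e he
        rw [Finset.mem_filter, Nat.mem_divisors] at he ⊢
        refine ⟨⟨?_, ha⟩, he.2⟩
        exact (he.2.coprime_dvd_right hpm).dvd_of_dvd_mul_left he.1.1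
      exact_mod_cast Finset.card_le_card this
    · have hr : rho m p = 2 := by simp [rho, hpm]
      rw [hr]
      have hsub : (p * a).divisors.filter (fun a => Nat.Coprime a m) ⊆
          (a.divisors.filter (fun a => Nat.Coprime a m)) ∪
          (a.divisors.filter (fun a => Nat.Coprime a m)).image (fun e => p * e) := by
        intro e he
        rw [Finset.mem_filter, Nat.mem_divisors] at he
        rw [Finset.mem_union, Finset.mem_filter, Finset.mem_image, Nat.mem_divisors]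
        by_cases hpe : p ∣ e
        · right
          obtain ⟨e', rfl⟩ := hpe
          refine ⟨e', ?_, rfl⟩
          rw [Finset.mem_filter, Nat.mem_divisors]
          exact ⟨⟨Nat.dvd_of_mul_dvd_mul_left hp.pos he.1.1, ha⟩, Nat.Coprime.coprime_mul_left he.2⟩
        · left
          have hc : Nat.Coprime e p := ((Nat.Prime.coprime_iff_not_dvd hp).2 hpe).symm
          exact ⟨⟨hc.dvd_of_dvd_mul_left he.1.1, ha⟩, he.2⟩
      have h1 := Finset.card_le_card hsub
      have h2 := Finset.card_union_le (a.divisors.filter (fun a => Nat.Coprime a m))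
        ((a.divisors.filter (fun a => Nat.Coprime a m)).image (fun e => p * e))
      have h3 : ((a.divisors.filter (fun a => Nat.Coprime a m)).image (fun e => p * e)).card ≤
        (a.divisors.filter (fun a => Nat.Coprime a m)).card := Finset.card_image_le
      have h4 : ((p * a).divisors.filter (fun a => Nat.Coprime a m)).card ≤
        2 * (a.divisors.filter (fun a => Nat.Coprime a m)).card := by omega
      have h5 : ((((p * a).divisors.filter (fun a => Nat.Coprime a m)).card : ℕ) : ℝ) ≤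
        2 * (((a.divisors.filter (fun a => Nat.Coprime a m)).card : ℕ) : ℝ) := by exact_mod_cast h4
      linarith only [h5, ih']

lemma harmonic_ge (w : ℕ) : Real.log ((w:ℝ) + 1) ≤ ∑ n ∈ Icc 1 w, (n:ℝ)⁻¹ := by
  have h := log_add_one_le_harmonic w
  rw [harmonic_eq_sum_Icc] at h
  push_cast at h
  exact h

lemma harmonic_sqrt_ge (z : ℕ) (hz : 1 ≤ z) :
    Real.log z / 2 ≤ ∑ n ∈ Icc 1 (Nat.sqrt z), (n:ℝ)⁻¹ := by
  refine le_trans ?_ (harmonic_ge _)
  have h1 : z < (Nat.sqrt z + 1) * (Nat.sqrt z + 1) := Nat.lt_succ_sqrt z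
  have h2 : (z:ℝ) ≤ ((Nat.sqrt z : ℝ) + 1) ^ 2 := by
    have : (z:ℝ) < (((Nat.sqrt z + 1) * (Nat.sqrt z + 1) : ℕ) : ℝ) := by exact_mod_cast h1
    push_cast at this
    linarith only [this]
  have hz' : (0:ℝ) < z := by exact_mod_cast hz
  have h3 := Real.log_le_log hz' h2
  rw [Real.log_pow] at h3
  push_cast at h3
  linarith

/-- lower bound for the Selberg main term of the pair sieve -/
lemma pair_SS_ge (m N z : ℕ) (hm : m ≠ 0) (hz : 1 ≤ z) :
    (m.totient : ℝ) / m * (Real.log z) ^ 2 / 16 ≤ SS (pairSieve m N z) z := by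
  refine le_trans ?_ (le_SS (s := pairSieve m N z) (z := z))
  set w := Nat.sqrt z with hw
  set A := (Icc 1 w).filter (fun a => Nat.Coprime a (2 * m)) with hA
  set B := (Icc 1 w).filter (fun a => Nat.Coprime a 2) with hB
  have hHA := coprime_sum_ge (2 * m) w (by omega)
  have hHB := coprime_sum_ge 2 w (by omega)
  have hH := harmonic_sqrt_ge z hz
  set H := ∑ n ∈ Icc 1 w, (n:ℝ)⁻¹ with hHdef
  have hlog : 0 ≤ Real.log z := Real.log_nonneg (by exact_mod_cast hz)
  have hH0 : 0 ≤ H := Finset.sum_nonneg (fun _ _ => by positivity)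
  have hm' : (0:ℝ) < m := by exact_mod_cast Nat.pos_of_ne_zero hm
  -- first step: lower bound by product
  have h1 : (m.totient : ℝ) / m * (Real.log z) ^ 2 / 16 ≤
      (∑ a ∈ A, (a:ℝ)⁻¹) * ∑ b ∈ B, (b:ℝ)⁻¹ := by
    have e1 : (m.totient : ℝ) / (2 * m) ≤ ((2 * m).totient : ℝ) / ((2 * m : ℕ) : ℝ) := by
      push_cast
      have : m.totient ≤ (2 * m).totient :=
        Nat.le_of_dvd (Nat.totient_pos.2 (by omega)) (Nat.totient_dvd_of_dvd (dvd_mul_left m 2))
      have : (m.totient : ℝ) ≤ (2 * m).totient := by exact_mod_cast this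
      gcongr
    have e2 : ((Nat.totient 2 : ℕ) : ℝ) / ((2:ℕ):ℝ) = 1 / 2 := by
      rw [Nat.totient_two]; norm_num
    rw [e2] at hHB
    have f1 : (m.totient : ℝ) / (2 * m) * (Real.log z / 2) ≤ ∑ a ∈ A, (a:ℝ)⁻¹ := by
      refine le_trans ?_ hHA
      have : 0 ≤ (m.totient : ℝ) / (2 * m) := by positivity
      gcongr
    have f2 : 1 / 2 * (Real.log z / 2) ≤ ∑ b ∈ B, (b:ℝ)⁻¹ := by
      refine le_trans ?_ hHB
      gcongr
    calc (m.totient : ℝ) / m * (Real.log z) ^ 2 / 16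
        = ((m.totient : ℝ) / (2 * m) * (Real.log z / 2)) * (1 / 2 * (Real.log z / 2)) := by
          field_simp; ring
      _ ≤ _ := by
          apply mul_le_mul f1 f2 (by positivity)
          exact le_trans (by positivity) f1
  refine h1.trans ?_
  rw [Finset.sum_mul_sum, ← Finset.sum_product']
  set ω : ℕ → ℝ := fun p => if p ∣ (pairSieve m N z).prodPrimes then (pairSieve m N z).nu p else 0
    with hω
  have hmaps : ∀ x ∈ A ×ˢ B, x.1 * x.2 ∈ Icc 1 z := by
    rintro ⟨a, b⟩ h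
    simp only [Finset.mem_product, hA, hB, Finset.mem_filter, Finset.mem_Icc] at h
    rw [Finset.mem_Icc]
    refine ⟨Nat.mul_pos h.1.1.1 h.2.1.1, ?_⟩
    calc a * b ≤ w * w := Nat.mul_le_mul h.1.1.2 h.2.1.2
      _ ≤ z := Nat.sqrt_le z
  rw [← Finset.sum_fiberwise_of_maps_to hmaps]
  apply Finset.sum_le_sum
  intro n hn
  have hn1 := Finset.mem_Icc.1 hn
  have hn0 : n ≠ 0 := by omega
  have h0 : ∀ p, p.Prime → 0 ≤ ω p := by
    intro p hp
    simp only [hω]
    split_ifs with h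
    · exact ((pairSieve m N z).nu_pos_of_prime p hp h).le
    · exact le_rfl
  by_cases hemp : ((A ×ˢ B).filter (fun x => x.1 * x.2 = n)) = ∅
  · rw [hemp, Finset.sum_empty]
    exact cm_nonneg h0 n
  · obtain ⟨⟨a0, b0⟩, hab0⟩ := Finset.nonempty_iff_ne_empty.2 hemp
    -- n is odd
    have hodd : Nat.Coprime n 2 := by
      simp only [Finset.mem_filter, Finset.mem_product, hA, hB] at hab0
      rw [← hab0.2]
      exact Nat.Coprime.mul_left (hab0.1.1.2.coprime_dvd_right (dvd_mul_right 2 m)) hab0.1.2.2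
    have hP : ∀ p ∈ n.primeFactorsList, ω p = rho m p / p := by
      intro p hp
      have hpp := Nat.prime_of_mem_primeFactorsList hp
      have hpn := Nat.dvd_of_mem_primeFactorsList hp
      have hp2 : p ≠ 2 := by
        rintro rfl
        have := hodd.coprime_dvd_left hpn
        simp at this
      have hp3 : 3 ≤ p := by have := hpp.two_le; omega
      have hpz : p ≤ z := (Nat.le_of_dvd (by omega) hpn).trans hn1.2
      have hd : p ∣ (pairSieve m N z).prodPrimes :=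
        (prime_dvd_prod_primes oddPrimes_prime hpp).2 (mem_oddPrimes.2 ⟨hp3, hpz, hpp⟩)
      simp only [hω, hd, if_true]
      rw [pair_nu hpp.squarefree, Nat.Prime.primeFactors hpp, Finset.prod_singleton]
    have hcm : cm ω n = cm (rho m) n * (n:ℝ)⁻¹ := by
      rw [← cm_inv n hn0, cm_apply hn0, cm_apply hn0, cm_apply hn0, ← List.prod_map_mul]
      congr 1
      apply List.map_congr_left
      intro p hp
      rw [hP p hp, div_eq_mul_inv]
    rw [hcm]
    have hterm : ∀ x ∈ (A ×ˢ B).filter (fun x => x.1 * x.2 = n),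
        ((x.1:ℝ))⁻¹ * ((x.2:ℝ))⁻¹ = (n:ℝ)⁻¹ := by
      intro x hx
      rw [← mul_inv, ← Nat.cast_mul, (Finset.mem_filter.1 hx).2]
    rw [Finset.sum_congr rfl hterm, Finset.sum_const, nsmul_eq_mul]
    apply mul_le_mul_of_nonneg_right _ (by positivity)
    refine le_trans ?_ (card_coprime_divisors_le m n hn0)
    have : ((A ×ˢ B).filter (fun x => x.1 * x.2 = n)).card ≤
        (n.divisors.filter (fun a => Nat.Coprime a m)).card := by
      apply Finset.card_le_card_of_injOn (fun x => x.1)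
      · rintro ⟨a, b⟩ hab
        simp only [Finset.coe_filter, Finset.mem_product, Set.mem_ofPred_eq, hA, hB,
          Finset.mem_filter] at hab
        simp only [Finset.coe_filter, Set.mem_ofPred_eq, Nat.mem_divisors]
        refine ⟨⟨⟨b, hab.2.symm⟩, hn0⟩, ?_⟩
        exact hab.1.1.2.coprime_dvd_right (dvd_mul_left m 2)
      · rintro ⟨a, b⟩ hab ⟨a', b'⟩ hab' heq
        simp only [Finset.coe_filter, Finset.mem_product, Set.mem_ofPred_eq, hA, hB,
          Finset.mem_filter, Finset.mem_Icc] at hab hab' heq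
        subst heq
        have ha : 0 < a := hab.1.1.1.1
        have : b = b' := Nat.eq_of_mul_eq_mul_left ha (hab.2.trans hab'.2.symm)
        rw [this]
    exact_mod_cast this

/-- **Sieve bound for prime pairs `q, m q + 1`** in raw form. -/
theorem pair_bound_raw (m N z : ℕ) (hm : m ≠ 0) (hz : 2 ≤ z) :
    (((Icc 1 N).filter (fun q => q.Prime ∧ (m * q + 1).Prime)).card : ℝ) ≤
      z + 16 * ((m:ℝ) / m.totient) * N / (Real.log z) ^ 2 + (z:ℝ) ^ 4 := by
  have hS := pair_SS_ge m N z hm (by omega)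
  have hsel := selberg_bound (s := pairSieve m N z) (z := z) (by omega)
  have hlog : 0 < Real.log z := Real.log_pos (by exact_mod_cast (by omega : 1 < z))
  have hm' : (0:ℝ) < m := by exact_mod_cast Nat.pos_of_ne_zero hm
  have ht' : (0:ℝ) < m.totient := by exact_mod_cast Nat.totient_pos.2 (Nat.pos_of_ne_zero hm)
  -- main term
  have hmain : (pairSieve m N z).totalMass / SS (pairSieve m N z) z ≤
      16 * ((m:ℝ) / m.totient) * N / (Real.log z) ^ 2 := by
    change (N:ℝ) / _ ≤ _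
    have hpos : 0 < (m.totient : ℝ) / m * (Real.log z) ^ 2 / 16 := by positivity
    calc (N:ℝ) / SS (pairSieve m N z) z ≤ N / ((m.totient : ℝ) / m * (Real.log z) ^ 2 / 16) := by
          gcongr
      _ = _ := by field_simp
  -- error term
  have herr : ∑ d1 ∈ dset (pairSieve m N z) z, ∑ d2 ∈ dset (pairSieve m N z) z,
      |(pairSieve m N z).rem (Nat.lcm d1 d2)| ≤ (z:ℝ) ^ 4 := by
    have hcard : ((dset (pairSieve m N z) z).card : ℝ) ≤ z := by
      have : dset (pairSieve m N z) z ⊆ Icc 1 z := by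
        intro d hd
        have := mem_dset.1 hd
        rw [Finset.mem_Icc]
        exact ⟨Nat.pos_of_dvd_of_pos this.1 (Nat.pos_of_ne_zero prodPrimes_ne_zero), this.2⟩
      have := Finset.card_le_card this
      rw [Nat.card_Icc] at this
      exact_mod_cast (by omega : (dset (pairSieve m N z) z).card ≤ z)
    have hterm : ∀ d1 ∈ dset (pairSieve m N z) z, ∀ d2 ∈ dset (pairSieve m N z) z,
        |(pairSieve m N z).rem (Nat.lcm d1 d2)| ≤ (z:ℝ)^2 := by
      intro d1 h1 d2 h2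
      have h1' := mem_dset.1 h1
      have h2' := mem_dset.1 h2
      refine (pair_rem (Nat.lcm_dvd h1'.1 h2'.1)).trans ?_
      have : Nat.lcm d1 d2 ≤ z ^ 2 := by
        calc Nat.lcm d1 d2 ≤ d1 * d2 := by
              apply Nat.le_of_dvd
              · exact Nat.mul_pos (Nat.pos_of_dvd_of_pos h1'.1 (Nat.pos_of_ne_zero prodPrimes_ne_zero))
                  (Nat.pos_of_dvd_of_pos h2'.1 (Nat.pos_of_ne_zero prodPrimes_ne_zero))
              · exact Nat.lcm_dvd_mul d1 d2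
          _ ≤ z * z := Nat.mul_le_mul h1'.2 h2'.2
          _ = z ^ 2 := by ring
      exact_mod_cast this
    calc _ ≤ ∑ d1 ∈ dset (pairSieve m N z) z, ∑ d2 ∈ dset (pairSieve m N z) z, (z:ℝ)^2 :=
          Finset.sum_le_sum fun d1 h1 => Finset.sum_le_sum fun d2 h2 => hterm d1 h1 d2 h2
      _ = ((dset (pairSieve m N z) z).card : ℝ) * (((dset (pairSieve m N z) z).card : ℝ) * (z:ℝ)^2) := by
          simp only [Finset.sum_const, nsmul_eq_mul]
      _ ≤ z * (z * (z:ℝ)^2) := by gcongr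
      _ = (z:ℝ)^4 := by ring
  -- the sifted sum counts primes
  have hcount : (((Icc 1 N).filter (fun q => q.Prime ∧ (m * q + 1).Prime)).card : ℝ) ≤
      z + (pairSieve m N z).siftedSum := by
    have hsift : (pairSieve m N z).siftedSum =
        (((Icc 1 N).filter (fun n => Nat.Coprime (pairSieve m N z).prodPrimes
          (n * (m * n + 1)))).card : ℝ) := by
      unfold siftedSum
      change ∑ x ∈ (Icc 1 N).image (fun n => n * (m * n + 1)),
        (if Nat.Coprime (pairSieve m N z).prodPrimes x then (1:ℝ) else 0) = _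
      rw [Finset.sum_image (pair_injOn m N), Finset.card_filter]
      push_cast
      rfl
    rw [hsift]
    have hsub : (Icc 1 N).filter (fun q => q.Prime ∧ (m * q + 1).Prime) ⊆
        (Icc 1 z) ∪ (Icc 1 N).filter (fun n => Nat.Coprime (pairSieve m N z).prodPrimes
          (n * (m * n + 1))) := by
      intro q hq
      rw [Finset.mem_filter] at hq
      rw [Finset.mem_union]
      by_cases hqz : q ≤ z
      · left; rw [Finset.mem_Icc]; exact ⟨(Finset.mem_Icc.1 hq.1).1, hqz⟩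
      · right
        rw [Finset.mem_filter]
        refine ⟨hq.1, ?_⟩
        change Nat.Coprime (∏ p ∈ oddPrimes z, p) _
        apply Nat.Coprime.prod_left
        intro p hp
        have hp' := mem_oddPrimes.1 hp
        apply Nat.Coprime.mul_right
        · rw [Nat.coprime_primes hp'.2.2 hq.2.1]; omega
        · rw [Nat.coprime_primes hp'.2.2 hq.2.2]
          have : q ≤ m * q := Nat.le_mul_of_pos_left q (Nat.pos_of_ne_zero hm)
          omega
    have h1 := Finset.card_le_card hsub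
    have h2 := Finset.card_union_le (Icc 1 z) ((Icc 1 N).filter (fun n =>
      Nat.Coprime (pairSieve m N z).prodPrimes (n * (m * n + 1))))
    rw [Nat.card_Icc] at h2
    have h3 : ((Icc 1 N).filter (fun q => q.Prime ∧ (m * q + 1).Prime)).card ≤
      z + ((Icc 1 N).filter (fun n => Nat.Coprime (pairSieve m N z).prodPrimes
          (n * (m * n + 1)))).card := by omega
    exact_mod_cast h3
  linarith only [hcount, herr, hmain, hsel]

end Vale.Agent.P005.Selberg
end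

section

section

/-!
# P031, module J2: lower bounds for `V`
-/

namespace Vale.Agent.P031.VLow

open Finset Filter Topology Vale.Agent.P031

/-! ### elementary facts on big primes and chains -/

lemma big_mono {M q p : ℕ} (h : Big M q) (hp : p.Prime) (hqp : q ≤ p) : Big M p := by
  refine ⟨hp, h.2.trans ?_⟩
  have h2 : (2 : ℝ) ≤ q := by exact_mod_cast h.1.two_le
  have h3 : (q : ℝ) ≤ p := by exact_mod_cast hqp
  have hlog : 0 < Real.log (q : ℝ) := Real.log_pos (by linarith only [h2])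
  unfold ll
  exact Real.log_le_log hlog (Real.log_le_log (by linarith only [h2]) h3)

/-- a prime dividing `φ(n)` is at most some prime factor of `n` -/
lemma prime_dvd_totient {n q : ℕ} (hq : q.Prime) (hn : n ≠ 0) (h : q ∣ Nat.totient n) :
    ∃ p : ℕ, p.Prime ∧ p ∣ n ∧ q ≤ p := by
  induction n using Nat.recOnPosPrimePosCoprime with
  | zero => exact absurd rfl hn
  | one => simp at h; exact absurd h hq.one_lt.ne'
  | prime_pow p k hp hk =>
    rw [Nat.totient_prime_pow hp hk] at h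
    rcases (Nat.Prime.dvd_mul hq).1 h with h1 | h1
    · have := (Nat.prime_dvd_prime_iff_eq hq hp).1 (hq.dvd_of_dvd_pow h1)
      exact ⟨p, hp, dvd_pow_self p hk.ne', this.le⟩
    · have h2 : q ≤ p - 1 := Nat.le_of_dvd (by have := hp.two_le; omega) h1
      exact ⟨p, hp, dvd_pow_self p hk.ne', by omega⟩
  | coprime a b ha hb hab iha ihb =>
    rw [Nat.totient_mul hab] at h
    rcases (Nat.Prime.dvd_mul hq).1 h with h1 | h1
    · obtain ⟨p, hp, hpa, hqp⟩ := iha (by omega) h1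
      exact ⟨p, hp, hpa.mul_right b, hqp⟩
    · obtain ⟨p, hp, hpb, hqp⟩ := ihb (by omega) h1
      exact ⟨p, hp, hpb.mul_left a, hqp⟩

lemma small_totient_no_big {M n q : ℕ} (hn : Small M n) (hq : Big M q) :
    ¬ q ∣ Nat.totient n := by
  intro h
  obtain ⟨p, hp, hpn, hqp⟩ := prime_dvd_totient hq.1 hn.1 h
  exact hn.2 p hpn (big_mono hq hp hqp)

lemma ch_ne_zero {M J P D : ℕ} (h : Ch M J P D) : D ≠ 0 := by
  induction h with
  | nil n s hn hs =>
    rw [← hs]
    exact (Nat.totient_pos.2 (Nat.pos_of_ne_zero hn.1)).ne'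
  | cons p J P D hp hP hD hG hsq ih =>
    have := hp.big.1.two_le
    exact Nat.mul_ne_zero (by omega) ih

lemma ch_le {M J P D : ℕ} (h : Ch M J P D) : P ≤ D + 1 := by
  induction h with
  | nil n s hn hs => omega
  | cons p J P D hp hP hD hG hsq _ =>
    have h1 := Nat.pos_of_ne_zero (ch_ne_zero hD)
    have h2 := hp.big.1.two_le
    have : p - 1 ≤ (p - 1) * D := Nat.le_mul_of_pos_right _ h1
    omega

lemma ch_noSq {M J P D : ℕ} (h : Ch M J P D) : NoSq M D := by
  induction h with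
  | nil n s hn hs =>
    intro q hq hqd
    exact small_totient_no_big hn hq (hs ▸ (dvd_trans (dvd_pow_self q two_ne_zero) hqd))
  | cons p J P D hp hP hD hG hsq _ => exact hsq

lemma ch_tot {M J P D : ℕ} (h : Ch M J P D) :
    ∃ n : ℕ, 1 ≤ n ∧ Nat.totient n = D ∧ ∀ q : ℕ, Big M q → q ∣ n → q ≤ P := by
  induction h with
  | nil n s hn hs =>
    exact ⟨n, Nat.pos_of_ne_zero hn.1, hs, fun q hq hqn => absurd hq (hn.2 q hqn)⟩
  | cons p J P D hp hP hD hG hsq ih =>
    obtain ⟨n, hn1, hn2, hn3⟩ := ih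
    have hpn : ¬ p ∣ n := fun hd => absurd (hn3 p hp.big hd) (by omega)
    have hcop : Nat.Coprime p n := (Nat.Prime.coprime_iff_not_dvd hp.big.1).2 hpn
    refine ⟨p * n, Nat.mul_pos hp.big.1.pos hn1, ?_, ?_⟩
    · rw [Nat.totient_mul hcop, Nat.totient_prime hp.big.1, hn2]
    · intro q hq hqd
      rcases (Nat.Prime.dvd_mul hq.1).1 hqd with h1 | h1
      · exact ((Nat.prime_dvd_prime_iff_eq hq.1 hp.big.1).1 h1).le
      · exact (hn3 q hq h1).trans hP.le

lemma isTot_mul {M J P D p : ℕ} (h : Ch M J P D) (hp : Big M p) (hP : P < p) :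
    IsTot ((p - 1) * D) := by
  obtain ⟨n, hn1, hn2, hn3⟩ := ch_tot h
  have hpn : ¬ p ∣ n := fun hd => absurd (hn3 p hp hd) (by omega)
  have hcop : Nat.Coprime p n := (Nat.Prime.coprime_iff_not_dvd hp.1).2 hpn
  exact ⟨p * n, Nat.mul_pos hp.1.pos hn1, by
    rw [Nat.totient_mul hcop, Nat.totient_prime hp.1, hn2]⟩

lemma Om_mul {a b : ℕ} (ha : a ≠ 0) (hb : b ≠ 0) : Om (a * b) = Om a + Om b := by
  unfold Om
  rw [(Nat.perm_primeFactorsList_mul ha hb).length_eq, List.length_append]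

lemma le_gpf_pow_Om (D : ℕ) (hD : D ≠ 0) : D ≤ (gpf D) ^ Om D := by
  have h1 : D.primeFactorsList.prod = D := Nat.prod_primeFactorsList hD
  have h2 : ∀ q ∈ D.primeFactorsList, q ≤ gpf D := by
    intro q hq
    unfold gpf
    exact Finset.le_sup (f := id) (by
      rw [Nat.mem_primeFactors]
      exact ⟨Nat.prime_of_mem_primeFactorsList hq, Nat.dvd_of_mem_primeFactorsList hq, hD⟩)
  have h3 : D.primeFactorsList.prod ≤ (gpf D) ^ D.primeFactorsList.length :=
    List.prod_le_pow_card _ _ h2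
  rw [h1] at h3
  exact h3

lemma prime_le_gpf {D q : ℕ} (hD : D ≠ 0) (hq : q.Prime) (h : q ∣ D) : q ≤ gpf D := by
  unfold gpf
  exact Finset.le_sup (f := id) (by
      rw [Nat.mem_primeFactors]
      exact ⟨hq, h, hD⟩)

lemma card_primeFactors_le_Om (D : ℕ) : D.primeFactors.card ≤ Om D := by
  unfold Om
  exact (List.toFinset_card_le _)

lemma V_ge {x : ℝ} (s : Finset ℕ) (hs : ∀ v ∈ s, IsTot v ∧ (v : ℝ) ≤ x) : s.card ≤ V x := by
  unfold V
  rw [← Set.ncard_coe_finset]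
  refine Set.ncard_le_ncard (fun v hv => hs v hv) ?_
  refine Set.Finite.subset (Set.finite_Iic ⌊x⌋₊) ?_
  rintro v ⟨-, hv⟩
  exact Nat.le_floor hv

/-- number of values of a function in terms of the number of collisions -/
lemma card_le_image_add_coll {α β : Type*} [DecidableEq α] [DecidableEq β] (A : Finset α)
    (f : α → β) :
    A.card ≤ (A.image f).card +
      ((A ×ˢ A).filter (fun c => c.1 ≠ c.2 ∧ f c.1 = f c.2)).card := by
  classical
  rcases A.eq_empty_or_nonempty with rfl | ⟨a₀, ha₀⟩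
  · simp
  have : Nonempty α := ⟨a₀⟩
  have key : ∀ b ∈ A.image f, ∃ a ∈ A, f a = b := by
    intro b hb
    simpa using hb
  choose! g hg using key
  have hinj : Set.InjOn g (A.image f) := by
    intro b hb b' hb' h
    rw [← (hg b hb).2, ← (hg b' hb').2, h]
  have h1 : A ⊆ (A.image f).image g ∪
      (((A ×ˢ A).filter (fun c => c.1 ≠ c.2 ∧ f c.1 = f c.2)).image Prod.fst) := by
    intro a ha
    by_cases h : g (f a) = a
    · refine mem_union_left _ ?_
      rw [mem_image]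
      exact ⟨f a, mem_image_of_mem f ha, h⟩
    · refine mem_union_right _ ?_
      rw [mem_image]
      refine ⟨(a, g (f a)), ?_, rfl⟩
      have := hg (f a) (mem_image_of_mem f ha)
      simp only [mem_filter, mem_product]
      exact ⟨⟨ha, this.1⟩, fun h' => h h'.symm, this.2.symm⟩
  calc A.card ≤ _ := card_le_card h1
    _ ≤ _ := card_union_le _ _
    _ ≤ _ := by gcongr <;> exact card_image_le

/-! ### analytic lemmas -/

lemma exp_ll {x : ℝ} (hx : 0 < Real.log x) : Real.exp (ll x) = Real.log x := by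
  unfold ll
  exact Real.exp_log hx

lemma HH_zero' (M n : ℕ) : HH M 0 n = GG M n := by
  unfold HH GG
  refine Finset.sum_congr rfl fun k _ => ?_
  simp [ph]

lemma HH_one' (M j : ℕ) : HH M j 1 = 0 := by
  unfold HH
  refine Finset.sum_eq_zero fun k _ => ?_
  simp [prof]

lemma Cost_one (M D : ℕ) : Cost M 1 D = max (YY M D) (HH M 1 D) := by
  simp [Cost, Psi]

lemma YY_one (M : ℕ) : YY M 1 = 0 := by
  unfold YY gpf ll
  simp

lemma Cost_one_one (M : ℕ) : Cost M 1 1 = 0 := by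
  rw [Cost_one, YY_one, HH_one', max_self]

lemma DD_one (M r : ℕ) : (1 : ℕ) ∈ DD M r := by
  refine ⟨⟨0, 1, by omega, Ch.nil 1 1 ⟨one_ne_zero, ?_⟩ (by simp)⟩, by simp [Om]⟩
  intro q hq hb
  have := Nat.dvd_one.1 hq
  exact absurd hb.1 (by rw [this]; exact Nat.not_prime_one)

lemma log_D_le {M D K : ℕ} {T ℓ : ℝ} (hD : D ≠ 0) (hOm : Om D ≤ K) (hY : YY M D ≤ T)
    (hℓ : (K : ℝ) * Real.exp (T + (M : ℝ) ^ 15) ≤ ℓ) :
    Real.log D ≤ ℓ := by
  have hℓ0 : 0 ≤ ℓ := le_trans (by positivity) hℓ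
  rcases Nat.lt_or_ge D 2 with h2 | h2
  · have : D = 1 := by omega
    rw [this]
    simpa using hℓ0
  · have h1 := le_gpf_pow_Om D hD
    have hg2 : 2 ≤ gpf D := by
      have h3 : (Nat.minFac D) ≤ gpf D :=
        prime_le_gpf hD (Nat.minFac_prime (by omega)) (Nat.minFac_dvd D)
      have := (Nat.minFac_prime (n := D) (by omega)).two_le
      omega
    have hg2' : (2 : ℝ) ≤ gpf D := by exact_mod_cast hg2
    have hlg : 0 < Real.log (gpf D : ℝ) := Real.log_pos (by linarith only [hg2'])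
    have h4 : ll (gpf D : ℝ) ≤ T + (M : ℝ) ^ 15 := by
      have := (le_max_right (0 : ℝ) (ll (gpf D : ℝ) - (M : ℝ) ^ 15)).trans hY
      linarith only [this]
    have h5 : Real.log (gpf D : ℝ) ≤ Real.exp (T + (M : ℝ) ^ 15) := by
      rw [← exp_ll hlg]
      exact Real.exp_le_exp.2 h4
    have h6 : Real.log D ≤ Om D * Real.log (gpf D) := by
      rw [← Real.log_pow]
      refine Real.log_le_log (by positivity) ?_
      exact_mod_cast h1
    calc Real.log D ≤ Om D * Real.log (gpf D) := h6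
      _ ≤ K * Real.exp (T + (M : ℝ) ^ 15) := by
        have : (Om D : ℝ) ≤ K := by exact_mod_cast hOm
        gcongr
      _ ≤ ℓ := hℓ

lemma exp_exp_le_of_big {M q : ℕ} (h : Big M q) :
    Real.exp (Real.exp ((M : ℝ) ^ 15)) ≤ q := by
  have h2 : (2 : ℝ) ≤ q := by exact_mod_cast h.1.two_le
  have hlog : 0 < Real.log (q : ℝ) := Real.log_pos (by linarith)
  have h3 : Real.exp ((M : ℝ) ^ 15) ≤ Real.log q := by
    rw [← exp_ll hlog]
    exact Real.exp_le_exp.2 h.2
  calc Real.exp (Real.exp ((M : ℝ) ^ 15)) ≤ Real.exp (Real.log q) := Real.exp_le_exp.2 h3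
    _ = q := Real.exp_log (by linarith)

lemma cheb_low : ∀ᶠ y : ℝ in atTop, y / (2 * Real.log y) ≤ (Nat.primeCounting (⌊y⌋₊ + 1) : ℝ) := by
  have h1 : ∀ᶠ y : ℝ in atTop, Real.log y ≤ 1 / 100 * y := by
    have := Real.isLittleO_log_id_atTop.bound (show (0 : ℝ) < 1 / 100 by norm_num)
    filter_upwards [this, eventually_ge_atTop 1] with y hy hy1
    rw [Real.norm_of_nonneg (Real.log_nonneg hy1), id, Real.norm_of_nonneg (by linarith)] at hy
    exact hy
  have h2 : ∀ᶠ y : ℝ in atTop, Real.log (y + 2) ≤ 1 / 100 * (y + 2) :=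
    (tendsto_atTop_add_const_right atTop (2 : ℝ) tendsto_id).eventually h1
  filter_upwards [h2, eventually_ge_atTop 100] with y hy hy1
  have h3 := Chebyshev.pi_ge' (x := y) (by linarith)
  have hlog : 0 < Real.log y := Real.log_pos (by linarith)
  have h4 : y / (2 * Real.log y) ≤ ((y - 1) * Real.log 2 - Real.log (y + 2)) / Real.log y := by
    rw [div_le_div_iff₀ (by positivity) hlog]
    have h5 : y / 2 ≤ (y - 1) * Real.log 2 - Real.log (y + 2) := by
      have := Real.log_two_gt_d9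
      nlinarith only [hy1, hy, this]
    nlinarith only [h5, hlog]
  refine h4.trans (h3.trans ?_)
  exact_mod_cast Nat.monotone_primeCounting (Nat.le_succ _)

lemma card_dvd_le {q : ℕ} (hq : 0 < q) {y : ℝ} (hy : 0 ≤ y) (s : Finset ℕ)
    (hs : ∀ p ∈ s, 2 ≤ p ∧ p ≤ ⌊y⌋₊ + 1 ∧ q ∣ p - 1) : (s.card : ℝ) ≤ y / q := by
  have h1 : s.card ≤ ⌊y / q⌋₊ := by
    rw [show ⌊y / q⌋₊ = (Finset.Icc 1 ⌊y / q⌋₊).card by simp]
    refine Finset.card_le_card_of_injOn (fun p => (p - 1) / q) ?_ ?_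
    · intro p hp
      obtain ⟨h2, h3, h4⟩ := hs p hp
      have h5 : q ≤ p - 1 := Nat.le_of_dvd (by omega) h4
      simp only [coe_Icc, Set.mem_Icc]
      refine ⟨(Nat.one_le_div_iff hq).2 h5, Nat.le_floor ?_⟩
      rw [le_div_iff₀ (by positivity)]
      have h6 : ((p - 1) / q * q : ℕ) = p - 1 := Nat.div_mul_cancel h4
      have h7 : (((p - 1) / q : ℕ) : ℝ) * q = ((p - 1 : ℕ) : ℝ) := by exact_mod_cast h6
      rw [h7]
      have h8 : ((p - 1 : ℕ) : ℝ) ≤ (⌊y⌋₊ : ℝ) := by exact_mod_cast (by omega)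
      exact h8.trans (Nat.floor_le hy)
    · intro p hp p' hp' h
      obtain ⟨h2, h3, h4⟩ := hs p hp
      obtain ⟨h2', h3', h4'⟩ := hs p' hp'
      have h5 : p - 1 = (p - 1) / q * q := (Nat.div_mul_cancel h4).symm
      have h6 : p' - 1 = (p' - 1) / q * q := (Nat.div_mul_cancel h4').symm
      simp only at h
      rw [h] at h5
      omega
  calc (s.card : ℝ) ≤ (⌊y / q⌋₊ : ℝ) := by exact_mod_cast h1
    _ ≤ y / q := Nat.floor_le (by positivity)

/-! ### the count for a single `D` -/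

/-- `np_count` for a single `M` -/
def NpAt (M : ℕ) : Prop := ∀ (z : ℝ) (s : Finset ℕ), 3 ≤ z → ll z ≤ 5 * (M : ℝ) ^ 20 →
    (∀ p ∈ s, Big M p ∧ ¬ Nrm M p ∧ (p : ℝ) ≤ z) →
    (s.card : ℝ) ≤ z / Real.log z * Real.exp (-(M : ℝ) ^ 4)

open Classical in
/-- good top primes for `D` -/
noncomputable def GP (M : ℕ) (x : ℝ) (D : ℕ) : Finset ℕ :=
  ((Finset.range (⌊x / (D : ℝ)⌋₊ + 2)).filter Nat.Prime).filter
    (fun p => √x < (p : ℝ) ∧ Nrm M p ∧ ∀ q : ℕ, Big M q → q ∣ D → ¬ q ∣ p - 1)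

lemma primeCounting_eq_card (n : ℕ) :
    Nat.primeCounting (n + 1) = ((Finset.range (n + 2)).filter Nat.Prime).card := by
  rw [Nat.primeCounting, Nat.primeCounting', Nat.count_eq_card_filter_range]

lemma count_D {M D K : ℕ} {x : ℝ} (hnp : NpAt M) (hD : 1 ≤ D)
    (hy : 2 ≤ x / D) (hll : ll (x / D + 1) ≤ 5 * (M : ℝ) ^ 20)
    (hbig : ∀ p : ℕ, √x < (p : ℝ) → (M : ℝ) ^ 15 ≤ ll (p : ℝ)) (hOm : Om D ≤ K) :
    (Nat.primeCounting (⌊x / (D : ℝ)⌋₊ + 1) : ℝ) ≤ (GP M x D).card + √x +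
      (x / D + 1) / Real.log (x / D + 1) * Real.exp (-(M : ℝ) ^ 4) +
      K * (x / D * Real.exp (-Real.exp ((M : ℝ) ^ 15))) := by
  classical
  set y : ℝ := x / D with hydef
  set PS : Finset ℕ := (Finset.range (⌊y⌋₊ + 2)).filter Nat.Prime with hPS
  have hmem : ∀ p ∈ PS, p.Prime ∧ 2 ≤ p ∧ p ≤ ⌊y⌋₊ + 1 := by
    intro p hp
    rw [hPS, mem_filter, mem_range] at hp
    exact ⟨hp.2, hp.2.two_le, by omega⟩
  have hcov : PS ⊆ GP M x D ∪ PS.filter (fun p : ℕ => (p : ℝ) ≤ √x) ∪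
      PS.filter (fun p : ℕ => √x < (p : ℝ) ∧ ¬ Nrm M p) ∪
      (D.primeFactors.filter (fun q => Big M q)).biUnion (fun q => PS.filter (fun p => q ∣ p - 1)) := by
    intro p hp
    by_cases h1 : (p : ℝ) ≤ √x
    · simp [hp, h1]
    by_cases h2 : Nrm M p
    · by_cases h3 : ∀ q : ℕ, Big M q → q ∣ D → ¬ q ∣ p - 1
      · have : p ∈ GP M x D := by
          unfold GP
          rw [mem_filter]
          exact ⟨hp, not_le.1 h1, h2, h3⟩
        simp [this]
      · push Not at h3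
        obtain ⟨q, hq1, hq2, hq3⟩ := h3
        refine mem_union_right _ ?_
        rw [mem_biUnion]
        refine ⟨q, ?_, ?_⟩
        · rw [mem_filter, Nat.mem_primeFactors]
          exact ⟨⟨hq1.1, hq2, by omega⟩, hq1⟩
        · rw [mem_filter]
          exact ⟨hp, hq3⟩
    · refine mem_union_left _ (mem_union_right _ ?_)
      rw [mem_filter]
      exact ⟨hp, not_le.1 h1, h2⟩
  have hc1 : ((PS.filter (fun p : ℕ => (p : ℝ) ≤ √x)).card : ℝ) ≤ √x := by
    have h1 : (PS.filter (fun p : ℕ => (p : ℝ) ≤ √x)).card ≤ ⌊√x⌋₊ := by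
      rw [show ⌊√x⌋₊ = (Finset.Icc 1 ⌊√x⌋₊).card by simp]
      refine card_le_card fun p hp => ?_
      rw [mem_filter] at hp
      rw [mem_Icc]
      exact ⟨(hmem p hp.1).1.pos, Nat.le_floor hp.2⟩
    calc ((PS.filter (fun p : ℕ => (p : ℝ) ≤ √x)).card : ℝ) ≤ (⌊√x⌋₊ : ℝ) := by exact_mod_cast h1
      _ ≤ √x := Nat.floor_le (Real.sqrt_nonneg x)
  have hc2 : ((PS.filter (fun p : ℕ => √x < (p : ℝ) ∧ ¬ Nrm M p)).card : ℝ) ≤
      (y + 1) / Real.log (y + 1) * Real.exp (-(M : ℝ) ^ 4) := by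
    refine hnp (y + 1) _ (by linarith only [hy]) hll ?_
    intro p hp
    rw [mem_filter] at hp
    obtain ⟨h1, h2, h3⟩ := hmem p hp.1
    refine ⟨⟨h1, hbig p hp.2.1⟩, hp.2.2, ?_⟩
    calc (p : ℝ) ≤ ((⌊y⌋₊ + 1 : ℕ) : ℝ) := by exact_mod_cast h3
      _ = (⌊y⌋₊ : ℝ) + 1 := by push_cast; ring
      _ ≤ y + 1 := by
        have := Nat.floor_le (show 0 ≤ y by linarith only [hy])
        linarith only [this]
  have hc3 : (((D.primeFactors.filter (fun q => Big M q)).biUnion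
      (fun q => PS.filter (fun p => q ∣ p - 1))).card : ℝ) ≤
      K * (y * Real.exp (-Real.exp ((M : ℝ) ^ 15))) := by
    calc (((D.primeFactors.filter (fun q => Big M q)).biUnion
      (fun q => PS.filter (fun p => q ∣ p - 1))).card : ℝ)
        ≤ ∑ q ∈ D.primeFactors.filter (fun q => Big M q),
            ((PS.filter (fun p => q ∣ p - 1)).card : ℝ) := by
          exact_mod_cast card_biUnion_le
      _ ≤ ∑ q ∈ D.primeFactors.filter (fun q => Big M q),
            y * Real.exp (-Real.exp ((M : ℝ) ^ 15)) := by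
          refine Finset.sum_le_sum fun q hq => ?_
          rw [mem_filter] at hq
          have hq0 : 0 < q := hq.2.1.pos
          have h1 := card_dvd_le hq0 (show 0 ≤ y by linarith only [hy]) (PS.filter (fun p => q ∣ p - 1)) (by
            intro p hp
            rw [mem_filter] at hp
            obtain ⟨h1, h2, h3⟩ := hmem p hp.1
            exact ⟨h2, h3, hp.2⟩)
          refine h1.trans ?_
          rw [Real.exp_neg, ← div_eq_mul_inv]
          have h2 := exp_exp_le_of_big hq.2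
          have h3 : 0 ≤ y := by linarith only [hy]
          gcongr
      _ ≤ K * (y * Real.exp (-Real.exp ((M : ℝ) ^ 15))) := by
          rw [Finset.sum_const, nsmul_eq_mul]
          have h1 : ((D.primeFactors.filter (fun q => Big M q)).card : ℝ) ≤ K := by
            exact_mod_cast ((card_le_card (filter_subset _ _)).trans
              ((card_primeFactors_le_Om D).trans hOm))
          have h3 : 0 ≤ y := by linarith only [hy]
          gcongr
  have hfin : (PS.card : ℝ) ≤ (GP M x D).card + (PS.filter (fun p : ℕ => (p : ℝ) ≤ √x)).card +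
      (PS.filter (fun p : ℕ => √x < (p : ℝ) ∧ ¬ Nrm M p)).card +
      ((D.primeFactors.filter (fun q => Big M q)).biUnion
      (fun q => PS.filter (fun p => q ∣ p - 1))).card := by
    have h1 := card_le_card hcov
    have h2 : PS.card ≤ (GP M x D).card + (PS.filter (fun p : ℕ => (p : ℝ) ≤ √x)).card +
      (PS.filter (fun p : ℕ => √x < (p : ℝ) ∧ ¬ Nrm M p)).card +
      ((D.primeFactors.filter (fun q => Big M q)).biUnion
      (fun q => PS.filter (fun p => q ∣ p - 1))).card := by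
      refine h1.trans ((card_union_le _ _).trans ?_)
      gcongr
      refine (card_union_le _ _).trans ?_
      gcongr
      exact card_union_le _ _
    exact_mod_cast h2
  rw [primeCounting_eq_card]
  linarith only [hc1, hc2, hfin, hc3]

/-! ### numeric facts for large `M` -/

lemma ev_pow_exp (k : ℕ) (c : ℝ) (hc : 0 < c) :
    ∀ᶠ M : ℕ in atTop, (M : ℝ) ^ k * Real.exp (-(M : ℝ)) ≤ c := by
  have h := (Real.tendsto_pow_mul_exp_neg_atTop_nhds_zero k).comp tendsto_natCast_atTop_atTop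
  exact (h.eventually (ge_mem_nhds hc))

structure Num (J₀ M : ℕ) (ε y₀ : ℝ) : Prop where
  h1 : J₀ + 3 ≤ M
  h2 : (((J₀ : ℝ) + 1) * (M : ℝ) ^ 25) * Real.exp ((M : ℝ) ^ 15 - 3 * (M : ℝ) ^ 18) ≤ 1 / 4
  h3 : ∀ ℓ : ℝ, Real.exp ((M : ℝ) ^ 19) ≤ ℓ → y₀ ≤ Real.exp (3 / 4 * ℓ) ∧ 8 ≤ ℓ ∧
    32 * ℓ ≤ ε * Real.exp (ℓ / 4)
  h4 : Real.exp (-(M : ℝ) ^ 4) ≤ ε / 100
  h5 : (((J₀ : ℝ) + 1) * (M : ℝ) ^ 25) * Real.exp (-Real.exp ((M : ℝ) ^ 15)) *
    Real.exp (9 / 2 * (M : ℝ) ^ 20) ≤ ε / 100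
  h6 : Real.exp (-(M : ℝ) ^ 18 / 2) ≤ ε / 100

lemma numeric (J₀ : ℕ) (ε y₀ : ℝ) (hε : 0 < ε) : ∀ᶠ M : ℕ in atTop, Num J₀ M ε y₀ := by
  have e1 := ev_pow_exp 25 1 one_pos
  have e2 := ev_pow_exp 20 (1 / 7) (by norm_num)
  have e3 := ev_pow_exp 0 (1 / (4 * ((J₀ : ℝ) + 1))) (by positivity)
  have e4 := ev_pow_exp 0 (ε / (100 * ((J₀ : ℝ) + 1))) (by positivity)
  have e5 : ∀ᶠ M : ℕ in atTop, 2048 / ε ≤ (M : ℝ) :=
    tendsto_natCast_atTop_atTop.eventually (eventually_ge_atTop _)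
  have e6 : ∀ᶠ M : ℕ in atTop, y₀ ≤ (M : ℝ) :=
    tendsto_natCast_atTop_atTop.eventually (eventually_ge_atTop _)
  filter_upwards [e1, e2, e3, e4, e5, e6, eventually_ge_atTop (J₀ + 3), eventually_ge_atTop 8]
    with M h1 h2 h3 h4 h5 h6 h7 h8
  have hm8 : (8 : ℝ) ≤ M := by exact_mod_cast h8
  have hm1 : (1 : ℝ) ≤ M := by linarith only [hm8]
  have hm0 : (0 : ℝ) ≤ M := by linarith only []
  set m : ℝ := (M : ℝ) with hm
  have hJ : (0 : ℝ) < (J₀ : ℝ) + 1 := by positivity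
  rw [pow_zero, one_mul] at h3 h4
  have hpow : ∀ a b : ℕ, a ≤ b → m ^ a ≤ m ^ b := fun a b hab => pow_le_pow_right₀ hm1 hab
  have hexpm : Real.exp (-m) ≤ ε / 100 := by
    refine h4.trans ?_
    have : (1 : ℝ) ≤ (J₀ : ℝ) + 1 := by
      have : (0 : ℝ) ≤ J₀ := by positivity
      linarith only []
    apply div_le_div_of_nonneg_left hε.le (by norm_num)
    linarith only []
  have key : ∀ t : ℝ, t ≤ -(2 * m) → ((J₀ : ℝ) + 1) * m ^ 25 * Real.exp t ≤
      ((J₀ : ℝ) + 1) * Real.exp (-m) := by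
    intro t ht
    calc ((J₀ : ℝ) + 1) * m ^ 25 * Real.exp t
        ≤ ((J₀ : ℝ) + 1) * m ^ 25 * Real.exp (-(2 * m)) := by gcongr
      _ = ((J₀ : ℝ) + 1) * (m ^ 25 * Real.exp (-m)) * Real.exp (-m) := by
          rw [show -(2 * m) = -m + -m by ring, Real.exp_add]; ring
      _ ≤ ((J₀ : ℝ) + 1) * 1 * Real.exp (-m) := by gcongr
      _ = ((J₀ : ℝ) + 1) * Real.exp (-m) := by ring
  refine ⟨h7, ?_, ?_, ?_, ?_, ?_⟩
  · refine (key _ ?_).trans ?_
    · have a1 := hpow 15 18 (by norm_num)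
      have a2 := hpow 1 18 (by norm_num)
      rw [pow_one] at a2
      linarith only [a1, a2]
    · calc ((J₀ : ℝ) + 1) * Real.exp (-m) ≤ ((J₀ : ℝ) + 1) * (1 / (4 * ((J₀ : ℝ) + 1))) := by
            gcongr
        _ = 1 / 4 := by field_simp
  · intro ℓ hℓ
    have b1 : m ≤ ℓ := by
      have a2 := hpow 1 19 (by norm_num)
      rw [pow_one] at a2
      have := Real.add_one_le_exp (m ^ 19)
      linarith only [hℓ, this, a2]
    refine ⟨?_, by linarith only [hm8, b1], ?_⟩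
    · have := Real.add_one_le_exp (3 / 4 * ℓ)
      have h9 := Real.add_one_le_exp (1 / 4 * ℓ)
      have h10 : Real.exp (3 / 4 * ℓ) = Real.exp (1 / 4 * ℓ) * Real.exp (1 / 2 * ℓ) := by
        rw [← Real.exp_add]; ring_nf
      have h11 := Real.add_one_le_exp (1 / 2 * ℓ)
      rw [h10]
      have h12 : (1 / 4 * ℓ + 1) * (1 / 2 * ℓ + 1) ≤ Real.exp (1 / 4 * ℓ) * Real.exp (1 / 2 * ℓ) := by
        apply mul_le_mul h9 h11 (by linarith only [hm8, b1]) (Real.exp_pos _).le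
      nlinarith only [h6, hm8, h12, b1]
    · have h9 := Real.add_one_le_exp (ℓ / 8)
      have h10 : Real.exp (ℓ / 4) = Real.exp (ℓ / 8) * Real.exp (ℓ / 8) := by
        rw [← Real.exp_add]; ring_nf
      have h11 : 2048 ≤ ε * ℓ := by
        rw [div_le_iff₀ hε] at h5
        nlinarith only [b1, h5, hε]
      have h12 : (ℓ / 8) * (ℓ / 8) ≤ Real.exp (ℓ / 8) * Real.exp (ℓ / 8) := by
        apply mul_le_mul (by linarith only [h9]) (by linarith only [h9]) (by linarith only [hm8, b1]) (Real.exp_pos _).le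
      rw [h10]
      calc 32 * ℓ ≤ (ε * ℓ) * ℓ / 64 := by (by_contra nlg; linarith only [nlg, mul_nonneg (sub_nonneg.2 h11) (sub_nonneg.2 h11), mul_pos (sub_pos.2 (not_le.1 nlg)) (sub_pos.2 hε), mul_nonneg (mul_self_nonneg (1 : ℝ)) (sub_nonneg.2 h11)])
        _ = ε * ((ℓ / 8) * (ℓ / 8)) := by ring
        _ ≤ _ := by gcongr
  · refine le_trans ?_ hexpm
    apply Real.exp_le_exp.2
    have a2 := hpow 1 4 (by norm_num)
    rw [pow_one] at a2
    linarith only [a2]
  · rw [mul_assoc, ← Real.exp_add]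
    refine (key _ ?_).trans ?_
    · have a1 : 7 * m ^ 20 ≤ Real.exp m := by
        rw [Real.exp_neg, ← div_eq_mul_inv, div_le_iff₀ (Real.exp_pos _)] at h2
        linarith only [h2]
      have a2 : Real.exp m ≤ Real.exp (m ^ 15) := by
        apply Real.exp_le_exp.2
        have := hpow 1 15 (by norm_num)
        rwa [pow_one] at this
      have a3 := hpow 1 20 (by norm_num)
      rw [pow_one] at a3
      linarith only [a2, a3, hm8, a1]
    · calc ((J₀ : ℝ) + 1) * Real.exp (-m) ≤ ((J₀ : ℝ) + 1) * (ε / (100 * ((J₀ : ℝ) + 1))) := by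
            gcongr
        _ = ε / 100 := by field_simp
  · refine le_trans ?_ hexpm
    apply Real.exp_le_exp.2
    have a2 : m * 8 ≤ m ^ 18 := by
      have := hpow 2 18 (by norm_num)
      nlinarith only [this, hm8]
    linarith only [hm8, a2]

/-! ### the main lower bound for a single `M` -/

/-- `step` for `j = 0` and a single `M` -/
def StepAt (M : ℕ) : Prop := ∀ (p D : ℕ), Nrm M p →
    ll (p : ℝ) ≤ 5 * (M : ℝ) ^ 20 → D ≠ 0 → Om D ≤ M ^ 26 →
    (∀ q : ℕ, q.Prime → q ∣ D → q ≤ p) →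
    |HH M 0 ((p - 1) * D) - HH M 1 D - aa 0 * (ll (p : ℝ) - (M : ℝ) ^ 15)| ≤ (M : ℝ) ^ 17

/-- `col_use_count` for a single `M` -/
def ColAt (M : ℕ) : Prop := ∀ (r : ℕ) (x : ℝ) (A : Finset (ℕ × ℕ)), r < M →
    3 ≤ x → ll x ≤ 5 * (M : ℝ) ^ 20 → (∀ a ∈ A, PD M r x a) →
    (((A ×ˢ A).filter (fun c => c.1 ≠ c.2 ∧
      (c.1.1 - 1) * c.1.2 = (c.2.1 - 1) * c.2.2)).card : ℝ)
      ≤ x / Real.log x * Real.exp (-(M : ℝ) ^ 18 / 2)

lemma aa_zero' : aa 0 = -1 := by
  simp [aa]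

/-- basic numeric data for a scale `x` -/
structure Scale (M : ℕ) (x : ℝ) : Prop where
  x3 : 3 ≤ x
  lo : (M : ℝ) ^ 19 ≤ ll x
  hi : ll x ≤ 9 / 2 * (M : ℝ) ^ 20

section
variable {J₀ M : ℕ} {ε y₀ x : ℝ}

lemma Scale.logpos (hs : Scale M x) : 0 < Real.log x := Real.log_pos (by linarith [hs.x3])

lemma Scale.exp_le (hs : Scale M x) : Real.exp ((M : ℝ) ^ 19) ≤ Real.log x := by
  rw [← exp_ll hs.logpos]
  exact Real.exp_le_exp.2 hs.lo

lemma Scale.le_exp (hs : Scale M x) : Real.log x ≤ Real.exp (9 / 2 * (M : ℝ) ^ 20) := by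
  rw [← exp_ll hs.logpos]
  exact Real.exp_le_exp.2 hs.hi

lemma Scale.x_eq (hs : Scale M x) : x = Real.exp (Real.log x) :=
  (Real.exp_log (by linarith [hs.x3])).symm

lemma Scale.sqrt_eq (hs : Scale M x) : √x = Real.exp (Real.log x / 2) := by
  have h1 : x = Real.exp (Real.log x / 2) ^ 2 := by
    rw [← Real.exp_nat_mul]
    rw [show ((2 : ℕ) : ℝ) * (Real.log x / 2) = Real.log x by push_cast; ring]
    exact hs.x_eq
  nth_rewrite 1 [h1]
  exact Real.sqrt_sq (Real.exp_pos _).le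

lemma Scale.ll_ge (hs : Scale M x) {p : ℕ} (hp : √x < (p : ℝ)) :
    ll x - Real.log 2 ≤ ll (p : ℝ) := by
  rw [hs.sqrt_eq] at hp
  have h1 : Real.log x / 2 < Real.log p := by
    rw [← Real.log_exp (Real.log x / 2)]
    exact Real.log_lt_log (Real.exp_pos _) hp
  have h2 := hs.logpos
  unfold ll
  rw [← Real.log_div h2.ne' (by norm_num)]
  exact Real.log_le_log (by positivity) h1.le

lemma Scale.ll_le (hs : Scale M x) (hM : 2 ≤ M) {z : ℝ} (hz1 : 1 < z) (hz : z ≤ x + 1) :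
    ll z ≤ 5 * (M : ℝ) ^ 20 := by
  have h2 := hs.logpos
  have hx := hs.x3
  have h1 : Real.log z ≤ 2 * Real.log x := by
    rw [show (2 : ℝ) * Real.log x = Real.log (x ^ 2) by rw [Real.log_pow]; push_cast; ring]
    exact Real.log_le_log (by linarith) (by nlinarith only [hz, hx])
  have h3 : ll z ≤ Real.log 2 + ll x := by
    unfold ll
    rw [← Real.log_mul (by norm_num) h2.ne']
    exact Real.log_le_log (Real.log_pos hz1) h1
  have h4 := hs.hi
  have h5 := hs.lo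
  have h6 := Real.log_two_lt_d9
  have hm2 : (2 : ℝ) ≤ M := by exact_mod_cast hM
  have h9 : (2 : ℝ) ≤ (M : ℝ) ^ 20 := by
    calc (2 : ℝ) ≤ M := hm2
      _ ≤ (M : ℝ) ^ 20 := le_self_pow₀ (by linarith only [hm2]) (by norm_num)
  linarith only [h3, h6, h9, h4]

lemma mem_GP {M D p : ℕ} {x : ℝ} : p ∈ GP M x D ↔
    (p < ⌊x / (D : ℝ)⌋₊ + 2 ∧ p.Prime) ∧ √x < (p : ℝ) ∧ Nrm M p ∧
      ∀ q : ℕ, Big M q → q ∣ D → ¬ q ∣ p - 1 := by
  classical
  unfold GP
  rw [mem_filter, mem_filter, mem_range]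

lemma DF_log_le (hN : Num J₀ M ε y₀) (hs : Scale M x) {r : ℕ} (hr : r ≤ J₀) {D : ℕ}
    (hD : D ∈ DF M r 1 (ll x - 3 * (M : ℝ) ^ 18)) : Real.log D ≤ Real.log x / 4 := by
  rw [mem_DF] at hD
  obtain ⟨⟨hD1, -⟩, ⟨-, hOm⟩, hC⟩ := hD
  rw [Cost_one] at hC
  refine log_D_le (by omega) hOm ((le_max_left _ _).trans hC) ?_
  have h1 : (((r + 1) * M ^ 25 : ℕ) : ℝ) ≤ ((J₀ : ℝ) + 1) * (M : ℝ) ^ 25 := by
    push_cast
    have : (r : ℝ) ≤ J₀ := by exact_mod_cast hr
    gcongr
  have h2 : Real.exp (ll x - 3 * (M : ℝ) ^ 18 + (M : ℝ) ^ 15) =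
      Real.exp ((M : ℝ) ^ 15 - 3 * (M : ℝ) ^ 18) * Real.log x := by
    rw [← exp_ll hs.logpos, ← Real.exp_add]
    ring_nf
  rw [h2]
  have h3 := hs.logpos
  calc (((r + 1) * M ^ 25 : ℕ) : ℝ) * (Real.exp ((M : ℝ) ^ 15 - 3 * (M : ℝ) ^ 18) * Real.log x)
      ≤ (((J₀ : ℝ) + 1) * (M : ℝ) ^ 25) *
        (Real.exp ((M : ℝ) ^ 15 - 3 * (M : ℝ) ^ 18) * Real.log x) := by gcongr
    _ = ((((J₀ : ℝ) + 1) * (M : ℝ) ^ 25) *
        Real.exp ((M : ℝ) ^ 15 - 3 * (M : ℝ) ^ 18)) * Real.log x := by ring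
    _ ≤ 1 / 4 * Real.log x := by
        have := hN.h2
        gcongr
    _ = Real.log x / 4 := by ring

lemma y_ge (hs : Scale M x) {D : ℕ} (hD1 : 1 ≤ D) (hD : Real.log D ≤ Real.log x / 4) :
    Real.exp (3 / 4 * Real.log x) ≤ x / D := by
  have hD0 : (0 : ℝ) < D := by exact_mod_cast hD1
  rw [le_div_iff₀ hD0]
  calc Real.exp (3 / 4 * Real.log x) * D
      = Real.exp (3 / 4 * Real.log x) * Real.exp (Real.log D) := by rw [Real.exp_log hD0]
    _ = Real.exp (3 / 4 * Real.log x + Real.log D) := by rw [Real.exp_add]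
    _ ≤ Real.exp (Real.log x) := by
        apply Real.exp_le_exp.2
        linarith only [hD]
    _ = x := hs.x_eq.symm

/-- the count of good top primes -/
lemma GP_ge (hε : 0 < ε) (hN : Num J₀ M ε y₀)
    (hy₀ : ∀ y : ℝ, y₀ ≤ y → y / (2 * Real.log y) ≤ (Nat.primeCounting (⌊y⌋₊ + 1) : ℝ))
    (hnp : NpAt M) (hs : Scale M x) {r : ℕ} (hr : r ≤ J₀) {D : ℕ}
    (hD : D ∈ DF M r 1 (ll x - 3 * (M : ℝ) ^ 18)) :
    x / D / (2 * Real.log x) ≤ (Nat.primeCounting (⌊x / (D : ℝ)⌋₊ + 1) : ℝ) ∧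
    (1 - ε / 2) * (Nat.primeCounting (⌊x / (D : ℝ)⌋₊ + 1) : ℝ) ≤ (GP M x D).card := by
  have hlogD := DF_log_le hN hs hr hD
  have hD' := hD
  rw [mem_DF] at hD
  obtain ⟨⟨hD1, -⟩, ⟨-, hOm⟩, hC⟩ := hD
  have hM2 := hN.h1
  have hD0 : (1 : ℝ) ≤ D := by exact_mod_cast hD1
  have hx3 := hs.x3
  have hℓ := hs.logpos
  obtain ⟨n1, n2, n3⟩ := hN.h3 (Real.log x) hs.exp_le
  set ℓ := Real.log x with hℓdef
  set y : ℝ := x / D with hy
  have hyge : Real.exp (3 / 4 * ℓ) ≤ y := y_ge hs hD1 hlogD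
  have hyx : y ≤ x := div_le_self (by linarith only [hx3]) hD0
  have hy6 : 6 ≤ y := by
    have := Real.add_one_le_exp (3 / 4 * ℓ)
    linarith only [n2, hyge, this]
  have hlogy1 : 3 / 4 * ℓ ≤ Real.log y := by
    rw [← Real.log_exp (3 / 4 * ℓ)]
    exact Real.log_le_log (Real.exp_pos _) hyge
  have hlogy2 : Real.log y ≤ ℓ := Real.log_le_log (by linarith only [hy6]) hyx
  have hlogy0 : 0 < Real.log y := by linarith only [n2, hlogy1]
  have hmain : y / (2 * ℓ) ≤ (Nat.primeCounting (⌊y⌋₊ + 1) : ℝ) := by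
    refine le_trans ?_ (hy₀ y (n1.trans hyge))
    gcongr
  refine ⟨hmain, ?_⟩
  have hm : (1 : ℝ) ≤ (M : ℝ) := by exact_mod_cast (by omega)
  have hcnt := count_D (M := M) (D := D) (K := (r + 1) * M ^ 25) (x := x) hnp hD1
    (by rw [← hy]; linarith only [hy6]) (hs.ll_le (by omega) (by rw [← hy]; linarith only [hy6]) (by rw [← hy]; linarith only [hyx]))
    (by
      intro p hp
      have h1 := hs.ll_ge hp
      have h2 := hs.lo
      have h3 := Real.log_two_lt_d9
      have h4 : (M : ℝ) ^ 15 + 1 ≤ (M : ℝ) ^ 19 := by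
        have hm2 : (2 : ℝ) ≤ (M : ℝ) := by exact_mod_cast (by omega)
        have h5 : (1 : ℝ) ≤ (M : ℝ) ^ 15 := one_le_pow₀ hm
        have h6 : (2 : ℝ) ≤ (M : ℝ) ^ 4 := by
          calc (2 : ℝ) ≤ M := hm2
            _ ≤ (M : ℝ) ^ 4 := le_self_pow₀ hm (by norm_num)
        have h7 : (M : ℝ) ^ 19 = (M : ℝ) ^ 15 * (M : ℝ) ^ 4 := by ring
        linarith only [mul_nonneg (sub_nonneg.2 h5) (sub_nonneg.2 h6), h6, h5]
      linarith only [h3, h4, h1, h2]) hOm
  rw [← hy] at hcnt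
  -- the four error terms
  have hunit : 0 < y / (2 * ℓ) := by positivity
  have e1 : √x ≤ ε / 16 * (y / (2 * ℓ)) := by
    rw [hs.sqrt_eq, ← hℓdef]
    have h1 : Real.exp (3 / 4 * ℓ) = Real.exp (ℓ / 2) * Real.exp (ℓ / 4) := by
      rw [← Real.exp_add]; ring_nf
    rw [h1] at hyge
    rw [show ε / 16 * (y / (2 * ℓ)) = (ε * y) / (32 * ℓ) by field_simp; ring,
      le_div_iff₀ (by positivity)]
    calc Real.exp (ℓ / 2) * (32 * ℓ) ≤ Real.exp (ℓ / 2) * (ε * Real.exp (ℓ / 4)) := by gcongr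
      _ = ε * (Real.exp (ℓ / 2) * Real.exp (ℓ / 4)) := by ring
      _ ≤ ε * y := by gcongr
  have e2 : (y + 1) / Real.log (y + 1) * Real.exp (-(M : ℝ) ^ 4) ≤ ε / 16 * (y / (2 * ℓ)) := by
    have h1 : 3 / 4 * ℓ ≤ Real.log (y + 1) :=
      hlogy1.trans (Real.log_le_log (by linarith only [hy6]) (by linarith only []))
    calc (y + 1) / Real.log (y + 1) * Real.exp (-(M : ℝ) ^ 4)
        ≤ (7 / 6 * y) / (3 / 4 * ℓ) * (ε / 100) := by
          have := hN.h4
          gcongr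
          linarith only [hy6]
      _ = (14 / 9 * 2 / 100) * ε * (y / (2 * ℓ)) := by field_simp; ring
      _ ≤ ε / 16 * (y / (2 * ℓ)) := by linarith only [mul_pos hε hunit]
  have e3 : (((r + 1) * M ^ 25 : ℕ) : ℝ) * (y * Real.exp (-Real.exp ((M : ℝ) ^ 15))) ≤
      ε / 16 * (y / (2 * ℓ)) := by
    have h1 : (((r + 1) * M ^ 25 : ℕ) : ℝ) ≤ ((J₀ : ℝ) + 1) * (M : ℝ) ^ 25 := by
      push_cast
      have : (r : ℝ) ≤ J₀ := by exact_mod_cast hr
      gcongr
    have h2 : ℓ ≤ Real.exp (9 / 2 * (M : ℝ) ^ 20) := hs.le_exp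
    have h3 : ((J₀ : ℝ) + 1) * (M : ℝ) ^ 25 * Real.exp (-Real.exp ((M : ℝ) ^ 15)) * ℓ ≤
        ε / 100 := by
      refine le_trans ?_ hN.h5
      gcongr
    have hy0 : 0 ≤ y := by linarith only [hy6]
    calc (((r + 1) * M ^ 25 : ℕ) : ℝ) * (y * Real.exp (-Real.exp ((M : ℝ) ^ 15)))
        ≤ (((J₀ : ℝ) + 1) * (M : ℝ) ^ 25) * (y * Real.exp (-Real.exp ((M : ℝ) ^ 15))) := by
          gcongr
      _ = (((J₀ : ℝ) + 1) * (M : ℝ) ^ 25 * Real.exp (-Real.exp ((M : ℝ) ^ 15)) * ℓ) *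
          (2 * (y / (2 * ℓ))) := by field_simp
      _ ≤ (ε / 100) * (2 * (y / (2 * ℓ))) := by gcongr
      _ ≤ ε / 16 * (y / (2 * ℓ)) := by linarith only [mul_pos hε hunit]
  linarith only [mul_pos hε hunit, mul_le_mul_of_nonneg_left hmain hε.le, hcnt, e2, e1, e3]

/-- the pairs used satisfy `PD` -/
lemma PD_of_GP (hN : Num J₀ M ε y₀) (hstep : StepAt M) (hs : Scale M x) {r : ℕ} (hr : r ≤ J₀)
    {D : ℕ} (hD : D ∈ DF M r 1 (ll x - 3 * (M : ℝ) ^ 18)) {p : ℕ} (hp : p ∈ GP M x D) :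
    PD M r x (p, D) ∧ IsTot ((p - 1) * D) := by
  have hlogD := DF_log_le hN hs hr hD
  have hD' := hD
  rw [mem_DF] at hD
  obtain ⟨⟨hD1, -⟩, ⟨⟨J, P, hJ, hCh⟩, hOm⟩, hC⟩ := hD
  rw [Cost_one] at hC
  have hM2 := hN.h1
  have hD0 : (1 : ℝ) ≤ D := by exact_mod_cast hD1
  have hx3 := hs.x3
  have hℓ := hs.logpos
  obtain ⟨n1, n2, n3⟩ := hN.h3 (Real.log x) hs.exp_le
  rw [mem_GP] at hp
  obtain ⟨⟨hp1, hp2⟩, hp3, hp4, hp5⟩ := hp
  set ℓ := Real.log x with hℓdef
  have hm2 : (2 : ℝ) ≤ (M : ℝ) := by exact_mod_cast (by omega)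
  have hm1 : (1 : ℝ) ≤ (M : ℝ) := by linarith only [hm2]
  have hple : (p : ℝ) ≤ x / D + 1 := by
    have h1 : p ≤ ⌊x / (D : ℝ)⌋₊ + 1 := by omega
    calc (p : ℝ) ≤ ((⌊x / (D : ℝ)⌋₊ + 1 : ℕ) : ℝ) := by exact_mod_cast h1
      _ = (⌊x / (D : ℝ)⌋₊ : ℝ) + 1 := by push_cast; ring
      _ ≤ x / D + 1 := by
        have := Nat.floor_le (show 0 ≤ x / (D : ℝ) by positivity)
        linarith only [this]
  have hyx : x / D ≤ x := div_le_self (by linarith only [hx3]) hD0
  have hDp : D + 1 < p := by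
    have h1 : (D : ℝ) ≤ Real.exp (ℓ / 4) := by
      rw [← Real.exp_log (show (0 : ℝ) < D by linarith only [hD0])]
      exact Real.exp_le_exp.2 hlogD
    have h2 : Real.exp (ℓ / 2) = Real.exp (ℓ / 4) * Real.exp (ℓ / 4) := by
      rw [← Real.exp_add]; ring_nf
    have h3 := Real.add_one_le_exp (ℓ / 4)
    rw [hs.sqrt_eq, ← hℓdef, h2] at hp3
    have : (D : ℝ) + 1 < p := by nlinarith only [n2, h1, h3, hp3]
    exact_mod_cast this
  have hbig : Big M p := hp4.big
  have hPp : P < p := lt_of_le_of_lt (ch_le hCh) hDp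
  have hp1' : p - 1 ≠ 0 := by have := hp2.two_le; omega
  have hDne : D ≠ 0 := by omega
  have hOm2 : Om ((p - 1) * D) ≤ M ^ 26 := by
    rw [Om_mul hp1' hDne]
    have h1 := hp4.om_le
    calc Om (p - 1) + Om D ≤ M ^ 25 + (r + 1) * M ^ 25 := by gcongr
      _ = (r + 2) * M ^ 25 := by ring
      _ ≤ M * M ^ 25 := by gcongr; omega
      _ = M ^ 26 := by ring
  have hOmD : Om D ≤ M ^ 26 := by
    rw [Om_mul hp1' hDne] at hOm2
    omega
  have hGG : GG M ((p - 1) * D) ≤ -(M : ℝ) ^ 18 := by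
    have h1 := hstep p D hp4 (hs.ll_le (by omega) (by exact_mod_cast hp2.one_lt) (by linarith only [hple, hyx]))
      hDne hOmD (fun q _ hqd => by
        have := Nat.le_of_dvd (by omega) hqd
        omega)
    rw [aa_zero', HH_zero'] at h1
    have h2 := (abs_le.1 h1).2
    have h3 := hs.ll_ge hp3
    have h4 : HH M 1 D ≤ ll x - 3 * (M : ℝ) ^ 18 := (le_max_right _ _).trans hC
    have h5 := Real.log_two_lt_d9
    have h6 : (M : ℝ) ^ 15 + (M : ℝ) ^ 17 + 1 ≤ 2 * (M : ℝ) ^ 18 := by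
      have a1 : (M : ℝ) ^ 15 ≤ (M : ℝ) ^ 17 := pow_le_pow_right₀ hm1 (by norm_num)
      have a2 : (1 : ℝ) ≤ (M : ℝ) ^ 17 := one_le_pow₀ hm1
      have a3 : (M : ℝ) ^ 18 = (M : ℝ) ^ 17 * M := by ring
      nlinarith only [hm2, a1, a2]
    linarith only [h6, h2, h3, h5, h4]
  refine ⟨⟨hp4, ⟨J, P, hJ, hCh, hPp⟩, hOm2, ?_, hGG, ?_⟩, isTot_mul hCh hbig hPp⟩
  · intro q hq hqd
    by_cases hqD : q ∣ D
    · have hqp := hp5 q hq hqD
      have hcop : Nat.Coprime (q ^ 2) (p - 1) :=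
        Nat.Coprime.pow_left 2 ((Nat.Prime.coprime_iff_not_dvd hq.1).2 hqp)
      exact ch_noSq hCh q hq (hcop.dvd_of_dvd_mul_left hqd)
    · have hcop : Nat.Coprime (q ^ 2) D :=
        Nat.Coprime.pow_left 2 ((Nat.Prime.coprime_iff_not_dvd hq.1).2 hqD)
      exact hp4.nosq q hq (hcop.dvd_of_dvd_mul_right hqd)
  · have h1 : p - 1 ≤ ⌊x / (D : ℝ)⌋₊ := by omega
    have h2 : ((p - 1 : ℕ) : ℝ) ≤ x / D :=
      le_trans (by exact_mod_cast h1) (Nat.floor_le (by positivity))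
    have h3 : (0 : ℝ) < D := by linarith only [hD0]
    push_cast
    calc ((p - 1 : ℕ) : ℝ) * D ≤ x / D * D := by gcongr
      _ = x := by field_simp

theorem low_at (hε : 0 < ε) (hN : Num J₀ M ε y₀)
    (hy₀ : ∀ y : ℝ, y₀ ≤ y → y / (2 * Real.log y) ≤ (Nat.primeCounting (⌊y⌋₊ + 1) : ℝ))
    (hstep : StepAt M) (hnp : NpAt M) (hcol : ColAt M) (hs : Scale M x) {r : ℕ} (hr : r ≤ J₀) :
    (1 - ε) * ∑ D ∈ DF M r 1 (ll x - 3 * (M : ℝ) ^ 18),
      (Nat.primeCounting (⌊x / (D : ℝ)⌋₊ + 1) : ℝ) ≤ V x := by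
  classical
  have hM2 := hN.h1
  have hm2 : (2 : ℝ) ≤ (M : ℝ) := by exact_mod_cast (by omega)
  have hm1 : (1 : ℝ) ≤ (M : ℝ) := by linarith only [hm2]
  set T : ℝ := ll x - 3 * (M : ℝ) ^ 18 with hT
  set A : Finset (ℕ × ℕ) := ((DF M r 1 T).sigma (fun D => GP M x D)).map
    ⟨fun s => (s.2, s.1), by
      rintro ⟨a, b⟩ ⟨c, d⟩ h
      simp only [Prod.mk.injEq] at h
      obtain ⟨h1, h2⟩ := h
      subst h1 h2
      rfl⟩ with hA
  have hAmem : ∀ a ∈ A, a.2 ∈ DF M r 1 T ∧ a.1 ∈ GP M x a.2 := by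
    intro a ha
    rw [hA, Finset.mem_map] at ha
    obtain ⟨⟨D, p⟩, h1, h2⟩ := ha
    rw [mem_sigma] at h1
    rw [← h2]
    exact h1
  have hAcard : (A.card : ℝ) = ∑ D ∈ DF M r 1 T, ((GP M x D).card : ℝ) := by
    rw [hA, card_map, card_sigma]
    push_cast
    rfl
  have hPD : ∀ a ∈ A, PD M r x a ∧ IsTot ((a.1 - 1) * a.2) := by
    rintro ⟨p, D⟩ ha
    obtain ⟨h1, h2⟩ := hAmem _ ha
    exact PD_of_GP hN hstep hs hr h1 h2
  have hVge : ((A.image (fun a => (a.1 - 1) * a.2)).card : ℝ) ≤ V x := by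
    have := V_ge (x := x) (A.image (fun a => (a.1 - 1) * a.2)) (by
      intro v hv
      rw [mem_image] at hv
      obtain ⟨a, ha, rfl⟩ := hv
      exact ⟨(hPD a ha).2, (hPD a ha).1.le⟩)
    exact_mod_cast this
  have hcoll := hcol r x A (by omega) hs.x3 (hs.ll_le (by omega) (by linarith only [hs.x3])
    (by linarith)) (fun a ha => (hPD a ha).1)
  have hcomb : (A.card : ℝ) ≤ ((A.image (fun a => (a.1 - 1) * a.2)).card : ℝ) +
      (((A ×ˢ A).filter (fun c => c.1 ≠ c.2 ∧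
      (c.1.1 - 1) * c.1.2 = (c.2.1 - 1) * c.2.2)).card : ℝ) := by
    exact_mod_cast card_le_image_add_coll A (fun a => (a.1 - 1) * a.2)
  have hS : (1 - ε / 2) * ∑ D ∈ DF M r 1 T, (Nat.primeCounting (⌊x / (D : ℝ)⌋₊ + 1) : ℝ) ≤
      A.card := by
    rw [hAcard, mul_sum]
    refine sum_le_sum fun D hD => ?_
    exact (GP_ge hε hN hy₀ hnp hs hr hD).2
  have hone : (1 : ℕ) ∈ DF M r 1 T := by
    rw [mem_DF]
    refine ⟨⟨le_refl _, ?_⟩, DD_one M r, ?_⟩
    · unfold NN
      have h2 : 2 ≤ ⌊Real.exp (Real.exp (5 * (M : ℝ) ^ 20))⌋₊ := by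
        apply Nat.le_floor
        have h3 := Real.add_one_le_exp (Real.exp (5 * (M : ℝ) ^ 20))
        have h4 := Real.one_le_exp (show 0 ≤ 5 * (M : ℝ) ^ 20 by positivity)
        push_cast
        linarith only [h4, h3]
      omega
    · rw [Cost_one_one, hT]
      have h1 := hs.lo
      have hm3 : (3 : ℝ) ≤ M := by exact_mod_cast (by omega)
      have h4 : (M : ℝ) ^ 19 = M * (M : ℝ) ^ 18 := by ring
      have h5 : 3 * (M : ℝ) ^ 18 ≤ (M : ℝ) ^ 19 := by
        rw [h4]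
        gcongr
      linarith only [h5, h1]
  have hSpos : x / (2 * Real.log x) ≤
      ∑ D ∈ DF M r 1 T, (Nat.primeCounting (⌊x / (D : ℝ)⌋₊ + 1) : ℝ) := by
    have h1 := (GP_ge hε hN hy₀ hnp hs hr hone).1
    rw [Nat.cast_one, div_one] at h1
    refine h1.trans ?_
    have := Finset.single_le_sum (f := fun D : ℕ =>
      (Nat.primeCounting (⌊x / (D : ℝ)⌋₊ + 1) : ℝ)) (fun _ _ => Nat.cast_nonneg _) hone
    simpa using this
  have hlast : x / Real.log x * Real.exp (-(M : ℝ) ^ 18 / 2) ≤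
      ε / 2 * ∑ D ∈ DF M r 1 T, (Nat.primeCounting (⌊x / (D : ℝ)⌋₊ + 1) : ℝ) := by
    have h1 := hs.logpos
    have h2 := hs.x3
    calc x / Real.log x * Real.exp (-(M : ℝ) ^ 18 / 2) ≤ x / Real.log x * (ε / 100) := by
          have := hN.h6
          gcongr
      _ ≤ ε / 2 * (x / (2 * Real.log x)) := by
          have h3 : 0 < x / Real.log x := by positivity
          rw [show x / (2 * Real.log x) = (x / Real.log x) / 2 by field_simp]
          linarith only [mul_pos hε h3]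
      _ ≤ _ := by gcongr
  linarith only [hcomb, hVge, hS, hlast, hcoll]

end

/-! ### final statements -/

/-- the general lower bound -/
theorem low_main
    (hstep : ∀ᶠ M : ℕ in atTop, StepAt M) (hnp : ∀ᶠ M : ℕ in atTop, NpAt M)
    (hcol : ∀ᶠ M : ℕ in atTop, ColAt M) (J₀ : ℕ) (ε : ℝ) (hε : 0 < ε) :
    ∀ᶠ M : ℕ in atTop, ∀ (r : ℕ) (x : ℝ), r ≤ J₀ → 3 ≤ x → (M : ℝ) ^ 19 ≤ ll x →
      ll x ≤ 9 / 2 * (M : ℝ) ^ 20 →
      (1 - ε) * ∑ D ∈ DF M r 1 (ll x - 3 * (M : ℝ) ^ 18),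
        (Nat.primeCounting (⌊x / (D : ℝ)⌋₊ + 1) : ℝ) ≤ V x := by
  obtain ⟨y₀, hy₀⟩ := eventually_atTop.1 cheb_low
  filter_upwards [hstep, hnp, hcol, numeric J₀ ε y₀ hε] with M h1 h2 h3 h4 r x hr hx hlo hhi
  exact low_at hε h4 hy₀ h1 h2 h3 ⟨hx, hlo, hhi⟩ hr

/-- lower bound by the weighted mass -/
theorem low_FF
    (hstep : ∀ᶠ M : ℕ in atTop, StepAt M) (hnp : ∀ᶠ M : ℕ in atTop, NpAt M)
    (hcol : ∀ᶠ M : ℕ in atTop, ColAt M) (J₀ : ℕ) :
    ∃ C : ℝ, 0 < C ∧ ∀ᶠ M : ℕ in atTop, ∀ (r : ℕ) (x : ℝ), r ≤ J₀ → 3 ≤ x →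
      (M : ℝ) ^ 19 ≤ ll x → ll x ≤ 9 / 2 * (M : ℝ) ^ 20 →
      x / Real.log x * FF M r 1 0 (ll x - C * (M : ℝ) ^ 18) ≤ C * V x := by
  refine ⟨4, by norm_num, ?_⟩
  obtain ⟨y₀, hy₀⟩ := eventually_atTop.1 cheb_low
  filter_upwards [hstep, hnp, hcol, numeric J₀ (1 / 2) y₀ (by norm_num)] with
    M h1 h2 h3 h4 r x hr hx hlo hhi
  have hs : Scale M x := ⟨hx, hlo, hhi⟩
  have hmain := low_at (by norm_num) h4 hy₀ h1 h2 h3 hs hr
  have hx0 : 0 < x := by linarith only [hx]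
  have hl0 := hs.logpos
  have hsub : DF M r 1 (ll x - 4 * (M : ℝ) ^ 18) ⊆ DF M r 1 (ll x - 3 * (M : ℝ) ^ 18) := by
    intro D hD
    rw [mem_DF] at hD ⊢
    refine ⟨hD.1, hD.2.1, hD.2.2.trans ?_⟩
    have : (0 : ℝ) ≤ (M : ℝ) ^ 18 := by positivity
    linarith only [this]
  have h5 : x / Real.log x * FF M r 1 0 (ll x - 4 * (M : ℝ) ^ 18) ≤
      2 * ∑ D ∈ DF M r 1 (ll x - 3 * (M : ℝ) ^ 18),
        (Nat.primeCounting (⌊x / (D : ℝ)⌋₊ + 1) : ℝ) := by
    unfold FF
    rw [mul_sum, mul_sum]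
    calc ∑ D ∈ DF M r 1 (ll x - 4 * (M : ℝ) ^ 18), x / Real.log x *
          ((ll x - 4 * (M : ℝ) ^ 18 - Cost M 1 D) ^ 0 / (D : ℝ))
        ≤ ∑ D ∈ DF M r 1 (ll x - 4 * (M : ℝ) ^ 18),
            2 * (Nat.primeCounting (⌊x / (D : ℝ)⌋₊ + 1) : ℝ) := by
          refine sum_le_sum fun D hD => ?_
          have h6 := (GP_ge (by norm_num) h4 hy₀ h2 hs hr (hsub hD)).1
          rw [pow_zero]
          calc x / Real.log x * (1 / (D : ℝ)) = 2 * (x / D / (2 * Real.log x)) := by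
                field_simp
            _ ≤ _ := by gcongr
      _ ≤ ∑ D ∈ DF M r 1 (ll x - 3 * (M : ℝ) ^ 18),
            2 * (Nat.primeCounting (⌊x / (D : ℝ)⌋₊ + 1) : ℝ) :=
          sum_le_sum_of_subset_of_nonneg hsub fun _ _ _ => by positivity
  linarith only [h5, hmain]

/-- sharp lower bound -/
theorem low_sharp
    (hstep : ∀ᶠ M : ℕ in atTop, StepAt M) (hnp : ∀ᶠ M : ℕ in atTop, NpAt M)
    (hcol : ∀ᶠ M : ℕ in atTop, ColAt M) :
    ∃ C : ℝ, 0 < C ∧ ∀ ε : ℝ, 0 < ε → ∀ᶠ M : ℕ in atTop, ∀ (x T : ℝ), 3 ≤ x →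
    |ll x - (M : ℝ) ^ 15 - T| ≤ 1 → 1 / 2 * (M : ℝ) ^ 20 ≤ T → T ≤ 3 * (M : ℝ) ^ 20 →
    (1 - ε) * ∑ D ∈ DF M 0 1 (T - C * (M : ℝ) ^ 18), (Nat.primeCounting (⌊x / (D : ℝ)⌋₊ + 1) : ℝ)
      ≤ V x := by
  refine ⟨4, by norm_num, fun ε hε => ?_⟩
  filter_upwards [low_main hstep hnp hcol 0 (min ε 1) (lt_min hε one_pos),
    eventually_ge_atTop 4] with M h1 hM4 x T hx hT hT1 hT2
  have hm4 : (4 : ℝ) ≤ M := by exact_mod_cast hM4
  have hm1 : (1 : ℝ) ≤ M := by linarith only [hm4]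
  obtain ⟨ha, hb⟩ := abs_le.1 hT
  have p1 : (1 : ℝ) ≤ (M : ℝ) ^ 15 := one_le_pow₀ hm1
  have p2 : (M : ℝ) ^ 15 ≤ (M : ℝ) ^ 18 := pow_le_pow_right₀ hm1 (by norm_num)
  have p3 : (M : ℝ) ^ 18 ≤ (M : ℝ) ^ 19 := pow_le_pow_right₀ hm1 (by norm_num)
  have p4 : (M : ℝ) ^ 20 = M * (M : ℝ) ^ 19 := by ring
  have p5 : 4 * (M : ℝ) ^ 19 ≤ (M : ℝ) ^ 20 := by
    rw [p4]; gcongr
  have h2 := h1 0 x le_rfl hx (by linarith only [p3, hT1, p1, p5, ha, p2]) (by linarith only [p3, hb, p1, hT2, p5, p2])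
  have hsub : DF M 0 1 (T - 4 * (M : ℝ) ^ 18) ⊆ DF M 0 1 (ll x - 3 * (M : ℝ) ^ 18) := by
    intro D hD
    rw [mem_DF] at hD ⊢
    refine ⟨hD.1, hD.2.1, hD.2.2.trans ?_⟩
    linarith only [p1, ha, p2]
  refine le_trans ?_ h2
  have h3 : ∑ D ∈ DF M 0 1 (T - 4 * (M : ℝ) ^ 18),
      (Nat.primeCounting (⌊x / (D : ℝ)⌋₊ + 1) : ℝ) ≤
      ∑ D ∈ DF M 0 1 (ll x - 3 * (M : ℝ) ^ 18),
      (Nat.primeCounting (⌊x / (D : ℝ)⌋₊ + 1) : ℝ) :=
    sum_le_sum_of_subset_of_nonneg hsub fun _ _ _ => Nat.cast_nonneg _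
  have h4 : 0 ≤ ∑ D ∈ DF M 0 1 (T - 4 * (M : ℝ) ^ 18),
      (Nat.primeCounting (⌊x / (D : ℝ)⌋₊ + 1) : ℝ) := sum_nonneg fun _ _ => Nat.cast_nonneg _
  have h5 : 0 ≤ 1 - min ε 1 := by
    have := min_le_right ε 1
    linarith only [this]
  have h6 : 1 - ε ≤ 1 - min ε 1 := by
    have := min_le_left ε 1
    linarith only [this]
  calc (1 - ε) * ∑ D ∈ DF M 0 1 (T - 4 * (M : ℝ) ^ 18),
      (Nat.primeCounting (⌊x / (D : ℝ)⌋₊ + 1) : ℝ)
      ≤ (1 - min ε 1) * ∑ D ∈ DF M 0 1 (T - 4 * (M : ℝ) ^ 18),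
      (Nat.primeCounting (⌊x / (D : ℝ)⌋₊ + 1) : ℝ) := by gcongr
    _ ≤ _ := by gcongr

end Vale.Agent.P031.VLow

namespace Vale.Agent.P031

open Finset Filter Topology

/-- statement of `np_count` -/
def NpCount : Prop :=
  ∀ᶠ M : ℕ in atTop, ∀ (z : ℝ) (s : Finset ℕ), 3 ≤ z → ll z ≤ 5 * (M : ℝ) ^ 20 →
    (∀ p ∈ s, Big M p ∧ ¬ Nrm M p ∧ (p : ℝ) ≤ z) →
    (s.card : ℝ) ≤ z / Real.log z * Real.exp (-(M : ℝ) ^ 4)

lemma VLow.step_ev : ∀ᶠ M : ℕ in atTop, VLow.StepAt M := by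
  filter_upwards [step 0] with M h p D h1 h2 h3 h4 h5
  exact h 0 p D le_rfl h1 h2 h3 h4 h5

/-- lower bound for `V` (`v_low` of the skeleton) -/
theorem v_low_of (hnp : NpCount) (hcl : ClCount) (J₀ : ℕ) :
    ∃ C : ℝ, 0 < C ∧ ∀ᶠ M : ℕ in atTop, ∀ (r : ℕ) (x : ℝ), r ≤ J₀ → 3 ≤ x →
      (M : ℝ) ^ 19 ≤ ll x → ll x ≤ 9 / 2 * (M : ℝ) ^ 20 →
      x / Real.log x * FF M r 1 0 (ll x - C * (M : ℝ) ^ 18) ≤ C * V x :=
  VLow.low_FF VLow.step_ev hnp (col_use_count_of hcl) J₀

/-- sharp lower bound for `V` (`v_low_sharp` of the skeleton) -/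
theorem v_low_sharp_of (hnp : NpCount) (hcl : ClCount) :
    ∃ C : ℝ, 0 < C ∧ ∀ ε : ℝ, 0 < ε → ∀ᶠ M : ℕ in atTop, ∀ (x T : ℝ), 3 ≤ x →
    |ll x - (M : ℝ) ^ 15 - T| ≤ 1 → 1 / 2 * (M : ℝ) ^ 20 ≤ T → T ≤ 3 * (M : ℝ) ^ 20 →
    (1 - ε) * ∑ D ∈ DF M 0 1 (T - C * (M : ℝ) ^ 18), (Nat.primeCounting (⌊x / (D : ℝ)⌋₊ + 1) : ℝ)
      ≤ V x :=
  VLow.low_sharp VLow.step_ev hnp (col_use_count_of hcl)

end Vale.Agent.P031
end
end

section

section

/-!
Levels of big primes, additivity of the profile.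
-/

open Finset

namespace Vale.Agent.P031

lemma ph_zero (lam : ℝ) : ph lam 0 = 0 := by simp [ph]

/-! ### Levels of big primes -/

lemma lev_ge_of_big {M p : ℕ} (hM : 1 ≤ M) (hp : Big M p) : M ^ 2 ≤ lev M p := by
  unfold lev
  apply Nat.le_floor
  have hM0 : (0:ℝ) < M := by exact_mod_cast hM
  rw [le_div_iff₀ (by positivity)]
  have := hp.2
  push_cast
  calc (M:ℝ) ^ 2 * (M:ℝ) ^ 13 = (M:ℝ) ^ 15 := by ring
    _ ≤ _ := this

lemma lev_lt_of_not_big {M p : ℕ} (hM : 1 ≤ M) (hpp : p.Prime) (hp : ¬ Big M p) :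
    lev M p < M ^ 2 := by
  unfold lev
  have hM0 : (0:ℝ) < M := by exact_mod_cast hM
  rw [Nat.floor_lt' (by positivity), div_lt_iff₀ (by positivity)]
  have h : ll (p:ℝ) < (M:ℝ) ^ 15 := by
    by_contra hcon
    push Not at hcon
    exact hp ⟨hpp, hcon⟩
  push_cast
  calc ll (p:ℝ) < (M:ℝ) ^ 15 := h
    _ = _ := by ring

lemma lev_lt_KK {M p : ℕ} (hM : 1 ≤ M) (hp : ll (p:ℝ) ≤ 5 * (M:ℝ) ^ 20) : lev M p < KK M := by
  unfold lev KK
  have hM0 : (0:ℝ) < M := by exact_mod_cast hM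
  have hne : 6 * M ^ 7 ≠ 0 := by positivity
  rw [Nat.floor_lt' hne, div_lt_iff₀ (by positivity)]
  push_cast
  have h1 : 6 * (M:ℝ) ^ 7 * (M:ℝ) ^ 13 = 6 * (M:ℝ) ^ 20 := by ring
  rw [h1]
  have : 0 < (M:ℝ) ^ 20 := by positivity
  linarith

lemma lev_bounds {M p k : ℕ} (hM : 1 ≤ M) (hp : 0 ≤ ll (p:ℝ)) (h : lev M p = k) :
    (k:ℝ) * (M:ℝ) ^ 13 ≤ ll (p:ℝ) ∧ ll (p:ℝ) ≤ ((k:ℝ) + 1) * (M:ℝ) ^ 13 := by
  unfold lev at h
  have hM0 : (0:ℝ) < (M:ℝ) ^ 13 := by positivity
  have h1 : (k:ℝ) ≤ ll (p:ℝ) / (M:ℝ) ^ 13 := by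
    rw [← h]; exact Nat.floor_le (by positivity)
  have h2 : ll (p:ℝ) / (M:ℝ) ^ 13 < (k:ℝ) + 1 := by
    rw [← h]; exact Nat.lt_floor_add_one _
  constructor
  · rwa [le_div_iff₀ hM0] at h1
  · rw [div_lt_iff₀ hM0] at h2; exact h2.le

lemma ll_nonneg_of_three_le {p : ℕ} (hp : 3 ≤ p) : 0 ≤ ll (p:ℝ) := by
  unfold ll
  apply Real.log_nonneg
  have h3 : (3:ℝ) ≤ p := by exact_mod_cast hp
  rw [Real.le_log_iff_exp_le (by linarith)]
  linarith only [h3, Real.exp_one_lt_d9]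

/-! ### Additivity of the profile -/

lemma prof_eq_sum (M n k : ℕ) : prof M n k =
    n.factorization.sum (fun q e => if lev M q = k then e else 0) := by
  unfold prof
  rw [Finset.sum_filter, Finsupp.sum]
  rfl

lemma prof_mul (M k : ℕ) {a b : ℕ} (ha : a ≠ 0) (hb : b ≠ 0) :
    prof M (a * b) k = prof M a k + prof M b k := by
  rw [prof_eq_sum, prof_eq_sum, prof_eq_sum, Nat.factorization_mul ha hb]
  apply Finsupp.sum_add_index'
  · intro q; simp
  · intro q e1 e2; split_ifs <;> simp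


end Vale.Agent.P031
end
end

section

section

/-!
# P031: the mass version of the collision bound from the counting version
-/

namespace Vale.Agent.P031

open Finset Filter Topology

theorem ColPair_three_le {M : ℕ} {x : ℝ} {q : Finset ℕ × ℕ × Finset ℕ × ℕ} {u : ℕ}
    (hM : 1 ≤ M) (h : ColPair M x q u) : 3 ≤ u := by
  obtain ⟨p, p', hp, -, -⟩ := h.top
  have hbig := h.rep.big p hp
  have hM1 : (1 : ℝ) ≤ (M : ℝ) ^ 15 := one_le_pow₀ (by exact_mod_cast hM)
  have hll : 1 ≤ ll (p : ℝ) := hM1.trans hbig.2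
  have hp1 := prime_one_lt hbig.1
  have h1 : Real.exp 1 ≤ Real.log p := by
    rw [← exp_ll hp1]
    exact Real.exp_le_exp.mpr hll
  have h2 : (2 : ℝ) ≤ Real.exp 1 := by
    have := Real.add_one_le_exp (1 : ℝ)
    linarith
  have h3 : Real.exp 2 ≤ p := by
    rw [← Real.exp_log (by linarith : (0 : ℝ) < p)]
    exact Real.exp_le_exp.mpr (h2.trans h1)
  have h4 : (4 : ℝ) ≤ Real.exp 2 := by
    have h5 : Real.exp 2 = Real.exp 1 * Real.exp 1 := by
      rw [← Real.exp_add]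
      norm_num
    rw [h5]
    nlinarith only [h2]
  have h5 : 4 ≤ p := by exact_mod_cast h4.trans h3
  have hpos : ∀ t ∈ q.1, 0 < t - 1 := by
    intro t ht
    have := (h.rep.big t ht).1.two_le
    omega
  have hval := h.rep.val
  have hne : u ≠ 0 := by
    rw [hval]
    exact Nat.mul_ne_zero (Finset.prod_pos hpos).ne' h.rep.small.1
  have hdvd : p - 1 ∣ u := by
    rw [hval]
    exact Dvd.dvd.mul_right (Finset.dvd_prod_of_mem (fun p => p - 1) hp) _
  have := Nat.le_of_dvd (Nat.pos_of_ne_zero hne) hdvd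
  omega

theorem cl_mass_of (hcl : ClCount) : ClMass := by
  have hev : ∀ᶠ M : ℕ in atTop, Real.exp 1 * (1 + 5 * (M : ℝ) ^ 20) *
      Real.exp (-(M : ℝ) ^ 18 / 2) ≤ Real.exp (-(M : ℝ) ^ 18 / 4) := by
    filter_upwards [St.ev_ge 30] with M hM
    have h1 : (M : ℝ) ^ 20 ≤ Real.exp (20 * M) := by
      have h2 : (M : ℝ) ≤ Real.exp M := by
        have := Real.add_one_le_exp (M : ℝ)
        linarith
      calc (M : ℝ) ^ 20 ≤ (Real.exp M) ^ 20 := pow_le_pow_left₀ (by positivity) h2 20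
        _ = Real.exp (20 * M) := by
          rw [← Real.exp_nat_mul]
          norm_num
    have h3 : (1 : ℝ) ≤ Real.exp (20 * M) := Real.one_le_exp (by positivity)
    have h4 : (1 + 5 * (M : ℝ) ^ 20) ≤ Real.exp (20 * M + 5) := by
      rw [Real.exp_add]
      have h5 : (6 : ℝ) ≤ Real.exp 5 := by
        have := Real.add_one_le_exp (5 : ℝ)
        linarith
      linarith only [mul_nonneg (sub_nonneg.2 h3) (sub_nonneg.2 h5), h5, h1, h3]
    calc Real.exp 1 * (1 + 5 * (M : ℝ) ^ 20) * Real.exp (-(M : ℝ) ^ 18 / 2)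
        ≤ Real.exp 1 * Real.exp (20 * M + 5) * Real.exp (-(M : ℝ) ^ 18 / 2) := by
          gcongr
      _ = Real.exp (1 + (20 * M + 5) + -(M : ℝ) ^ 18 / 2) := by
          rw [Real.exp_add (1 + (20 * (M : ℝ) + 5)), Real.exp_add 1]
      _ ≤ Real.exp (-(M : ℝ) ^ 18 / 4) := by
          apply Real.exp_le_exp.mpr
          have h6 : (M : ℝ) ^ 18 = (M : ℝ) ^ 16 * (M : ℝ) ^ 2 := by ring
          have h7 : (1 : ℝ) ≤ (M : ℝ) ^ 16 := one_le_pow₀ (by linarith)
          have h8 : (M : ℝ) ^ 2 ≤ (M : ℝ) ^ 18 := by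
            rw [h6]
            exact le_mul_of_one_le_left (by positivity) h7
          have h9 : 30 * (M : ℝ) ≤ (M : ℝ) ^ 2 := by (by_contra nlg; linarith [mul_pos (sub_pos.2 (not_le.1 nlg)) (sub_pos.2 (not_le.1 nlg)), mul_nonneg (sq_nonneg (↑M : ℝ)) (sub_nonneg.2 hM), mul_nonneg (sq_nonneg (↑M : ℝ)) (le_of_lt (sub_pos.2 (not_le.1 nlg)))])
          have h10 : (30 : ℝ) ^ 2 ≤ (M : ℝ) ^ 2 := pow_le_pow_left₀ (by norm_num) hM 2
          have h11 : (30 : ℝ) * (M : ℝ) ^ 2 ≤ (M : ℝ) ^ 18 := by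
            rw [h6]
            have h12 : (30 : ℝ) ≤ (M : ℝ) ^ 16 := by
              calc (30 : ℝ) ≤ M := hM
                _ = (M : ℝ) ^ 1 := (pow_one _).symm
                _ ≤ (M : ℝ) ^ 16 := pow_le_pow_right₀ (by linarith) (by norm_num)
            exact mul_le_mul_of_nonneg_right h12 (by positivity)
          nlinarith only [hM, h11]
  unfold ClMass
  filter_upwards [hcl, hev, eventually_ge_atTop 1] with M hM hev hM1 x Q u hx hll hQ
  have hx0 : (0 : ℝ) < x := by linarith only [hx]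
  have hlogx : 1 ≤ Real.log x := by
    rw [Real.le_log_iff_exp_le hx0]
    exact (Real.exp_one_lt_d9.le.trans (by norm_num)).trans hx
  set J : (Finset ℕ × ℕ × Finset ℕ × ℕ) → ℕ := fun q => ⌊Real.log (u q : ℝ)⌋₊ with hJ
  have hu3 : ∀ q ∈ Q, (3 : ℝ) ≤ u q := fun q hq => by
    exact_mod_cast ColPair_three_le hM1 (hQ q hq)
  have hlogu : ∀ q ∈ Q, 1 ≤ Real.log (u q : ℝ) := fun q hq => by
    rw [Real.le_log_iff_exp_le (by linarith only [hu3 q hq])]
    exact (Real.exp_one_lt_d9.le.trans (by norm_num)).trans (hu3 q hq)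
  have hmaps : ∀ q ∈ Q, J q ∈ Finset.Icc 1 ⌊Real.log x⌋₊ := by
    intro q hq
    rw [Finset.mem_Icc]
    constructor
    · exact Nat.le_floor (by exact_mod_cast hlogu q hq)
    · exact Nat.floor_le_floor (Real.log_le_log (by linarith only [hu3 q hq]) (hQ q hq).le)
  rw [← Finset.sum_fiberwise_of_maps_to hmaps]
  have hfib : ∀ j ∈ Finset.Icc 1 ⌊Real.log x⌋₊,
      ∑ q ∈ Q with J q = j, 1 / (u q : ℝ) ≤
        Real.exp 1 * Real.exp (-(M : ℝ) ^ 18 / 2) * ((j : ℝ)⁻¹) := by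
    intro j hj
    rw [Finset.mem_Icc] at hj
    have hj1 : (1 : ℝ) ≤ j := by exact_mod_cast hj.1
    set Qj := Q.filter (fun q => J q = j) with hQj
    have hjle : ∀ q ∈ Qj, (j : ℝ) ≤ Real.log (u q) ∧ Real.log (u q) < j + 1 := by
      intro q hq
      have h1 := (Finset.mem_filter.mp hq)
      have h2 : ⌊Real.log (u q : ℝ)⌋₊ = j := h1.2
      have h3 := hlogu q h1.1
      constructor
      · rw [← h2]
        exact Nat.floor_le (by linarith only [h3])
      · rw [← h2]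
        exact Nat.lt_floor_add_one _
    rcases Qj.eq_empty_or_nonempty with he | ⟨q₀, hq₀⟩
    · rw [he, Finset.sum_empty]
      positivity
    set xj : ℝ := min x (Real.exp (j + 1)) with hxj
    have hxle : xj ≤ x := min_le_left _ _
    have hule : ∀ q ∈ Qj, (u q : ℝ) ≤ xj := by
      intro q hq
      have h1 := (Finset.mem_filter.mp hq)
      refine le_min (hQ q h1.1).le ?_
      rw [← Real.exp_log (by linarith only [hu3 q h1.1] : (0 : ℝ) < u q)]
      exact Real.exp_le_exp.mpr (hjle q hq).2.le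
    have hq₀' := (Finset.mem_filter.mp hq₀).1
    have hxj3 : 3 ≤ xj := (hu3 q₀ hq₀').trans (hule q₀ hq₀)
    have hlogxj : (j : ℝ) ≤ Real.log xj := (hjle q₀ hq₀).1.trans
      (Real.log_le_log (by linarith only [hu3 q₀ hq₀']) (hule q₀ hq₀))
    have hcount := hM xj Qj hxj3 ((ll_le_ll (by linarith only [hxj3]) hxle).trans hll) (by
      intro q hq
      have h1 := hQ q (Finset.mem_filter.mp hq).1
      exact ⟨u q, h1.rep, h1.rep', hule q hq, h1.om, h1.nosq, h1.gg, h1.top⟩)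
    have hterm : ∀ q ∈ Qj, 1 / (u q : ℝ) ≤ Real.exp (-(j : ℝ)) := by
      intro q hq
      have h1 := (Finset.mem_filter.mp hq).1
      rw [Real.exp_neg, one_div]
      apply inv_anti₀ (Real.exp_pos _)
      rw [← Real.exp_log (by linarith only [hu3 q h1] : (0 : ℝ) < u q)]
      exact Real.exp_le_exp.mpr (hjle q hq).1
    have hxjle : xj ≤ Real.exp (j + 1) := min_le_right _ _
    calc ∑ q ∈ Qj, 1 / (u q : ℝ) ≤ Qj.card • Real.exp (-(j : ℝ)) :=
          Finset.sum_le_card_nsmul _ _ _ hterm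
      _ = (Qj.card : ℝ) * Real.exp (-(j : ℝ)) := by rw [nsmul_eq_mul]
      _ ≤ (xj / Real.log xj * Real.exp (-(M : ℝ) ^ 18 / 2)) * Real.exp (-(j : ℝ)) :=
          mul_le_mul_of_nonneg_right hcount (Real.exp_pos _).le
      _ ≤ (Real.exp (j + 1) / j * Real.exp (-(M : ℝ) ^ 18 / 2)) * Real.exp (-(j : ℝ)) := by
          have : xj / Real.log xj ≤ Real.exp (j + 1) / j :=
            div_le_div₀ (Real.exp_pos _).le hxjle (by linarith only [hj1]) hlogxj
          gcongr
      _ = (Real.exp (j + 1) * Real.exp (-(j : ℝ))) * Real.exp (-(M : ℝ) ^ 18 / 2) * (j : ℝ)⁻¹ := by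
          rw [div_eq_mul_inv]
          ring
      _ = Real.exp 1 * Real.exp (-(M : ℝ) ^ 18 / 2) * ((j : ℝ)⁻¹) := by
          rw [← Real.exp_add]
          congr 3
          ring
  refine (Finset.sum_le_sum hfib).trans ?_
  rw [← Finset.mul_sum]
  have hharm : ∑ j ∈ Finset.Icc 1 ⌊Real.log x⌋₊, ((j : ℝ)⁻¹) ≤ 1 + 5 * (M : ℝ) ^ 20 := by
    have h1 := harmonic_le_one_add_log ⌊Real.log x⌋₊
    rw [harmonic_eq_sum_Icc] at h1
    push_cast at h1
    refine h1.trans ?_
    have h2 : Real.log (⌊Real.log x⌋₊ : ℝ) ≤ Real.log (Real.log x) := by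
      rcases Nat.eq_zero_or_pos ⌊Real.log x⌋₊ with h0 | h0
      · rw [h0]
        simp only [Nat.cast_zero, Real.log_zero]
        exact Real.log_nonneg hlogx
      · exact Real.log_le_log (by exact_mod_cast h0) (Nat.floor_le (by linarith only [hlogx]))
    have h3 : Real.log (Real.log x) ≤ 5 * (M : ℝ) ^ 20 := hll
    linarith only [h2, h3]
  calc Real.exp 1 * Real.exp (-(M : ℝ) ^ 18 / 2) * ∑ j ∈ Finset.Icc 1 ⌊Real.log x⌋₊, ((j : ℝ)⁻¹)
      ≤ Real.exp 1 * Real.exp (-(M : ℝ) ^ 18 / 2) * (1 + 5 * (M : ℝ) ^ 20) := by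
        gcongr
    _ = Real.exp 1 * (1 + 5 * (M : ℝ) ^ 20) * Real.exp (-(M : ℝ) ^ 18 / 2) := by ring
    _ ≤ _ := hev

end Vale.Agent.P031
end
end

section

section

/-! Basic lemmas for the module `th`. -/

namespace Vale.Agent.P031.ThinM

open Finset Filter Topology

theorem Om_mul' {a b : ℕ} (ha : a ≠ 0) (hb : b ≠ 0) : Om (a * b) = Om a + Om b := by
  unfold Om
  rw [(Nat.perm_primeFactorsList_mul ha hb).length_eq, List.length_append]

theorem Om_le_of_dvd {a b : ℕ} (hb : b ≠ 0) (h : a ∣ b) : Om a ≤ Om b := by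
  obtain ⟨c, rfl⟩ := h
  have ha : a ≠ 0 := fun h => hb (by simp [h])
  have hc : c ≠ 0 := fun h => hb (by simp [h])
  rw [Om_mul' ha hc]
  omega

theorem Om_prime {p : ℕ} (hp : p.Prime) : Om p = 1 := by
  unfold Om
  rw [Nat.primeFactorsList_prime hp]
  rfl

theorem le_gpf {q v : ℕ} (hv : v ≠ 0) (hq : q.Prime) (h : q ∣ v) : q ≤ gpf v := by
  unfold gpf
  exact Finset.le_sup (f := id) (Nat.mem_primeFactors.mpr ⟨hq, h, hv⟩)

theorem gpf_mem {v : ℕ} (hv : 2 ≤ v) : (gpf v).Prime ∧ gpf v ∣ v := by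
  have hne : v.primeFactors.Nonempty := Nat.nonempty_primeFactors.mpr (by omega)
  obtain ⟨q, hq, hq2⟩ := Finset.exists_mem_eq_sup v.primeFactors hne id
  unfold gpf
  rw [hq2]
  exact ⟨Nat.prime_of_mem_primeFactors hq, Nat.dvd_of_mem_primeFactors hq⟩

/-- If all prime factors of `v` are at most `P`, then `v ≤ P ^ Om v`. -/
theorem le_pow_Om {v P : ℕ} (hv : v ≠ 0) (h : ∀ q : ℕ, q.Prime → q ∣ v → q ≤ P) :
    v ≤ P ^ Om v := by
  unfold Om
  conv_lhs => rw [← Nat.prod_primeFactorsList hv]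
  exact List.prod_le_pow_card _ _ (fun q hq => h q (Nat.prime_of_mem_primeFactorsList hq)
    (Nat.dvd_of_mem_primeFactorsList hq))

/-- logarithmic form. -/
theorem log_le_Om_mul_log {v P : ℕ} (hv : v ≠ 0) (h : ∀ q : ℕ, q.Prime → q ∣ v → q ≤ P) :
    Real.log v ≤ (Om v : ℝ) * Real.log P := by
  have h1 : (v : ℝ) ≤ (P : ℝ) ^ Om v := by exact_mod_cast le_pow_Om hv h
  have hv' : (0 : ℝ) < v := by exact_mod_cast Nat.pos_of_ne_zero hv
  calc Real.log v ≤ Real.log ((P : ℝ) ^ Om v) := Real.log_le_log hv' h1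
    _ = _ := by rw [Real.log_pow]

/-- The prime factors of a totient. -/
theorem prime_dvd_totient {n q : ℕ} (hq : q.Prime) (h : q ∣ Nat.totient n) :
    ∃ r : ℕ, r.Prime ∧ r ∣ n ∧ q ≤ r := by
  have h1 := Nat.totient_mul_prod_primeFactors n
  have h2 : q ∣ n * ∏ p ∈ n.primeFactors, (p - 1) := by
    rw [← h1]
    exact Dvd.dvd.mul_right h _
  rcases (Nat.Prime.dvd_mul hq).mp h2 with h3 | h3
  · exact ⟨q, hq, h3, le_rfl⟩
  · obtain ⟨p, hp, hp2⟩ := (Prime.dvd_finsetProd_iff hq.prime _).mp h3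
    refine ⟨p, Nat.prime_of_mem_primeFactors hp, Nat.dvd_of_mem_primeFactors hp, ?_⟩
    have hp3 := (Nat.prime_of_mem_primeFactors hp).two_le
    have := Nat.le_of_dvd (by omega) hp2
    omega

/-- Chebyshev's upper bound. -/
theorem cheb (y : ℝ) (hy : 2 ≤ y) (s : Finset ℕ) (hs : ∀ p ∈ s, p.Prime ∧ (p : ℝ) ≤ y) :
    (s.card : ℝ) ≤ 5 * y / Real.log y := by
  have h1 := Chebyshev.pi_le_log4_mul_div (x := y) (by linarith)
  have hy0 : (0 : ℝ) < y := by linarith
  have h2 : s.card ≤ Nat.primeCounting ⌊y⌋₊ := by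
    rw [Nat.primeCounting, Nat.primeCounting', Nat.count_eq_card_filter_range]
    apply Finset.card_le_card
    intro p hp
    obtain ⟨h3, h4⟩ := hs p hp
    rw [Finset.mem_filter, Finset.mem_range]
    exact ⟨Nat.lt_succ_of_le (Nat.le_floor h4), h3⟩
  have h2' : (s.card : ℝ) ≤ Nat.primeCounting ⌊y⌋₊ := by exact_mod_cast h2
  refine h2'.trans (h1.trans ?_)
  have hly : 0 < Real.log y := Real.log_pos (by linarith only [hy])
  have hsy : 0 < Real.sqrt y := Real.sqrt_pos.mpr hy0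
  have h5 : Real.log (Real.sqrt y) = Real.log y / 2 := Real.log_sqrt hy0.le
  have h6 : Real.log y ≤ 2 * Real.sqrt y := by
    have := Real.log_le_sub_one_of_pos hsy
    linarith only [this, h5]
  have h7 : Real.sqrt y ≤ 2 * y / Real.log y := by
    rw [le_div_iff₀ hly]
    calc Real.sqrt y * Real.log y ≤ Real.sqrt y * (2 * Real.sqrt y) :=
          mul_le_mul_of_nonneg_left h6 hsy.le
      _ = 2 * (Real.sqrt y * Real.sqrt y) := by ring
      _ = 2 * y := by rw [Real.mul_self_sqrt hy0.le]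
  have h8 : Real.log 4 ≤ 3 / 2 := by
    have h9 : Real.log 4 = 2 * Real.log 2 := by
      rw [show (4 : ℝ) = 2 ^ 2 by norm_num, Real.log_pow]; norm_num
    have := Real.log_two_lt_d9
    linarith only [this, h9]
  rw [h5]
  have h10 : Real.log 4 * y / (Real.log y / 2) ≤ 3 * y / Real.log y := by
    rw [div_le_div_iff₀ (by positivity) hly]
    nlinarith only [h8, mul_pos hy0 hly]
  calc Real.log 4 * y / (Real.log y / 2) + Real.sqrt y ≤ 3 * y / Real.log y + 2 * y / Real.log y :=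
        add_le_add h10 h7
    _ = 5 * y / Real.log y := by ring

/-- Counting `v = g p * R` with a prime `p` of size at least `z ^ (1/κ)`. -/
theorem count_pairs (g : ℕ → ℕ) (hg : ∀ p : ℕ, p.Prime → p ≤ g p + 1 ∧ 1 ≤ g p)
    (z κ : ℝ) (s B : Finset ℕ) (hz : 3 ≤ z) (hκ : 0 < κ)
    (hB : ∀ R ∈ B, 1 ≤ R)
    (hs : ∀ v ∈ s, (v : ℝ) ≤ z ∧ ∃ p R : ℕ, p.Prime ∧ R ∈ B ∧ v = g p * R ∧
      Real.log z ≤ κ * Real.log p) :
    (s.card : ℝ) ≤ 10 * κ * (z / Real.log z) * ∑ R ∈ B, 1 / (R : ℝ) := by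
  classical
  have hz0 : (0 : ℝ) < z := by linarith
  have hlz : 0 < Real.log z := Real.log_pos (by linarith)
  let A : ℕ → Finset ℕ := fun R => (Finset.range (⌊z / R + 1⌋₊ + 1)).filter
    (fun p => p.Prime ∧ (g p * R : ℕ) ≤ ⌊z⌋₊ ∧ Real.log z ≤ κ * Real.log p)
  have hsub : s ⊆ B.biUnion (fun R => (A R).image (fun p => g p * R)) := by
    intro v hv
    obtain ⟨h1, p, R, hp, hR, hvR, hlog⟩ := hs v hv
    rw [Finset.mem_biUnion]
    refine ⟨R, hR, ?_⟩
    rw [Finset.mem_image]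
    refine ⟨p, ?_, hvR.symm⟩
    rw [Finset.mem_filter, Finset.mem_range]
    have hR1 : (1 : ℝ) ≤ R := by exact_mod_cast hB R hR
    refine ⟨?_, hp, ?_, hlog⟩
    · apply Nat.lt_succ_of_le
      apply Nat.le_floor
      have h2 : (p : ℝ) ≤ g p + 1 := by exact_mod_cast (hg p hp).1
      have h3 : (g p : ℝ) ≤ z / R := by
        rw [le_div_iff₀ (by linarith only [hR1])]
        calc (g p : ℝ) * R = ((g p * R : ℕ) : ℝ) := by push_cast; ring
          _ = v := by rw [hvR]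
          _ ≤ z := h1
      linarith only [h3, h2]
    · rw [← hvR]
      exact Nat.le_floor h1
  have hA : ∀ R ∈ B, ((A R).card : ℝ) ≤ 10 * κ * (z / Real.log z) * (1 / (R : ℝ)) := by
    intro R hR
    have hR1 : (1 : ℝ) ≤ R := by exact_mod_cast hB R hR
    have hR0 : (0 : ℝ) < R := by linarith
    rcases (A R).eq_empty_or_nonempty with he | ⟨p, hp⟩
    · rw [he]
      simp only [Finset.card_empty, Nat.cast_zero]
      positivity
    · rw [Finset.mem_filter, Finset.mem_range] at hp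
      obtain ⟨h1, h2, h3, h4⟩ := hp
      have h5 : ((g p * R : ℕ) : ℝ) ≤ z := le_trans (by exact_mod_cast h3) (Nat.floor_le hz0.le)
      have h6 : (1 : ℝ) ≤ g p := by exact_mod_cast (hg p h2).2
      have h7 : 1 ≤ z / R := by
        rw [le_div_iff₀ hR0]
        push_cast at h5
        nlinarith only [h6, h5]
      have hpy : (p : ℝ) ≤ z / R + 1 := le_trans (by exact_mod_cast Nat.le_of_lt_succ h1)
        (Nat.floor_le (by positivity))
      have hp2 : (2 : ℝ) ≤ p := by exact_mod_cast h2.two_le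
      have hcb := cheb (z / R + 1) (by linarith only [h7]) (A R) (by
        intro q hq
        rw [Finset.mem_filter, Finset.mem_range] at hq
        exact ⟨hq.2.1, le_trans (by exact_mod_cast Nat.le_of_lt_succ hq.1)
          (Nat.floor_le (by positivity))⟩)
      have hlp : 0 < Real.log p := Real.log_pos (by linarith only [hp2])
      have hly : Real.log p ≤ Real.log (z / R + 1) := Real.log_le_log (by linarith only [hp2]) hpy
      have h8 : Real.log z ≤ κ * Real.log (z / R + 1) :=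
        h4.trans (mul_le_mul_of_nonneg_left hly hκ.le)
      refine hcb.trans ?_
      rw [div_le_iff₀ (by linarith only [hlp, hly])]
      have h9 : 5 * (z / R + 1) ≤ 10 * (z / R) := by linarith only [h7]
      calc 5 * (z / R + 1) ≤ 10 * (z / R) := h9
        _ = 10 * (z / R) * (Real.log z / Real.log z) := by rw [div_self hlz.ne', mul_one]
        _ ≤ 10 * (z / R) * ((κ * Real.log (z / R + 1)) / Real.log z) := by gcongr
        _ = 10 * κ * (z / Real.log z) * (1 / (R : ℝ)) * Real.log (z / R + 1) := by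
          field_simp
  calc (s.card : ℝ) ≤ ((B.biUnion (fun R => (A R).image (fun p => g p * R))).card : ℝ) := by
        exact_mod_cast Finset.card_le_card hsub
    _ ≤ ∑ R ∈ B, (((A R).image (fun p => g p * R)).card : ℝ) := by
        exact_mod_cast Finset.card_biUnion_le
    _ ≤ ∑ R ∈ B, ((A R).card : ℝ) := by
        apply Finset.sum_le_sum
        intro R _
        exact_mod_cast Finset.card_image_le
    _ ≤ ∑ R ∈ B, 10 * κ * (z / Real.log z) * (1 / (R : ℝ)) := Finset.sum_le_sum hA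
    _ = _ := by rw [← Finset.mul_sum]

/-- One multiplication step by `p - 1`. -/
noncomputable def stp (Q B : Finset ℕ) : Finset ℕ :=
  (Q ×ˢ B).image (fun a => (a.1 - 1) * a.2)

theorem stp_mass (Q B : Finset ℕ) (hQ : ∀ q ∈ Q, 2 ≤ q) :
    ∑ R ∈ stp Q B, 1 / (R : ℝ) ≤ (∑ q ∈ Q, 1 / ((q : ℝ) - 1)) * ∑ D ∈ B, 1 / (D : ℝ) := by
  classical
  have h1 : ∑ R ∈ stp Q B, 1 / (R : ℝ) ≤
      ∑ a ∈ Q ×ˢ B, 1 / (((a.1 - 1) * a.2 : ℕ) : ℝ) := by
    unfold stp
    exact Finset.sum_image_le_of_nonneg (g := fun a : ℕ × ℕ => (a.1 - 1) * a.2)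
      (f := fun R : ℕ => 1 / (R : ℝ)) (fun u _ => by positivity)
  have h2 : ∑ a ∈ Q ×ˢ B, 1 / (((a.1 - 1) * a.2 : ℕ) : ℝ) =
      ∑ a ∈ Q ×ˢ B, (1 / ((a.1 : ℝ) - 1)) * (1 / (a.2 : ℝ)) := by
    apply Finset.sum_congr rfl
    intro a ha
    rw [Finset.mem_product] at ha
    have := hQ a.1 ha.1
    push_cast [Nat.cast_sub (by omega : 1 ≤ a.1)]
    rw [one_div_mul_one_div]
  rw [h2, Finset.sum_product] at h1
  rw [Finset.sum_mul_sum]
  exact h1

theorem stp_iter_mass (Q B : Finset ℕ) (hQ : ∀ q ∈ Q, 2 ≤ q) (k : ℕ) :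
    ∑ R ∈ (stp Q)^[k] B, 1 / (R : ℝ) ≤
      (∑ q ∈ Q, 1 / ((q : ℝ) - 1)) ^ k * ∑ D ∈ B, 1 / (D : ℝ) := by
  have hσ : 0 ≤ ∑ q ∈ Q, 1 / ((q : ℝ) - 1) := by
    apply Finset.sum_nonneg
    intro q hq
    have : (2 : ℝ) ≤ q := by exact_mod_cast hQ q hq
    apply div_nonneg zero_le_one
    linarith
  induction k with
  | zero => simp
  | succ k ih =>
    rw [Function.iterate_succ_apply']
    refine (stp_mass Q _ hQ).trans ?_
    calc _ ≤ (∑ q ∈ Q, 1 / ((q : ℝ) - 1)) * ((∑ q ∈ Q, 1 / ((q : ℝ) - 1)) ^ k *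
          ∑ D ∈ B, 1 / (D : ℝ)) := mul_le_mul_of_nonneg_left ih hσ
      _ = _ := by ring

theorem stp_iter_pos (Q B : Finset ℕ) (hQ : ∀ q ∈ Q, 2 ≤ q) (hB : ∀ D ∈ B, 1 ≤ D) (k : ℕ) :
    ∀ R ∈ (stp Q)^[k] B, 1 ≤ R := by
  induction k with
  | zero => exact hB
  | succ k ih =>
    rw [Function.iterate_succ_apply']
    intro R hR
    unfold stp at hR
    rw [Finset.mem_image] at hR
    obtain ⟨a, ha, rfl⟩ := hR
    rw [Finset.mem_product] at ha
    have h1 := hQ a.1 ha.1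
    have h2 := ih a.2 ha.2
    exact Nat.mul_pos (by omega) h2

theorem mem_stp_iter (Q B : Finset ℕ) (A : List ℕ) (hA : ∀ q ∈ A, q ∈ Q) (D : ℕ) (hD : D ∈ B) :
    (A.map (fun p => p - 1)).prod * D ∈ (stp Q)^[A.length] B := by
  induction A with
  | nil => simpa using hD
  | cons p A ih =>
    rw [List.length_cons, Function.iterate_succ_apply']
    unfold stp
    rw [Finset.mem_image]
    refine ⟨(p, (A.map (fun p => p - 1)).prod * D), ?_, ?_⟩
    · rw [Finset.mem_product]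
      exact ⟨hA p (by simp), ih (fun q hq => hA q (by simp [hq]))⟩
    · simp [mul_assoc]

end Vale.Agent.P031.ThinM
end
end

section

section

/-! Decomposition of totients into lists of normal primes (module `th`). -/

namespace Vale.Agent.P031.ThinM

open Finset Filter Topology

theorem ll_mono {a b : ℕ} (ha : 2 ≤ a) (h : a ≤ b) : ll (a : ℝ) ≤ ll (b : ℝ) := by
  unfold ll
  have h1 : (2 : ℝ) ≤ a := by exact_mod_cast ha
  have h2 : (a : ℝ) ≤ b := by exact_mod_cast h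
  exact Real.log_le_log (Real.log_pos (by linarith only [h1])) (Real.log_le_log (by linarith only [h1]) h2)

theorem _root_.Vale.Agent.P031.NoSq.of_dvd {M a b : ℕ} (h : NoSq M b) (hab : a ∣ b) : NoSq M a :=
  fun q hq hd => h q hq (hd.trans hab)

/-- value of a list of primes with small part `s` -/
def vl (L : List ℕ) (s : ℕ) : ℕ := (L.map (fun p => p - 1)).prod * s

theorem vl_nil (s : ℕ) : vl [] s = s := by simp [vl]

theorem vl_cons (p : ℕ) (L : List ℕ) (s : ℕ) : vl (p :: L) s = (p - 1) * vl L s := by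
  simp [vl, mul_assoc]

theorem vl_append (A L : List ℕ) (s : ℕ) : vl (A ++ L) s = (A.map (fun p => p - 1)).prod * vl L s := by
  simp [vl, mul_assoc]

theorem vl_ne_zero {L : List ℕ} {s : ℕ} (hL : ∀ p ∈ L, 2 ≤ p) (hs : s ≠ 0) : vl L s ≠ 0 := by
  induction L with
  | nil => simpa [vl_nil] using hs
  | cons p L ih =>
    rw [vl_cons]
    have h1 := hL p (by simp)
    exact Nat.mul_ne_zero (by omega) (ih (fun q hq => hL q (by simp [hq])))

theorem exists_list (M : ℕ) : ∀ n : ℕ, n ≠ 0 →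
    (∀ p, Big M p → p ∣ n → Nrm M p ∧ ¬ p ^ 2 ∣ n) →
    ∃ (L : List ℕ) (n' : ℕ), Small M n' ∧ (∀ p ∈ L, Nrm M p ∧ p ∣ n) ∧ L.Pairwise (· > ·) ∧
      Nat.totient n = vl L (Nat.totient n') := by
  classical
  intro n
  induction n using Nat.strong_induction_on with
  | _ n ih =>
    intro hn h
    by_cases hex : ∃ q, q ∣ n ∧ Big M q
    · obtain ⟨q, hq, hqB⟩ := hex
      let S := n.primeFactors.filter (Big M)
      have hS : S.Nonempty := ⟨q, by
        rw [Finset.mem_filter, Nat.mem_primeFactors]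
        exact ⟨⟨hqB.1, hq, hn⟩, hqB⟩⟩
      let p := S.max' hS
      have hpS : p ∈ S := S.max'_mem hS
      have hpS' := hpS
      rw [Finset.mem_filter, Nat.mem_primeFactors] at hpS'
      obtain ⟨⟨hpp, hpn, -⟩, hpB⟩ := hpS'
      have hmax : ∀ r, Big M r → r ∣ n → r ≤ p := by
        intro r hr hrn
        apply S.le_max'
        rw [Finset.mem_filter, Nat.mem_primeFactors]
        exact ⟨⟨hr.1, hrn, hn⟩, hr⟩
      obtain ⟨hNp, hsqp⟩ := h p hpB hpn
      obtain ⟨m, hm⟩ := hpn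
      have hpm : ¬ p ∣ m := by
        rintro ⟨c, hc⟩
        apply hsqp
        exact ⟨c, by rw [hm, hc]; ring⟩
      have hm0 : m ≠ 0 := by
        rintro rfl
        exact hn (by rw [hm]; simp)
      have hmn : m < n := by
        rw [hm]
        have := hpp.two_le
        have : 0 < m := Nat.pos_of_ne_zero hm0
        nlinarith
      have hmdvd : m ∣ n := ⟨p, by rw [hm]; ring⟩
      obtain ⟨L, n', h1, h2, h3, h4⟩ := ih m hmn hm0 (fun r hr hrm => by
        obtain ⟨h5, h6⟩ := h r hr (hrm.trans hmdvd)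
        exact ⟨h5, fun h7 => h6 (h7.trans hmdvd)⟩)
      refine ⟨p :: L, n', h1, ?_, ?_, ?_⟩
      · intro r hr
        rcases List.mem_cons.mp hr with h5 | h5
        · subst h5
          exact ⟨hNp, ⟨m, hm⟩⟩
        · exact ⟨(h2 r h5).1, (h2 r h5).2.trans hmdvd⟩
      · rw [List.pairwise_cons]
        refine ⟨?_, h3⟩
        intro r hr
        obtain ⟨h5, h6⟩ := h2 r hr
        have h7 := hmax r h5.big (h6.trans hmdvd)
        rcases Nat.lt_or_eq_of_le h7 with h8 | h8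
        · exact h8
        · exact absurd (h8 ▸ h6) hpm
      · have hcop : Nat.Coprime p m := (Nat.Prime.coprime_iff_not_dvd hpp).mpr hpm
        rw [vl_cons, ← h4, hm, Nat.totient_mul hcop, Nat.totient_prime hpp]
    · push Not at hex
      exact ⟨[], n, ⟨hn, fun q hq => hex q hq⟩, by simp, by simp, by simp [vl_nil]⟩

theorem toCh (M n' : ℕ) (hn' : Small M n') : ∀ L : List ℕ, (∀ p ∈ L, Nrm M p) →
    L.Pairwise (· > ·) → NoSq M (vl L (Nat.totient n')) →
    (∀ A L' : List ℕ, L = A ++ L' → L' ≠ [] → GG M (vl L' (Nat.totient n')) ≤ (M : ℝ) ^ 18) →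
    Ch M L.length (L.headD 1) (vl L (Nat.totient n')) := by
  intro L
  induction L with
  | nil =>
    intro _ _ _ _
    rw [vl_nil]
    exact Ch.nil n' _ hn' rfl
  | cons p L ih =>
    intro h1 h2 h3 h4
    rw [List.pairwise_cons] at h2
    have hG := h4 [] (p :: L) rfl (by simp)
    rw [vl_cons] at h3 hG ⊢
    have hCh := ih (fun q hq => h1 q (by simp [hq])) h2.2
      (h3.of_dvd (Dvd.intro_left _ rfl)) (fun A L' hA hL' => h4 (p :: A) L' (by simp [hA]) hL')
    refine Ch.cons p L.length (L.headD 1) _ (h1 p (by simp)) ?_ hCh hG h3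
    cases L with
    | nil => exact (h1 p (by simp)).big.1.one_lt
    | cons q L => exact h2.1 q (by simp)

theorem exists_bad (M n' : ℕ) (hn' : Small M n') (L : List ℕ) (h1 : ∀ p ∈ L, Nrm M p)
    (h2 : L.Pairwise (· > ·)) (hsq : NoSq M (vl L (Nat.totient n')))
    (hOm : Om (vl L (Nat.totient n')) ≤ M ^ 25) (hlen : L.length ≤ M)
    (hbad : vl L (Nat.totient n') ∉ DD M 0) :
    ∃ A L' : List ℕ, L = A ++ L' ∧ L' ≠ [] ∧ (M : ℝ) ^ 18 < GG M (vl L' (Nat.totient n')) := by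
  by_contra hcon
  push Not at hcon
  apply hbad
  refine ⟨⟨L.length, L.headD 1, by simpa using hlen, ?_⟩, by simpa using hOm⟩
  exact toCh M n' hn' L h1 h2 hsq (fun A L' hA hL' => hcon A L' hA hL')

theorem exists_slow (a : ℝ) : ∀ (k : ℕ) (L : List ℕ), 3 * k + 1 ≤ L.length →
    (∀ p ∈ L, a ≤ ll (p : ℝ)) →
    (∃ (A : List ℕ) (q1 q2 q3 q4 : ℕ) (L'' : List ℕ), L = A ++ (q1 :: q2 :: q3 :: q4 :: L'') ∧
      A.length ≤ 3 * k ∧ 9 / 10 * ll (q1 : ℝ) ≤ ll (q4 : ℝ)) ∨
    a ≤ (9 / 10 : ℝ) ^ k * ll ((L.headD 0 : ℕ) : ℝ) := by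
  intro k
  induction k with
  | zero =>
    intro L hL ha
    right
    match L, hL with
    | p :: L, _ => simpa using ha p (by simp)
  | succ k ih =>
    intro L hL ha
    match L, hL with
    | q1 :: q2 :: q3 :: q4 :: L'', hL =>
      by_cases hq : 9 / 10 * ll (q1 : ℝ) ≤ ll (q4 : ℝ)
      · left
        exact ⟨[], q1, q2, q3, q4, L'', rfl, by simp, hq⟩
      · push Not at hq
        have hL' : 3 * k + 1 ≤ (q4 :: L'').length := by
          simp only [List.length_cons] at hL ⊢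
          omega
        rcases ih (q4 :: L'') hL' (fun p hp => ha p (by
          simp only [List.mem_cons] at hp ⊢
          tauto)) with ⟨A, r1, r2, r3, r4, L3, h1, h2, h3⟩ | h1
        · left
          refine ⟨q1 :: q2 :: q3 :: A, r1, r2, r3, r4, L3, by simp [h1], ?_, h3⟩
          simp only [List.length_cons]
          omega
        · right
          simp only [List.headD_cons] at h1 ⊢
          refine h1.trans ?_
          calc (9 / 10 : ℝ) ^ k * ll (q4 : ℝ) ≤ (9 / 10 : ℝ) ^ k * (9 / 10 * ll (q1 : ℝ)) :=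
                mul_le_mul_of_nonneg_left hq.le (by positivity)
            _ = (9 / 10 : ℝ) ^ (k + 1) * ll (q1 : ℝ) := by ring

theorem _root_.Vale.Agent.P031.Nrm.two_le {M p : ℕ} (h : Nrm M p) : 2 ≤ p := h.big.1.two_le

theorem one_le_totient {M n' : ℕ} (hn' : Small M n') : Nat.totient n' ≠ 0 := by
  have := Nat.totient_pos.mpr (Nat.pos_of_ne_zero hn'.1)
  omega

/-- prime factors of `vl L s` are at most the head of the list -/
theorem prime_le_head {M n' p : ℕ} {L : List ℕ} (hn' : Small M n')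
    (h1 : ∀ q ∈ p :: L, Nrm M q) (h2 : (p :: L).Pairwise (· > ·)) :
    ∀ r : ℕ, r.Prime → r ∣ vl (p :: L) (Nat.totient n') → r ≤ p := by
  intro r hr hrd
  have hall : ∀ q ∈ p :: L, q ≤ p := by
    intro q hq
    rcases List.mem_cons.mp hq with h | h
    · exact h.le
    · rw [List.pairwise_cons] at h2
      exact (h2.1 q h).le
  unfold vl at hrd
  rcases (Nat.Prime.dvd_mul hr).mp hrd with h3 | h3
  · have h4 : ∃ q ∈ p :: L, r ∣ q - 1 := by
      have := (Prime.dvd_prod_iff hr.prime).mp h3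
      obtain ⟨a, ha, hra⟩ := this
      rw [List.mem_map] at ha
      obtain ⟨q, hq, rfl⟩ := ha
      exact ⟨q, hq, hra⟩
    obtain ⟨q, hq, hrq⟩ := h4
    have h5 := (h1 q hq).two_le
    have h6 := Nat.le_of_dvd (by omega) hrq
    have h7 := hall q hq
    omega
  · obtain ⟨t, ht, htn, hrt⟩ := prime_dvd_totient hr h3
    have h5 : ¬ Big M t := hn'.2 t htn
    by_contra hcon
    push Not at hcon
    apply h5
    refine ⟨ht, ?_⟩
    exact (h1 p (by simp)).big.2.trans (ll_mono (h1 p (by simp)).two_le (by omega))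

theorem Om_vl_four {M n' q1 q2 q3 q4 : ℕ} {L : List ℕ} (hn' : Small M n')
    (h1 : ∀ q ∈ q1 :: q2 :: q3 :: q4 :: L, Nrm M q)
    (h2 : (q1 :: q2 :: q3 :: q4 :: L).Pairwise (· > ·))
    (h3 : 9 / 10 * ll (q1 : ℝ) ≤ ll (q4 : ℝ)) (hM : 1 ≤ M) :
    324 / 100 * ll (q1 : ℝ) ≤ (Om (vl (q1 :: q2 :: q3 :: q4 :: L) (Nat.totient n')) : ℝ) := by
  have n1 := h1 q1 (by simp)
  have n2 := h1 q2 (by simp)
  have n3 := h1 q3 (by simp)
  have n4 := h1 q4 (by simp)
  have hrest : vl L (Nat.totient n') ≠ 0 := vl_ne_zero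
    (fun q hq => (h1 q (by simp [hq])).two_le) (one_le_totient hn')
  have e1 : q1 - 1 ≠ 0 := by have := n1.two_le; omega
  have e2 : q2 - 1 ≠ 0 := by have := n2.two_le; omega
  have e3 : q3 - 1 ≠ 0 := by have := n3.two_le; omega
  have e4 : q4 - 1 ≠ 0 := by have := n4.two_le; omega
  rw [vl_cons, vl_cons, vl_cons, vl_cons]
  rw [Om_mul' e1 (by positivity), Om_mul' e2 (by positivity), Om_mul' e3 (by positivity),
    Om_mul' e4 hrest]
  push_cast
  have o1 := n1.om_ge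
  have o2 := n2.om_ge
  have o3 := n3.om_ge
  have o4 := n4.om_ge
  have o5 : (0 : ℝ) ≤ (Om (vl L (Nat.totient n')) : ℝ) := Nat.cast_nonneg _
  simp only [List.pairwise_cons] at h2
  have g2 : q4 < q2 := h2.2.1 q4 (by simp)
  have g3 : q4 < q3 := h2.2.2.1 q4 (by simp)
  have l2 := ll_mono n4.two_le g2.le
  have l3 := ll_mono n4.two_le g3.le
  have l1 : 0 ≤ ll (q1 : ℝ) := le_trans (by positivity) n1.big.2
  linarith only [o2, l2, o1, h3, l3, o3, o4]

end Vale.Agent.P031.ThinM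
end
end

section

section

/-! Counting lemmas for exceptional totients (module `th`). -/

namespace Vale.Agent.P031.ThinM

open Finset Filter Topology

theorem card_le_sum_image {ι : Type*} (s : Finset ℕ) (I : Finset ι) (F : ι → Finset ℕ)
    (f : ι → ℕ → ℕ) (h : ∀ v ∈ s, ∃ i ∈ I, ∃ a ∈ F i, f i a = v) :
    s.card ≤ ∑ i ∈ I, (F i).card := by
  classical
  have hsub : s ⊆ I.biUnion (fun i => (F i).image (f i)) := by
    intro v hv
    obtain ⟨i, hi, a, ha, hfa⟩ := h v hv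
    rw [Finset.mem_biUnion]
    exact ⟨i, hi, Finset.mem_image.mpr ⟨a, ha, hfa⟩⟩
  calc s.card ≤ (I.biUnion (fun i => (F i).image (f i))).card := Finset.card_le_card hsub
    _ ≤ ∑ i ∈ I, ((F i).image (f i)).card := Finset.card_biUnion_le
    _ ≤ ∑ i ∈ I, (F i).card := Finset.sum_le_sum (fun i _ => Finset.card_image_le)

theorem sum_inv_pp (a n : ℕ) (ha : 2 ≤ a) :
    ∑ p ∈ Finset.Ico a (a + n), 1 / ((p : ℝ) * ((p : ℝ) - 1)) ≤ 1 / ((a : ℝ) - 1) - 1 / ((a : ℝ) + n - 1) := by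
  have ha' : (2 : ℝ) ≤ a := by exact_mod_cast ha
  induction n with
  | zero => simp
  | succ n ih =>
    rw [← add_assoc, Finset.sum_Ico_succ_top (by omega)]
    have hn : (0 : ℝ) ≤ n := Nat.cast_nonneg n
    have e : 1 / (((a + n : ℕ) : ℝ) * (((a + n : ℕ) : ℝ) - 1)) =
        1 / ((a : ℝ) + n - 1) - 1 / ((a : ℝ) + (n + 1 : ℕ) - 1) := by
      push_cast
      have h1 : (a : ℝ) + n - 1 ≠ 0 := by linarith only [ha']
      have h2 : (a : ℝ) + n ≠ 0 := by linarith only [ha']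
      have h3 : (a : ℝ) + (n + 1) - 1 = a + n := by ring
      rw [h3]
      field_simp
      ring
    rw [e]
    linarith only [ih]

theorem count_pp (z Y : ℝ) (s : Finset ℕ) (hY : 2 ≤ Y) (hz : 0 ≤ z)
    (hs : ∀ v ∈ s, 1 ≤ v ∧ (v : ℝ) ≤ z ∧ ∃ p : ℕ, Y ≤ p ∧ p * (p - 1) ∣ v) :
    (s.card : ℝ) ≤ 2 * z / Y := by
  classical
  set a := ⌈Y⌉₊ with ha
  have ha2 : 2 ≤ a := by
    have : (2 : ℝ) ≤ a := hY.trans (Nat.le_ceil Y)
    exact_mod_cast this
  have hYa : Y ≤ (a : ℝ) := Nat.le_ceil Y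
  have h1 : s.card ≤ ∑ p ∈ Finset.Ico a (a + (⌊z⌋₊ + 1)), (Finset.Icc 1 (⌊z⌋₊ / (p * (p - 1)))).card := by
    apply card_le_sum_image s _ _ (fun p k => p * (p - 1) * k)
    intro v hv
    obtain ⟨h1, h2, p, h3, k, hk⟩ := hs v hv
    have hvz : v ≤ ⌊z⌋₊ := Nat.le_floor h2
    have hap : a ≤ p := Nat.ceil_le.mpr h3
    have hp1 : 1 ≤ p - 1 := by omega
    have hk1 : 1 ≤ k := by
      rcases Nat.eq_zero_or_pos k with h | h
      · subst h; omega
      · exact h
    refine ⟨p, ?_, k, ?_, hk.symm⟩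
    · rw [Finset.mem_Ico]
      refine ⟨hap, ?_⟩
      have : p ≤ v := by
        rw [hk]
        calc p = p * 1 * 1 := by ring
          _ ≤ p * (p - 1) * k := by gcongr
      omega
    · rw [Finset.mem_Icc]
      refine ⟨hk1, ?_⟩
      rw [Nat.le_div_iff_mul_le (Nat.mul_pos (by omega) (by omega))]
      rw [mul_comm, ← hk]
      exact hvz
  have h2 : (s.card : ℝ) ≤ ∑ p ∈ Finset.Ico a (a + (⌊z⌋₊ + 1)), z * (1 / ((p : ℝ) * ((p : ℝ) - 1))) := by
    have h1' : (s.card : ℝ) ≤ ∑ p ∈ Finset.Ico a (a + (⌊z⌋₊ + 1)),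
        ((Finset.Icc 1 (⌊z⌋₊ / (p * (p - 1)))).card : ℝ) := by exact_mod_cast h1
    refine h1'.trans (Finset.sum_le_sum ?_)
    intro p hp
    rw [Finset.mem_Ico] at hp
    have hp2 : 2 ≤ p := by omega
    rw [Nat.card_Icc]
    simp only [Nat.add_sub_cancel]
    calc ((⌊z⌋₊ / (p * (p - 1)) : ℕ) : ℝ) ≤ (⌊z⌋₊ : ℝ) / ((p * (p - 1) : ℕ) : ℝ) := Nat.cast_div_le
      _ ≤ z / ((p * (p - 1) : ℕ) : ℝ) := by
          gcongr
          exact Nat.floor_le hz
      _ = z * (1 / ((p : ℝ) * ((p : ℝ) - 1))) := by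
          push_cast [Nat.cast_sub (by omega : 1 ≤ p)]
          ring
  rw [← Finset.mul_sum] at h2
  have h3 := sum_inv_pp a (⌊z⌋₊ + 1) ha2
  have ha' : (2 : ℝ) ≤ a := by exact_mod_cast ha2
  have h4 : (0 : ℝ) ≤ 1 / ((a : ℝ) + ((⌊z⌋₊ + 1 : ℕ) : ℝ) - 1) := by
    apply div_nonneg zero_le_one
    have : (0 : ℝ) ≤ ((⌊z⌋₊ + 1 : ℕ) : ℝ) := Nat.cast_nonneg _
    linarith only [hYa, hY]
  have h5 : 1 / ((a : ℝ) - 1) ≤ 2 / Y := by
    rw [div_le_div_iff₀ (by linarith only [hYa, hY]) (by linarith only [hY])]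
    linarith only [hYa, hY]
  calc (s.card : ℝ) ≤ z * (1 / ((a : ℝ) - 1)) := h2.trans (mul_le_mul_of_nonneg_left (by linarith only [h4, h3]) hz)
    _ ≤ z * (2 / Y) := mul_le_mul_of_nonneg_left h5 hz
    _ = _ := by ring

theorem card_le_V (x : ℝ) (s : Finset ℕ) (hs : ∀ d ∈ s, IsTot d ∧ (d : ℝ) ≤ x) :
    (s.card : ℝ) ≤ V x := by
  unfold V
  rw [← Set.ncard_coe_finset]
  have hfin : {v : ℕ | IsTot v ∧ (v : ℝ) ≤ x}.Finite := by
    apply (Set.finite_Iic ⌊x⌋₊).subset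
    intro v hv
    exact Nat.le_floor hv.2
  exact_mod_cast Set.ncard_le_ncard (fun d hd => hs d hd) hfin

theorem _root_.Vale.Agent.P031.IsTot.pos {v : ℕ} (h : IsTot v) : 1 ≤ v := by
  obtain ⟨n, hn, rfl⟩ := h
  exact Nat.totient_pos.mpr hn

theorem ll_real_mono {a b : ℝ} (ha : 1 < a) (h : a ≤ b) : ll a ≤ ll b := by
  unfold ll
  exact Real.log_le_log (Real.log_pos ha) (Real.log_le_log (by linarith) h)

/-- the case of a non-normal prime: small cofactor -/
theorem count_nn_small (M : ℕ) (z : ℝ) (hz : 9 ≤ z) (hzM : ll z ≤ 5 * (M : ℝ) ^ 20)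
    (hnp : ∀ (z : ℝ) (s : Finset ℕ), 3 ≤ z → ll z ≤ 5 * (M : ℝ) ^ 20 →
      (∀ p ∈ s, Big M p ∧ ¬ Nrm M p ∧ (p : ℝ) ≤ z) →
      (s.card : ℝ) ≤ z / Real.log z * Real.exp (-(M : ℝ) ^ 4))
    (hcm : ∀ (x : ℝ) (s : Finset ℕ), ll x ≤ 5 * (M : ℝ) ^ 20 →
      (∀ d ∈ s, IsTot d ∧ (d : ℝ) ≤ x) → ∑ d ∈ s, 1 / (d : ℝ) ≤ Real.exp (M : ℝ))
    (s : Finset ℕ) (hs : ∀ v ∈ s, (v : ℝ) ≤ z ∧ ∃ p d : ℕ, Big M p ∧ ¬ Nrm M p ∧ IsTot d ∧
      (d : ℝ) ≤ Real.sqrt z ∧ v = (p - 1) * d) :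
    (s.card : ℝ) ≤ z / Real.log z * (2 * Real.exp (-(M : ℝ) ^ 4) * Real.exp (M : ℝ)) + Real.sqrt z := by
  classical
  have hz0 : (0 : ℝ) < z := by linarith
  have hlz : 0 < Real.log z := Real.log_pos (by linarith)
  have hsz : 3 ≤ Real.sqrt z := by
    rw [show (3 : ℝ) = Real.sqrt 9 by
      rw [show (9 : ℝ) = 3 ^ 2 by norm_num]; exact (Real.sqrt_sq (by norm_num)).symm]
    exact Real.sqrt_le_sqrt hz
  have hss : Real.sqrt z * Real.sqrt z = z := Real.mul_self_sqrt hz0.le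
  have hlog_sqrt : Real.log (Real.sqrt z) = Real.log z / 2 := Real.log_sqrt hz0.le
  let T : Finset ℕ := (Finset.Icc 1 ⌊Real.sqrt z⌋₊).filter IsTot
  let F : ℕ → Finset ℕ := fun d => (Finset.range (⌊z / d + 1⌋₊ + 1)).filter
    (fun p => Big M p ∧ ¬ Nrm M p)
  have h1 : s.card ≤ ∑ d ∈ T, (F d).card := by
    apply card_le_sum_image s T F (fun d p => (p - 1) * d)
    intro v hv
    obtain ⟨h1, p, d, hp, hnp', hd, hds, hvpd⟩ := hs v hv
    refine ⟨d, ?_, p, ?_, hvpd.symm⟩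
    · rw [Finset.mem_filter, Finset.mem_Icc]
      exact ⟨⟨hd.pos, Nat.le_floor hds⟩, hd⟩
    · rw [Finset.mem_filter, Finset.mem_range]
      refine ⟨Nat.lt_succ_of_le (Nat.le_floor ?_), hp, hnp'⟩
      have hd0 : (0 : ℝ) < d := by exact_mod_cast hd.pos
      have hp1 := hp.1.two_le
      have h2 : ((p : ℝ) - 1) * d ≤ z := by
        have : (((p - 1) * d : ℕ) : ℝ) ≤ z := by rw [← hvpd]; exact h1
        push_cast [Nat.cast_sub (by omega : 1 ≤ p)] at this
        exact this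
      have h3 : (p : ℝ) - 1 ≤ z / d := by rw [le_div_iff₀ hd0]; exact h2
      linarith only [h3]
  have h2 : ∀ d ∈ T, ((F d).card : ℝ) ≤
      z / Real.log z * (2 * Real.exp (-(M : ℝ) ^ 4)) * (1 / (d : ℝ)) + 1 := by
    intro d hd
    rw [Finset.mem_filter, Finset.mem_Icc] at hd
    obtain ⟨⟨hd1, hd2⟩, hd3⟩ := hd
    have hd0 : (0 : ℝ) < d := by exact_mod_cast hd1
    have hds : (d : ℝ) ≤ Real.sqrt z := le_trans (by exact_mod_cast hd2)
      (Nat.floor_le (Real.sqrt_nonneg z))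
    have hzd : Real.sqrt z ≤ z / d := by
      rw [le_div_iff₀ hd0]
      calc Real.sqrt z * d ≤ Real.sqrt z * Real.sqrt z :=
            mul_le_mul_of_nonneg_left hds (Real.sqrt_nonneg z)
        _ = z := hss
    let F1 : Finset ℕ := (F d).filter (fun p : ℕ => (p : ℝ) ≤ z / d)
    let F2 : Finset ℕ := (F d).filter (fun p : ℕ => ¬ (p : ℝ) ≤ z / d)
    have hF12 : (F d).card = F1.card + F2.card := by
      rw [← Finset.card_filter_add_card_filter_not (s := F d) (fun p : ℕ => (p : ℝ) ≤ z / d)]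
    have hF2 : F2.card ≤ 1 := by
      rw [Finset.card_le_one]
      have key : ∀ p ∈ F2, p = ⌊z / d⌋₊ + 1 := by
        intro p hp
        rw [Finset.mem_filter, Finset.mem_filter, Finset.mem_range] at hp
        obtain ⟨⟨h3, -⟩, h4⟩ := hp
        push Not at h4
        have h5 : (p : ℝ) ≤ z / d + 1 := le_trans (by exact_mod_cast Nat.le_of_lt_succ h3)
          (Nat.floor_le (by positivity))
        have h6 : ⌊z / d⌋₊ < p := by
          have : (⌊z / d⌋₊ : ℝ) < p := lt_of_le_of_lt (Nat.floor_le (by positivity)) h4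
          exact_mod_cast this
        have h7 : p ≤ ⌊z / d⌋₊ + 1 := by
          have : (p : ℝ) - 1 ≤ z / d := by linarith only [h5]
          have hp1 : 1 ≤ p := by omega
          have h8 : ((p - 1 : ℕ) : ℝ) ≤ z / d := by
            push_cast [Nat.cast_sub hp1]; exact this
          have := Nat.le_floor h8
          omega
        omega
      intro a ha b hb
      rw [key a ha, key b hb]
    have hF1 : (F1.card : ℝ) ≤ z / Real.log z * (2 * Real.exp (-(M : ℝ) ^ 4)) * (1 / (d : ℝ)) := by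
      have hzd3 : 3 ≤ z / d := hsz.trans hzd
      have hzdz : z / d ≤ z := div_le_self hz0.le (by exact_mod_cast hd1)
      have h3 := hnp (z / d) F1 hzd3 ((ll_real_mono (by linarith only [hsz, hzd]) hzdz).trans hzM) (by
        intro p hp
        rw [Finset.mem_filter, Finset.mem_filter] at hp
        exact ⟨hp.1.2.1, hp.1.2.2, hp.2⟩)
      refine h3.trans ?_
      have h4 : Real.log z / 2 ≤ Real.log (z / d) := by
        rw [← hlog_sqrt]
        exact Real.log_le_log (by linarith only [hsz]) hzd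
      calc z / d / Real.log (z / d) * Real.exp (-(M : ℝ) ^ 4)
          ≤ z / d / (Real.log z / 2) * Real.exp (-(M : ℝ) ^ 4) := by gcongr
        _ = _ := by field_simp
    rw [hF12]
    push_cast
    have hF2' : (F2.card : ℝ) ≤ 1 := by exact_mod_cast hF2
    linarith only [hF2', hF1]
  have h3 : (T.card : ℝ) ≤ Real.sqrt z := by
    calc (T.card : ℝ) ≤ ((Finset.Icc 1 ⌊Real.sqrt z⌋₊).card : ℝ) := by
          exact_mod_cast Finset.card_filter_le _ _
      _ = (⌊Real.sqrt z⌋₊ : ℝ) := by simp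
      _ ≤ Real.sqrt z := Nat.floor_le (Real.sqrt_nonneg z)
  have h4 : ∑ d ∈ T, 1 / (d : ℝ) ≤ Real.exp (M : ℝ) := by
    apply hcm z T hzM
    intro d hd
    rw [Finset.mem_filter, Finset.mem_Icc] at hd
    refine ⟨hd.2, ?_⟩
    have hds : (d : ℝ) ≤ Real.sqrt z := le_trans (by exact_mod_cast hd.1.2)
      (Nat.floor_le (Real.sqrt_nonneg z))
    nlinarith only [hds, hsz, hss]
  calc (s.card : ℝ) ≤ ∑ d ∈ T, ((F d).card : ℝ) := by exact_mod_cast h1
    _ ≤ ∑ d ∈ T, (z / Real.log z * (2 * Real.exp (-(M : ℝ) ^ 4)) * (1 / (d : ℝ)) + 1) :=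
        Finset.sum_le_sum h2
    _ = z / Real.log z * (2 * Real.exp (-(M : ℝ) ^ 4)) * ∑ d ∈ T, 1 / (d : ℝ) + T.card := by
        rw [Finset.sum_add_distrib, ← Finset.mul_sum]
        simp
    _ ≤ z / Real.log z * (2 * Real.exp (-(M : ℝ) ^ 4)) * Real.exp (M : ℝ) + Real.sqrt z := by
        gcongr
    _ = _ := by ring

/-- the case of a non-normal prime: large cofactor -/
theorem count_nn_large (M : ℕ) (z : ℝ) (hz : 9 ≤ z) (hzM : ll z ≤ 5 * (M : ℝ) ^ 20)
    (hzM' : (M : ℝ) ^ 14 + 1 ≤ ll z)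
    (hnpm : ∀ (s : Finset ℕ), (∀ p ∈ s, Big M p ∧ ¬ Nrm M p ∧ ll (p : ℝ) ≤ 5 * (M : ℝ) ^ 20) →
      ∑ p ∈ s, 1 / ((p : ℝ) - 1) ≤ Real.exp (-(M : ℝ) ^ 3))
    (hcmc : ∀ z : ℝ, 3 ≤ z → (M : ℝ) ^ 14 ≤ ll z → ll z ≤ 5 * (M : ℝ) ^ 20 →
      (V z : ℝ) ≤ z / Real.log z * Real.exp (2 * (M : ℝ)))
    (s : Finset ℕ) (hs : ∀ v ∈ s, (v : ℝ) ≤ z ∧ ∃ p d : ℕ, Big M p ∧ ¬ Nrm M p ∧ IsTot d ∧
      Real.sqrt z < (d : ℝ) ∧ v = (p - 1) * d) :
    (s.card : ℝ) ≤ z / Real.log z * (2 * Real.exp (2 * (M : ℝ)) * Real.exp (-(M : ℝ) ^ 3)) := by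
  classical
  have hz0 : (0 : ℝ) < z := by linarith
  have hlz : 0 < Real.log z := Real.log_pos (by linarith)
  have hsz : 3 ≤ Real.sqrt z := by
    rw [show (3 : ℝ) = Real.sqrt 9 by
      rw [show (9 : ℝ) = 3 ^ 2 by norm_num]; exact (Real.sqrt_sq (by norm_num)).symm]
    exact Real.sqrt_le_sqrt hz
  have hss : Real.sqrt z * Real.sqrt z = z := Real.mul_self_sqrt hz0.le
  have hlog_sqrt : Real.log (Real.sqrt z) = Real.log z / 2 := Real.log_sqrt hz0.le
  let P : Finset ℕ := (Finset.range (⌊Real.sqrt z + 1⌋₊ + 1)).filter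
    (fun p => Big M p ∧ ¬ Nrm M p ∧ (p : ℝ) - 1 < Real.sqrt z)
  let F : ℕ → Finset ℕ := fun p => (Finset.Icc 1 ⌊z / ((p : ℝ) - 1)⌋₊).filter IsTot
  have h1 : s.card ≤ ∑ p ∈ P, (F p).card := by
    apply card_le_sum_image s P F (fun p d => (p - 1) * d)
    intro v hv
    obtain ⟨h1, p, d, hp, hnp', hd, hds, hvpd⟩ := hs v hv
    have hd0 : (0 : ℝ) < d := by exact_mod_cast hd.pos
    have hp1 := hp.1.two_le
    have hp1' : (2 : ℝ) ≤ p := by exact_mod_cast hp1
    have h2 : ((p : ℝ) - 1) * d ≤ z := by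
      have : (((p - 1) * d : ℕ) : ℝ) ≤ z := by rw [← hvpd]; exact h1
      push_cast [Nat.cast_sub (by omega : 1 ≤ p)] at this
      exact this
    have h3 : (p : ℝ) - 1 < Real.sqrt z := by
      by_contra hcon
      push Not at hcon
      have : Real.sqrt z * Real.sqrt z < ((p : ℝ) - 1) * d := by
        calc Real.sqrt z * Real.sqrt z < Real.sqrt z * d := by
              apply mul_lt_mul_of_pos_left hds; linarith only [hsz]
          _ ≤ ((p : ℝ) - 1) * d := mul_le_mul_of_nonneg_right hcon hd0.le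
      linarith only [h2, this, hss]
    refine ⟨p, ?_, d, ?_, hvpd.symm⟩
    · rw [Finset.mem_filter, Finset.mem_range]
      exact ⟨Nat.lt_succ_of_le (Nat.le_floor (by linarith only [h3])), hp, hnp', h3⟩
    · rw [Finset.mem_filter, Finset.mem_Icc]
      refine ⟨⟨hd.pos, Nat.le_floor ?_⟩, hd⟩
      rw [le_div_iff₀ (by linarith only [hp1'])]
      linarith only [h2]
  have h2 : ∀ p ∈ P, ((F p).card : ℝ) ≤
      z / Real.log z * (2 * Real.exp (2 * (M : ℝ))) * (1 / ((p : ℝ) - 1)) := by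
    intro p hp
    rw [Finset.mem_filter] at hp
    obtain ⟨-, hpB, hpn, hps⟩ := hp
    have hp1 : (2 : ℝ) ≤ p := by exact_mod_cast hpB.1.two_le
    have hp0 : (0 : ℝ) < (p : ℝ) - 1 := by linarith only [hp1]
    have hzd : Real.sqrt z ≤ z / ((p : ℝ) - 1) := by
      rw [le_div_iff₀ hp0]
      calc Real.sqrt z * ((p : ℝ) - 1) ≤ Real.sqrt z * Real.sqrt z :=
            mul_le_mul_of_nonneg_left hps.le (Real.sqrt_nonneg z)
        _ = z := hss
    have h3 : ((F p).card : ℝ) ≤ V (z / ((p : ℝ) - 1)) := by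
      apply card_le_V
      intro d hd
      rw [Finset.mem_filter, Finset.mem_Icc] at hd
      exact ⟨hd.2, le_trans (by exact_mod_cast hd.1.2) (Nat.floor_le (by positivity))⟩
    have hzdz : z / ((p : ℝ) - 1) ≤ z := div_le_self hz0.le (by linarith only [hp1])
    have h14 : (M : ℝ) ^ 14 ≤ ll (z / ((p : ℝ) - 1)) := by
      refine le_trans ?_ (ll_real_mono (by linarith only [hsz]) hzd)
      unfold ll
      rw [hlog_sqrt, Real.log_div hlz.ne' (by norm_num)]
      have := Real.log_two_lt_d9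
      unfold ll at hzM'
      linarith only [this, hzM']
    have h4 := hcmc (z / ((p : ℝ) - 1)) (hsz.trans hzd) h14
      ((ll_real_mono (by linarith only [hzd, hsz]) hzdz).trans hzM)
    refine h3.trans (h4.trans ?_)
    have h5 : Real.log z / 2 ≤ Real.log (z / ((p : ℝ) - 1)) := by
      rw [← hlog_sqrt]
      exact Real.log_le_log (by linarith only [hsz]) hzd
    calc z / ((p : ℝ) - 1) / Real.log (z / ((p : ℝ) - 1)) * Real.exp (2 * (M : ℝ))
        ≤ z / ((p : ℝ) - 1) / (Real.log z / 2) * Real.exp (2 * (M : ℝ)) := by gcongr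
      _ = _ := by field_simp
  have h4 : ∑ p ∈ P, 1 / ((p : ℝ) - 1) ≤ Real.exp (-(M : ℝ) ^ 3) := by
    apply hnpm
    intro p hp
    rw [Finset.mem_filter] at hp
    obtain ⟨-, hpB, hpn, hps⟩ := hp
    refine ⟨hpB, hpn, ?_⟩
    have hp1 : (2 : ℝ) ≤ p := by exact_mod_cast hpB.1.two_le
    exact (ll_real_mono (by linarith only [hp1]) (by nlinarith only [hsz, hps, hss])).trans hzM
  calc (s.card : ℝ) ≤ ∑ p ∈ P, ((F p).card : ℝ) := by exact_mod_cast h1
    _ ≤ ∑ p ∈ P, (z / Real.log z * (2 * Real.exp (2 * (M : ℝ))) * (1 / ((p : ℝ) - 1))) :=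
        Finset.sum_le_sum h2
    _ = z / Real.log z * (2 * Real.exp (2 * (M : ℝ))) * ∑ p ∈ P, 1 / ((p : ℝ) - 1) := by
        rw [← Finset.mul_sum]
    _ ≤ z / Real.log z * (2 * Real.exp (2 * (M : ℝ))) * Real.exp (-(M : ℝ) ^ 3) := by
        gcongr
    _ = _ := by ring

end Vale.Agent.P031.ThinM
end
end

section

section

/-! Mass of integers with many prime factors (module `th`). -/

namespace Vale.Agent.P031.ThinM

open Finset Filter Topology

theorem ev_pow_le_exp (n : ℕ) (c : ℝ) (hc : 0 < c) :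
    ∀ᶠ M : ℕ in atTop, (M : ℝ) ^ n ≤ Real.exp (c * M) := by
  have h1 : Tendsto (fun x : ℝ => x ^ n * Real.exp (-c * x)) atTop (nhds 0) := by
    have h2 := Real.tendsto_pow_mul_exp_neg_atTop_nhds_zero n
    have h3 : Tendsto (fun x : ℝ => c * x) atTop atTop := tendsto_id.const_mul_atTop hc
    have h4 := (h2.comp h3).const_mul ((1 / c) ^ n)
    rw [mul_zero] at h4
    refine h4.congr fun x => ?_
    simp only [Function.comp_apply]
    rw [← mul_assoc, ← mul_pow]
    have : 1 / c * (c * x) = x := by field_simp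
    rw [this]
    congr 2
    ring
  have h5 := (h1.comp tendsto_natCast_atTop_atTop).eventually (gt_mem_nhds zero_lt_one)
  filter_upwards [h5] with M hM
  simp only [Function.comp_apply] at hM
  have h6 : (M : ℝ) ^ n = (M : ℝ) ^ n * Real.exp (-c * M) * Real.exp (c * M) := by
    rw [mul_assoc, ← Real.exp_add]
    have : -c * (M : ℝ) + c * M = 0 := by ring
    rw [this, Real.exp_zero, mul_one]
  rw [h6]
  calc _ ≤ 1 * Real.exp (c * M) := mul_le_mul_of_nonneg_right hM.le (Real.exp_pos _).le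
    _ = _ := one_mul _

theorem ev_ge (c : ℝ) : ∀ᶠ M : ℕ in atTop, c ≤ (M : ℝ) :=
  tendsto_natCast_atTop_atTop.eventually_ge_atTop c

theorem log_19 : (64 / 100 : ℝ) ≤ Real.log (19 / 10) := by
  have h1 : Real.log (19 / 10) = Real.log 2 - Real.log (20 / 19) := by
    rw [← Real.log_div (by norm_num) (by norm_num)]
    norm_num
  have h2 : Real.log (20 / 19) ≤ 20 / 19 - 1 := Real.log_le_sub_one_of_pos (by norm_num)
  have h3 := Real.log_two_gt_d9
  rw [h1]
  linarith only [h3, h2]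

theorem pow_19 (n : ℕ) : (19 / 10 : ℝ) ^ n = Real.exp (n * Real.log (19 / 10)) := by
  rw [mul_comm, Real.exp_mul, Real.exp_log (by norm_num), Real.rpow_natCast]

/-- mass of integers with at least `x` prime factors -/
theorem mass_Om_ge (C : ℝ)
    (hC : ∀ (z : ℝ) (s : Finset ℕ), 3 ≤ z →
      (∀ n ∈ s, 1 ≤ n ∧ ∀ q : ℕ, q.Prime → q ∣ n → (q : ℝ) ≤ z) →
      ∑ n ∈ s, (19 / 10 : ℝ) ^ (Om n) / (n : ℝ) ≤ C * (Real.log z) ^ (19 / 10 : ℝ))
    (t x : ℝ) (ht : 1 ≤ t) (s : Finset ℕ)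
    (hs : ∀ n ∈ s, 1 ≤ n ∧ x ≤ (Om n : ℝ) ∧
      ∀ q : ℕ, q.Prime → q ∣ n → (q : ℝ) ≤ Real.exp (Real.exp t)) :
    ∑ n ∈ s, 1 / (n : ℝ) ≤ C * Real.exp (19 / 10 * t - 64 / 100 * x) := by
  have h3 : (3 : ℝ) ≤ Real.exp (Real.exp t) := by
    have h1 : (2 : ℝ) ≤ Real.exp t := by
      have := Real.add_one_le_exp t
      linarith
    have := Real.add_one_le_exp (Real.exp t)
    linarith
  have h4 := hC (Real.exp (Real.exp t)) s h3 (fun n hn => ⟨(hs n hn).1, (hs n hn).2.2⟩)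
  rw [Real.log_exp, ← Real.exp_mul] at h4
  have h5 : ∑ n ∈ s, 1 / (n : ℝ) ≤
      Real.exp (-(64 / 100 * x)) * ∑ n ∈ s, (19 / 10 : ℝ) ^ (Om n) / (n : ℝ) := by
    rw [Finset.mul_sum]
    apply Finset.sum_le_sum
    intro n hn
    obtain ⟨h6, h7, -⟩ := hs n hn
    have hn0 : (0 : ℝ) < n := by exact_mod_cast h6
    rw [← mul_div_assoc]
    apply div_le_div_of_nonneg_right _ hn0.le
    rw [pow_19, ← Real.exp_add, Real.one_le_exp_iff]
    have h8 := log_19
    have h9 : 0 ≤ (Om n : ℝ) := Nat.cast_nonneg _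
    nlinarith only [h7, h8]
  refine h5.trans ?_
  calc Real.exp (-(64 / 100 * x)) * ∑ n ∈ s, (19 / 10 : ℝ) ^ (Om n) / (n : ℝ)
      ≤ Real.exp (-(64 / 100 * x)) * (C * Real.exp (t * (19 / 10))) :=
        mul_le_mul_of_nonneg_left h4 (Real.exp_pos _).le
    _ = C * (Real.exp (t * (19 / 10)) * Real.exp (-(64 / 100 * x))) := by ring
    _ = _ := by
      rw [← Real.exp_add]
      congr 2
      ring

theorem le_of_ll_lt {q : ℕ} {t : ℝ} (h : ll (q : ℝ) ≤ t) : (q : ℝ) ≤ Real.exp (Real.exp t) := by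
  by_contra hcon
  push Not at hcon
  have h1 : Real.exp t < Real.log q := by
    rw [Real.lt_log_iff_exp_lt (lt_trans (Real.exp_pos _) hcon)]
    exact hcon
  have h2 : t < Real.log (Real.log q) := by
    rw [Real.lt_log_iff_exp_lt (lt_trans (Real.exp_pos _) h1)]
    exact h1
  unfold ll at h
  linarith

/-- integers with many small prime factors -/
def Many (M D : ℕ) : Prop := 1 ≤ D ∧ ∃ q : ℕ, (M : ℝ) ^ 15 ≤ ll (q : ℝ) ∧
  ll (q : ℝ) ≤ 5 * (M : ℝ) ^ 20 + 1 ∧ 324 / 100 * ll (q : ℝ) ≤ (Om D : ℝ) ∧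
  ∀ r : ℕ, r.Prime → r ∣ D → r ≤ q

theorem mass_many (C : ℝ)
    (hC : ∀ (z : ℝ) (s : Finset ℕ), 3 ≤ z →
      (∀ n ∈ s, 1 ≤ n ∧ ∀ q : ℕ, q.Prime → q ∣ n → (q : ℝ) ≤ z) →
      ∑ n ∈ s, (19 / 10 : ℝ) ^ (Om n) / (n : ℝ) ≤ C * (Real.log z) ^ (19 / 10 : ℝ))
    (hC0 : 0 ≤ C) : ∀ᶠ M : ℕ in atTop, ∀ B : Finset ℕ, (∀ D ∈ B, Many M D) →
      ∑ D ∈ B, 1 / (D : ℝ) ≤ Real.exp (-(M : ℝ) ^ 14) := by
  classical
  filter_upwards [ev_ge C, ev_ge 100, ev_pow_le_exp 22 1 one_pos] with M hMC hM100 hM22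
  intro B hB
  rw [one_mul] at hM22
  have hm0 : (0 : ℝ) < M := by linarith
  let Pj : ℕ → ℕ → Prop := fun j D => ∃ q : ℕ, ⌊ll (q : ℝ)⌋₊ = j ∧
    324 / 100 * ll (q : ℝ) ≤ (Om D : ℝ) ∧ ∀ r : ℕ, r.Prime → r ∣ D → r ≤ q
  have hp15 : (1 : ℝ) ≤ (M : ℝ) ^ 15 := one_le_pow₀ (by linarith)
  have hcover : ∀ D ∈ B, ∃ j ∈ Finset.Ico (M ^ 15) (6 * M ^ 20), Pj j D := by
    intro D hD
    obtain ⟨h1, q, h2, h3, h4, h5⟩ := hB D hD
    refine ⟨⌊ll (q : ℝ)⌋₊, ?_, q, rfl, h4, h5⟩
    rw [Finset.mem_Ico]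
    constructor
    · apply Nat.le_floor
      push_cast
      exact h2
    · rw [Nat.floor_lt (by linarith only [h2, hp15])]
      push_cast
      have : (1 : ℝ) < (M : ℝ) ^ 20 := one_lt_pow₀ (by linarith only [hM100]) (by norm_num)
      linarith only [h3, this]
  have hsum : ∑ D ∈ B, 1 / (D : ℝ) ≤
      ∑ j ∈ Finset.Ico (M ^ 15) (6 * M ^ 20), ∑ D ∈ B.filter (Pj j), 1 / (D : ℝ) := by
    have h1 : ∀ j ∈ Finset.Ico (M ^ 15) (6 * M ^ 20), ∑ D ∈ B.filter (Pj j), 1 / (D : ℝ) =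
        ∑ D ∈ B, if Pj j D then 1 / (D : ℝ) else 0 := fun j _ => Finset.sum_filter _ _
    rw [Finset.sum_congr rfl h1, Finset.sum_comm]
    apply Finset.sum_le_sum
    intro D hD
    obtain ⟨j, hj, hPj⟩ := hcover D hD
    calc 1 / (D : ℝ) = if Pj j D then 1 / (D : ℝ) else 0 := by rw [if_pos hPj]
      _ ≤ _ := Finset.single_le_sum (f := fun j => if Pj j D then 1 / (D : ℝ) else 0)
          (fun i _ => by
            split_ifs
            · positivity
            · exact le_rfl) hj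
  have hj : ∀ j ∈ Finset.Ico (M ^ 15) (6 * M ^ 20), ∑ D ∈ B.filter (Pj j), 1 / (D : ℝ) ≤
      C * Real.exp (2 - 1 / 10 * (M : ℝ) ^ 15) := by
    intro j hj
    rw [Finset.mem_Ico] at hj
    have hj0 : (M : ℝ) ^ 15 ≤ j := by exact_mod_cast hj.1
    have h1 := mass_Om_ge C hC ((j : ℝ) + 1) (324 / 100 * j) (by linarith only [])
      (B.filter (Pj j)) (by
        intro D hD
        rw [Finset.mem_filter] at hD
        obtain ⟨hDB, q, hq1, hq2, hq3⟩ := hD
        have hfl : (j : ℝ) ≤ ll (q : ℝ) := by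
          have h0 : 0 ≤ ll (q : ℝ) := by
            by_contra hcon
            push Not at hcon
            have : ⌊ll (q : ℝ)⌋₊ = 0 := Nat.floor_of_nonpos hcon.le
            rw [hq1] at this
            rw [this] at hj0
            norm_num at hj0
            linarith only [hj0, hp15]
          rw [← hq1]
          exact Nat.floor_le h0
        refine ⟨(hB D hDB).1, by linarith only [hq2, hfl], ?_⟩
        intro r hr hrD
        have h3 : (r : ℝ) ≤ q := by exact_mod_cast hq3 r hr hrD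
        refine h3.trans (le_of_ll_lt ?_)
        have := Nat.lt_floor_add_one (ll (q : ℝ))
        rw [hq1] at this
        exact this.le)
    refine h1.trans ?_
    apply mul_le_mul_of_nonneg_left _ hC0
    apply Real.exp_le_exp.mpr
    linarith only [hj0]
  have hcard : ((Finset.Ico (M ^ 15) (6 * M ^ 20)).card : ℝ) ≤ 6 * (M : ℝ) ^ 20 := by
    rw [Nat.card_Ico]
    have : M ^ 15 ≤ 6 * M ^ 20 := by
      have h1 : 1 ≤ M := by exact_mod_cast (show (1 : ℝ) ≤ (M : ℝ) by linarith)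
      calc M ^ 15 ≤ M ^ 20 := Nat.pow_le_pow_right h1 (by norm_num)
        _ ≤ 6 * M ^ 20 := by omega
    push_cast [Nat.cast_sub this]
    linarith only [hp15]
  have hE : 0 ≤ C * Real.exp (2 - 1 / 10 * (M : ℝ) ^ 15) := mul_nonneg hC0 (Real.exp_pos _).le
  calc ∑ D ∈ B, 1 / (D : ℝ) ≤ ∑ j ∈ Finset.Ico (M ^ 15) (6 * M ^ 20),
        C * Real.exp (2 - 1 / 10 * (M : ℝ) ^ 15) := hsum.trans (Finset.sum_le_sum hj)
    _ = ((Finset.Ico (M ^ 15) (6 * M ^ 20)).card : ℝ) * (C * Real.exp (2 - 1 / 10 * (M : ℝ) ^ 15)) := by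
        rw [Finset.sum_const, nsmul_eq_mul]
    _ ≤ 6 * (M : ℝ) ^ 20 * (C * Real.exp (2 - 1 / 10 * (M : ℝ) ^ 15)) :=
        mul_le_mul_of_nonneg_right hcard hE
    _ ≤ 6 * (M : ℝ) ^ 20 * ((M : ℝ) * Real.exp (2 - 1 / 10 * (M : ℝ) ^ 15)) := by gcongr
    _ ≤ (M : ℝ) ^ 22 * Real.exp (2 - 1 / 10 * (M : ℝ) ^ 15) := by
        have h6 : 6 * (M : ℝ) ^ 20 * (M : ℝ) ≤ (M : ℝ) ^ 22 := by
          have : (M : ℝ) ^ 22 = (M : ℝ) ^ 20 * M * M := by ring
          rw [this]
          have h7 : 0 ≤ (M : ℝ) ^ 20 * M := by positivity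
          nlinarith only [hM100, h7]
        rw [← mul_assoc]
        exact mul_le_mul_of_nonneg_right h6 (Real.exp_pos _).le
    _ ≤ Real.exp M * Real.exp (2 - 1 / 10 * (M : ℝ) ^ 15) :=
        mul_le_mul_of_nonneg_right hM22 (Real.exp_pos _).le
    _ = Real.exp (M + (2 - 1 / 10 * (M : ℝ) ^ 15)) := by rw [Real.exp_add]
    _ ≤ Real.exp (-(M : ℝ) ^ 14) := by
        apply Real.exp_le_exp.mpr
        have h8 : (M : ℝ) ^ 15 = (M : ℝ) ^ 14 * M := by ring
        have h9 : (M : ℝ) ≤ (M : ℝ) ^ 14 := by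
          calc (M : ℝ) = (M : ℝ) ^ 1 := (pow_one _).symm
            _ ≤ (M : ℝ) ^ 14 := pow_le_pow_right₀ (by linarith only [hM100]) (by norm_num)
        nlinarith only [hM100, h9]

/-- direct count of integers with many prime factors -/
theorem count_many (C : ℝ)
    (hC : ∀ (z : ℝ) (s : Finset ℕ), 3 ≤ z →
      (∀ n ∈ s, 1 ≤ n ∧ ∀ q : ℕ, q.Prime → q ∣ n → (q : ℝ) ≤ z) →
      ∑ n ∈ s, (19 / 10 : ℝ) ^ (Om n) / (n : ℝ) ≤ C * (Real.log z) ^ (19 / 10 : ℝ))
    (hC0 : 0 ≤ C) : ∀ᶠ M : ℕ in atTop, ∀ (z : ℝ) (s : Finset ℕ), 9 ≤ z → (M : ℝ) ^ 16 ≤ ll z →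
      (∀ v ∈ s, Real.sqrt z < v ∧ (v : ℝ) ≤ z ∧ Om v ≤ M ^ 25 ∧ Many M v) →
      (s.card : ℝ) ≤ z / Real.log z * Real.exp (-2 * (M : ℝ) ^ 2) := by
  classical
  filter_upwards [ev_ge C, ev_ge 100, ev_pow_le_exp 28 1 one_pos] with M hMC hM100 hM28
  intro z s hz hzM hs
  rw [one_mul] at hM28
  have hm0 : (0 : ℝ) < M := by linarith
  have hz0 : (0 : ℝ) < z := by linarith
  have hlz : 0 < Real.log z := Real.log_pos (by linarith)
  have hsz : 3 ≤ Real.sqrt z := by
    rw [show (3 : ℝ) = Real.sqrt 9 by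
      rw [show (9 : ℝ) = 3 ^ 2 by norm_num]; exact (Real.sqrt_sq (by norm_num)).symm]
    exact Real.sqrt_le_sqrt hz
  have hlog_sqrt : Real.log (Real.sqrt z) = Real.log z / 2 := Real.log_sqrt hz0.le
  have hm16 : (M : ℝ) ≤ (M : ℝ) ^ 16 := by
    calc (M : ℝ) = (M : ℝ) ^ 1 := (pow_one _).symm
      _ ≤ (M : ℝ) ^ 16 := pow_le_pow_right₀ (by linarith) (by norm_num)
  have hT1 : 1 ≤ ll z := by linarith only [hm16, hM100, hzM]
  let B : Finset ℕ := (Finset.Icc 1 ⌊z⌋₊).filter (fun a => 32 / 10 * ll z ≤ (Om a : ℝ))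
  have hmassB := mass_Om_ge C hC (ll z) (32 / 10 * ll z) hT1 B (by
    intro a ha
    rw [Finset.mem_filter, Finset.mem_Icc] at ha
    refine ⟨ha.1.1, ha.2, ?_⟩
    intro q hq hqa
    have h1 : q ≤ a := Nat.le_of_dvd (by omega) hqa
    have h2 : (q : ℝ) ≤ z := le_trans (by exact_mod_cast h1.trans ha.1.2) (Nat.floor_le hz0.le)
    refine h2.trans ?_
    unfold ll
    rw [Real.exp_log hlz, Real.exp_log hz0])
  have hcount := count_pairs (fun p => p) (fun p hp => ⟨by omega, hp.one_lt.le⟩) z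
    (2 * (M : ℝ) ^ 25) s B (by linarith only [hz]) (by positivity)
    (by
      intro R hR
      rw [Finset.mem_filter, Finset.mem_Icc] at hR
      exact hR.1.1)
    (by
      intro v hv
      obtain ⟨h1, h2, h3, h4, q, hq1, hq2, hq3, hq4⟩ := hs v hv
      refine ⟨h2, ?_⟩
      have hv2 : 2 ≤ v := by
        have : (2 : ℝ) < v := by linarith only [hsz, h1]
        exact_mod_cast this.le
      obtain ⟨hgp, hgd⟩ := gpf_mem hv2
      obtain ⟨a, ha⟩ := hgd
      have hv0 : v ≠ 0 := by omega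
      have ha0 : a ≠ 0 := by
        rintro rfl
        omega
      have hg0 : gpf v ≠ 0 := hgp.ne_zero
      -- log bounds
      have hlogv : Real.log z / 2 ≤ Real.log v := by
        rw [← hlog_sqrt]
        exact Real.log_le_log (by linarith only [hsz]) h1.le
      have hOm25 : (Om v : ℝ) ≤ (M : ℝ) ^ 25 := by exact_mod_cast h3
      have key : ∀ P : ℕ, 2 ≤ P → (∀ r : ℕ, r.Prime → r ∣ v → r ≤ P) →
          Real.log z ≤ 2 * (M : ℝ) ^ 25 * Real.log P := by
        intro P hP2 hP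
        have h5 := log_le_Om_mul_log hv0 hP
        have h6 : 0 ≤ Real.log P := Real.log_natCast_nonneg P
        have h7 : (Om v : ℝ) * Real.log P ≤ (M : ℝ) ^ 25 * Real.log P :=
          mul_le_mul_of_nonneg_right hOm25 h6
        linarith only [hlogv, h5, h7]
      have hgk := key (gpf v) hgp.two_le (fun r hr hrd => le_gpf hv0 hr hrd)
      have hq2' : 2 ≤ q := by
        have := hq4 _ hgp ⟨a, ha⟩
        have := hgp.two_le
        omega
      have hqk := key q hq2' hq4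
      -- lower bound for `ll q`
      have hllq : ll z - (M : ℝ) ≤ ll (q : ℝ) := by
        have hlq : 0 < Real.log q := Real.log_pos (by exact_mod_cast (by omega : 1 < q))
        have h8 : Real.log (Real.log z) ≤ Real.log (2 * (M : ℝ) ^ 25 * Real.log q) :=
          Real.log_le_log hlz hqk
        rw [Real.log_mul (by positivity) hlq.ne'] at h8
        have h9 : Real.log (2 * (M : ℝ) ^ 25) ≤ M := by
          rw [Real.log_le_iff_le_exp (by positivity)]
          refine le_trans ?_ hM28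
          have : (M : ℝ) ^ 28 = (M : ℝ) ^ 25 * (M : ℝ) ^ 3 := by ring
          rw [this]
          have h10 : (2 : ℝ) ≤ (M : ℝ) ^ 3 := by
            have : (M : ℝ) ^ 1 ≤ (M : ℝ) ^ 3 := pow_le_pow_right₀ (by linarith only [hM100]) (by norm_num)
            rw [pow_one] at this
            linarith only [hM100, this]
          have h11 : 0 < (M : ℝ) ^ 25 := by positivity
          nlinarith only [hOm25, h10]
        unfold ll
        linarith only [h8, h9]
      have hOmv : 32 / 10 * ll z + 1 ≤ (Om v : ℝ) := by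
        have h14 : (M : ℝ) ^ 16 = (M : ℝ) * (M : ℝ) ^ 15 := by ring
        have h15 : (1000 : ℝ) ≤ (M : ℝ) ^ 15 := by
          have : (M : ℝ) ^ 2 ≤ (M : ℝ) ^ 15 := pow_le_pow_right₀ (by linarith only [hM100]) (by norm_num)
          nlinarith only [this, hM100]
        nlinarith only [hllq, h15, hq3, hM100, hzM]
      refine ⟨gpf v, a, hgp, ?_, ha, hgk⟩
      rw [Finset.mem_filter, Finset.mem_Icc]
      refine ⟨⟨Nat.pos_of_ne_zero ha0, ?_⟩, ?_⟩
      · apply Nat.le_floor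
        refine le_trans ?_ h2
        exact_mod_cast Nat.le_of_dvd (by omega) ⟨gpf v, by rw [mul_comm]; exact ha⟩
      · have h12 : Om v = Om (gpf v) + Om a := by
          conv_lhs => rw [ha]
          exact Om_mul' hg0 ha0
        rw [Om_prime hgp] at h12
        have h13 : (Om v : ℝ) = 1 + Om a := by exact_mod_cast h12
        linarith only [hOmv, h13])
  have hzl : 0 ≤ z / Real.log z := by positivity
  calc (s.card : ℝ) ≤ 10 * (2 * (M : ℝ) ^ 25) * (z / Real.log z) * ∑ R ∈ B, 1 / (R : ℝ) := hcount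
    _ ≤ 10 * (2 * (M : ℝ) ^ 25) * (z / Real.log z) *
        (C * Real.exp (19 / 10 * ll z - 64 / 100 * (32 / 10 * ll z))) := by gcongr
    _ ≤ 10 * (2 * (M : ℝ) ^ 25) * (z / Real.log z) *
        (M * Real.exp (19 / 10 * ll z - 64 / 100 * (32 / 10 * ll z))) := by gcongr
    _ = z / Real.log z * ((20 * (M : ℝ) ^ 26) *
        Real.exp (19 / 10 * ll z - 64 / 100 * (32 / 10 * ll z))) := by ring
    _ ≤ z / Real.log z * (Real.exp M *
        Real.exp (19 / 10 * ll z - 64 / 100 * (32 / 10 * ll z))) := by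
        have h20 : 20 * (M : ℝ) ^ 26 ≤ Real.exp M := by
          refine le_trans ?_ hM28
          have : (M : ℝ) ^ 28 = (M : ℝ) ^ 26 * M * M := by ring
          rw [this]
          have h11 : 0 < (M : ℝ) ^ 26 := by positivity
          have h12 : 0 < (M : ℝ) ^ 26 * M := by positivity
          nlinarith only [hM100, h11, h12]
        gcongr
    _ ≤ z / Real.log z * Real.exp (-2 * (M : ℝ) ^ 2) := by
        rw [← Real.exp_add]
        apply mul_le_mul_of_nonneg_left _ hzl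
        apply Real.exp_le_exp.mpr
        have h21 : (M : ℝ) ^ 16 = (M : ℝ) ^ 2 * (M : ℝ) ^ 14 := by ring
        have h22 : (1000 : ℝ) ≤ (M : ℝ) ^ 14 := by
          have : (M : ℝ) ^ 2 ≤ (M : ℝ) ^ 14 := pow_le_pow_right₀ (by linarith only [hM100]) (by norm_num)
          nlinarith only [hM100, this]
        have h23 : (M : ℝ) ≤ (M : ℝ) ^ 2 := by nlinarith only [hM100]
        nlinarith only [h22, hzM, h23]

end Vale.Agent.P031.ThinM
end
end

section

section

/-! Decomposition of exceptional totients (module `th`). -/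

namespace Vale.Agent.P031.ThinM

open Finset Filter Topology

/-- terminal bad cofactors -/
def BadD (M : ℕ) (z : ℝ) (D : ℕ) : Prop :=
  1 ≤ D ∧ (D : ℝ) ≤ z ∧ ((Om D ≤ M ^ 26 ∧ (M : ℝ) ^ 18 ≤ GG M D) ∨ Many M D)

open Classical in
/-- the finite set of bad cofactors -/
noncomputable def BadF (M : ℕ) (z : ℝ) : Finset ℕ := (Finset.Icc 1 ⌊z⌋₊).filter (BadD M z)

open Classical in
/-- big primes up to `z + 1` -/
noncomputable def BigF (M : ℕ) (z : ℝ) : Finset ℕ := (Finset.range (⌊z⌋₊ + 2)).filter (Big M)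

theorem totient_sq_dvd {p n : ℕ} (hp : p.Prime) (h : p ^ 2 ∣ n) : p * (p - 1) ∣ Nat.totient n := by
  obtain ⟨c, hc⟩ := h
  have h1 : n = p * (p * c) := by rw [hc]; ring
  rw [h1, Nat.totient_mul_of_prime_of_dvd hp (Dvd.intro c rfl)]
  apply Nat.mul_dvd_mul_left
  rw [← Nat.totient_prime hp]
  exact Nat.totient_dvd_of_dvd (Dvd.intro c rfl)

theorem decomp (M : ℕ) (hM1 : 1 ≤ M) (z : ℝ) (hz : 9 ≤ z) (hzM : ll z ≤ 5 * (M : ℝ) ^ 20)
    (hdecay : (9 / 10 : ℝ) ^ (M / 3) * (5 * (M : ℝ) ^ 20 + 1) < (M : ℝ) ^ 15)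
    (v : ℕ) (hv : IsTot v) (hvz : (v : ℝ) ≤ z) (hDD : v ∉ DD M 0) :
    (v : ℝ) ≤ Real.sqrt z ∨ M ^ 25 + 1 ≤ Om v ∨ ¬ NoSq M v ∨
    (∃ p : ℕ, Real.exp (Real.exp ((M : ℝ) ^ 15)) ≤ p ∧ p * (p - 1) ∣ v) ∨
    (∃ p d : ℕ, Big M p ∧ ¬ Nrm M p ∧ IsTot d ∧ v = (p - 1) * d) ∨
    (Real.sqrt z < v ∧ Om v ≤ M ^ 25 ∧ (M : ℝ) ^ 18 ≤ GG M v) ∨
    (Real.sqrt z < v ∧ Om v ≤ M ^ 25 ∧ Many M v) ∨
    (∃ p R k : ℕ, p.Prime ∧ k ≤ M ∧ R ∈ (stp (BigF M z))^[k] (BadF M z) ∧ v = (p - 1) * R ∧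
      Real.log z ≤ 2 * (M : ℝ) ^ 25 * Real.log p) := by
  classical
  by_cases c0 : (v : ℝ) ≤ Real.sqrt z
  · left; exact c0
  by_cases c1 : M ^ 25 + 1 ≤ Om v
  · right; left; exact c1
  by_cases c2 : NoSq M v
  swap
  · right; right; left; exact c2
  by_cases c3 : ∃ p : ℕ, Real.exp (Real.exp ((M : ℝ) ^ 15)) ≤ p ∧ p * (p - 1) ∣ v
  · right; right; right; left; exact c3
  by_cases c4 : ∃ p d : ℕ, Big M p ∧ ¬ Nrm M p ∧ IsTot d ∧ v = (p - 1) * d
  · right; right; right; right; left; exact c4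
  right; right; right; right; right
  push Not at c0 c1
  have c1' : Om v ≤ M ^ 25 := by omega
  have hz0 : (0 : ℝ) < z := by linarith only [hz]
  have hlz : 0 < Real.log z := Real.log_pos (by linarith only [hz])
  have hM0 : (1 : ℝ) ≤ M := by exact_mod_cast hM1
  have hv0 : v ≠ 0 := by have := hv.pos; omega
  obtain ⟨n, hn1, hnv⟩ := hv
  have hn0 : n ≠ 0 := by omega
  have hlist := exists_list M n hn0 (by
    intro p hpB hpn
    have hpbig : Real.exp (Real.exp ((M : ℝ) ^ 15)) ≤ p := by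
      have hlp : 0 < Real.log p := Real.log_pos (by exact_mod_cast hpB.1.one_lt)
      have h1 := hpB.2
      unfold ll at h1
      rw [Real.le_log_iff_exp_le hlp] at h1
      rwa [Real.le_log_iff_exp_le (by exact_mod_cast hpB.1.pos)] at h1
    have hsq : ¬ p ^ 2 ∣ n := by
      intro h
      apply c3
      exact ⟨p, hpbig, by rw [← hnv]; exact totient_sq_dvd hpB.1 h⟩
    refine ⟨?_, hsq⟩
    by_contra hNrm
    apply c4
    obtain ⟨k, hk⟩ := hpn
    have hpk : ¬ p ∣ k := by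
      rintro ⟨c, hc⟩
      exact hsq ⟨c, by rw [hk, hc]; ring⟩
    have hk0 : k ≠ 0 := by
      rintro rfl
      exact hn0 (by rw [hk]; simp)
    have hcop : Nat.Coprime p k := (Nat.Prime.coprime_iff_not_dvd hpB.1).mpr hpk
    refine ⟨p, Nat.totient k, hpB, hNrm, ⟨k, Nat.pos_of_ne_zero hk0, rfl⟩, ?_⟩
    rw [← hnv, hk, Nat.totient_mul hcop, Nat.totient_prime hpB.1])
  obtain ⟨L, n', hn', hLN, hLp, hLv⟩ := hlist
  have hLN' : ∀ p ∈ L, Nrm M p := fun p hp => (hLN p hp).1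
  have hvL : v = vl L (Nat.totient n') := by rw [← hnv, hLv]
  -- sizes of the primes in `L`
  have hpdvd : ∀ p ∈ L, p - 1 ∣ v := by
    intro p hp
    rw [hvL]
    unfold vl
    apply Dvd.dvd.mul_right
    exact List.dvd_prod (List.mem_map.mpr ⟨p, hp, rfl⟩)
  have hple : ∀ p ∈ L, p ≤ ⌊z⌋₊ + 1 := by
    intro p hp
    have h1 := Nat.le_of_dvd (Nat.pos_of_ne_zero hv0) (hpdvd p hp)
    have h2 : v ≤ ⌊z⌋₊ := Nat.le_floor hvz
    omega
  have hpll : ∀ p ∈ L, ll (p : ℝ) ≤ 5 * (M : ℝ) ^ 20 + 1 := by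
    intro p hp
    have h1 : (p : ℝ) ≤ z + 1 := by
      have h2 : (p : ℝ) ≤ (⌊z⌋₊ : ℝ) + 1 := by exact_mod_cast hple p hp
      have := Nat.floor_le hz0.le
      linarith only [this, h2]
    have h3 : (1 : ℝ) < p := by exact_mod_cast (hLN' p hp).big.1.one_lt
    refine (ll_real_mono h3 h1).trans ?_
    have h4 : ll (z + 1) ≤ ll z + 1 := by
      unfold ll
      have h5 : Real.log (z + 1) ≤ Real.exp 1 * Real.log z := by
        have h6 : Real.log (z + 1) ≤ Real.log (z ^ 2) := Real.log_le_log (by linarith only [hz]) (by nlinarith only [hz])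
        rw [Real.log_pow] at h6
        push_cast at h6
        have h7 : (2 : ℝ) ≤ Real.exp 1 := by
          have := Real.add_one_le_exp (1 : ℝ)
          linarith only [this]
        linarith only [mul_nonneg (sub_nonneg.2 h7) (le_of_lt (sub_pos.2 hlz)), h6]
      have h8 : 0 < Real.log (z + 1) := Real.log_pos (by linarith only [hz])
      calc Real.log (Real.log (z + 1)) ≤ Real.log (Real.exp 1 * Real.log z) := Real.log_le_log h8 h5
        _ = Real.log (Real.log z) + 1 := by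
          rw [Real.log_mul (Real.exp_pos 1).ne' hlz.ne', Real.log_exp]; ring
    linarith only [h4, hzM]
  -- the bad suffix
  have hsuffix : ∃ A L' : List ℕ, L = A ++ L' ∧ A.length ≤ M ∧ L' ≠ [] ∧
      ((M : ℝ) ^ 18 ≤ GG M (vl L' (Nat.totient n')) ∨ Many M (vl L' (Nat.totient n'))) := by
    by_cases hlen : L.length ≤ M
    · obtain ⟨A, L', h1, h2, h3⟩ := exists_bad M n' hn' L hLN' hLp (by rw [← hvL]; exact c2)
        (by rw [← hvL]; exact c1') hlen (by rw [← hvL]; exact hDD)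
      refine ⟨A, L', h1, ?_, h2, Or.inl h3.le⟩
      rw [h1, List.length_append] at hlen
      omega
    · push Not at hlen
      rcases exists_slow ((M : ℝ) ^ 15) (M / 3) L (by omega) (fun p hp => (hLN' p hp).big.2) with
        ⟨A, q1, q2, q3, q4, L'', h1, h2, h3⟩ | h1
      · refine ⟨A, q1 :: q2 :: q3 :: q4 :: L'', h1, by omega, by simp, Or.inr ?_⟩
        have hsub : ∀ q ∈ q1 :: q2 :: q3 :: q4 :: L'', q ∈ L := by
          intro q hq
          rw [h1]
          exact List.mem_append_right A hq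
        have hN' : ∀ q ∈ q1 :: q2 :: q3 :: q4 :: L'', Nrm M q := fun q hq => hLN' q (hsub q hq)
        have hP' : (q1 :: q2 :: q3 :: q4 :: L'').Pairwise (· > ·) := by
          rw [h1] at hLp
          exact (List.pairwise_append.mp hLp).2.1
        refine ⟨Nat.pos_of_ne_zero (vl_ne_zero (fun q hq => (hN' q hq).two_le) (one_le_totient hn')),
          q1, (hN' q1 (by simp)).big.2, hpll q1 (hsub q1 (by simp)), ?_, ?_⟩
        · exact Om_vl_four hn' hN' hP' h3 hM1
        · exact prime_le_head hn' hN' hP'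
      · exfalso
        match L, hlen with
        | p :: L, _ =>
          simp only [List.headD_cons] at h1
          have h2 := hpll p (by simp)
          have h3 : (9 / 10 : ℝ) ^ (M / 3) * ll (p : ℝ) ≤
              (9 / 10 : ℝ) ^ (M / 3) * (5 * (M : ℝ) ^ 20 + 1) :=
            mul_le_mul_of_nonneg_left h2 (by positivity)
          linarith only [h1, hdecay, h3]
  obtain ⟨A, L', hA, hAlen, hL', hbad⟩ := hsuffix
  have hvA : v = (A.map (fun p => p - 1)).prod * vl L' (Nat.totient n') := by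
    rw [hvL, hA, vl_append]
  cases A with
  | nil =>
    have hvD : v = vl L' (Nat.totient n') := by simpa using hvA
    rw [← hvD] at hbad
    rcases hbad with h | h
    · left; exact ⟨c0, c1', h⟩
    · right; left; exact ⟨c0, c1', h⟩
  | cons p A =>
    right; right
    have hpL : p ∈ L := by rw [hA]; simp
    have hDv : vl L' (Nat.totient n') ∣ v := by
      rw [hvA]
      exact Dvd.intro_left _ rfl
    have hD0 : vl L' (Nat.totient n') ≠ 0 := fun h => by
      rw [h] at hDv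
      exact hv0 (Nat.eq_zero_of_zero_dvd hDv)
    have hDz : vl L' (Nat.totient n') ≤ ⌊z⌋₊ :=
      (Nat.le_of_dvd (Nat.pos_of_ne_zero hv0) hDv).trans (Nat.le_floor hvz)
    refine ⟨p, (A.map (fun p => p - 1)).prod * vl L' (Nat.totient n'), A.length,
      (hLN' p hpL).big.1, ?_, ?_, ?_, ?_⟩
    · simp only [List.length_cons] at hAlen
      omega
    · apply mem_stp_iter
      · intro q hq
        have hqL : q ∈ L := by rw [hA]; simp [hq]
        unfold BigF
        rw [Finset.mem_filter, Finset.mem_range]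
        have := hple q hqL
        exact ⟨by omega, (hLN' q hqL).big⟩
      · unfold BadF
        rw [Finset.mem_filter, Finset.mem_Icc]
        refine ⟨⟨Nat.pos_of_ne_zero hD0, hDz⟩, Nat.pos_of_ne_zero hD0,
          le_trans (by exact_mod_cast hDz) (Nat.floor_le hz0.le), ?_⟩
        rcases hbad with h | h
        · left
          refine ⟨?_, h⟩
          have h1 := Om_le_of_dvd hv0 hDv
          have h2 : M ^ 25 ≤ M ^ 26 := Nat.pow_le_pow_right hM1 (by norm_num)
          omega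
        · right; exact h
    · rw [hvA]
      simp [mul_assoc]
    · have hprimes : ∀ r : ℕ, r.Prime → r ∣ v → r ≤ p := by
        intro r hr hrv
        have hLe : L = p :: (A ++ L') := by rw [hA]; rfl
        rw [hvL, hLe] at hrv
        rw [hLe] at hLN' hLp
        exact prime_le_head hn' hLN' hLp r hr hrv
      have h5 := log_le_Om_mul_log hv0 hprimes
      have h6 : 0 ≤ Real.log p := Real.log_natCast_nonneg p
      have hOm25 : (Om v : ℝ) ≤ (M : ℝ) ^ 25 := by exact_mod_cast c1'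
      have h7 : (Om v : ℝ) * Real.log p ≤ (M : ℝ) ^ 25 * Real.log p :=
        mul_le_mul_of_nonneg_right hOm25 h6
      have hlogv : Real.log z / 2 ≤ Real.log v := by
        rw [← Real.log_sqrt hz0.le]
        exact Real.log_le_log (Real.sqrt_pos.mpr hz0) c0.le
      linarith only [hlogv, h5, h7]

end Vale.Agent.P031.ThinM
end
end

section

section

/-! Almost all totients are good (module `th`), from the other modules as hypotheses. -/

namespace Vale.Agent.P031.ThinM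

open Finset Filter Topology

theorem sum_biUnion_inv_le (I : Finset ℕ) (F : ℕ → Finset ℕ) :
    ∑ R ∈ I.biUnion F, 1 / (R : ℝ) ≤ ∑ i ∈ I, ∑ R ∈ F i, 1 / (R : ℝ) := by
  classical
  induction I using Finset.induction_on with
  | empty => simp
  | insert i I hi ih =>
    rw [Finset.biUnion_insert, Finset.sum_insert hi]
    have h1 := Finset.sum_union_inter (s₁ := F i) (s₂ := I.biUnion F) (f := fun R : ℕ => 1 / (R : ℝ))
    have h2 : 0 ≤ ∑ R ∈ F i ∩ I.biUnion F, 1 / (R : ℝ) :=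
      Finset.sum_nonneg (fun R _ => by positivity)
    linarith only [h1, ih, h2]

theorem two_thirds_pow (n : ℕ) : (2 / 3 : ℝ) ^ n ≤ Real.exp (-(n : ℝ) / 3) := by
  have h1 : (2 / 3 : ℝ) ≤ Real.exp (-1 / 3) := by
    have := Real.add_one_le_exp (-1 / 3 : ℝ)
    linarith only [this]
  calc (2 / 3 : ℝ) ^ n ≤ (Real.exp (-1 / 3)) ^ n := pow_le_pow_left₀ (by norm_num) h1 n
    _ = Real.exp (-(n : ℝ) / 3) := by
      rw [← Real.exp_nat_mul]
      congr 1
      ring

theorem ev_decay : ∀ᶠ M : ℕ in atTop,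
    (9 / 10 : ℝ) ^ (M / 3) * (5 * (M : ℝ) ^ 20 + 1) < (M : ℝ) ^ 15 := by
  filter_upwards [ev_pow_le_exp 6 (1 / 30) (by norm_num), ev_ge 100] with M h6 hM
  have h1 : (9 / 10 : ℝ) ≤ Real.exp (-1 / 10) := by
    have := Real.add_one_le_exp (-1 / 10 : ℝ)
    linarith only [this]
  have h2 : (9 / 10 : ℝ) ^ (M / 3) ≤ Real.exp (-((M / 3 : ℕ) : ℝ) / 10) := by
    calc (9 / 10 : ℝ) ^ (M / 3) ≤ (Real.exp (-1 / 10)) ^ (M / 3) :=
          pow_le_pow_left₀ (by norm_num) h1 _
      _ = Real.exp (-((M / 3 : ℕ) : ℝ) / 10) := by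
        rw [← Real.exp_nat_mul]
        congr 1
        ring
  have h3 : (M : ℝ) / 3 - 1 ≤ ((M / 3 : ℕ) : ℝ) := by
    have : M < 3 * (M / 3) + 3 := by omega
    have h4 : (M : ℝ) < 3 * ((M / 3 : ℕ) : ℝ) + 3 := by exact_mod_cast this
    linarith only [h4]
  have h4 : Real.exp (-((M / 3 : ℕ) : ℝ) / 10) ≤ Real.exp (1 / 10) * Real.exp (-(1 / 30 * (M : ℝ))) := by
    rw [← Real.exp_add]
    apply Real.exp_le_exp.mpr
    linarith only [h3]
  have h5 : Real.exp (1 / 10) ≤ 2 := by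
    have h7 : Real.exp (1 / 10) ≤ Real.exp 1 := Real.exp_le_exp.mpr (by norm_num)
    have h8 : Real.exp (1 / 10) * Real.exp (1 / 10) ≤ Real.exp 1 := by
      rw [← Real.exp_add]
      apply Real.exp_le_exp.mpr
      norm_num
    have h9 := Real.exp_one_lt_d9
    have h10 := Real.exp_pos (1 / 10 : ℝ)
    nlinarith only [h8, h9]
  have h11 : (9 / 10 : ℝ) ^ (M / 3) * (M : ℝ) ^ 6 ≤ 2 := by
    have h12 : Real.exp (-(1 / 30 * (M : ℝ))) * (M : ℝ) ^ 6 ≤ 1 := by
      calc Real.exp (-(1 / 30 * (M : ℝ))) * (M : ℝ) ^ 6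
          ≤ Real.exp (-(1 / 30 * (M : ℝ))) * Real.exp (1 / 30 * (M : ℝ)) :=
            mul_le_mul_of_nonneg_left h6 (Real.exp_pos _).le
        _ = 1 := by rw [← Real.exp_add]; simp
    calc (9 / 10 : ℝ) ^ (M / 3) * (M : ℝ) ^ 6
        ≤ (Real.exp (1 / 10) * Real.exp (-(1 / 30 * (M : ℝ)))) * (M : ℝ) ^ 6 := by
          apply mul_le_mul_of_nonneg_right (h2.trans h4) (by positivity)
      _ = Real.exp (1 / 10) * (Real.exp (-(1 / 30 * (M : ℝ))) * (M : ℝ) ^ 6) := by ring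
      _ ≤ 2 * 1 := mul_le_mul h5 h12 (by positivity) (by norm_num)
      _ = 2 := by ring
  have hm0 : (0 : ℝ) < M := by linarith only [hM]
  have h13 : 5 * (M : ℝ) ^ 20 + 1 ≤ 6 * (M : ℝ) ^ 20 := by
    have : (1 : ℝ) ≤ (M : ℝ) ^ 20 := one_le_pow₀ (by linarith only [hM])
    linarith only [this]
  have h14 : (9 / 10 : ℝ) ^ (M / 3) * (5 * (M : ℝ) ^ 20 + 1) * M ≤ 12 * (M : ℝ) ^ 15 := by
    calc (9 / 10 : ℝ) ^ (M / 3) * (5 * (M : ℝ) ^ 20 + 1) * M
        ≤ (9 / 10 : ℝ) ^ (M / 3) * (6 * (M : ℝ) ^ 20) * M := by gcongr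
      _ = 6 * (M : ℝ) ^ 15 * ((9 / 10 : ℝ) ^ (M / 3) * (M : ℝ) ^ 6) := by ring
      _ ≤ 6 * (M : ℝ) ^ 15 * 2 := by gcongr
      _ = 12 * (M : ℝ) ^ 15 := by ring
  have h15 : 0 < (M : ℝ) ^ 15 := by positivity
  nlinarith only [hM, h15, h14]

/-- elementary numerical facts for large `M` -/
structure Num (M : ℕ) (C : ℝ) : Prop where
  hM : (100 : ℝ) ≤ M
  hC : C + 1 ≤ M
  e28 : (M : ℝ) ^ 28 ≤ Real.exp M
  decay : (9 / 10 : ℝ) ^ (M / 3) * (5 * (M : ℝ) ^ 20 + 1) < (M : ℝ) ^ 15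

theorem ev_num (C : ℝ) : ∀ᶠ M : ℕ in atTop, Num M C := by
  filter_upwards [ev_ge 100, ev_ge (C + 1), ev_pow_le_exp 28 1 one_pos, ev_decay] with M h1 h2 h3 h4
  exact ⟨h1, h2, by simpa using h3, h4⟩

theorem Num.pow_le {M : ℕ} {C : ℝ} (h : Num M C) {a b : ℕ} (hab : a < b) :
    100 * (M : ℝ) ^ a ≤ (M : ℝ) ^ b := by
  have hM := h.hM
  calc 100 * (M : ℝ) ^ a ≤ M * (M : ℝ) ^ a := by gcongr
    _ = (M : ℝ) ^ (a + 1) := by ring
    _ ≤ (M : ℝ) ^ b := pow_le_pow_right₀ (by linarith) hab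

theorem Num.sqrt_le {M : ℕ} {C : ℝ} (h : Num M C) {z : ℝ} (hz : 9 ≤ z) (hzM : (M : ℝ) ^ 16 ≤ ll z) :
    Real.sqrt z ≤ z / Real.log z * Real.exp (-2 * (M : ℝ) ^ 2) := by
  have hz0 : (0 : ℝ) < z := by linarith
  have hlz : 0 < Real.log z := Real.log_pos (by linarith)
  have hM := h.hM
  have hss : Real.sqrt z * Real.sqrt z = z := Real.mul_self_sqrt hz0.le
  have hsz : 0 < Real.sqrt z := Real.sqrt_pos.mpr hz0
  have h1 : Real.log z = Real.exp (ll z) := by unfold ll; rw [Real.exp_log hlz]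
  have h2 : Real.sqrt z = Real.exp (Real.log z / 2) := by
    rw [← Real.log_sqrt hz0.le, Real.exp_log hsz]
  -- `log z * exp (2 M^2) ≤ sqrt z`
  have h3 : Real.log z * Real.exp (2 * (M : ℝ) ^ 2) ≤ Real.sqrt z := by
    rw [h2]
    conv_lhs => rw [h1]
    rw [← Real.exp_add]
    apply Real.exp_le_exp.mpr
    rw [h1]
    have h4 : (ll z) ^ 2 / 2 ≤ Real.exp (ll z) := by
      have h0 : 0 ≤ ll z := le_trans (by positivity) hzM
      have := Real.quadratic_le_exp_of_nonneg h0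
      linarith only [h0, this]
    have h5 : 100 * (M : ℝ) ^ 2 ≤ (M : ℝ) ^ 16 := h.pow_le (by norm_num)
    have h6 : (100 : ℝ) ≤ ll z := by
      have : (M : ℝ) ^ 0 * 100 ≤ (M : ℝ) ^ 16 := by
        have := h.pow_le (a := 0) (b := 16) (by norm_num)
        linarith
      simp at this
      linarith only [this, hzM]
    nlinarith only [h4, h6, hzM, h5]
  have h7 : Real.exp (-2 * (M : ℝ) ^ 2) = (Real.exp (2 * (M : ℝ) ^ 2))⁻¹ := by
    rw [← Real.exp_neg]
    congr 1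
    ring
  rw [h7, ← div_eq_mul_inv, div_div, le_div_iff₀ (by positivity)]
  calc Real.sqrt z * (Real.log z * Real.exp (2 * (M : ℝ) ^ 2)) ≤ Real.sqrt z * Real.sqrt z :=
        mul_le_mul_of_nonneg_left h3 hsz.le
    _ = z := hss

/-- comparison of `z * exp (-a)` with the target -/
theorem cmp_exp {M : ℕ} {z a : ℝ} (hz : 9 ≤ z) (h : ll z + 2 * (M : ℝ) ^ 2 ≤ a) :
    z * Real.exp (-a) ≤ z / Real.log z * Real.exp (-2 * (M : ℝ) ^ 2) := by
  have hz0 : (0 : ℝ) < z := by linarith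
  have hlz : 0 < Real.log z := Real.log_pos (by linarith)
  have h1 : Real.log z = Real.exp (ll z) := by unfold ll; rw [Real.exp_log hlz]
  rw [h1, div_eq_mul_inv, ← Real.exp_neg, mul_assoc, ← Real.exp_add]
  apply mul_le_mul_of_nonneg_left _ hz0.le
  apply Real.exp_le_exp.mpr
  linarith

/-- the class of products `(p - 1) * R` with a bad cofactor inside `R` -/
theorem count_class7 (C C1 : ℝ) (M : ℕ) (hN : Num M C) (hC1 : C1 ≤ C)
    (hsum : ∀ (b : ℝ) (s : Finset ℕ), 0 ≤ b →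
      (∀ p ∈ s, p.Prime ∧ ll (p : ℝ) ≤ b) → ∑ p ∈ s, 1 / ((p : ℝ) - 1) ≤ b + C1)
    (hubm : ∀ (g z : ℝ) (s : Finset ℕ), ll z ≤ 5 * (M : ℝ) ^ 20 →
      (∀ n ∈ s, 1 ≤ n ∧ (n : ℝ) ≤ z ∧ Om n ≤ M ^ 26 ∧ g ≤ GG M n) →
      ∑ n ∈ s, 1 / (n : ℝ) ≤ Real.exp (-g + (M : ℝ) ^ 16))
    (hmm : ∀ B : Finset ℕ, (∀ D ∈ B, Many M D) → ∑ D ∈ B, 1 / (D : ℝ) ≤ Real.exp (-(M : ℝ) ^ 14))
    (z : ℝ) (hz : 9 ≤ z) (hzM' : ll z ≤ 5 * (M : ℝ) ^ 20) (s7 : Finset ℕ)
    (hs7 : ∀ v ∈ s7, (v : ℝ) ≤ z ∧ ∃ p R k : ℕ, p.Prime ∧ k ≤ M ∧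
      R ∈ (stp (BigF M z))^[k] (BadF M z) ∧ v = (p - 1) * R ∧
      Real.log z ≤ 2 * (M : ℝ) ^ 25 * Real.log p) :
    (s7.card : ℝ) ≤ z / Real.log z * Real.exp (-2 * (M : ℝ) ^ 2) := by
  classical
  have hM := hN.hM
  have hm0 : (0 : ℝ) < M := by linarith
  have hz0 : (0 : ℝ) < z := by linarith
  have hz3 : (3 : ℝ) ≤ z := by linarith
  have hlz3 : 0 < Real.log z := Real.log_pos (by linarith)
  have hzl : 0 ≤ z / Real.log z := by positivity
  have p1 := hN.pow_le (a := 0) (b := 1) (by norm_num)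
  have p2 := hN.pow_le (a := 1) (b := 2) (by norm_num)
  have p3 := hN.pow_le (a := 2) (b := 3) (by norm_num)
  have p4 := hN.pow_le (a := 3) (b := 14) (by norm_num)
  have p15 := hN.pow_le (a := 14) (b := 16) (by norm_num)
  have p18 := hN.pow_le (a := 16) (b := 18) (by norm_num)
  have p20 := hN.pow_le (a := 18) (b := 20) (by norm_num)
  have p28 := hN.pow_le (a := 20) (b := 28) (by norm_num)
  rw [pow_zero, pow_one] at p1
  rw [pow_one] at p2
  let B' : Finset ℕ := (Finset.range (M + 1)).biUnion (fun k => (stp (BigF M z))^[k] (BadF M z))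
  have hQ2 : ∀ q ∈ BigF M z, 2 ≤ q := by
    intro q hq
    unfold BigF at hq
    rw [Finset.mem_filter] at hq
    exact hq.2.1.two_le
  have hB1 : ∀ D ∈ BadF M z, 1 ≤ D := by
    intro D hD
    unfold BadF at hD
    rw [Finset.mem_filter] at hD
    exact hD.2.1
  have h1 := count_pairs (fun p => p - 1) (fun p hp => by
    have := hp.two_le
    constructor <;> omega) z (2 * (M : ℝ) ^ 25) s7 B' hz3 (by positivity)
    (by
      intro R hR
      rw [Finset.mem_biUnion] at hR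
      obtain ⟨k, -, hk⟩ := hR
      exact stp_iter_pos _ _ hQ2 hB1 k R hk)
    (by
      intro v hv
      obtain ⟨hv1, p, R, k, g1, g2, g3, g4, g5⟩ := hs7 v hv
      refine ⟨hv1, p, R, g1, ?_, g4, g5⟩
      rw [Finset.mem_biUnion]
      exact ⟨k, Finset.mem_range.mpr (by omega), g3⟩)
  -- mass of the bad cofactors
  have hbadmass : ∑ D ∈ BadF M z, 1 / (D : ℝ) ≤ 2 * Real.exp (-(M : ℝ) ^ 14) := by
    have h2 := hubm ((M : ℝ) ^ 18) z
      ((BadF M z).filter (fun D => Om D ≤ M ^ 26 ∧ (M : ℝ) ^ 18 ≤ GG M D)) hzM' (by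
        intro D hD
        rw [Finset.mem_filter] at hD
        obtain ⟨hD1, hD2, hD3⟩ := hD
        unfold BadF at hD1
        rw [Finset.mem_filter] at hD1
        exact ⟨hD1.2.1, hD1.2.2.1, hD2, hD3⟩)
    have h3 := hmm ((BadF M z).filter (fun D => Many M D)) (by
      intro D hD
      rw [Finset.mem_filter] at hD
      exact hD.2)
    have h4 : ∑ D ∈ BadF M z, 1 / (D : ℝ) ≤
        ∑ D ∈ (BadF M z).filter (fun D => Om D ≤ M ^ 26 ∧ (M : ℝ) ^ 18 ≤ GG M D), 1 / (D : ℝ) +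
        ∑ D ∈ (BadF M z).filter (fun D => Many M D), 1 / (D : ℝ) := by
      rw [Finset.sum_filter, Finset.sum_filter, ← Finset.sum_add_distrib]
      apply Finset.sum_le_sum
      intro D hD
      unfold BadF at hD
      rw [Finset.mem_filter] at hD
      have h5 : (0 : ℝ) ≤ 1 / (D : ℝ) := by positivity
      rcases hD.2.2.2 with h | h
      · rw [if_pos h]
        split_ifs <;> linarith only [h5]
      · rw [if_pos h]
        split_ifs <;> linarith only [h5]
    have h5 : Real.exp (-(M : ℝ) ^ 18 + (M : ℝ) ^ 16) ≤ Real.exp (-(M : ℝ) ^ 14) := by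
      apply Real.exp_le_exp.mpr
      linarith only [p3, p18, p4, p2, p15]
    linarith only [h4, h3, h2, h5]
  have hbad0 : 0 ≤ ∑ D ∈ BadF M z, 1 / (D : ℝ) := Finset.sum_nonneg (fun D _ => by positivity)
  -- mass of the big primes
  have hσ : ∑ q ∈ BigF M z, 1 / ((q : ℝ) - 1) ≤ Real.exp (M : ℝ) := by
    have h2 := hsum (5 * (M : ℝ) ^ 20 + 1) (BigF M z) (by positivity) (by
      intro q hq
      unfold BigF at hq
      rw [Finset.mem_filter, Finset.mem_range] at hq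
      refine ⟨hq.2.1, ?_⟩
      have h3 : (q : ℝ) ≤ z + 1 := by
        have h4 : (q : ℝ) ≤ (⌊z⌋₊ : ℝ) + 1 := by exact_mod_cast (by omega : q ≤ ⌊z⌋₊ + 1)
        have := Nat.floor_le hz0.le
        linarith only [this, h4]
      have h4 : (1 : ℝ) < q := by exact_mod_cast hq.2.1.one_lt
      refine (ll_real_mono h4 h3).trans ?_
      have h5 : ll (z + 1) ≤ ll z + 1 := by
        unfold ll
        have h5 : Real.log (z + 1) ≤ Real.exp 1 * Real.log z := by
          have h6 : Real.log (z + 1) ≤ Real.log (z ^ 2) :=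
            Real.log_le_log (by linarith only [hz]) (by nlinarith only [hz])
          rw [Real.log_pow] at h6
          push_cast at h6
          have h7 : (2 : ℝ) ≤ Real.exp 1 := by
            have := Real.add_one_le_exp (1 : ℝ)
            linarith only [this]
          nlinarith only [h7, h6, hlz3]
        have h8 : 0 < Real.log (z + 1) := Real.log_pos (by linarith only [hz])
        calc Real.log (Real.log (z + 1)) ≤ Real.log (Real.exp 1 * Real.log z) :=
              Real.log_le_log h8 h5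
          _ = Real.log (Real.log z) + 1 := by
            rw [Real.log_mul (Real.exp_pos 1).ne' hlz3.ne', Real.log_exp]; ring
      linarith only [h5, hzM'])
    refine h2.trans (le_trans ?_ hN.e28)
    have := hN.hC
    linarith only [p3, p28, p18, p4, hC1, this, p2, p15, p20]
  have hσ0 : 0 ≤ ∑ q ∈ BigF M z, 1 / ((q : ℝ) - 1) := by
    apply Finset.sum_nonneg
    intro q hq
    have : (2 : ℝ) ≤ q := by exact_mod_cast hQ2 q hq
    apply div_nonneg zero_le_one
    linarith only [this]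
  have hB' : ∑ R ∈ B', 1 / (R : ℝ) ≤
      ((M : ℝ) + 1) * (Real.exp ((M : ℝ) ^ 2) * (2 * Real.exp (-(M : ℝ) ^ 14))) := by
    refine (sum_biUnion_inv_le _ _).trans ?_
    have h2 : ∀ k ∈ Finset.range (M + 1), ∑ R ∈ (stp (BigF M z))^[k] (BadF M z), 1 / (R : ℝ) ≤
        Real.exp ((M : ℝ) ^ 2) * (2 * Real.exp (-(M : ℝ) ^ 14)) := by
      intro k hk
      rw [Finset.mem_range] at hk
      refine (stp_iter_mass _ _ hQ2 k).trans ?_
      have h3 : (∑ q ∈ BigF M z, 1 / ((q : ℝ) - 1)) ^ k ≤ Real.exp ((M : ℝ) ^ 2) := by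
        calc (∑ q ∈ BigF M z, 1 / ((q : ℝ) - 1)) ^ k ≤ (Real.exp (M : ℝ)) ^ k :=
              pow_le_pow_left₀ hσ0 hσ k
          _ ≤ (Real.exp (M : ℝ)) ^ M :=
              pow_le_pow_right₀ (Real.one_le_exp hm0.le) (by omega)
          _ = Real.exp ((M : ℝ) ^ 2) := by
              rw [← Real.exp_nat_mul]
              congr 1
              ring
      exact mul_le_mul h3 hbadmass hbad0 (Real.exp_pos _).le
    refine (Finset.sum_le_sum h2).trans ?_
    rw [Finset.sum_const, Finset.card_range, nsmul_eq_mul]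
    push_cast
    exact le_rfl
  refine h1.trans ?_
  calc 10 * (2 * (M : ℝ) ^ 25) * (z / Real.log z) * ∑ R ∈ B', 1 / (R : ℝ)
      ≤ 10 * (2 * (M : ℝ) ^ 25) * (z / Real.log z) *
        (((M : ℝ) + 1) * (Real.exp ((M : ℝ) ^ 2) * (2 * Real.exp (-(M : ℝ) ^ 14)))) := by
        gcongr
    _ = z / Real.log z * ((40 * (M : ℝ) ^ 25 * ((M : ℝ) + 1)) *
        (Real.exp ((M : ℝ) ^ 2) * Real.exp (-(M : ℝ) ^ 14))) := by ring
    _ ≤ z / Real.log z * (Real.exp (M : ℝ) *
        (Real.exp ((M : ℝ) ^ 2) * Real.exp (-(M : ℝ) ^ 14))) := by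
        have h5 : 40 * (M : ℝ) ^ 25 * ((M : ℝ) + 1) ≤ Real.exp (M : ℝ) := by
          refine le_trans ?_ hN.e28
          have h6 : (M : ℝ) ^ 28 = (M : ℝ) ^ 26 * (M : ℝ) ^ 2 := by ring
          have h7 : 40 * (M : ℝ) ^ 25 * ((M : ℝ) + 1) ≤ 80 * (M : ℝ) ^ 26 := by
            have h8 : (M : ℝ) ^ 26 = (M : ℝ) ^ 25 * M := by ring
            have h9 : 0 < (M : ℝ) ^ 25 := by positivity
            linarith only [mul_nonneg (sub_nonneg.2 hM) (le_of_lt (sub_pos.2 h9)), h9]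
          have h10 : 0 < (M : ℝ) ^ 26 := by positivity
          rw [h6]
          nlinarith only [p18, p4, p15, h7]
        gcongr
    _ = z / Real.log z * Real.exp (M + ((M : ℝ) ^ 2 + -(M : ℝ) ^ 14)) := by
        rw [Real.exp_add, Real.exp_add]
    _ ≤ z / Real.log z * Real.exp (-2 * (M : ℝ) ^ 2) := by
        apply mul_le_mul_of_nonneg_left _ hzl
        apply Real.exp_le_exp.mpr
        linarith only [p3, p4, p2]

theorem card_nine (s s0 s1 s2 s3 s4 s5 s6 s7 s8 : Finset ℕ)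
    (hsub : s ⊆ s0 ∪ (s1 ∪ (s2 ∪ (s3 ∪ (s4 ∪ (s5 ∪ (s6 ∪ (s7 ∪ s8)))))))) :
    (s.card : ℝ) ≤ s0.card + (s1.card + (s2.card + (s3.card + (s4.card + (s5.card +
        (s6.card + (s7.card + s8.card))))))) := by
  have h : s.card ≤ s0.card + (s1.card + (s2.card + (s3.card + (s4.card + (s5.card +
        (s6.card + (s7.card + s8.card))))))) := by
    have u0 := Finset.card_le_card hsub
    have u1 := Finset.card_union_le s0 (s1 ∪ (s2 ∪ (s3 ∪ (s4 ∪ (s5 ∪ (s6 ∪ (s7 ∪ s8)))))))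
    have u2 := Finset.card_union_le s1 (s2 ∪ (s3 ∪ (s4 ∪ (s5 ∪ (s6 ∪ (s7 ∪ s8))))))
    have u3 := Finset.card_union_le s2 (s3 ∪ (s4 ∪ (s5 ∪ (s6 ∪ (s7 ∪ s8)))))
    have u4 := Finset.card_union_le s3 (s4 ∪ (s5 ∪ (s6 ∪ (s7 ∪ s8))))
    have u5 := Finset.card_union_le s4 (s5 ∪ (s6 ∪ (s7 ∪ s8)))
    have u6 := Finset.card_union_le s5 (s6 ∪ (s7 ∪ s8))
    have u7 := Finset.card_union_le s6 (s7 ∪ s8)
    have u8 := Finset.card_union_le s7 s8
    omega
  exact_mod_cast h

open Classical in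
/-- Module `th` with the other modules as hypotheses. -/
theorem th_of
    (sum_inv_le' : ∃ C : ℝ, 0 < C ∧ ∀ (b : ℝ) (s : Finset ℕ), 0 ≤ b →
      (∀ p ∈ s, p.Prime ∧ ll (p : ℝ) ≤ b) → ∑ p ∈ s, 1 / ((p : ℝ) - 1) ≤ b + C)
    (sum_pow_Om : ∀ (θ : ℝ), 0 ≤ θ → θ < 2 → ∃ C : ℝ, 0 < C ∧
      ∀ (z : ℝ) (s : Finset ℕ), 3 ≤ z →
      (∀ n ∈ s, 1 ≤ n ∧ ∀ q : ℕ, q.Prime → q ∣ n → (q : ℝ) ≤ z) →
      ∑ n ∈ s, θ ^ (Om n) / (n : ℝ) ≤ C * (Real.log z) ^ θ)
    (om_large : ∃ C : ℝ, 0 < C ∧ ∀ (z : ℝ) (T : ℕ), 3 ≤ z →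
      (((Finset.Icc 1 ⌊z⌋₊).filter (fun n => T ≤ Om n)).card : ℝ)
        ≤ C * z * (Real.log z) ^ 2 * (2 / 3 : ℝ) ^ T)
    (nosq_count : ∀ (M : ℕ), 1 ≤ M → ∀ (z : ℝ), 1 ≤ z →
      (((Finset.Icc 1 ⌊z⌋₊).filter (fun n => ¬ NoSq M n)).card : ℝ)
        ≤ 2 * z * Real.exp (-Real.exp ((M : ℝ) ^ 15)))
    (ub_mass : ∀ᶠ M : ℕ in atTop, ∀ (g z : ℝ) (s : Finset ℕ), ll z ≤ 5 * (M : ℝ) ^ 20 →
      (∀ n ∈ s, 1 ≤ n ∧ (n : ℝ) ≤ z ∧ Om n ≤ M ^ 26 ∧ g ≤ GG M n) →
      ∑ n ∈ s, 1 / (n : ℝ) ≤ Real.exp (-g + (M : ℝ) ^ 16))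
    (ub_count : ∀ᶠ M : ℕ in atTop, ∀ (g z : ℝ) (s : Finset ℕ), 3 ≤ z → (M : ℝ) ^ 16 ≤ ll z →
      ll z ≤ 5 * (M : ℝ) ^ 20 → g ≤ (M : ℝ) ^ 20 →
      (∀ n ∈ s, 1 ≤ n ∧ (n : ℝ) ≤ z ∧ Om n ≤ M ^ 26 ∧ g ≤ GG M n) →
      (s.card : ℝ) ≤ z / Real.log z * Real.exp (-g + (M : ℝ) ^ 17))
    (np_count : ∀ᶠ M : ℕ in atTop, ∀ (z : ℝ) (s : Finset ℕ), 3 ≤ z → ll z ≤ 5 * (M : ℝ) ^ 20 →
      (∀ p ∈ s, Big M p ∧ ¬ Nrm M p ∧ (p : ℝ) ≤ z) →
      (s.card : ℝ) ≤ z / Real.log z * Real.exp (-(M : ℝ) ^ 4))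
    (np_mass : ∀ᶠ M : ℕ in atTop, ∀ (s : Finset ℕ),
      (∀ p ∈ s, Big M p ∧ ¬ Nrm M p ∧ ll (p : ℝ) ≤ 5 * (M : ℝ) ^ 20) →
      ∑ p ∈ s, 1 / ((p : ℝ) - 1) ≤ Real.exp (-(M : ℝ) ^ 3))
    (cm : ∀ᶠ M : ℕ in atTop, ∀ (x : ℝ) (s : Finset ℕ), ll x ≤ 5 * (M : ℝ) ^ 20 →
      (∀ d ∈ s, IsTot d ∧ (d : ℝ) ≤ x) → ∑ d ∈ s, 1 / (d : ℝ) ≤ Real.exp (M : ℝ))
    (cmc : ∀ᶠ M : ℕ in atTop, ∀ z : ℝ, 3 ≤ z → (M : ℝ) ^ 14 ≤ ll z → ll z ≤ 5 * (M : ℝ) ^ 20 →
      (V z : ℝ) ≤ z / Real.log z * Real.exp (2 * (M : ℝ))) :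
    ∀ᶠ M : ℕ in atTop, ∀ (z : ℝ) (s : Finset ℕ), 3 ≤ z → (M : ℝ) ^ 16 ≤ ll z →
      ll z ≤ 5 * (M : ℝ) ^ 20 → (∀ v ∈ s, IsTot v ∧ (v : ℝ) ≤ z ∧ v ∉ DD M 0) →
      (s.card : ℝ) ≤ z / Real.log z * Real.exp (-(M : ℝ) ^ 2) := by
  obtain ⟨C1, hC1, hsum⟩ := sum_inv_le'
  obtain ⟨C2, hC2, hpow⟩ := sum_pow_Om (19 / 10) (by norm_num) (by norm_num)
  obtain ⟨C3, hC3, homl⟩ := om_large
  filter_upwards [ev_num (C1 + C3), ub_mass, ub_count, np_count, np_mass, cm, cmc,
    mass_many C2 hpow hC2.le, count_many C2 hpow hC2.le] with M hN hubm hubc hnpc hnpm hcm hcmc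
    hmm hcmany
  intro z s hz3 hzM hzM' hs
  have hM := hN.hM
  have hM1 : 1 ≤ M := by exact_mod_cast (show (1 : ℝ) ≤ (M : ℝ) by linarith)
  have hm0 : (0 : ℝ) < M := by linarith only [hM]
  have hlz3 : 0 < Real.log z := Real.log_pos (by linarith)
  have hllexp : Real.log z = Real.exp (ll z) := by unfold ll; rw [Real.exp_log hlz3]
  have hll100 : (100 : ℝ) ≤ ll z := by
    have := hN.pow_le (a := 0) (b := 16) (by norm_num)
    rw [pow_zero] at this
    linarith
  have hz : 9 ≤ z := by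
    have h1 := Real.add_one_le_exp (ll z)
    rw [← hllexp] at h1
    have h2 := Real.add_one_le_exp (Real.log z)
    rw [Real.exp_log (by linarith)] at h2
    linarith
  have hz0 : (0 : ℝ) < z := by linarith
  set W : ℝ := z / Real.log z * Real.exp (-2 * (M : ℝ) ^ 2) with hW
  have hzl : 0 ≤ z / Real.log z := by positivity
  have hW0 : 0 ≤ W := by positivity
  have p1 := hN.pow_le (a := 0) (b := 1) (by norm_num)
  have p2 := hN.pow_le (a := 1) (b := 2) (by norm_num)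
  have p3 := hN.pow_le (a := 2) (b := 3) (by norm_num)
  have p4 := hN.pow_le (a := 3) (b := 4) (by norm_num)
  have p14 := hN.pow_le (a := 4) (b := 14) (by norm_num)
  have p15 := hN.pow_le (a := 14) (b := 15) (by norm_num)
  have p17 := hN.pow_le (a := 15) (b := 16) (by norm_num)
  have p18 := hN.pow_le (a := 16) (b := 17) (by norm_num)
  have p19 := hN.pow_le (a := 17) (b := 18) (by norm_num)
  have p20 := hN.pow_le (a := 18) (b := 20) (by norm_num)
  have p25 := hN.pow_le (a := 20) (b := 25) (by norm_num)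
  rw [pow_zero, pow_one] at p1
  rw [pow_one] at p2
  have hexp15 : (M : ℝ) ^ 28 ≤ Real.exp ((M : ℝ) ^ 15) := by
    refine hN.e28.trans (Real.exp_le_exp.mpr ?_)
    linarith only [p2, p4, p14, p3, p15]
  have p28 := hN.pow_le (a := 25) (b := 28) (by norm_num)
  -- the classes
  let s0 := s.filter (fun v : ℕ => (v : ℝ) ≤ Real.sqrt z)
  let s1 := s.filter (fun v : ℕ => M ^ 25 + 1 ≤ Om v)
  let s2 := s.filter (fun v : ℕ => ¬ NoSq M v)
  let s3 := s.filter (fun v : ℕ => ∃ p : ℕ, Real.exp (Real.exp ((M : ℝ) ^ 15)) ≤ p ∧ p * (p - 1) ∣ v)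
  let s4a := s.filter (fun v : ℕ => ∃ p d : ℕ, Big M p ∧ ¬ Nrm M p ∧ IsTot d ∧
      (d : ℝ) ≤ Real.sqrt z ∧ v = (p - 1) * d)
  let s4b := s.filter (fun v : ℕ => ∃ p d : ℕ, Big M p ∧ ¬ Nrm M p ∧ IsTot d ∧
      Real.sqrt z < (d : ℝ) ∧ v = (p - 1) * d)
  let s5 := s.filter (fun v : ℕ => Real.sqrt z < v ∧ Om v ≤ M ^ 25 ∧ (M : ℝ) ^ 18 ≤ GG M v)
  let s6 := s.filter (fun v : ℕ => Real.sqrt z < v ∧ Om v ≤ M ^ 25 ∧ Many M v)
  let s7 := s.filter (fun v : ℕ => ∃ p R k : ℕ, p.Prime ∧ k ≤ M ∧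
      R ∈ (stp (BigF M z))^[k] (BadF M z) ∧ v = (p - 1) * R ∧
      Real.log z ≤ 2 * (M : ℝ) ^ 25 * Real.log p)
  have hsub : s ⊆ s0 ∪ (s1 ∪ (s2 ∪ (s3 ∪ (s4a ∪ (s4b ∪ (s5 ∪ (s6 ∪ s7))))))) := by
    intro v hv
    obtain ⟨h1, h2, h3⟩ := hs v hv
    simp only [Finset.mem_union, s0, s1, s2, s3, s4a, s4b, s5, s6, s7, Finset.mem_filter, hv,
      true_and]
    rcases decomp M hM1 z hz hzM' hN.decay v h1 h2 h3 with h | h | h | h | h | h | h | h
    · exact Or.inl h
    · exact Or.inr (Or.inl h)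
    · exact Or.inr (Or.inr (Or.inl h))
    · exact Or.inr (Or.inr (Or.inr (Or.inl h)))
    · obtain ⟨p, d, g1, g2, g3, g4⟩ := h
      by_cases hd : (d : ℝ) ≤ Real.sqrt z
      · exact Or.inr (Or.inr (Or.inr (Or.inr (Or.inl ⟨p, d, g1, g2, g3, hd, g4⟩))))
      · push Not at hd
        exact Or.inr (Or.inr (Or.inr (Or.inr (Or.inr (Or.inl ⟨p, d, g1, g2, g3, hd, g4⟩)))))
    · exact Or.inr (Or.inr (Or.inr (Or.inr (Or.inr (Or.inr (Or.inl h))))))
    · exact Or.inr (Or.inr (Or.inr (Or.inr (Or.inr (Or.inr (Or.inr (Or.inl h)))))))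
    · exact Or.inr (Or.inr (Or.inr (Or.inr (Or.inr (Or.inr (Or.inr (Or.inr h)))))))
  -- bounds
  have b0 : (s0.card : ℝ) ≤ W := by
    have h1 : (s0.card : ℝ) ≤ Real.sqrt z := by
      have h2 : s0 ⊆ Finset.Icc 1 ⌊Real.sqrt z⌋₊ := by
        intro v hv
        rw [Finset.mem_filter] at hv
        rw [Finset.mem_Icc]
        exact ⟨(hs v hv.1).1.pos, Nat.le_floor hv.2⟩
      calc (s0.card : ℝ) ≤ ((Finset.Icc 1 ⌊Real.sqrt z⌋₊).card : ℝ) := by
            exact_mod_cast Finset.card_le_card h2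
        _ = (⌊Real.sqrt z⌋₊ : ℝ) := by simp
        _ ≤ Real.sqrt z := Nat.floor_le (Real.sqrt_nonneg z)
    exact h1.trans (hN.sqrt_le hz hzM)
  have b1 : (s1.card : ℝ) ≤ W := by
    have h1 : (s1.card : ℝ) ≤ C3 * z * (Real.log z) ^ 2 * (2 / 3 : ℝ) ^ (M ^ 25 + 1) := by
      refine le_trans ?_ (homl z (M ^ 25 + 1) hz3)
      norm_cast
      apply Finset.card_le_card
      intro v hv
      rw [Finset.mem_filter] at hv
      rw [Finset.mem_filter, Finset.mem_Icc]
      exact ⟨⟨(hs v hv.1).1.pos, Nat.le_floor (hs v hv.1).2.1⟩, hv.2⟩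
    refine h1.trans ?_
    have h2 : C3 ≤ Real.exp (M : ℝ) := by
      have := Real.add_one_le_exp (M : ℝ)
      have := hN.hC
      linarith
    have h3 : (Real.log z) ^ 2 = Real.exp (2 * ll z) := by
      rw [hllexp, ← Real.exp_nat_mul]
      congr 1
    have h4 : (2 / 3 : ℝ) ^ (M ^ 25 + 1) ≤ Real.exp (-((M : ℝ) ^ 25) / 3) := by
      refine (two_thirds_pow _).trans ?_
      apply Real.exp_le_exp.mpr
      push_cast
      linarith only []
    calc C3 * z * (Real.log z) ^ 2 * (2 / 3 : ℝ) ^ (M ^ 25 + 1)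
        ≤ Real.exp (M : ℝ) * z * Real.exp (2 * ll z) * Real.exp (-((M : ℝ) ^ 25) / 3) := by
          rw [h3]
          gcongr
      _ = z * Real.exp (-((M : ℝ) ^ 25 / 3 - M - 2 * ll z)) := by
          rw [show -((M : ℝ) ^ 25 / 3 - M - 2 * ll z) = M + 2 * ll z + -((M : ℝ) ^ 25) / 3 by ring,
            Real.exp_add, Real.exp_add]
          ring
      _ ≤ W := by
          apply cmp_exp hz
          linarith only [p2, p17, p19, p25, p4, p14, p3, p18, p20, hzM', p15]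
  have hExp : ll z + 2 * (M : ℝ) ^ 2 + 1 ≤ Real.exp ((M : ℝ) ^ 15) := by linarith only [p2, p17, p19, hexp15, hM, p25, p4, p14, p3, p28, p18, p20, hzM', p15]
  have b23 : 2 * z * Real.exp (-Real.exp ((M : ℝ) ^ 15)) ≤ W := by
    have h1 : (2 : ℝ) ≤ Real.exp 1 := by
      have := Real.add_one_le_exp (1 : ℝ)
      linarith only [this]
    calc 2 * z * Real.exp (-Real.exp ((M : ℝ) ^ 15))
        ≤ Real.exp 1 * z * Real.exp (-Real.exp ((M : ℝ) ^ 15)) := by gcongr
      _ = z * Real.exp (-(Real.exp ((M : ℝ) ^ 15) - 1)) := by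
          rw [show -(Real.exp ((M : ℝ) ^ 15) - 1) = 1 + -Real.exp ((M : ℝ) ^ 15) by ring,
            Real.exp_add]
          ring
      _ ≤ W := by
          apply cmp_exp hz
          linarith only [p2, p17, p19, hexp15, hM, p25, p4, p14, p3, p28, p18, p20, hzM', p15]
  have b2 : (s2.card : ℝ) ≤ W := by
    refine le_trans ?_ b23
    refine le_trans ?_ (nosq_count M hM1 z (by linarith only [hz]))
    norm_cast
    apply Finset.card_le_card
    intro v hv
    rw [Finset.mem_filter] at hv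
    rw [Finset.mem_filter, Finset.mem_Icc]
    exact ⟨⟨(hs v hv.1).1.pos, Nat.le_floor (hs v hv.1).2.1⟩, hv.2⟩
  have b3 : (s3.card : ℝ) ≤ W := by
    have h1 := count_pp z (Real.exp (Real.exp ((M : ℝ) ^ 15))) s3 (by
      have h2 := Real.add_one_le_exp (Real.exp ((M : ℝ) ^ 15))
      have h3 := Real.add_one_le_exp ((M : ℝ) ^ 15)
      linarith only [p15, p20, p18, p28, p3, p14, p4, p25, hM, hexp15, h2, p19, p17, p2]) hz0.le (by
      intro v hv
      rw [Finset.mem_filter] at hv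
      exact ⟨(hs v hv.1).1.pos, (hs v hv.1).2.1, hv.2⟩)
    refine h1.trans ?_
    rw [div_eq_mul_inv, ← Real.exp_neg]
    exact b23
  have b4a : (s4a.card : ℝ) ≤ 2 * W := by
    have h1 := count_nn_small M z hz hzM' hnpc hcm s4a (by
      intro v hv
      rw [Finset.mem_filter] at hv
      exact ⟨(hs v hv.1).2.1, hv.2⟩)
    have h2 : z / Real.log z * (2 * Real.exp (-(M : ℝ) ^ 4) * Real.exp (M : ℝ)) ≤ W := by
      apply mul_le_mul_of_nonneg_left _ hzl
      have h3 : (2 : ℝ) ≤ Real.exp 1 := by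
        have := Real.add_one_le_exp (1 : ℝ)
        linarith only [this]
      calc 2 * Real.exp (-(M : ℝ) ^ 4) * Real.exp (M : ℝ)
          ≤ Real.exp 1 * Real.exp (-(M : ℝ) ^ 4) * Real.exp (M : ℝ) := by gcongr
        _ = Real.exp (1 + -(M : ℝ) ^ 4 + M) := by rw [Real.exp_add, Real.exp_add]
        _ ≤ Real.exp (-2 * (M : ℝ) ^ 2) := by
            apply Real.exp_le_exp.mpr
            linarith only [p2, hM, p4, p3]
    linarith only [h1, h2, hN.sqrt_le hz hzM]
  have b4b : (s4b.card : ℝ) ≤ W := by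
    have h1 := count_nn_large M z hz hzM' (by linarith only [p2, p17, hM, hzM, p4, p14, p3, p15]) hnpm hcmc s4b (by
      intro v hv
      rw [Finset.mem_filter] at hv
      exact ⟨(hs v hv.1).2.1, hv.2⟩)
    refine h1.trans ?_
    apply mul_le_mul_of_nonneg_left _ hzl
    have h3 : (2 : ℝ) ≤ Real.exp 1 := by
      have := Real.add_one_le_exp (1 : ℝ)
      linarith only [this]
    calc 2 * Real.exp (2 * (M : ℝ)) * Real.exp (-(M : ℝ) ^ 3)
        ≤ Real.exp 1 * Real.exp (2 * (M : ℝ)) * Real.exp (-(M : ℝ) ^ 3) := by gcongr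
      _ = Real.exp (1 + 2 * (M : ℝ) + -(M : ℝ) ^ 3) := by rw [Real.exp_add, Real.exp_add]
      _ ≤ Real.exp (-2 * (M : ℝ) ^ 2) := by
          apply Real.exp_le_exp.mpr
          linarith only [p2, hM, p3]
  have b5 : (s5.card : ℝ) ≤ W := by
    have h1 := hubc ((M : ℝ) ^ 18) z s5 hz3 hzM hzM' (by linarith only [p2, p17, p19, p4, p14, p3, p18, p20, p15]) (by
      intro v hv
      rw [Finset.mem_filter] at hv
      obtain ⟨hv1, hv2, hv3, hv4⟩ := hv
      have h2 : M ^ 25 ≤ M ^ 26 := Nat.pow_le_pow_right hM1 (by norm_num)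
      exact ⟨(hs v hv1).1.pos, (hs v hv1).2.1, hv3.trans h2, hv4⟩)
    refine h1.trans ?_
    apply mul_le_mul_of_nonneg_left _ hzl
    apply Real.exp_le_exp.mpr
    linarith only [p2, p17, p19, p4, p14, p3, p18, p15]
  have b6 : (s6.card : ℝ) ≤ W := by
    apply hcmany z s6 hz hzM
    intro v hv
    rw [Finset.mem_filter] at hv
    obtain ⟨hv1, hv2, hv3, hv4⟩ := hv
    exact ⟨hv2, (hs v hv1).2.1, hv3, hv4⟩
  have b7 : (s7.card : ℝ) ≤ W := by
    apply count_class7 (C1 + C3) C1 M hN (by linarith only [hC3]) hsum hubm hmm z hz hzM' s7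
    intro v hv
    rw [Finset.mem_filter] at hv
    exact ⟨(hs v hv.1).2.1, hv.2⟩
  -- total
  have htot : (s.card : ℝ) ≤ 10 * W := by
    have h2 := card_nine s s0 s1 s2 s3 s4a s4b s5 s6 s7 hsub
    linarith only [b0, b6, b4a, b4b, b5, b1, b2, b7, h2, b3]
  refine htot.trans ?_
  have h3 : (10 : ℝ) ≤ Real.exp ((M : ℝ) ^ 2) := by
    have := Real.add_one_le_exp ((M : ℝ) ^ 2)
    linarith only [p2, hM, this]
  calc 10 * W ≤ Real.exp ((M : ℝ) ^ 2) * W := by gcongr
    _ = z / Real.log z * (Real.exp ((M : ℝ) ^ 2) * Real.exp (-2 * (M : ℝ) ^ 2)) := by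
        rw [hW]; ring
    _ = z / Real.log z * Real.exp (-(M : ℝ) ^ 2) := by
        rw [← Real.exp_add]
        congr 2
        ring

end Vale.Agent.P031.ThinM
end
end

section

section

/-!
Counting integers of the form `(p - 1) n` and masses of products.
-/

namespace Vale.Agent.P031

namespace J3

open Finset

theorem log_le_two_sqrt {y : ℝ} (hy : 0 < y) : Real.log y ≤ 2 * Real.sqrt y := by
  have h1 : Real.log y = 2 * Real.log (Real.sqrt y) := by
    rw [Real.log_sqrt hy.le]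
    ring
  rw [h1]
  have h2 := Real.log_le_sub_one_of_pos (Real.sqrt_pos.mpr hy)
  linarith

/-- Chebyshev upper bound for the number of primes `≤ ⌊y⌋ + 1`. -/
theorem pi_floor_succ_le {y : ℝ} (hy : 2 ≤ y) :
    (Nat.primeCounting (⌊y⌋₊ + 1) : ℝ) ≤ 10 * (y / Real.log y) := by
  have hy0 : 0 < y := by linarith
  have hlog : 0 < Real.log y := Real.log_pos (by linarith)
  have h1 := Chebyshev.pi_le_log4_mul_div (x := y + 1) (by linarith)
  rw [Nat.floor_add_one hy0.le] at h1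
  have h2 : Real.log (Real.sqrt (y + 1)) = Real.log (y + 1) / 2 := Real.log_sqrt (by linarith)
  have h3 : Real.log y ≤ Real.log (y + 1) := Real.log_le_log hy0 (by linarith)
  have hlog4 : Real.log 4 ≤ 1.4 := by
    have : Real.log 4 = 2 * Real.log 2 := by
      rw [show (4 : ℝ) = 2 ^ 2 by norm_num, Real.log_pow]
      norm_num
    rw [this]
    have := Real.log_two_lt_d9
    linarith only [this]
  have hlog4' : 0 ≤ Real.log 4 := Real.log_nonneg (by norm_num)
  have h4 : Real.log 4 * (y + 1) / Real.log (Real.sqrt (y + 1)) ≤ 4.2 * (y / Real.log y) := by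
    rw [h2, ← mul_div_assoc, div_le_div_iff₀ (by linarith only [h3, hlog]) hlog]
    have h5 : Real.log 4 * (y + 1) ≤ 1.4 * (1.5 * y) := by
      apply mul_le_mul hlog4 (by linarith only [hy]) (by linarith only [hy]) (by norm_num)
    have h6 : 0 ≤ 4.2 * y := by linarith only [hy]
    calc Real.log 4 * (y + 1) * Real.log y ≤ (1.4 * (1.5 * y)) * Real.log y :=
          mul_le_mul_of_nonneg_right h5 hlog.le
      _ = (4.2 * y) * (Real.log y / 2) := by ring
      _ ≤ 4.2 * y * (Real.log (y + 1) / 2) := by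
          apply mul_le_mul_of_nonneg_left _ h6
          linarith only [h3]
  have h5 : Real.sqrt (y + 1) ≤ 4 * (y / Real.log y) := by
    have h6 : Real.sqrt (y + 1) ≤ 2 * Real.sqrt y := by
      rw [show (2 : ℝ) * Real.sqrt y = Real.sqrt (4 * y) by
        rw [Real.sqrt_mul (by norm_num), show (4 : ℝ) = 2 ^ 2 by norm_num,
          Real.sqrt_sq (by norm_num)]]
      apply Real.sqrt_le_sqrt
      linarith only [hy]
    have h7 : Real.sqrt y ≤ 2 * (y / Real.log y) := by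
      rw [← mul_div_assoc, le_div_iff₀ hlog]
      calc Real.sqrt y * Real.log y ≤ Real.sqrt y * (2 * Real.sqrt y) :=
            mul_le_mul_of_nonneg_left (log_le_two_sqrt hy0) (Real.sqrt_nonneg y)
        _ = 2 * (Real.sqrt y * Real.sqrt y) := by ring
        _ = 2 * y := by rw [Real.mul_self_sqrt hy0.le]
    linarith only [h7, h6]
  have h6 : 0 ≤ y / Real.log y := by positivity
  calc (Nat.primeCounting (⌊y⌋₊ + 1) : ℝ)
      ≤ Real.log 4 * (y + 1) / Real.log (Real.sqrt (y + 1)) + Real.sqrt (y + 1) := h1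
    _ ≤ 4.2 * (y / Real.log y) + 4 * (y / Real.log y) := add_le_add h4 h5
    _ ≤ 10 * (y / Real.log y) := by linarith only [h5, h1, h4]

theorem card_primes_le (k : ℕ) :
    ((Finset.range (k + 2)).filter Nat.Prime).card = Nat.primeCounting (k + 1) := by
  rw [Nat.primeCounting, Nat.primeCounting', Nat.count_eq_card_filter_range]

/-- number of `v ≤ x` of the form `(p - 1) n` with `p` prime and `n` in a given set of
integers `n ≤ x^{3/4}` -/
theorem one_prime_count (x : ℝ) (N s : Finset ℕ) (hx : 16 ≤ x)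
    (hN : ∀ n ∈ N, 1 ≤ n ∧ (n : ℝ) ^ 4 ≤ x ^ 3)
    (hs : ∀ v ∈ s, (v : ℝ) ≤ x ∧ ∃ n ∈ N, ∃ p : ℕ, p.Prime ∧ v = (p - 1) * n) :
    (s.card : ℝ) ≤ 40 * (x / Real.log x) * ∑ n ∈ N, 1 / (n : ℝ) := by
  classical
  have hx0 : 0 < x := by linarith
  have hlogx : 0 < Real.log x := Real.log_pos (by linarith)
  have hsub : s ⊆ N.biUnion (fun n =>
      ((Finset.range (⌊x / (n : ℝ)⌋₊ + 2)).filter Nat.Prime).image (fun p => (p - 1) * n)) := by
    intro v hv
    obtain ⟨hvx, n, hn, p, hp, rfl⟩ := hs v hv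
    rw [Finset.mem_biUnion]
    refine ⟨n, hn, ?_⟩
    rw [Finset.mem_image]
    refine ⟨p, ?_, rfl⟩
    rw [Finset.mem_filter, Finset.mem_range]
    refine ⟨?_, hp⟩
    have hn1 : (1 : ℝ) ≤ n := by exact_mod_cast (hN n hn).1
    have h1 : ((p - 1 : ℕ) : ℝ) ≤ x / n := by
      rw [le_div_iff₀ (by linarith)]
      push_cast at hvx
      exact hvx
    have h2 : p - 1 ≤ ⌊x / (n : ℝ)⌋₊ := Nat.le_floor h1
    omega
  have h1 : s.card ≤ ∑ n ∈ N, Nat.primeCounting (⌊x / (n : ℝ)⌋₊ + 1) := by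
    calc s.card ≤ _ := Finset.card_le_card hsub
      _ ≤ ∑ n ∈ N, (((Finset.range (⌊x / (n : ℝ)⌋₊ + 2)).filter Nat.Prime).image
          (fun p => (p - 1) * n)).card := Finset.card_biUnion_le
      _ ≤ ∑ n ∈ N, Nat.primeCounting (⌊x / (n : ℝ)⌋₊ + 1) := by
        refine Finset.sum_le_sum fun n _ => ?_
        rw [← card_primes_le]
        exact Finset.card_image_le
  calc (s.card : ℝ) ≤ ((∑ n ∈ N, Nat.primeCounting (⌊x / (n : ℝ)⌋₊ + 1) : ℕ) : ℝ) := by
        exact_mod_cast h1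
    _ = ∑ n ∈ N, (Nat.primeCounting (⌊x / (n : ℝ)⌋₊ + 1) : ℝ) := by push_cast; rfl
    _ ≤ ∑ n ∈ N, 40 * (x / Real.log x) * (1 / (n : ℝ)) := by
        refine Finset.sum_le_sum fun n hn => ?_
        obtain ⟨hn1, hn2⟩ := hN n hn
        have hn1' : (1 : ℝ) ≤ n := by exact_mod_cast hn1
        have hn0 : (0 : ℝ) < n := by linarith only [hn1']
        set y := x / (n : ℝ) with hy
        have hy0 : 0 < y := by positivity
        have hy4 : x ≤ y ^ 4 := by
          rw [hy, div_pow, le_div_iff₀ (by positivity)]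
          calc x * (n : ℝ) ^ 4 ≤ x * x ^ 3 := mul_le_mul_of_nonneg_left hn2 hx0.le
            _ = x ^ 4 := by ring
        have hy2 : 2 ≤ y := by
          by_contra hc
          have h3 : y ^ 4 < 2 ^ 4 := pow_lt_pow_left₀ (not_le.mp hc) hy0.le (by norm_num)
          linarith only [h3, hx, hy4]
        have hlogy : Real.log x ≤ 4 * Real.log y := by
          have h3 := Real.log_le_log hx0 hy4
          rw [Real.log_pow] at h3
          exact_mod_cast h3
        have hlogy0 : 0 < Real.log y := by linarith only [hlogy, hlogx]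
        calc (Nat.primeCounting (⌊y⌋₊ + 1) : ℝ) ≤ 10 * (y / Real.log y) := pi_floor_succ_le hy2
          _ ≤ 10 * (y * (4 / Real.log x)) := by
              have h4 : 1 / Real.log y ≤ 4 / Real.log x := by
                rw [div_le_div_iff₀ hlogy0 hlogx]
                linarith only [hlogy]
              have h5 : y / Real.log y ≤ y * (4 / Real.log x) := by
                rw [div_eq_mul_one_div]
                exact mul_le_mul_of_nonneg_left h4 hy0.le
              linarith only [h5]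
          _ = 40 * (x / Real.log x) * (1 / (n : ℝ)) := by
              rw [hy]
              field_simp
              ring
    _ = 40 * (x / Real.log x) * ∑ n ∈ N, 1 / (n : ℝ) := by rw [Finset.mul_sum]

/-- the map `(p, n) ↦ (p - 1) n` -/
def pm (a : ℕ × ℕ) : ℕ := (a.1 - 1) * a.2

/-- products `(p - 1) n` together with the original set -/
def ext (P N : Finset ℕ) : Finset ℕ := N ∪ (P ×ˢ N).image pm

theorem mem_ext_left {P N : Finset ℕ} {n : ℕ} (h : n ∈ N) : n ∈ ext P N := by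
  unfold ext
  exact Finset.mem_union_left _ h

theorem mem_ext_mul {P N : Finset ℕ} {p n : ℕ} (hp : p ∈ P) (h : n ∈ N) :
    (p - 1) * n ∈ ext P N := by
  unfold ext
  refine Finset.mem_union_right _ ?_
  rw [Finset.mem_image]
  exact ⟨(p, n), Finset.mem_product.mpr ⟨hp, h⟩, rfl⟩

theorem sum_image_le_sum {α : Type} [DecidableEq α] (A : Finset α) (f : α → ℕ) (g : ℕ → ℝ)
    (hg : ∀ n, 0 ≤ g n) : ∑ n ∈ A.image f, g n ≤ ∑ a ∈ A, g (f a) := by
  classical
  induction A using Finset.induction_on with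
  | empty => simp
  | insert a A ha ih =>
    rw [Finset.image_insert, Finset.sum_insert ha]
    calc ∑ n ∈ insert (f a) (A.image f), g n ≤ g (f a) + ∑ n ∈ A.image f, g n := by
          by_cases h : f a ∈ A.image f
          · rw [Finset.insert_eq_of_mem h]
            linarith [hg (f a)]
          · rw [Finset.sum_insert h]
      _ ≤ _ := by linarith

theorem cast_pm {a : ℕ × ℕ} (hp : a.1.Prime) :
    ((pm a : ℕ) : ℝ) = ((a.1 : ℝ) - 1) * (a.2 : ℝ) := by
  have := hp.one_lt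
  unfold pm
  push_cast [Nat.cast_sub this.le]
  ring

theorem sum_ext_le (P N : Finset ℕ) (hP : ∀ p ∈ P, p.Prime) :
    ∑ n ∈ ext P N, 1 / (n : ℝ) ≤
      (1 + ∑ p ∈ P, 1 / ((p : ℝ) - 1)) * ∑ n ∈ N, 1 / (n : ℝ) := by
  have hg : ∀ n : ℕ, (0 : ℝ) ≤ 1 / (n : ℝ) := fun n => by positivity
  unfold ext
  have h1 : ∑ n ∈ N ∪ (P ×ˢ N).image pm, 1 / (n : ℝ) ≤
      ∑ n ∈ N, 1 / (n : ℝ) + ∑ n ∈ (P ×ˢ N).image pm, 1 / (n : ℝ) := by
    have h2 := Finset.sum_union_inter (s₁ := N) (s₂ := (P ×ˢ N).image pm)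
      (f := fun n : ℕ => 1 / (n : ℝ))
    have h3 : 0 ≤ ∑ n ∈ N ∩ (P ×ˢ N).image pm, 1 / (n : ℝ) :=
      Finset.sum_nonneg fun n _ => hg n
    linarith only [h3, h2]
  have h2 := sum_image_le_sum (P ×ˢ N) pm (fun n => 1 / (n : ℝ)) hg
  have h3 : ∑ a ∈ P ×ˢ N, 1 / ((pm a : ℕ) : ℝ) =
      (∑ p ∈ P, 1 / ((p : ℝ) - 1)) * ∑ n ∈ N, 1 / (n : ℝ) := by
    rw [Finset.sum_product, Finset.sum_mul_sum]
    refine Finset.sum_congr rfl fun p hp => Finset.sum_congr rfl fun n _ => ?_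
    rw [cast_pm (hP p hp), one_div_mul_one_div]
  have h4 : (1 + ∑ p ∈ P, 1 / ((p : ℝ) - 1)) * ∑ n ∈ N, 1 / (n : ℝ) =
      ∑ n ∈ N, 1 / (n : ℝ) + (∑ p ∈ P, 1 / ((p : ℝ) - 1)) * ∑ n ∈ N, 1 / (n : ℝ) := by ring
  rw [h4]
  calc _ ≤ _ := h1
    _ ≤ _ := add_le_add le_rfl (h2.trans h3.le)

end J3

end Vale.Agent.P031
end
end

section

section

/-!
Upper bounds for the number of totients: `v_growth` and `v_bad`.
-/

namespace Vale.Agent.P031

namespace J3

open Finset Filter Topology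

/-! ### numerical facts -/

theorem aa_zero' : aa 0 = -1 := by
  simp [aa]

theorem aa_one_eq : aa 1 = 2 * Real.log 2 - 1 := by
  unfold aa
  push_cast
  rw [Real.log_one, show (1 : ℝ) + 1 = 2 by norm_num]
  ring

theorem aa_two_eq : aa 2 = 3 * Real.log 3 - 2 * Real.log 2 - 1 := by
  unfold aa
  push_cast
  rw [show (2 : ℝ) + 1 = 3 by norm_num]

theorem aa_three_eq : aa 3 = 8 * Real.log 2 - 3 * Real.log 3 - 1 := by
  unfold aa
  push_cast
  rw [show (3 : ℝ) + 1 = 2 ^ 2 by norm_num, Real.log_pow]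
  push_cast
  ring

theorem log_three_ge : (1.0974 : ℝ) ≤ Real.log 3 := by
  have h1 : Real.log ((2 : ℝ) ^ 19) ≤ Real.log ((3 : ℝ) ^ 12) := by
    apply Real.log_le_log (by norm_num) (by norm_num)
  rw [Real.log_pow, Real.log_pow] at h1
  have h2 := Real.log_two_gt_d9
  push_cast at h1
  linarith only [h1, h2]

theorem aa_one_ge : (0.38 : ℝ) ≤ aa 1 := by
  rw [aa_one_eq]
  have h2 := Real.log_two_gt_d9
  linarith only [h2]

theorem aa_one_le : aa 1 ≤ 1 := by
  rw [aa_one_eq]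
  have h2 := Real.log_two_lt_d9
  linarith only [h2]

theorem aa_two_ge : (0.9 : ℝ) ≤ aa 2 := by
  rw [aa_two_eq]
  have h1 := log_three_ge
  have h2 := Real.log_two_lt_d9
  linarith only [h2, h1]

theorem aa_one_two : (5 / 4 : ℝ) ≤ aa 1 + aa 2 := by
  rw [aa_one_eq, aa_two_eq]
  have h1 := log_three_ge
  linarith only [h1]

theorem aa_sum : (2.54 : ℝ) ≤ aa 1 + aa 2 + aa 3 := by
  rw [aa_one_eq, aa_two_eq, aa_three_eq]
  have h2 := Real.log_two_gt_d9
  linarith only [h2]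

theorem pows {m : ℝ} (hm : 1000 ≤ m) : 1000 * m ≤ m ^ 15 ∧ 1000 * m ^ 15 ≤ m ^ 16 ∧
    1000 * m ^ 16 ≤ m ^ 17 ∧ 1000 * m ^ 17 ≤ m ^ 18 ∧ 1000 * m ^ 18 ≤ m ^ 19 ∧
    1000 * m ^ 19 ≤ m ^ 20 := by
  have h0 : 0 < m := by linarith
  have key : ∀ k : ℕ, 1000 * m ^ k ≤ m ^ (k + 1) := fun k => by
    rw [pow_succ, mul_comm (m ^ k) m]
    exact mul_le_mul_of_nonneg_right hm (by positivity)
  refine ⟨?_, key 15, key 16, key 17, key 18, key 19⟩
  have h1 : (1 : ℝ) ≤ m ^ 13 := one_le_pow₀ (by linarith)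
  calc 1000 * m ≤ m * m := mul_le_mul_of_nonneg_right hm h0.le
    _ = m ^ 2 * 1 := by ring
    _ ≤ m ^ 2 * m ^ 13 := mul_le_mul_of_nonneg_left h1 (by positivity)
    _ = m ^ 15 := by ring

theorem ll_le_of_pred_le {x : ℝ} (hx : 3 ≤ x) {n : ℝ} (hn : 1 < n) (h : n ≤ x + 1) :
    ll n ≤ ll x + 1 := by
  have hlx : 0 < Real.log x := Real.log_pos (by linarith)
  have h1 : n ≤ x ^ 2 := by nlinarith only [hx, h]
  have h2 : ll n ≤ ll (x ^ 2) := ll_le_ll hn h1
  have h3 : ll (x ^ 2) = Real.log 2 + ll x := by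
    unfold ll
    rw [Real.log_pow, Real.log_mul (by norm_num) hlx.ne']
    norm_num
  have h4 := Real.log_two_lt_d9
  linarith only [h2, h3, h4]

theorem lt_NN {M : ℕ} {x : ℝ} (hx : 3 ≤ x) (h : ll x + 1 ≤ 5 * (M : ℝ) ^ 20) {n : ℕ}
    (hn : (n : ℝ) ≤ x + 1) : n < NN M := by
  have hlx : 0 < Real.log x := Real.log_pos (by linarith)
  unfold NN
  have h1 : ((n + 1 : ℕ) : ℝ) ≤ Real.exp (Real.exp (5 * (M : ℝ) ^ 20)) := by
    have h2 : ((n + 1 : ℕ) : ℝ) ≤ x ^ 2 := by
      push_cast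
      nlinarith only [hx, hn]
    refine h2.trans ?_
    rw [← Real.log_le_iff_le_exp (by positivity)]
    have h3 : ll (x ^ 2) ≤ 5 * (M : ℝ) ^ 20 := by
      have h4 : ll (x ^ 2) = Real.log 2 + ll x := by
        unfold ll
        rw [Real.log_pow, Real.log_mul (by norm_num) hlx.ne']
        norm_num
      have h5 := Real.log_two_lt_d9
      linarith only [h4, h5, h]
    exact log_le_exp_of_ll_le (by nlinarith only [hx]) h3
  exact Nat.lt_of_succ_le (Nat.le_floor h1)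

theorem sq_le_of_log {M D : ℕ} {x t : ℝ} (hx : 3 ≤ x) (hD : D ≠ 0)
    (h1 : Real.log (D : ℝ) ≤ (M : ℝ) ^ 25 * Real.exp t) (h2 : t + 25 * (M : ℝ) + 1 ≤ ll x) :
    (D : ℝ) ^ 2 ≤ x := by
  have hx0 : 0 < x := by linarith
  have hD0 : (0 : ℝ) < D := by exact_mod_cast Nat.pos_of_ne_zero hD
  have h3 : (M : ℝ) ^ 25 ≤ Real.exp (25 * (M : ℝ)) := by
    have h4 : (M : ℝ) ≤ Real.exp (M : ℝ) := by
      have := Real.add_one_le_exp (M : ℝ)
      linarith
    calc (M : ℝ) ^ 25 ≤ (Real.exp (M : ℝ)) ^ 25 := pow_le_pow_left₀ (Nat.cast_nonneg M) h4 25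
      _ = Real.exp (25 * (M : ℝ)) := by
        rw [← Real.exp_nat_mul]
        norm_num
  have h5 : (2 : ℝ) ≤ Real.exp 1 := by
    have := Real.exp_one_gt_d9
    linarith only [this]
  have h6 : 2 * Real.log (D : ℝ) ≤ Real.log x := by
    rw [← exp_ll (by linarith : 1 < x)]
    calc 2 * Real.log (D : ℝ) ≤ Real.exp 1 * (Real.exp (25 * (M : ℝ)) * Real.exp t) := by
          apply mul_le_mul h5 _ _ (Real.exp_pos 1).le
          · exact h1.trans (mul_le_mul_of_nonneg_right h3 (Real.exp_pos t).le)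
          · exact Real.log_nonneg (by exact_mod_cast Nat.one_le_iff_ne_zero.mpr hD)
      _ = Real.exp (1 + (25 * (M : ℝ) + t)) := by rw [Real.exp_add, Real.exp_add]
      _ ≤ Real.exp (ll x) := Real.exp_le_exp.mpr (by linarith)
  have h7 : Real.log ((D : ℝ) ^ 2) ≤ Real.log x := by
    rw [Real.log_pow]
    exact_mod_cast h6
  exact (Real.log_le_log_iff (by positivity) hx0).mp h7

/-! ### chain steps -/

/-- the statement of `step` for a fixed `M` -/
def StepAt (M : ℕ) : Prop := ∀ (j p D : ℕ), j ≤ 3 → Nrm M p →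
    ll (p : ℝ) ≤ 5 * (M : ℝ) ^ 20 → D ≠ 0 → Om D ≤ M ^ 26 →
    (∀ q : ℕ, q.Prime → q ∣ D → q ≤ p) →
    |HH M j ((p - 1) * D) - HH M (j + 1) D - aa j * (ll (p : ℝ) - (M : ℝ) ^ 15)|
      ≤ (M : ℝ) ^ 17

theorem chain_step {M : ℕ} (hs : StepAt M) {J P p D j : ℕ} (hj : j ≤ 3) (hp : Nrm M p)
    (hll : ll (p : ℝ) ≤ 5 * (M : ℝ) ^ 20) (hP : P < p) (hD : Ch M J P D) (hOm : Om D ≤ M ^ 26) :
    |HH M j ((p - 1) * D) - HH M (j + 1) D - aa j * (ll (p : ℝ) - (M : ℝ) ^ 15)|
      ≤ (M : ℝ) ^ 17 :=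
  hs j p D hj hp hll (Ch_ne_zero hD) hOm
    (fun q hq hd => (Ch_prime_lt hD p hp.big hP q hq hd).le)

theorem HH_one_le {M : ℕ} (hs : StepAt M) {J P p D : ℕ} (hp : Nrm M p)
    (hll : ll (p : ℝ) ≤ 5 * (M : ℝ) ^ 20) (hP : P < p) (hD : Ch M J P D) (hOm : Om D ≤ M ^ 26)
    (hG : GG M ((p - 1) * D) ≤ (M : ℝ) ^ 18) :
    HH M 1 D ≤ (ll (p : ℝ) - (M : ℝ) ^ 15) + (M : ℝ) ^ 18 + (M : ℝ) ^ 17 := by
  have h := chain_step hs (j := 0) (by norm_num) hp hll hP hD hOm
  rw [HH_zero, aa_zero', abs_le] at h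
  have h1 := h.1
  norm_num at h1
  linarith only [hG, h]

theorem YY_le {M D : ℕ} {t : ℝ} (ht : 0 ≤ t)
    (h : ∀ q : ℕ, q.Prime → q ∣ D → ll (q : ℝ) - (M : ℝ) ^ 15 ≤ t) : YY M D ≤ t := by
  unfold YY
  refine max_le ht ?_
  by_cases hne : D.primeFactors.Nonempty
  · obtain ⟨q, hq, hq2⟩ := Finset.exists_mem_eq_sup D.primeFactors hne id
    have h1 : gpf D = q := hq2
    rw [h1]
    exact h q (Nat.prime_of_mem_primeFactors hq) (Nat.dvd_of_mem_primeFactors hq)
  · rw [Finset.not_nonempty_iff_eq_empty] at hne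
    have h1 : gpf D = 0 := by
      unfold gpf
      rw [hne]
      rfl
    rw [h1]
    have h2 : ll ((0 : ℕ) : ℝ) = 0 := by simp [ll]
    rw [h2]
    have : (0 : ℝ) ≤ (M : ℝ) ^ 15 := by positivity
    linarith

theorem mem_DF_of {M J P D : ℕ} {τ : ℝ} (hD : Ch M J P D) (hJ : J ≤ M) (hOm : Om D ≤ M ^ 25)
    (hN : D < NN M) (hY : YY M D ≤ τ) (hH : HH M 1 D ≤ τ) : D ∈ DF M 0 1 τ := by
  rw [mem_DF]
  refine ⟨⟨Nat.one_le_iff_ne_zero.mpr (Ch_ne_zero hD), hN⟩, ⟨⟨J, P, by omega, hD⟩, by omega⟩, ?_⟩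
  change Psi 0 (YY M D) (fun i => HH M i D) ≤ τ
  simp only [Psi]
  exact max_le hY hH

theorem mem_DF_small {M P D : ℕ} {τ : ℝ} (hM : 1 ≤ M) (hD : Ch M 0 P D) (hOm : Om D ≤ M ^ 25)
    (hN : D < NN M) (hτ : 0 ≤ τ) : D ∈ DF M 0 1 τ := by
  have hS : Small M D := (Ch_zero hD).2
  refine mem_DF_of hD (Nat.zero_le M) hOm hN (YY_le hτ fun q hq hd => ?_) ?_
  · have := hS.not_big hq hd
    linarith only [hτ, this]
  · rw [HH_small M 1 D hM hS]
    exact hτ

end J3

end Vale.Agent.P031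
end
end

section

section

namespace Vale.Agent.P031

namespace J3

open Finset Filter Topology

/-! ### structure of good totients above the square root -/

theorem top_exists {M : ℕ} (hM : 1000 ≤ M) {x : ℝ} {v : ℕ} (hx : 3 ≤ x)
    (hllx : (M : ℝ) ^ 20 / 4 ≤ ll x) (hv : v ∈ DD M 0) (hvx : x < (v : ℝ) ^ 2) :
    ∃ J P p D : ℕ, v = (p - 1) * D ∧ Nrm M p ∧ P < p ∧ Ch M J P D ∧
      GG M ((p - 1) * D) ≤ (M : ℝ) ^ 18 ∧ J + 1 ≤ M ∧ Om D ≤ M ^ 25 := by
  have hm : (1000 : ℝ) ≤ M := by exact_mod_cast hM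
  obtain ⟨p1, p2, p3, p4, p5, p6⟩ := pows hm
  obtain ⟨⟨J, P, hJ, hCh⟩, hOm⟩ := hv
  have hOm' : Om v ≤ M ^ 25 := by omega
  cases J with
  | zero =>
    exfalso
    have hS : Small M v := (Ch_zero hCh).2
    have h1 := hS.log_le
    have h2 : Real.log (v : ℝ) ≤ (M : ℝ) ^ 25 * Real.exp ((M : ℝ) ^ 15) := by
      refine h1.trans (mul_le_mul_of_nonneg_right ?_ (Real.exp_pos _).le)
      exact_mod_cast hOm'
    have h3 := sq_le_of_log (M := M) (t := (M : ℝ) ^ 15) hx (Ch_ne_zero hCh) h2 (by linarith only [p4, hllx, p5, hm, p1, p3, p6, p2])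
    linarith only [h3, hvx]
  | succ J =>
    obtain ⟨P', D', rfl, hp, hP, hD, hG, -⟩ := Ch_succ hCh
    exact ⟨J, P', P, D', rfl, hp, hP, hD, hG, by omega,
      (Om_le_Om_mul (Ch_ne_zero hD) hp.ge_two).trans hOm'⟩

theorem pred_le_of_mul_le {x : ℝ} {p D : ℕ} (hp : 2 ≤ p) (hD : D ≠ 0)
    (h : (((p - 1) * D : ℕ) : ℝ) ≤ x) : (p : ℝ) ≤ x + 1 ∧ (D : ℝ) ≤ x := by
  have h1 : p - 1 ≤ (p - 1) * D := Nat.le_mul_of_pos_right _ (Nat.pos_of_ne_zero hD)
  have h2 : D ≤ (p - 1) * D := Nat.le_mul_of_pos_left _ (by omega)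
  constructor
  · have h3 : (((p - 1 : ℕ)) : ℝ) ≤ x := by
      have : ((p - 1 : ℕ) : ℝ) ≤ (((p - 1) * D : ℕ) : ℝ) := by exact_mod_cast h1
      linarith only [h, this]
    rw [Nat.cast_sub (by omega)] at h3
    push_cast at h3
    linarith only [h3]
  · have : (D : ℝ) ≤ (((p - 1) * D : ℕ) : ℝ) := by exact_mod_cast h2
    linarith only [h, this]

/-- the part of a totient below its two largest primes is at most `√x` -/
theorem second_small {M : ℕ} (hM : 1000 ≤ M) (hs : StepAt M) {x : ℝ} (hx : 3 ≤ x)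
    (hllx : (M : ℝ) ^ 20 / 4 ≤ ll x) {J P p₁ p₀ D : ℕ}
    (hll₀ : ll (p₀ : ℝ) ≤ ll x + 1) (hll5 : ll (p₀ : ℝ) ≤ 5 * (M : ℝ) ^ 20)
    (hp₀ : Nrm M p₀) (hp₁ : Nrm M p₁) (hlt : p₁ < p₀) (hP : P < p₁) (hD : Ch M J P D)
    (hD₁ : Ch M (J + 1) p₁ ((p₁ - 1) * D))
    (hOm : Om ((p₁ - 1) * D) ≤ M ^ 25)
    (hG : GG M ((p₀ - 1) * ((p₁ - 1) * D)) ≤ (M : ℝ) ^ 18) : (D : ℝ) ^ 2 ≤ x := by
  have hm : (1000 : ℝ) ≤ M := by exact_mod_cast hM
  obtain ⟨q1, q2, q3, q4, q5, q6⟩ := pows hm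
  have h26 : M ^ 25 ≤ M ^ 26 := Nat.pow_le_pow_right (by omega) (by norm_num)
  have hOmD : Om D ≤ M ^ 25 := (Om_le_Om_mul (Ch_ne_zero hD) hp₁.ge_two).trans hOm
  have hp₁1 : (1 : ℝ) < p₁ := prime_one_lt hp₁.big.1
  have hll₁ : ll (p₁ : ℝ) ≤ ll (p₀ : ℝ) := ll_le_ll hp₁1 (by exact_mod_cast hlt.le)
  cases J with
  | zero =>
    have hS : Small M D := (Ch_zero hD).2
    have h2 : Real.log (D : ℝ) ≤ (M : ℝ) ^ 25 * Real.exp ((M : ℝ) ^ 15) := by
      refine hS.log_le.trans (mul_le_mul_of_nonneg_right ?_ (Real.exp_pos _).le)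
      exact_mod_cast hOmD
    exact sq_le_of_log (M := M) (t := (M : ℝ) ^ 15) hx (Ch_ne_zero hD) h2 (by linarith only [q6, q3, q2, q4, q1, q5, hllx, hm])
  | succ J =>
    obtain ⟨P', D', hDeq, hp₂, hP', hD', -, -⟩ := Ch_succ hD
    have hp₂1 : (1 : ℝ) < P := prime_one_lt hp₂.big.1
    have hll₂ : ll (P : ℝ) ≤ ll (p₁ : ℝ) := ll_le_ll hp₂1 (by exact_mod_cast hP.le)
    have hOmD' : Om D' ≤ M ^ 25 := by
      refine le_trans ?_ hOmD
      rw [hDeq]
      exact Om_le_Om_mul (Ch_ne_zero hD') hp₂.ge_two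
    have e1 := HH_one_le hs hp₀ hll5 hlt hD₁ (hOm.trans h26) hG
    have e2 := chain_step hs (j := 1) (by norm_num) hp₁ (by linarith only [hll5, hll₁]) hP hD (hOmD.trans h26)
    have e3 := chain_step hs (j := 2) (by norm_num) hp₂ (by linarith only [hll5, hll₂, hll₁]) hP' hD' (hOmD'.trans h26)
    rw [← hDeq] at e3
    norm_num at e2 e3
    rw [abs_le] at e2 e3
    have e4 := HH_nonneg M 3 D' (by omega) (by norm_num)
    have hξ₂ : (0 : ℝ) ≤ ll (P : ℝ) - (M : ℝ) ^ 15 := by linarith only [hp₂.big.2]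
    have a1 := aa_one_ge
    have a2 := aa_two_ge
    have a12 := aa_one_two
    have hll₀' : ll (p₀ : ℝ) - (M : ℝ) ^ 15 ≤ ll x := by linarith only [q1, hm, hll₀]
    have e5 : aa 1 * (ll (P : ℝ) - (M : ℝ) ^ 15) ≤ aa 1 * (ll (p₁ : ℝ) - (M : ℝ) ^ 15) :=
      mul_le_mul_of_nonneg_left (by linarith only [hll₂]) (by linarith only [a1])
    have e6 : (5 / 4 : ℝ) * (ll (P : ℝ) - (M : ℝ) ^ 15) ≤
        (aa 1 + aa 2) * (ll (P : ℝ) - (M : ℝ) ^ 15) := mul_le_mul_of_nonneg_right a12 hξ₂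
    have e7 : (5 / 4 : ℝ) * (ll (P : ℝ) - (M : ℝ) ^ 15) ≤
        ll x + (M : ℝ) ^ 18 + 3 * (M : ℝ) ^ 17 := by
      linarith only [e3.1, e2.1, hll₀, hm, q1, e4, e6, e1, e5]
    have hlogD : Real.log (D : ℝ) ≤ (M : ℝ) ^ 25 * Real.exp (ll (P : ℝ)) := by
      rw [exp_ll hp₂1]
      refine (Ch_log_le hD).trans (mul_le_mul_of_nonneg_right ?_ (Real.log_pos hp₂1).le)
      exact_mod_cast hOmD
    exact sq_le_of_log (M := M) (t := ll (P : ℝ)) hx (Ch_ne_zero hD) hlogD (by linarith only [e5, e3, e1, q6, e6, q3, e2, q2, q4, e4, q1, q5, hllx, hm, hll₀])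

theorem pow_four_le {x : ℝ} {p₀ p₁ D : ℕ} (hx : 3 ≤ x) (hp₀ : 2 ≤ p₀) (hp₁ : 2 ≤ p₁)
    (hlt : p₁ < p₀) (hD : (D : ℝ) ^ 2 ≤ x)
    (hv : (((p₀ - 1) * ((p₁ - 1) * D) : ℕ) : ℝ) ≤ x) :
    ((((p₁ - 1) * D : ℕ) : ℝ)) ^ 4 ≤ x ^ 3 := by
  set a : ℝ := ((p₁ - 1 : ℕ) : ℝ) with ha
  set d : ℝ := (D : ℝ) with hd
  have ha0 : 0 ≤ a := by positivity
  have hd0 : 0 ≤ d := by positivity
  have h1 : a * (a * d) ≤ x := by
    have h2 : (p₁ - 1) * ((p₁ - 1) * D) ≤ (p₀ - 1) * ((p₁ - 1) * D) :=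
      Nat.mul_le_mul_right _ (by omega)
    have h3 : (((p₁ - 1) * ((p₁ - 1) * D) : ℕ) : ℝ) ≤ x := by
      refine le_trans ?_ hv
      exact_mod_cast h2
    rw [Nat.cast_mul, Nat.cast_mul] at h3
    exact h3
  have h2 : (((p₁ - 1) * D : ℕ) : ℝ) = a * d := by rw [Nat.cast_mul]
  rw [h2]
  have h3 : (a * d) ^ 4 = (a * (a * d)) ^ 2 * d ^ 2 := by ring
  rw [h3]
  have h4 : (a * (a * d)) ^ 2 ≤ x ^ 2 := by
    apply pow_le_pow_left₀ (by positivity) h1
  calc (a * (a * d)) ^ 2 * d ^ 2 ≤ x ^ 2 * x :=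
        mul_le_mul h4 hD (by positivity) (by positivity)
    _ = x ^ 3 := by ring

theorem pow_four_le_of_sq {x : ℝ} {D : ℕ} (hx : 3 ≤ x) (hD : (D : ℝ) ^ 2 ≤ x) :
    (D : ℝ) ^ 4 ≤ x ^ 3 := by
  have h1 : (D : ℝ) ^ 4 = ((D : ℝ) ^ 2) ^ 2 := by ring
  rw [h1]
  have h2 : ((D : ℝ) ^ 2) ^ 2 ≤ x ^ 2 := pow_le_pow_left₀ (by positivity) hD 2
  have h3 : x ^ 2 ≤ x ^ 3 := pow_le_pow_right₀ (by linarith) (by norm_num)
  linarith

theorem sqrt_count {x : ℝ} (hx : 0 ≤ x) (s : Finset ℕ)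
    (h : ∀ v ∈ s, 1 ≤ v ∧ (v : ℝ) ^ 2 ≤ x) : (s.card : ℝ) ≤ Real.sqrt x := by
  have h1 : s ⊆ Finset.Icc 1 ⌊Real.sqrt x⌋₊ := by
    intro v hv
    rw [Finset.mem_Icc]
    refine ⟨(h v hv).1, Nat.le_floor ?_⟩
    exact Real.le_sqrt_of_sq_le (h v hv).2
  have h2 := Finset.card_le_card h1
  rw [Nat.card_Icc] at h2
  have h3 : (s.card : ℝ) ≤ (⌊Real.sqrt x⌋₊ : ℝ) := by
    have : s.card ≤ ⌊Real.sqrt x⌋₊ := by omega
    exact_mod_cast this
  exact h3.trans (Nat.floor_le (Real.sqrt_nonneg x))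

theorem sqrt_le_small {M : ℕ} (hM : 1000 ≤ M) {x : ℝ} (hx : 3 ≤ x)
    (hllx : (M : ℝ) ^ 20 / 4 ≤ ll x) :
    Real.sqrt x ≤ x / Real.log x * Real.exp (-(M : ℝ)) := by
  have hm : (1000 : ℝ) ≤ M := by exact_mod_cast hM
  obtain ⟨q1, q2, q3, q4, q5, q6⟩ := pows hm
  have hx0 : 0 < x := by linarith only [hx]
  have hlx : 0 < Real.log x := Real.log_pos (by linarith only [hx])
  have hexp := exp_ll (by linarith : 1 < x)
  set t := ll x with ht
  have ht1 : (M : ℝ) ≤ t := by linarith only [q1, q5, q2, q4, q6, q3, hllx]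
  have h1 : t + M ≤ Real.exp t / 2 := by
    have h2 := Real.add_one_le_exp (t / 2)
    have h3 : Real.exp t = Real.exp (t / 2) * Real.exp (t / 2) := by
      rw [← Real.exp_add]
      ring_nf
    have h4 : (t / 2 + 1) * (t / 2 + 1) ≤ Real.exp (t / 2) * Real.exp (t / 2) :=
      mul_self_le_mul_self (by linarith only [q1, q5, q2, q4, q6, q3, hllx]) h2
    rw [h3]
    nlinarith only [q1, q5, q2, q4, q6, h4, q3, hm, hllx]
  have h2 : Real.log x * Real.exp (M : ℝ) ≤ Real.sqrt x := by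
    rw [← hexp, ← Real.exp_add]
    have h3 : Real.sqrt x = Real.exp (Real.log x / 2) := by
      rw [← Real.log_sqrt hx0.le, Real.exp_log (Real.sqrt_pos.mpr hx0)]
    rw [h3, ← hexp]
    exact Real.exp_le_exp.mpr h1
  rw [Real.exp_neg, div_mul_eq_mul_div, ← div_eq_mul_inv, div_div, le_div_iff₀ (by positivity)]
  calc Real.sqrt x * (Real.exp (M : ℝ) * Real.log x)
      = Real.sqrt x * (Real.log x * Real.exp (M : ℝ)) := by ring
    _ ≤ Real.sqrt x * Real.sqrt x := mul_le_mul_of_nonneg_left h2 (Real.sqrt_nonneg x)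
    _ = x := Real.mul_self_sqrt hx0.le

/-- all primes below `NN M` -/
noncomputable def PP (M : ℕ) : Finset ℕ := (Finset.range (NN M)).filter Nat.Prime

theorem mem_PP {M p : ℕ} : p ∈ PP M ↔ p < NN M ∧ p.Prime := by
  simp [PP]

theorem V_eq_card (x : ℝ) : ∃ S : Finset ℕ, V x = S.card ∧
    ∀ v ∈ S, 1 ≤ v ∧ IsTot v ∧ (v : ℝ) ≤ x := by
  classical
  refine ⟨(Finset.Icc 1 ⌊x⌋₊).filter IsTot, ?_, ?_⟩
  · unfold V
    rw [← Set.ncard_coe_finset]
    congr 1
    ext v
    simp only [Set.mem_ofPred_eq, Finset.coe_filter, Finset.mem_Icc]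
    constructor
    · rintro ⟨hv, hvx⟩
      refine ⟨⟨?_, Nat.le_floor hvx⟩, hv⟩
      obtain ⟨n, hn, rfl⟩ := hv
      exact Nat.totient_pos.mpr hn
    · rintro ⟨⟨h1, h2⟩, h3⟩
      refine ⟨h3, ?_⟩
      have hx0 : 0 ≤ x := by
        by_contra hc
        have := Nat.floor_of_nonpos (not_le.mp hc).le
        omega
      exact (Nat.le_floor_iff hx0).mp h2
  · intro v hv
    rw [Finset.mem_filter, Finset.mem_Icc] at hv
    refine ⟨hv.1.1, hv.2, ?_⟩
    have hx0 : 0 ≤ x := by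
      by_contra hc
      have := Nat.floor_of_nonpos (not_le.mp hc).le
      omega
    exact (Nat.le_floor_iff hx0).mp hv.1.2

end J3

end Vale.Agent.P031
end
end

section

section

/-!
# The peeling lemma

A finite set of cells `C`, each carrying a positive integer `n c`; a finite set `L` of lines,
each a set of cells.  We sum a completely multiplicative weight over all `n` such that for every
line of `L` the product of the entries of the line plus one is prime, with a large prime factor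
of that product, distinct lines giving distinct products.  Peeling off the largest prime in a
constrained line, and summing over it by a sieve bound, removes the lines one after the other.
-/

namespace Vale.Agent.P031.Col

open Finset

set_option linter.unusedSectionVars false

variable {C Λ : Type*} [Fintype C] [DecidableEq C] [DecidableEq Λ]

/-- product of `n` over the cells of the line `l`. -/
def lineProd (inc : Λ → Finset C) (n : C → ℕ) (l : Λ) : ℕ := ∏ c ∈ inc l, n c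

/-- `n` is admissible for the lines `L`. -/
structure LAdm (inc : Λ → Finset C) (z : Λ → ℝ) (L : Finset Λ) (n : C → ℕ) : Prop where
  prime : ∀ l ∈ L, (lineProd inc n l + 1).Prime
  big : ∀ l ∈ L, ∃ R : ℕ, R.Prime ∧ R ∣ lineProd inc n l ∧ z l ≤ R
  ne : ∀ l ∈ L, ∀ l' ∈ L, l ≠ l' → lineProd inc n l ≠ lineProd inc n l'

/-- all tuples with entries in `[1,X]`. -/
def box (C : Type*) [Fintype C] [DecidableEq C] (X : ℕ) : Finset (C → ℕ) :=
  Fintype.piFinset (fun _ : C => Finset.Icc 1 X)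

theorem mem_box {X : ℕ} {n : C → ℕ} : n ∈ box C X ↔ ∀ c, 1 ≤ n c ∧ n c ≤ X := by
  simp [box, Fintype.mem_piFinset, Finset.mem_Icc]

/-- `R` at the cell `c` is a largest prime in the constrained lines. -/
def Sel (inc : Λ → Finset C) (z : Λ → ℝ) (L : Finset Λ) (n : C → ℕ) (c : C) (R : ℕ) : Prop :=
  R.Prime ∧ R ∣ n c ∧ (∃ l ∈ L, c ∈ inc l) ∧ ∀ l ∈ L, c ∈ inc l → z l ≤ R

theorem exists_sel (inc : Λ → Finset C) (z : Λ → ℝ) (L : Finset Λ) (hL : L.Nonempty)
    (n : C → ℕ) (hpos : ∀ c, n c ≠ 0) (h : LAdm inc z L n) :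
    ∃ c R, Sel inc z L n c R := by
  classical
  set P : Finset ℕ := (L.biUnion inc).biUnion (fun c => (n c).primeFactors) with hP
  have key : ∀ l ∈ L, ∀ R : ℕ, R.Prime → R ∣ lineProd inc n l → R ∈ P := by
    intro l hl R hR hd
    obtain ⟨c, hc, hdc⟩ := (Prime.dvd_finsetProd_iff hR.prime _).1 hd
    rw [hP, Finset.mem_biUnion]
    exact ⟨c, Finset.mem_biUnion.2 ⟨l, hl, hc⟩, Nat.mem_primeFactors.2 ⟨hR, hdc, hpos c⟩⟩
  have hne : P.Nonempty := by
    obtain ⟨l, hl⟩ := hL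
    obtain ⟨R, hR, hd, _⟩ := h.big l hl
    exact ⟨R, key l hl R hR hd⟩
  have hmax := Finset.max'_mem P hne
  set R := P.max' hne with hRdef
  rw [hP, Finset.mem_biUnion] at hmax
  obtain ⟨c, hc, hRc⟩ := hmax
  rw [Nat.mem_primeFactors] at hRc
  obtain ⟨l, hl, hcl⟩ := Finset.mem_biUnion.1 hc
  refine ⟨c, R, hRc.1, hRc.2.1, ⟨l, hl, hcl⟩, ?_⟩
  intro l' hl' _
  obtain ⟨R', hR', hd', hz'⟩ := h.big l' hl'
  have := Finset.le_max' P R' (key l' hl' R' hR' hd')
  exact hz'.trans (by exact_mod_cast this)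

theorem lineProd_update_of_mem {inc : Λ → Finset C} {n : C → ℕ} {c : C} {l : Λ} {R : ℕ}
    (hc : c ∈ inc l) (hd : R ∣ n c) :
    R * lineProd inc (Function.update n c (n c / R)) l = lineProd inc n l := by
  unfold lineProd
  rw [Finset.prod_update_of_mem hc, ← mul_assoc, Nat.mul_div_cancel' hd,
    ← Finset.mul_prod_erase _ _ hc]
  congr 1
  apply Finset.prod_congr _ (fun _ _ => rfl)
  ext x
  simp [and_comm]

theorem lineProd_update_of_not_mem {inc : Λ → Finset C} {n : C → ℕ} {c : C} {l : Λ} {m : ℕ}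
    (hc : c ∉ inc l) :
    lineProd inc (Function.update n c m) l = lineProd inc n l := by
  unfold lineProd
  rw [Finset.prod_update_of_notMem hc]

theorem lineProd_bounds [Nonempty C] (inc : Λ → Finset C) (l : Λ) {X : ℕ} {n : C → ℕ}
    (hn : n ∈ box C X) : 0 < lineProd inc n l ∧ lineProd inc n l ≤ X ^ Fintype.card C := by
  have hb := mem_box.1 hn
  refine ⟨Finset.prod_pos (fun c' _ => (hb c').1), ?_⟩
  have hX : 1 ≤ X := (hb (Classical.arbitrary C)).1.trans (hb _).2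
  calc lineProd inc n l ≤ ∏ _c ∈ inc l, X := Finset.prod_le_prod' (fun c _ => (hb c).2)
    _ = X ^ (inc l).card := by rw [Finset.prod_const]
    _ ≤ X ^ Fintype.card C := Nat.pow_le_pow_right hX (Finset.card_le_univ _)

open Classical in
/-- **Peeling lemma.** -/
theorem peel [Nonempty C] (inc : Λ → Finset C) (z : Λ → ℝ) (s : Λ → ℝ) (g : C → ℕ → ℝ)
    (X : ℕ) (B : ℝ) (hB : 1 ≤ B) (hg : ∀ c n, 0 ≤ g c n)
    (hmul : ∀ c m R, R.Prime → 0 < m → g c (m * R) = g c m * g c R)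
    (L₀ : Finset Λ) (hs0 : ∀ l ∈ L₀, 0 ≤ s l)
    (hs : ∀ c, ∀ L' ⊆ L₀, L'.Nonempty → (∀ l ∈ L', c ∈ inc l) → ∀ A : Λ → ℕ,
      (∀ l ∈ L', 0 < A l ∧ A l ≤ X ^ Fintype.card C) →
      (∀ l ∈ L', ∀ l' ∈ L', l ≠ l' → A l ≠ A l') →
      ∑ R ∈ (Finset.Icc 1 X).filter (fun R : ℕ => R.Prime ∧ ∀ l ∈ L', z l ≤ R ∧ (R * A l + 1).Prime),
        g c R ≤ B * ∏ l ∈ L', s l) :
    ∀ L ⊆ L₀, ∑ n ∈ (box C X).filter (fun n => LAdm inc z L n), ∏ c, g c (n c) ≤
      (Fintype.card C * B) ^ L.card * (∏ l ∈ L, s l) * ∑ n ∈ box C X, ∏ c, g c (n c) := by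
  classical
  intro L
  induction h : L.card using Nat.strong_induction_on generalizing L with
  | _ k ih =>
  intro hLsub
  have hW : 0 ≤ ∑ n ∈ box C X, ∏ c, g c (n c) :=
    Finset.sum_nonneg (fun n _ => Finset.prod_nonneg (fun c _ => hg c _))
  rcases L.eq_empty_or_nonempty with rfl | hL
  · rw [← h]
    simp only [Finset.card_empty, pow_zero, Finset.prod_empty, one_mul]
    exact Finset.sum_le_sum_of_subset_of_nonneg (Finset.filter_subset _ _)
      (fun n _ _ => Finset.prod_nonneg (fun c _ => hg c _))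
  have hcard1 : (1 : ℝ) ≤ Fintype.card C := by
    exact_mod_cast Fintype.card_pos
  have hCB : 1 ≤ (Fintype.card C : ℝ) * B := by linarith [mul_nonneg (sub_nonneg.2 hB) (sub_nonneg.2 hcard1), hcard1]
  -- distribute over the cell of the largest prime
  have step1 : ∑ n ∈ (box C X).filter (fun n => LAdm inc z L n), ∏ c, g c (n c) ≤
      ∑ c : C, ∑ n ∈ (box C X).filter (fun n => LAdm inc z L n ∧ ∃ R, Sel inc z L n c R),
        ∏ c, g c (n c) := by
    have e : ∀ c : C, ∑ n ∈ (box C X).filter (fun n => LAdm inc z L n ∧ ∃ R, Sel inc z L n c R),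
        ∏ c, g c (n c) = ∑ n ∈ (box C X).filter (fun n => LAdm inc z L n),
          if (∃ R, Sel inc z L n c R) then ∏ c, g c (n c) else 0 := by
      intro c
      rw [← Finset.sum_filter, Finset.filter_filter]
    rw [Finset.sum_congr rfl (fun c _ => e c), Finset.sum_comm]
    apply Finset.sum_le_sum
    intro n hn
    rw [Finset.mem_filter, mem_box] at hn
    obtain ⟨c, R, hsel⟩ := exists_sel inc z L hL n (fun c => by have := (hn.1 c).1; omega) hn.2
    have hterm : ∏ c, g c (n c) =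
        (if (∃ R, Sel inc z L n c R) then ∏ c, g c (n c) else 0) := by
      rw [if_pos ⟨R, hsel⟩]
    have h0 : ∀ c ∈ (Finset.univ : Finset C), 0 ≤
        (if (∃ R, Sel inc z L n c R) then ∏ c, g c (n c) else 0) := by
      intro c _
      split_ifs
      · exact Finset.prod_nonneg (fun c _ => hg c _)
      · exact le_refl _
    calc ∏ c, g c (n c) = _ := hterm
      _ ≤ _ := Finset.single_le_sum h0 (Finset.mem_univ c)
  -- the bound for one cell
  have step2 : ∀ c : C,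
      ∑ n ∈ (box C X).filter (fun n => LAdm inc z L n ∧ ∃ R, Sel inc z L n c R),
        ∏ c, g c (n c) ≤
      B * (Fintype.card C * B) ^ (L.card - 1) * (∏ l ∈ L, s l) *
        ∑ n ∈ box C X, ∏ c, g c (n c) := by
    intro c
    set L' := L.filter (fun l => c ∈ inc l) with hL'
    have hprodL : 0 ≤ ∏ l ∈ L, s l := Finset.prod_nonneg (fun l hl => hs0 l (hLsub hl))
    rcases L'.eq_empty_or_nonempty with hemp | hne
    · have hempty : (box C X).filter (fun n => LAdm inc z L n ∧ ∃ R, Sel inc z L n c R) = ∅ := by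
        rw [Finset.filter_eq_empty_iff]
        rintro n _ ⟨_, R, _, _, ⟨l, hl, hcl⟩, _⟩
        have : l ∈ L' := Finset.mem_filter.2 ⟨hl, hcl⟩
        rw [hemp] at this
        exact absurd this (Finset.notMem_empty l)
      rw [hempty, Finset.sum_empty]
      have : 0 ≤ B * (Fintype.card C * B) ^ (L.card - 1) := by positivity
      exact mul_nonneg (mul_nonneg this hprodL) hW
    have hL'sub : L' ⊆ L := Finset.filter_subset _ _
    have hL'card : 1 ≤ L'.card := Finset.card_pos.2 hne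
    have hsdcard : (L \ L').card = L.card - L'.card := Finset.card_sdiff_of_subset hL'sub
    have hLcard : L'.card ≤ L.card := Finset.card_le_card hL'sub
    -- the target of the peeling map
    let T : Finset ((_ : C → ℕ) × ℕ) :=
      ((box C X).filter (fun n => LAdm inc z (L \ L') n)).sigma
        (fun n' => (Finset.Icc 1 X).filter
          (fun R : ℕ => R.Prime ∧ ∀ l ∈ L', z l ≤ R ∧ (R * lineProd inc n' l + 1).Prime ∧
            ∀ l' ∈ L', l ≠ l' → lineProd inc n' l ≠ lineProd inc n' l'))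
    let S := (box C X).filter (fun n => LAdm inc z L n ∧ ∃ R, Sel inc z L n c R)
    have hchoose : ∀ n ∈ S, ∃ R, Sel inc z L n c R := by
      intro n hn
      exact (Finset.mem_filter.1 hn).2.2
    let r : (C → ℕ) → ℕ := fun n => if h : ∃ R, Sel inc z L n c R then h.choose else 1
    have hr : ∀ n ∈ S, Sel inc z L n c (r n) := by
      intro n hn
      have := hchoose n hn
      simp only [r, dif_pos this]
      exact this.choose_spec
    let φ : (C → ℕ) → ((_ : C → ℕ) × ℕ) := fun n => ⟨Function.update n c (n c / r n), r n⟩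
    have hφT : ∀ n ∈ S, φ n ∈ T := by
      intro n hn
      have hsel := hr n hn
      have hn' := Finset.mem_filter.1 hn
      have hbox := mem_box.1 hn'.1
      obtain ⟨hp, hd, -, hz⟩ := hsel
      have hrpos := hp.pos
      have hnc := hbox c
      have hrle : r n ≤ n c := Nat.le_of_dvd (by omega) hd
      simp only [T, φ, Finset.mem_sigma, Finset.mem_filter, mem_box, Finset.mem_Icc]
      refine ⟨⟨?_, ?_⟩, ⟨hrpos, hrle.trans hnc.2⟩, hp, ?_⟩
      · intro c'
        by_cases hcc : c' = c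
        · subst hcc
          rw [Function.update_self]
          exact ⟨Nat.div_pos hrle hrpos, (Nat.div_le_self _ _).trans hnc.2⟩
        · rw [Function.update_of_ne hcc]
          exact hbox c'
      · have hnotin : ∀ l ∈ L \ L', c ∉ inc l := by
          intro l hl hc
          rw [Finset.mem_sdiff] at hl
          exact hl.2 (Finset.mem_filter.2 ⟨hl.1, hc⟩)
        refine ⟨?_, ?_, ?_⟩
        · intro l hl
          rw [lineProd_update_of_not_mem (hnotin l hl)]
          exact hn'.2.1.prime l (Finset.mem_sdiff.1 hl).1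
        · intro l hl
          rw [lineProd_update_of_not_mem (hnotin l hl)]
          exact hn'.2.1.big l (Finset.mem_sdiff.1 hl).1
        · intro l hl l' hl' hne
          rw [lineProd_update_of_not_mem (hnotin l hl), lineProd_update_of_not_mem (hnotin l' hl')]
          exact hn'.2.1.ne l (Finset.mem_sdiff.1 hl).1 l' (Finset.mem_sdiff.1 hl').1 hne
      · intro l hl
        have hl2 := Finset.mem_filter.1 hl
        refine ⟨hz l hl2.1 hl2.2, ?_, ?_⟩
        · rw [lineProd_update_of_mem hl2.2 hd]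
          exact hn'.2.1.prime l hl2.1
        · intro l' hl' hne heq
          have hl2' := Finset.mem_filter.1 hl'
          apply hn'.2.1.ne l hl2.1 l' hl2'.1 hne
          rw [← lineProd_update_of_mem hl2.2 hd, ← lineProd_update_of_mem hl2'.2 hd, heq]
    have hrecover : ∀ n ∈ S, n = Function.update (φ n).1 c ((φ n).1 c * (φ n).2) := by
      intro n hn
      obtain ⟨hp, hd, -, hz⟩ := hr n hn
      simp only [φ, Function.update_self, Function.update_idem]
      rw [Nat.div_mul_cancel hd, Function.update_eq_self]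
    have hinj : Set.InjOn φ (S : Set (C → ℕ)) := by
      intro n hn m hm heq
      rw [hrecover n hn, hrecover m hm, heq]
    have hval : ∀ n ∈ S, ∏ c, g c (n c) = (∏ c', g c' ((φ n).1 c')) * g c (φ n).2 := by
      intro n hn
      obtain ⟨hp, hd, -, hz⟩ := hr n hn
      have hbox := mem_box.1 (Finset.mem_filter.1 hn).1
      have hpos : 0 < n c / r n := Nat.div_pos (Nat.le_of_dvd (hbox c).1 hd) hp.pos
      simp only [φ]
      rw [← Finset.mul_prod_erase Finset.univ _ (Finset.mem_univ c),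
        ← Finset.mul_prod_erase Finset.univ (fun c' => g c' (Function.update n c (n c / r n) c'))
          (Finset.mem_univ c)]
      rw [Function.update_self]
      have e1 : g c (n c) = g c (n c / r n) * g c (r n) := by
        rw [← hmul c _ _ hp hpos, Nat.div_mul_cancel hd]
      have e2 : ∏ x ∈ Finset.univ.erase c, g x (n x) =
          ∏ x ∈ Finset.univ.erase c, g x (Function.update n c (n c / r n) x) := by
        apply Finset.prod_congr rfl
        intro x hx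
        rw [Function.update_of_ne (Finset.ne_of_mem_erase hx)]
      rw [e1, e2]
      ring
    have hTnonneg : ∀ y ∈ T, 0 ≤ (∏ c', g c' (y.1 c')) * g c y.2 := fun y _ =>
      mul_nonneg (Finset.prod_nonneg (fun c' _ => hg c' _)) (hg c _)
    have h1 : ∑ n ∈ S, ∏ c, g c (n c) ≤ ∑ y ∈ T, (∏ c', g c' (y.1 c')) * g c y.2 := by
      rw [Finset.sum_congr rfl hval]
      have e : ∑ n ∈ S, (∏ c', g c' ((φ n).1 c')) * g c (φ n).2 =
          ∑ y ∈ S.image φ, (∏ c', g c' (y.1 c')) * g c y.2 := by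
        rw [Finset.sum_image hinj]
      rw [e]
      apply Finset.sum_le_sum_of_subset_of_nonneg
      · intro y hy
        obtain ⟨n, hn, rfl⟩ := Finset.mem_image.1 hy
        exact hφT n hn
      · intro y hy _
        exact hTnonneg y hy
    have h2 : ∑ y ∈ T, (∏ c', g c' (y.1 c')) * g c y.2 ≤
        ∑ n ∈ (box C X).filter (fun n => LAdm inc z (L \ L') n),
          (∏ c', g c' (n c')) * (B * ∏ l ∈ L', s l) := by
      simp only [T]
      rw [Finset.sum_sigma]
      apply Finset.sum_le_sum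
      intro n' hn'
      simp only
      rw [← Finset.mul_sum]
      apply mul_le_mul_of_nonneg_left _ (Finset.prod_nonneg (fun c' _ => hg c' _))
      have hboxn' := mem_box.1 (Finset.mem_filter.1 hn').1
      have hpos' : ∀ l ∈ L', 0 < lineProd inc n' l ∧ lineProd inc n' l ≤ X ^ Fintype.card C :=
        fun l _ => lineProd_bounds inc l (Finset.mem_filter.1 hn').1
      by_cases hdist : ∀ l ∈ L', ∀ l' ∈ L', l ≠ l' → lineProd inc n' l ≠ lineProd inc n' l'
      · have := hs c L' (hL'sub.trans hLsub) hne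
          (fun l hl => (Finset.mem_filter.1 hl).2) (lineProd inc n') hpos' hdist
        refine le_trans ?_ this
        apply Finset.sum_le_sum_of_subset_of_nonneg
        · intro R hR
          rw [Finset.mem_filter] at hR ⊢
          exact ⟨hR.1, hR.2.1, fun l hl => ⟨(hR.2.2 l hl).1, (hR.2.2 l hl).2.1⟩⟩
        · intro R _ _
          exact hg c R
      · have hempty : (Finset.Icc 1 X).filter
          (fun R : ℕ => R.Prime ∧ ∀ l ∈ L', z l ≤ R ∧ (R * lineProd inc n' l + 1).Prime ∧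
            ∀ l' ∈ L', l ≠ l' → lineProd inc n' l ≠ lineProd inc n' l') = ∅ := by
          rw [Finset.filter_eq_empty_iff]
          rintro R _ ⟨_, hR⟩
          exact hdist (fun l hl => (hR l hl).2.2)
        rw [hempty, Finset.sum_empty]
        apply mul_nonneg (by linarith only [hB])
        exact Finset.prod_nonneg (fun l hl => hs0 l (hLsub (hL'sub hl)))
    have h3 := ih (L \ L').card (by omega) (L \ L') rfl (Finset.sdiff_subset.trans hLsub)
    have hprodL' : 0 ≤ ∏ l ∈ L', s l :=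
      Finset.prod_nonneg (fun l hl => hs0 l (hLsub (hL'sub hl)))
    have hprodLL' : 0 ≤ ∏ l ∈ L \ L', s l :=
      Finset.prod_nonneg (fun l hl => hs0 l (hLsub (Finset.sdiff_subset hl)))
    have hpow : ((Fintype.card C : ℝ) * B) ^ (L \ L').card ≤
        ((Fintype.card C : ℝ) * B) ^ (L.card - 1) :=
      pow_le_pow_right₀ hCB (by omega)
    calc ∑ n ∈ S, ∏ c, g c (n c) ≤ _ := h1
      _ ≤ _ := h2
      _ = (B * ∏ l ∈ L', s l) * ∑ n ∈ (box C X).filter (fun n => LAdm inc z (L \ L') n),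
          (∏ c', g c' (n c')) := by
        rw [Finset.mul_sum]
        exact Finset.sum_congr rfl (fun n _ => by ring)
      _ ≤ (B * ∏ l ∈ L', s l) * (((Fintype.card C : ℝ) * B) ^ (L \ L').card *
            (∏ l ∈ L \ L', s l) * ∑ n ∈ box C X, ∏ c, g c (n c)) := by
        apply mul_le_mul_of_nonneg_left h3
        exact mul_nonneg (by linarith only [hB]) hprodL'
      _ ≤ (B * ∏ l ∈ L', s l) * (((Fintype.card C : ℝ) * B) ^ (L.card - 1) *
            (∏ l ∈ L \ L', s l) * ∑ n ∈ box C X, ∏ c, g c (n c)) := by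
        apply mul_le_mul_of_nonneg_left _ (mul_nonneg (by linarith only [hB]) hprodL')
        apply mul_le_mul_of_nonneg_right _ hW
        exact mul_le_mul_of_nonneg_right hpow hprodLL'
      _ = B * (Fintype.card C * B) ^ (L.card - 1) * (∏ l ∈ L, s l) *
        ∑ n ∈ box C X, ∏ c, g c (n c) := by
        rw [← Finset.prod_sdiff hL'sub]
        ring
  have hLc : 1 ≤ L.card := Finset.card_pos.2 hL
  calc ∑ n ∈ (box C X).filter (fun n => LAdm inc z L n), ∏ c, g c (n c) ≤ _ := step1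
    _ ≤ ∑ c : C, B * (Fintype.card C * B) ^ (L.card - 1) * (∏ l ∈ L, s l) *
        ∑ n ∈ box C X, ∏ c, g c (n c) := Finset.sum_le_sum (fun c _ => step2 c)
    _ = (Fintype.card C * B) ^ (L.card) * (∏ l ∈ L, s l) *
        ∑ n ∈ box C X, ∏ c, g c (n c) := by
      rw [Finset.sum_const, nsmul_eq_mul, Finset.card_univ]
      obtain ⟨k', hk'⟩ : ∃ k', L.card = k' + 1 := ⟨L.card - 1, by omega⟩
      rw [hk', Nat.add_sub_cancel, pow_succ]
      ring
    _ = _ := by rw [h]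

open Classical in
/-- **Counting version**: the first prime is summed with the counting measure. -/
theorem peel_count [Nonempty C] (inc : Λ → Finset C) (z : Λ → ℝ) (s : Λ → ℝ) (h : C → ℕ → ℝ)
    (X : ℕ) (B B₁ x Z : ℝ) (hB : 1 ≤ B) (hB₁ : 0 ≤ B₁) (hx : 0 ≤ x) (hh : ∀ c n, 0 ≤ h c n)
    (hmul : ∀ c m R, R.Prime → 0 < m → h c (m * R) = h c m * h c R)
    (L₀ : Finset Λ) (hs0 : ∀ l ∈ L₀, 0 ≤ s l)
    (hs : ∀ c, ∀ L' ⊆ L₀, L'.Nonempty → (∀ l ∈ L', c ∈ inc l) → ∀ A : Λ → ℕ,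
      (∀ l ∈ L', 0 < A l ∧ A l ≤ X ^ Fintype.card C) →
      (∀ l ∈ L', ∀ l' ∈ L', l ≠ l' → A l ≠ A l') →
      ∑ R ∈ (Finset.Icc 1 X).filter (fun R : ℕ => R.Prime ∧ ∀ l ∈ L', z l ≤ R ∧ (R * A l + 1).Prime),
        h c R / R ≤ B * ∏ l ∈ L', s l)
    (hc : ∀ c, ∀ L' ⊆ L₀, (∀ l ∈ L', c ∈ inc l) → ∀ A : Λ → ℕ,
      (∀ l ∈ L', 0 < A l ∧ A l ≤ X ^ Fintype.card C) →
      (∀ l ∈ L', ∀ l' ∈ L', l ≠ l' → A l ≠ A l') → ∀ y : ℝ, Z ≤ y → y ≤ x →
      ∑ R ∈ (Finset.Icc 1 X).filter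
        (fun R : ℕ => R.Prime ∧ (R : ℝ) ≤ y ∧ ∀ l ∈ L', (R * A l + 1).Prime),
        h c R ≤ B₁ * y * ∏ l ∈ L', s l) :
    ∑ n ∈ (box C X).filter (fun n => LAdm inc z L₀ n ∧ ((∏ c, n c : ℕ) : ℝ) ≤ x ∧
      ∃ R : ℕ, R.Prime ∧ Z ≤ R ∧ R ∣ ∏ c, n c), ∏ c, h c (n c) ≤
      Fintype.card C * B₁ * x * (Fintype.card C * B) ^ L₀.card * (∏ l ∈ L₀, s l) *
        ∑ n ∈ box C X, ∏ c, (h c (n c) / (n c : ℝ)) := by
  classical
  have hpeel := peel inc z s (fun c m => h c m / (m : ℝ)) X B hB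
    (fun c n => div_nonneg (hh c n) (Nat.cast_nonneg n))
    (by
      intro c m R hR hm
      rw [hmul c m R hR hm]
      push_cast
      have : (m : ℝ) ≠ 0 := by positivity
      have : (R : ℝ) ≠ 0 := by exact_mod_cast hR.ne_zero
      field_simp)
    L₀ hs0 hs
  have hW : 0 ≤ ∑ n ∈ box C X, ∏ c, (h c (n c) / (n c : ℝ)) :=
    Finset.sum_nonneg (fun n _ => Finset.prod_nonneg
      (fun c _ => div_nonneg (hh c _) (Nat.cast_nonneg _)))
  have hcard1 : (1 : ℝ) ≤ Fintype.card C := by exact_mod_cast Fintype.card_pos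
  have hCB : 1 ≤ (Fintype.card C : ℝ) * B := by linarith [mul_nonneg (sub_nonneg.2 hcard1) (sub_nonneg.2 hB), hcard1]
  set P : (C → ℕ) → Prop := fun n => LAdm inc z L₀ n ∧ ((∏ c, n c : ℕ) : ℝ) ≤ x ∧
      ∃ R : ℕ, R.Prime ∧ Z ≤ R ∧ R ∣ ∏ c, n c with hP
  set Q : C → (C → ℕ) → ℕ → Prop := fun c n R => R.Prime ∧ Z ≤ R ∧ R ∣ n c with hQ
  have step1 : ∑ n ∈ (box C X).filter P, ∏ c, h c (n c) ≤
      ∑ c : C, ∑ n ∈ (box C X).filter (fun n => P n ∧ ∃ R, Q c n R),
        ∏ c, h c (n c) := by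
    have e : ∀ c : C, ∑ n ∈ (box C X).filter (fun n => P n ∧ ∃ R, Q c n R),
        ∏ c, h c (n c) = ∑ n ∈ (box C X).filter P,
          if (∃ R, Q c n R) then ∏ c, h c (n c) else 0 := by
      intro c
      rw [← Finset.sum_filter, Finset.filter_filter]
    rw [Finset.sum_congr rfl (fun c _ => e c), Finset.sum_comm]
    apply Finset.sum_le_sum
    intro n hn
    rw [Finset.mem_filter, mem_box] at hn
    obtain ⟨hadm, hle, R, hR, hZ, hd⟩ := hn.2
    obtain ⟨c, _, hdc⟩ := (Prime.dvd_finsetProd_iff hR.prime _).1 hd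
    have hterm : ∏ c, h c (n c) =
        (if (∃ R, Q c n R) then ∏ c, h c (n c) else 0) := by
      rw [if_pos ⟨R, hR, hZ, hdc⟩]
    have h0 : ∀ c ∈ (Finset.univ : Finset C), 0 ≤
        (if (∃ R, Q c n R) then ∏ c, h c (n c) else 0) := by
      intro c _
      split_ifs
      · exact Finset.prod_nonneg (fun c _ => hh c _)
      · exact le_refl _
    calc ∏ c, h c (n c) = _ := hterm
      _ ≤ _ := Finset.single_le_sum h0 (Finset.mem_univ c)
  have step2 : ∀ c : C,
      ∑ n ∈ (box C X).filter (fun n => P n ∧ ∃ R, Q c n R), ∏ c, h c (n c) ≤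
      B₁ * x * (Fintype.card C * B) ^ L₀.card * (∏ l ∈ L₀, s l) *
        ∑ n ∈ box C X, ∏ c, (h c (n c) / (n c : ℝ)) := by
    intro c
    set L' := L₀.filter (fun l => c ∈ inc l) with hL'
    have hL'sub : L' ⊆ L₀ := Finset.filter_subset _ _
    let T : Finset ((_ : C → ℕ) × ℕ) :=
      ((box C X).filter (fun n => LAdm inc z (L₀ \ L') n)).sigma
        (fun n' => (Finset.Icc 1 X).filter
          (fun R : ℕ => R.Prime ∧ Z ≤ (R : ℝ) ∧ (R : ℝ) ≤ x / ((∏ c, n' c : ℕ) : ℝ) ∧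
            (∀ l ∈ L', (R * lineProd inc n' l + 1).Prime) ∧
            ∀ l ∈ L', ∀ l' ∈ L', l ≠ l' → lineProd inc n' l ≠ lineProd inc n' l'))
    let S := (box C X).filter (fun n => P n ∧ ∃ R, Q c n R)
    have hchoose : ∀ n ∈ S, ∃ R, Q c n R := by
      intro n hn
      exact (Finset.mem_filter.1 hn).2.2
    let r : (C → ℕ) → ℕ := fun n => if h : ∃ R, Q c n R then h.choose else 1
    have hr : ∀ n ∈ S, Q c n (r n) := by
      intro n hn
      have := hchoose n hn
      simp only [r, dif_pos this]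
      exact this.choose_spec
    let φ : (C → ℕ) → ((_ : C → ℕ) × ℕ) := fun n => ⟨Function.update n c (n c / r n), r n⟩
    have hprodφ : ∀ n ∈ S, (∏ c', (φ n).1 c') * r n = ∏ c', n c' := by
      intro n hn
      obtain ⟨hp, hZ, hd⟩ := hr n hn
      simp only [φ]
      rw [← Finset.mul_prod_erase Finset.univ _ (Finset.mem_univ c),
        ← Finset.mul_prod_erase Finset.univ (fun c' => n c') (Finset.mem_univ c)]
      rw [Function.update_self]
      have e2 : ∏ x ∈ Finset.univ.erase c, Function.update n c (n c / r n) x =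
          ∏ x ∈ Finset.univ.erase c, n x := by
        apply Finset.prod_congr rfl
        intro x hx
        rw [Function.update_of_ne (Finset.ne_of_mem_erase hx)]
      rw [e2]
      calc n c / r n * (∏ x ∈ Finset.univ.erase c, n x) * r n
          = (n c / r n * r n) * (∏ x ∈ Finset.univ.erase c, n x) := by ring
        _ = _ := by rw [Nat.div_mul_cancel hd]
    have hφT : ∀ n ∈ S, φ n ∈ T := by
      intro n hn
      have hsel := hr n hn
      have hn' := Finset.mem_filter.1 hn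
      have hbox := mem_box.1 hn'.1
      have hprod := hprodφ n hn
      obtain ⟨hp, hZ, hd⟩ := hsel
      obtain ⟨⟨hadm, hle, -⟩, -⟩ := hn'.2
      have hrpos := hp.pos
      have hnc := hbox c
      have hrle : r n ≤ n c := Nat.le_of_dvd (by omega) hd
      have hboxφ : ∀ c', 1 ≤ (φ n).1 c' ∧ (φ n).1 c' ≤ X := by
        intro c'
        simp only [φ]
        by_cases hcc : c' = c
        · subst hcc
          rw [Function.update_self]
          exact ⟨Nat.div_pos hrle hrpos, (Nat.div_le_self _ _).trans hnc.2⟩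
        · rw [Function.update_of_ne hcc]
          exact hbox c'
      have hposφ : 0 < ∏ c', (φ n).1 c' := Finset.prod_pos (fun c' _ => (hboxφ c').1)
      have hxr : ((r n : ℕ) : ℝ) ≤ x / ((∏ c', (φ n).1 c' : ℕ) : ℝ) := by
        rw [le_div_iff₀ (by exact_mod_cast hposφ)]
        rw [← hprod] at hle
        push_cast at hle ⊢
        linarith only [hle]
      simp only [T, Finset.mem_sigma, Finset.mem_filter, mem_box, Finset.mem_Icc]
      refine ⟨⟨hboxφ, ?_⟩, ⟨hrpos, hrle.trans hnc.2⟩, hp, hZ, hxr, ?_, ?_⟩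
      · have hnotin : ∀ l ∈ L₀ \ L', c ∉ inc l := by
          intro l hl hc
          rw [Finset.mem_sdiff] at hl
          exact hl.2 (Finset.mem_filter.2 ⟨hl.1, hc⟩)
        refine ⟨?_, ?_, ?_⟩
        · intro l hl
          simp only [φ]
          rw [lineProd_update_of_not_mem (hnotin l hl)]
          exact hadm.prime l (Finset.mem_sdiff.1 hl).1
        · intro l hl
          simp only [φ]
          rw [lineProd_update_of_not_mem (hnotin l hl)]
          exact hadm.big l (Finset.mem_sdiff.1 hl).1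
        · intro l hl l' hl' hne
          simp only [φ]
          rw [lineProd_update_of_not_mem (hnotin l hl), lineProd_update_of_not_mem (hnotin l' hl')]
          exact hadm.ne l (Finset.mem_sdiff.1 hl).1 l' (Finset.mem_sdiff.1 hl').1 hne
      · intro l hl
        have hl2 := Finset.mem_filter.1 hl
        simp only [φ]
        rw [lineProd_update_of_mem hl2.2 hd]
        exact hadm.prime l hl2.1
      · intro l hl l' hl' hne heq
        have hl2 := Finset.mem_filter.1 hl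
        have hl2' := Finset.mem_filter.1 hl'
        simp only [φ] at heq
        apply hadm.ne l hl2.1 l' hl2'.1 hne
        rw [← lineProd_update_of_mem hl2.2 hd, ← lineProd_update_of_mem hl2'.2 hd, heq]
    have hrecover : ∀ n ∈ S, n = Function.update (φ n).1 c ((φ n).1 c * (φ n).2) := by
      intro n hn
      obtain ⟨hp, hZ, hd⟩ := hr n hn
      simp only [φ, Function.update_self, Function.update_idem]
      rw [Nat.div_mul_cancel hd, Function.update_eq_self]
    have hinj : Set.InjOn φ (S : Set (C → ℕ)) := by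
      intro n hn m hm heq
      rw [hrecover n hn, hrecover m hm, heq]
    have hval : ∀ n ∈ S, ∏ c, h c (n c) = (∏ c', h c' ((φ n).1 c')) * h c (φ n).2 := by
      intro n hn
      obtain ⟨hp, hZ, hd⟩ := hr n hn
      have hbox := mem_box.1 (Finset.mem_filter.1 hn).1
      have hpos : 0 < n c / r n := Nat.div_pos (Nat.le_of_dvd (hbox c).1 hd) hp.pos
      simp only [φ]
      rw [← Finset.mul_prod_erase Finset.univ _ (Finset.mem_univ c),
        ← Finset.mul_prod_erase Finset.univ (fun c' => h c' (Function.update n c (n c / r n) c'))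
          (Finset.mem_univ c)]
      rw [Function.update_self]
      have e1 : h c (n c) = h c (n c / r n) * h c (r n) := by
        rw [← hmul c _ _ hp hpos, Nat.div_mul_cancel hd]
      have e2 : ∏ x ∈ Finset.univ.erase c, h x (n x) =
          ∏ x ∈ Finset.univ.erase c, h x (Function.update n c (n c / r n) x) := by
        apply Finset.prod_congr rfl
        intro x hx
        rw [Function.update_of_ne (Finset.ne_of_mem_erase hx)]
      rw [e1, e2]
      ring
    have hTnonneg : ∀ y ∈ T, 0 ≤ (∏ c', h c' (y.1 c')) * h c y.2 := fun y _ =>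
      mul_nonneg (Finset.prod_nonneg (fun c' _ => hh c' _)) (hh c _)
    have h1 : ∑ n ∈ S, ∏ c, h c (n c) ≤ ∑ y ∈ T, (∏ c', h c' (y.1 c')) * h c y.2 := by
      rw [Finset.sum_congr rfl hval]
      have e : ∑ n ∈ S, (∏ c', h c' ((φ n).1 c')) * h c (φ n).2 =
          ∑ y ∈ S.image φ, (∏ c', h c' (y.1 c')) * h c y.2 := by
        rw [Finset.sum_image hinj]
      rw [e]
      apply Finset.sum_le_sum_of_subset_of_nonneg
      · intro y hy
        obtain ⟨n, hn, rfl⟩ := Finset.mem_image.1 hy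
        exact hφT n hn
      · intro y hy _
        exact hTnonneg y hy
    have hprodL' : 0 ≤ ∏ l ∈ L', s l :=
      Finset.prod_nonneg (fun l hl => hs0 l (hL'sub hl))
    have hprodLL' : 0 ≤ ∏ l ∈ L₀ \ L', s l :=
      Finset.prod_nonneg (fun l hl => hs0 l (Finset.sdiff_subset hl))
    have h2 : ∑ y ∈ T, (∏ c', h c' (y.1 c')) * h c y.2 ≤
        ∑ n ∈ (box C X).filter (fun n => LAdm inc z (L₀ \ L') n),
          (B₁ * x * ∏ l ∈ L', s l) * ∏ c', (h c' (n c') / (n c' : ℝ)) := by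
      simp only [T]
      rw [Finset.sum_sigma]
      apply Finset.sum_le_sum
      intro n' hn'
      simp only
      rw [← Finset.mul_sum]
      have hboxn' := mem_box.1 (Finset.mem_filter.1 hn').1
      have hprodpos : 0 < ((∏ c', n' c' : ℕ) : ℝ) := by
        exact_mod_cast Finset.prod_pos (fun c' _ => (hboxn' c').1)
      have hdivprod : ∏ c', (h c' (n' c') / (n' c' : ℝ)) =
          (∏ c', h c' (n' c')) / ((∏ c', n' c' : ℕ) : ℝ) := by
        rw [Finset.prod_div_distrib]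
        push_cast
        rfl
      have hpos' : ∀ l ∈ L', 0 < lineProd inc n' l ∧ lineProd inc n' l ≤ X ^ Fintype.card C :=
        fun l _ => lineProd_bounds inc l (Finset.mem_filter.1 hn').1
      have hprodh : 0 ≤ ∏ c', h c' (n' c') := Finset.prod_nonneg (fun c' _ => hh c' _)
      rw [hdivprod]
      have hgoal : ∑ R ∈ (Finset.Icc 1 X).filter
          (fun R : ℕ => R.Prime ∧ Z ≤ (R : ℝ) ∧ (R : ℝ) ≤ x / ((∏ c, n' c : ℕ) : ℝ) ∧
            (∀ l ∈ L', (R * lineProd inc n' l + 1).Prime) ∧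
            ∀ l ∈ L', ∀ l' ∈ L', l ≠ l' → lineProd inc n' l ≠ lineProd inc n' l'), h c R ≤
            B₁ * (x / ((∏ c, n' c : ℕ) : ℝ)) * ∏ l ∈ L', s l := by
        by_cases hcase : Z ≤ x / ((∏ c, n' c : ℕ) : ℝ) ∧
            ∀ l ∈ L', ∀ l' ∈ L', l ≠ l' → lineProd inc n' l ≠ lineProd inc n' l'
        · have := hc c L' hL'sub
            (fun l hl => (Finset.mem_filter.1 hl).2) (lineProd inc n') hpos' hcase.2 _ hcase.1
            (div_le_self hx (by
              have h0 : 1 ≤ ∏ c, n' c := Nat.succ_le_of_lt (Finset.prod_pos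
                (fun c' _ => Nat.lt_of_lt_of_le Nat.zero_lt_one (hboxn' c').1))
              exact_mod_cast h0))
          refine le_trans ?_ this
          apply Finset.sum_le_sum_of_subset_of_nonneg
          · intro R hR
            rw [Finset.mem_filter] at hR ⊢
            exact ⟨hR.1, hR.2.1, hR.2.2.2.1, hR.2.2.2.2.1⟩
          · intro R _ _
            exact hh c R
        · have hempty : (Finset.Icc 1 X).filter
            (fun R : ℕ => R.Prime ∧ Z ≤ (R : ℝ) ∧ (R : ℝ) ≤ x / ((∏ c, n' c : ℕ) : ℝ) ∧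
            (∀ l ∈ L', (R * lineProd inc n' l + 1).Prime) ∧
            ∀ l ∈ L', ∀ l' ∈ L', l ≠ l' → lineProd inc n' l ≠ lineProd inc n' l') = ∅ := by
            rw [Finset.filter_eq_empty_iff]
            rintro R _ ⟨_, hZR, hRx, -, hR⟩
            exact hcase ⟨hZR.trans hRx, hR⟩
          rw [hempty, Finset.sum_empty]
          apply mul_nonneg (mul_nonneg hB₁ (div_nonneg hx hprodpos.le)) hprodL'
      calc (∏ c', h c' (n' c')) * _ ≤ (∏ c', h c' (n' c')) *
            (B₁ * (x / ((∏ c, n' c : ℕ) : ℝ)) * ∏ l ∈ L', s l) :=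
            mul_le_mul_of_nonneg_left hgoal hprodh
        _ = _ := by ring
    have h3 := hpeel (L₀ \ L') Finset.sdiff_subset
    have hpow : ((Fintype.card C : ℝ) * B) ^ (L₀ \ L').card ≤
        ((Fintype.card C : ℝ) * B) ^ (L₀.card) :=
      pow_le_pow_right₀ hCB (Finset.card_le_card Finset.sdiff_subset)
    have hcoef : 0 ≤ B₁ * x * ∏ l ∈ L', s l := mul_nonneg (mul_nonneg hB₁ hx) hprodL'
    calc ∑ n ∈ S, ∏ c, h c (n c) ≤ _ := h1
      _ ≤ _ := h2
      _ = (B₁ * x * ∏ l ∈ L', s l) * ∑ n ∈ (box C X).filter (fun n => LAdm inc z (L₀ \ L') n),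
          ∏ c', (h c' (n c') / (n c' : ℝ)) := by
        rw [Finset.mul_sum]
      _ ≤ (B₁ * x * ∏ l ∈ L', s l) * (((Fintype.card C : ℝ) * B) ^ (L₀ \ L').card *
            (∏ l ∈ L₀ \ L', s l) * ∑ n ∈ box C X, ∏ c, (h c (n c) / (n c : ℝ))) :=
        mul_le_mul_of_nonneg_left h3 hcoef
      _ ≤ (B₁ * x * ∏ l ∈ L', s l) * (((Fintype.card C : ℝ) * B) ^ (L₀.card) *
            (∏ l ∈ L₀ \ L', s l) * ∑ n ∈ box C X, ∏ c, (h c (n c) / (n c : ℝ))) := by
        apply mul_le_mul_of_nonneg_left _ hcoef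
        apply mul_le_mul_of_nonneg_right _ hW
        exact mul_le_mul_of_nonneg_right hpow hprodLL'
      _ = B₁ * x * (Fintype.card C * B) ^ L₀.card * (∏ l ∈ L₀, s l) *
        ∑ n ∈ box C X, ∏ c, (h c (n c) / (n c : ℝ)) := by
        rw [← Finset.prod_sdiff hL'sub]
        ring
  calc ∑ n ∈ (box C X).filter P, ∏ c, h c (n c) ≤ _ := step1
    _ ≤ ∑ c : C, B₁ * x * (Fintype.card C * B) ^ L₀.card * (∏ l ∈ L₀, s l) *
        ∑ n ∈ box C X, ∏ c, (h c (n c) / (n c : ℝ)) := Finset.sum_le_sum (fun c _ => step2 c)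
    _ = _ := by
      rw [Finset.sum_const, nsmul_eq_mul, Finset.card_univ]
      ring

end Vale.Agent.P031.Col
end
end

section

section

/-!
# Common refinement of two factorizations
-/

namespace Vale.Agent.P031.Col

open Finset

/-- a divisor of a product splits as a product of divisors. -/
theorem exists_split_of_dvd_prod {J : Type*} [DecidableEq J] (t : Finset J) (b : J → ℕ) :
    ∀ x : ℕ, x ∣ ∏ j ∈ t, b j → ∃ c : J → ℕ, (∀ j ∈ t, c j ∣ b j) ∧ ∏ j ∈ t, c j = x := by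
  induction t using Finset.induction_on with
  | empty =>
    intro x hx
    refine ⟨fun _ => 1, by simp, ?_⟩
    simp only [Finset.prod_empty] at hx ⊢
    exact (Nat.dvd_one.1 hx).symm
  | insert j t hj ih =>
    intro x hx
    rw [Finset.prod_insert hj] at hx
    obtain ⟨u, v, hu, hv, rfl⟩ := exists_dvd_and_dvd_of_dvd_mul hx
    obtain ⟨c, hc1, hc2⟩ := ih v hv
    refine ⟨Function.update c j u, ?_, ?_⟩
    · intro i hi
      rcases Finset.mem_insert.1 hi with rfl | hi'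
      · simpa using hu
      · have hne : i ≠ j := by rintro rfl; exact hj hi'
        rw [Function.update_of_ne hne]
        exact hc1 i hi'
    · rw [Finset.prod_insert hj, Function.update_self]
      congr 1
      rw [← hc2]
      apply Finset.prod_congr rfl
      intro i hi
      have hne : i ≠ j := by rintro rfl; exact hj hi
      rw [Function.update_of_ne hne]

/-- **Common refinement**: if `∏ a i = ∏ b j` (all `b j` positive) there is a matrix with row
products `a i` and column products `b j`. -/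
theorem exists_refinement {I J : Type*} [DecidableEq I] [DecidableEq J]
    (s : Finset I) (t : Finset J) (a : I → ℕ) :
    ∀ b : J → ℕ, (∀ j ∈ t, 0 < b j) → ∏ i ∈ s, a i = ∏ j ∈ t, b j →
    ∃ c : I → J → ℕ, (∀ i ∈ s, ∏ j ∈ t, c i j = a i) ∧ (∀ j ∈ t, ∏ i ∈ s, c i j = b j) := by
  induction s using Finset.induction_on with
  | empty =>
    intro b hb h
    refine ⟨fun _ _ => 1, by simp, ?_⟩
    intro j hj
    simp only [Finset.prod_empty] at h ⊢
    have : b j ∣ 1 := by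
      rw [h]; exact Finset.dvd_prod_of_mem b hj
    exact (Nat.dvd_one.1 this).symm
  | insert i s hi ih =>
    intro b hb h
    rw [Finset.prod_insert hi] at h
    have hd : a i ∣ ∏ j ∈ t, b j := by rw [← h]; exact Dvd.intro _ rfl
    obtain ⟨d, hd1, hd2⟩ := exists_split_of_dvd_prod t b (a i) hd
    have hbpos : 0 < ∏ j ∈ t, b j := Finset.prod_pos hb
    have hapos : 0 < a i := Nat.pos_of_dvd_of_pos hd hbpos
    have hdpos : ∀ j ∈ t, 0 < d j := fun j hj => Nat.pos_of_dvd_of_pos (hd1 j hj) (hb j hj)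
    have hq : ∀ j ∈ t, d j * (b j / d j) = b j := fun j hj => Nat.mul_div_cancel' (hd1 j hj)
    have h2 : ∏ i ∈ s, a i = ∏ j ∈ t, (b j / d j) := by
      have h3 : ∏ j ∈ t, b j = a i * ∏ j ∈ t, (b j / d j) := by
        rw [← hd2, ← Finset.prod_mul_distrib]
        exact Finset.prod_congr rfl (fun j hj => (hq j hj).symm)
      rw [h3] at h
      exact Nat.eq_of_mul_eq_mul_left hapos h
    obtain ⟨c, hc1, hc2⟩ := ih (fun j => b j / d j)
      (fun j hj => Nat.div_pos (Nat.le_of_dvd (hb j hj) (hd1 j hj)) (hdpos j hj)) h2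
    refine ⟨Function.update c i d, ?_, ?_⟩
    · intro k hk
      rcases Finset.mem_insert.1 hk with rfl | hk'
      · simpa using hd2
      · have hne : k ≠ i := by rintro rfl; exact hi hk'
        rw [Function.update_of_ne hne]
        exact hc1 k hk'
    · intro j hj
      rw [Finset.prod_insert hi, Function.update_self]
      rw [← hq j hj]
      congr 1
      rw [← hc2 j hj]
      apply Finset.prod_congr rfl
      intro k hk
      have hne : k ≠ i := by rintro rfl; exact hi hk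
      rw [Function.update_of_ne hne]

end Vale.Agent.P031.Col
end
end

section

section

/-!
# From a pair of representations to a matrix of cells
-/

namespace Vale.Agent.P031.Col

open Finset

/-- cells: row-column pairs (with an extra row and an extra column), and single cells. -/
abbrev Cell (m : ℕ) := (Option (Fin m) × Option (Fin m)) ⊕ Fin m

/-- lines: rows, columns, single cells -/
abbrev Line (m : ℕ) := Fin m ⊕ (Fin m ⊕ Fin m)

/-- incidence of lines and cells -/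
def linc (m : ℕ) : Line m → Finset (Cell m)
  | .inl i => Finset.univ.image (fun j : Option (Fin m) => Sum.inl (some i, j))
  | .inr (.inl j) => Finset.univ.image (fun i : Option (Fin m) => Sum.inl (i, some j))
  | .inr (.inr t) => {Sum.inr t}

theorem lineProd_row (m : ℕ) (n : Cell m → ℕ) (i : Fin m) :
    lineProd (linc m) n (.inl i) = ∏ j : Option (Fin m), n (.inl (some i, j)) := by
  unfold lineProd linc
  rw [Finset.prod_image]
  intro a _ b _ h
  simpa using h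

theorem lineProd_col (m : ℕ) (n : Cell m → ℕ) (j : Fin m) :
    lineProd (linc m) n (.inr (.inl j)) = ∏ i : Option (Fin m), n (.inl (i, some j)) := by
  unfold lineProd linc
  rw [Finset.prod_image]
  intro a _ b _ h
  simpa using h

theorem lineProd_single (m : ℕ) (n : Cell m → ℕ) (t : Fin m) :
    lineProd (linc m) n (.inr (.inr t)) = n (.inr t) := by
  unfold lineProd linc
  rw [Finset.prod_singleton]

theorem card_cell (m : ℕ) : Fintype.card (Cell m) = (m + 1) ^ 2 + m := by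
  simp [Cell, pow_two]

/-- recover the two representations from the matrix -/
def decode (m : ℕ) (n : Cell m → ℕ) : Finset ℕ × ℕ × Finset ℕ × ℕ :=
  (((Finset.univ.image (fun i : Fin m => lineProd (linc m) n (.inl i) + 1)) ∪
      (Finset.univ.image (fun t : Fin m => lineProd (linc m) n (.inr (.inr t)) + 1))).erase 2,
    ∏ j : Option (Fin m), n (.inl (none, j)),
    ((Finset.univ.image (fun j : Fin m => lineProd (linc m) n (.inr (.inl j)) + 1)) ∪
      (Finset.univ.image (fun t : Fin m => lineProd (linc m) n (.inr (.inr t)) + 1))).erase 2,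
    ∏ i : Option (Fin m), n (.inl (i, none)))

/-- enumeration of a small set -/
theorem exists_enum (m : ℕ) (S : Finset ℕ) (hS : ∀ p ∈ S, 3 ≤ p) (hcard : S.card ≤ m) :
    ∃ f : Fin m → ℕ, (∀ i, f i = 1 ∨ f i + 1 ∈ S) ∧ (∀ p ∈ S, ∃ i, f i + 1 = p) ∧
      (∀ i j, i ≠ j → f i ≠ 1 → f i ≠ f j) ∧ ∏ i, f i = ∏ p ∈ S, (p - 1) := by
  classical
  set e := S.equivFin with he
  refine ⟨fun i => if h : (i : ℕ) < S.card then ((e.symm ⟨i, h⟩ : S) : ℕ) - 1 else 1, ?_, ?_, ?_, ?_⟩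
  · intro i
    by_cases h : (i : ℕ) < S.card
    · right
      simp only [dif_pos h]
      have h1 := (e.symm ⟨i, h⟩).2
      have h2 := hS _ h1
      rw [Nat.sub_add_cancel (by omega)]
      exact h1
    · left
      simp only [dif_neg h]
  · intro p hp
    have h := (e ⟨p, hp⟩).2
    refine ⟨⟨(e ⟨p, hp⟩ : ℕ), lt_of_lt_of_le h hcard⟩, ?_⟩
    simp only [dif_pos h]
    have : e.symm ⟨(e ⟨p, hp⟩ : ℕ), h⟩ = ⟨p, hp⟩ := by
      rw [Fin.eta, Equiv.symm_apply_apply]
    rw [this]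
    have := hS p hp
    simp only
    omega
  · intro i j hij hi heq
    by_cases h : (i : ℕ) < S.card
    · by_cases h' : (j : ℕ) < S.card
      · simp only [dif_pos h, dif_pos h'] at heq
        have h1 := hS _ (e.symm ⟨i, h⟩).2
        have h2 := hS _ (e.symm ⟨j, h'⟩).2
        have h3 : ((e.symm ⟨i, h⟩ : S) : ℕ) = ((e.symm ⟨j, h'⟩ : S) : ℕ) := by omega
        have h4 := e.symm.injective (Subtype.ext h3)
        have h5 : (i : ℕ) = j := by simpa using congrArg Fin.val h4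
        exact hij (Fin.ext h5)
      · simp only [dif_pos h, dif_neg h'] at heq
        have h1 := hS _ (e.symm ⟨i, h⟩).2
        omega
    · simp only [dif_neg h] at hi
      exact hi rfl
  · have h1 : ∏ p ∈ S, (p - 1) = ∏ i : Fin S.card, (((e.symm i : S) : ℕ) - 1) := by
      rw [← Finset.prod_coe_sort S (fun p => p - 1)]
      exact (Fintype.prod_equiv e.symm _ _ (fun i => rfl)).symm
    rw [h1]
    have h2 : ∏ i : Fin m, (if h : (i : ℕ) < S.card then ((e.symm ⟨i, h⟩ : S) : ℕ) - 1 else 1) =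
        ∏ i ∈ Finset.range m, (if h : i < S.card then ((e.symm ⟨i, h⟩ : S) : ℕ) - 1 else 1) := by
      rw [Finset.prod_range]
    have h3 : ∏ i : Fin S.card, (((e.symm i : S) : ℕ) - 1) =
        ∏ i ∈ Finset.range S.card,
          (if h : i < S.card then ((e.symm ⟨i, h⟩ : S) : ℕ) - 1 else 1) := by
      rw [Finset.prod_range]
      apply Finset.prod_congr rfl
      intro i _
      rw [dif_pos i.2]
    rw [h2, h3]
    symm
    apply Finset.prod_subset (Finset.range_mono hcard)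
    intro i _ hi
    rw [Finset.mem_range] at hi
    rw [dif_neg hi]

/-- the properties of the matrix attached to a pair of representations -/
structure Mat (m : ℕ) (S : Finset ℕ) (D : ℕ) (S' : Finset ℕ) (D' u : ℕ) (n : Cell m → ℕ) :
    Prop where
  pos : ∀ c, 0 < n c
  prod : ∏ c, n c = u
  dec : decode m n = (S, D, S', D')
  line : ∀ l, lineProd (linc m) n l = 1 ∨ lineProd (linc m) n l + 1 ∈ S ∪ S'
  ne : ∀ l l', l ≠ l' → lineProd (linc m) n l ≠ 1 →
    lineProd (linc m) n l ≠ lineProd (linc m) n l'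
  dvd : ∀ j, n (.inl (none, j)) ∣ D
  dvd' : ∀ i, n (.inl (i, none)) ∣ D'
  row : ∀ p ∈ S, p ∉ S' → ∃ i, lineProd (linc m) n (.inl i) + 1 = p
  col : ∀ p ∈ S', p ∉ S → ∃ j, lineProd (linc m) n (.inr (.inl j)) + 1 = p

theorem exists_mat (m : ℕ) (S S' : Finset ℕ) (D D' : ℕ) (hS : ∀ p ∈ S, 3 ≤ p)
    (hS' : ∀ p ∈ S', 3 ≤ p) (hc : S.card ≤ m) (hc' : S'.card ≤ m) (hD : 0 < D) (hD' : 0 < D')
    (h : (∏ p ∈ S, (p - 1)) * D = (∏ p ∈ S', (p - 1)) * D') :
    ∃ n, Mat m S D S' D' ((∏ p ∈ S, (p - 1)) * D) n := by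
  classical
  set T := S ∩ S' with hT
  set S1 := S \ S' with hS1
  set S2 := S' \ S with hS2
  have hTS : T ⊆ S := Finset.inter_subset_left
  have hTS' : T ⊆ S' := Finset.inter_subset_right
  have hS1S : S1 ⊆ S := Finset.sdiff_subset
  have hS2S : S2 ⊆ S' := Finset.sdiff_subset
  obtain ⟨fT, hfT1, hfT2, hfT3, hfT4⟩ := exists_enum m T (fun p hp => hS p (hTS hp))
    ((Finset.card_le_card hTS).trans hc)
  obtain ⟨f1, hf11, hf12, hf13, hf14⟩ := exists_enum m S1 (fun p hp => hS p (hS1S hp))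
    ((Finset.card_le_card hS1S).trans hc)
  obtain ⟨f2, hf21, hf22, hf23, hf24⟩ := exists_enum m S2 (fun p hp => hS' p (hS2S hp))
    ((Finset.card_le_card hS2S).trans hc')
  have hprodT : 0 < ∏ p ∈ T, (p - 1) := by
    apply Finset.prod_pos
    intro p hp
    have := hS p (hTS hp)
    omega
  have eS : ∏ p ∈ S, (p - 1) = (∏ p ∈ T, (p - 1)) * ∏ p ∈ S1, (p - 1) := by
    have : S = T ∪ S1 := by
      ext p; simp only [hT, hS1, Finset.mem_union, Finset.mem_inter, Finset.mem_sdiff]; tauto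
    conv_lhs => rw [this]
    apply Finset.prod_union
    rw [Finset.disjoint_left]
    intro p hp hp'
    simp only [hT, hS1, Finset.mem_inter, Finset.mem_sdiff] at hp hp'
    tauto
  have eS' : ∏ p ∈ S', (p - 1) = (∏ p ∈ T, (p - 1)) * ∏ p ∈ S2, (p - 1) := by
    have : S' = T ∪ S2 := by
      ext p; simp only [hT, hS2, Finset.mem_union, Finset.mem_inter, Finset.mem_sdiff]; tauto
    conv_lhs => rw [this]
    apply Finset.prod_union
    rw [Finset.disjoint_left]
    intro p hp hp'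
    simp only [hT, hS2, Finset.mem_inter, Finset.mem_sdiff] at hp hp'
    tauto
  have hred : (∏ p ∈ S1, (p - 1)) * D = (∏ p ∈ S2, (p - 1)) * D' := by
    rw [eS, eS', mul_assoc, mul_assoc] at h
    exact Nat.eq_of_mul_eq_mul_left hprodT h
  -- the two vectors
  set a : Option (Fin m) → ℕ := fun o => o.elim D f1 with ha
  set b : Option (Fin m) → ℕ := fun o => o.elim D' f2 with hb
  have hprodab : ∏ o, a o = ∏ o, b o := by
    rw [Fintype.prod_option, Fintype.prod_option]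
    simp only [ha, hb, Option.elim_none, Option.elim_some]
    rw [hf14, hf24]
    linarith only [hred]
  have hbpos : ∀ o ∈ (Finset.univ : Finset (Option (Fin m))), 0 < b o := by
    intro o _
    cases o with
    | none => simpa [hb] using hD'
    | some j =>
      simp only [hb, Option.elim_some]
      rcases hf21 j with h1 | h1
      · omega
      · have := hS' _ (hS2S h1); omega
  obtain ⟨c, hc1, hc2⟩ := exists_refinement Finset.univ Finset.univ a b hbpos hprodab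
  set n : Cell m → ℕ := fun x => x.elim (fun y => c y.1 y.2) fT with hn
  have hrow : ∀ i, lineProd (linc m) n (.inl i) = f1 i := by
    intro i
    rw [lineProd_row]
    have := hc1 (some i) (Finset.mem_univ _)
    simpa [hn, ha] using this
  have hcol : ∀ j, lineProd (linc m) n (.inr (.inl j)) = f2 j := by
    intro j
    rw [lineProd_col]
    have := hc2 (some j) (Finset.mem_univ _)
    simpa [hn, hb] using this
  have hsing : ∀ t, lineProd (linc m) n (.inr (.inr t)) = fT t := by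
    intro t
    rw [lineProd_single]
    simp [hn]
  have hD1 : ∏ j : Option (Fin m), n (.inl (none, j)) = D := by
    have := hc1 none (Finset.mem_univ _)
    simpa [hn, ha] using this
  have hD2 : ∏ i : Option (Fin m), n (.inl (i, none)) = D' := by
    have := hc2 none (Finset.mem_univ _)
    simpa [hn, hb] using this
  have hapos : ∀ o, 0 < a o := by
    intro o
    cases o with
    | none => simpa [ha] using hD
    | some i =>
      simp only [ha, Option.elim_some]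
      rcases hf11 i with h1 | h1
      · omega
      · have := hS _ (hS1S h1); omega
  have himage : ∀ (f g : Fin m → ℕ) (A B : Finset ℕ), (∀ i, f i = 1 ∨ f i + 1 ∈ A) →
      (∀ p ∈ A, ∃ i, f i + 1 = p) → (∀ i, g i = 1 ∨ g i + 1 ∈ B) →
      (∀ p ∈ B, ∃ i, g i + 1 = p) → (∀ p ∈ A ∪ B, 3 ≤ p) →
      ((Finset.univ.image (fun i => f i + 1)) ∪ (Finset.univ.image (fun i => g i + 1))).erase 2 =
        A ∪ B := by
    intro f g A B h1 h2 h3 h4 h5
    ext p
    simp only [Finset.mem_erase, Finset.mem_union, Finset.mem_image, Finset.mem_univ, true_and]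
    constructor
    · rintro ⟨hne, ⟨i, rfl⟩ | ⟨i, rfl⟩⟩
      · rcases h1 i with h | h
        · omega
        · exact Or.inl h
      · rcases h3 i with h | h
        · omega
        · exact Or.inr h
    · intro h
      have h3p := h5 p (Finset.mem_union.2 h)
      refine ⟨by omega, ?_⟩
      rcases h with h | h
      · exact Or.inl (h2 p h)
      · exact Or.inr (h4 p h)
  refine ⟨n, ?_⟩
  refine ⟨?_, ?_, ?_, ?_, ?_, ?_, ?_, ?_, ?_⟩
  · -- positivity
    intro x
    rcases x with ⟨o, o'⟩ | t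
    · simp only [hn, Sum.elim_inl]
      have h1 := hc1 o (Finset.mem_univ _)
      have h2 : c o o' ∣ ∏ j, c o j := Finset.dvd_prod_of_mem _ (Finset.mem_univ _)
      rw [h1] at h2
      exact Nat.pos_of_dvd_of_pos h2 (hapos o)
    · simp only [hn, Sum.elim_inr]
      rcases hfT1 t with h1 | h1
      · omega
      · have := hS _ (hTS h1); omega
  · -- product
    rw [Fintype.prod_sum_type, Fintype.prod_prod_type]
    simp only [hn, Sum.elim_inl, Sum.elim_inr]
    rw [Finset.prod_congr rfl (fun o _ => hc1 o (Finset.mem_univ _)), Fintype.prod_option]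
    simp only [Option.elim_none, Option.elim_some]
    rw [hf14, hfT4, eS]
    ring
  · -- decode
    unfold decode
    rw [hD1, hD2]
    simp only [hrow, hcol, hsing]
    have e1 : S1 ∪ T = S := by
      ext p; simp only [hT, hS1, Finset.mem_union, Finset.mem_inter, Finset.mem_sdiff]; tauto
    have e2 : S2 ∪ T = S' := by
      ext p; simp only [hT, hS2, Finset.mem_union, Finset.mem_inter, Finset.mem_sdiff]; tauto
    rw [himage f1 fT S1 T hf11 hf12 hfT1 hfT2 (by rw [e1]; exact hS),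
      himage f2 fT S2 T hf21 hf22 hfT1 hfT2 (by rw [e2]; exact hS'), e1, e2]
  · -- lines
    intro l
    rcases l with i | j | t
    · rw [hrow]
      rcases hf11 i with h1 | h1
      · exact Or.inl h1
      · exact Or.inr (Finset.mem_union_left _ (hS1S h1))
    · rw [hcol]
      rcases hf21 j with h1 | h1
      · exact Or.inl h1
      · exact Or.inr (Finset.mem_union_right _ (hS2S h1))
    · rw [hsing]
      rcases hfT1 t with h1 | h1
      · exact Or.inl h1
      · exact Or.inr (Finset.mem_union_left _ (hTS h1))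
  · -- distinct lines
    have key : ∀ (f g : Fin m → ℕ) (A B : Finset ℕ), (∀ i, f i = 1 ∨ f i + 1 ∈ A) →
        (∀ i, g i = 1 ∨ g i + 1 ∈ B) → Disjoint A B → ∀ i j, f i ≠ 1 → f i ≠ g j := by
      intro f g A B h1 h2 h3 i j hi heq
      rcases h1 i with h | h
      · exact hi h
      · rcases h2 j with h' | h'
        · rw [heq] at hi; exact hi h'
        · rw [heq] at h
          exact Finset.disjoint_left.1 h3 h h'
    have d12 : Disjoint S1 S2 := by
      rw [Finset.disjoint_left]; intro p hp hp'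
      simp only [hS1, hS2, Finset.mem_sdiff] at hp hp'; tauto
    have d1T : Disjoint S1 T := by
      rw [Finset.disjoint_left]; intro p hp hp'
      simp only [hS1, hT, Finset.mem_sdiff, Finset.mem_inter] at hp hp'; tauto
    have d2T : Disjoint S2 T := by
      rw [Finset.disjoint_left]; intro p hp hp'
      simp only [hS2, hT, Finset.mem_sdiff, Finset.mem_inter] at hp hp'; tauto
    intro l l' hll hl
    rcases l with i | j | t <;> rcases l' with i' | j' | t'
    · rw [hrow] at hl ⊢; rw [hrow]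
      exact hf13 i i' (fun h => hll (by rw [h])) hl
    · rw [hrow] at hl ⊢; rw [hcol]
      exact key f1 f2 S1 S2 hf11 hf21 d12 i j' hl
    · rw [hrow] at hl ⊢; rw [hsing]
      exact key f1 fT S1 T hf11 hfT1 d1T i t' hl
    · rw [hcol] at hl ⊢; rw [hrow]
      exact key f2 f1 S2 S1 hf21 hf11 d12.symm j i' hl
    · rw [hcol] at hl ⊢; rw [hcol]
      exact hf23 j j' (fun h => hll (by rw [h])) hl
    · rw [hcol] at hl ⊢; rw [hsing]
      exact key f2 fT S2 T hf21 hfT1 d2T j t' hl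
    · rw [hsing] at hl ⊢; rw [hrow]
      exact key fT f1 T S1 hfT1 hf11 d1T.symm t i' hl
    · rw [hsing] at hl ⊢; rw [hcol]
      exact key fT f2 T S2 hfT1 hf21 d2T.symm t j' hl
    · rw [hsing] at hl ⊢; rw [hsing]
      exact hfT3 t t' (fun h => hll (by rw [h])) hl
  · intro j
    rw [← hD1]
    exact Finset.dvd_prod_of_mem _ (Finset.mem_univ j)
  · intro i
    rw [← hD2]
    exact Finset.dvd_prod_of_mem (fun i => n (.inl (i, none))) (Finset.mem_univ i)
  · intro p hp hp'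
    obtain ⟨i, hi⟩ := hf12 p (by rw [hS1, Finset.mem_sdiff]; exact ⟨hp, hp'⟩)
    exact ⟨i, by rw [hrow, hi]⟩
  · intro p hp hp'
    obtain ⟨j, hj⟩ := hf22 p (by rw [hS2, Finset.mem_sdiff]; exact ⟨hp, hp'⟩)
    exact ⟨j, by rw [hcol, hj]⟩

end Vale.Agent.P031.Col
end
end

section

section

/-! Elementary facts on `ll`, `lev`, `Big`, `prof`, `Om`. -/

namespace Vale.Agent.P031.Col

open Finset

theorem ll_mono {a b : ℝ} (ha : 1 < a) (hab : a ≤ b) : ll a ≤ ll b := by
  unfold ll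
  apply Real.log_le_log (Real.log_pos ha)
  exact Real.log_le_log (by linarith) hab

theorem big_three_le {M q : ℕ} (h : Big M q) : 3 ≤ q := by
  have h2 := h.1.two_le
  rcases Nat.lt_or_ge q 3 with h3 | h3
  · exfalso
    have hq : q = 2 := by omega
    have h4 := h.2
    rw [hq] at h4
    have h5 : (0 : ℝ) ≤ (M : ℝ) ^ 15 := by positivity
    have h6 : ll ((2 : ℕ) : ℝ) < 0 := by
      unfold ll
      apply Real.log_neg
      · have := Real.log_two_gt_d9
        push_cast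
        linarith only [this]
      · have := Real.log_two_lt_d9
        push_cast
        linarith only [this]
    linarith
  · exact h3

theorem lev_mul_le {M q : ℕ} (hM : 1 ≤ M) (h : Big M q) :
    (lev M q : ℝ) * (M : ℝ) ^ 13 ≤ ll (q : ℝ) := by
  have hM' : (0 : ℝ) < (M : ℝ) ^ 13 := by positivity
  have h1 : (0 : ℝ) ≤ ll (q : ℝ) := by
    have := h.2
    have : (0 : ℝ) ≤ (M : ℝ) ^ 15 := by positivity
    linarith only [this, h.2]
  have := Nat.floor_le (a := ll (q : ℝ) / (M : ℝ) ^ 13) (by positivity)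
  unfold lev
  rw [← le_div_iff₀ hM']
  exact this

theorem lt_lev_succ_mul {M : ℕ} (q : ℕ) (hM : 1 ≤ M) :
    ll (q : ℝ) < ((lev M q : ℝ) + 1) * (M : ℝ) ^ 13 := by
  have hM' : (0 : ℝ) < (M : ℝ) ^ 13 := by positivity
  have := Nat.lt_floor_add_one (ll (q : ℝ) / (M : ℝ) ^ 13)
  unfold lev
  rw [div_lt_iff₀ hM'] at this
  exact this

theorem big_of_le_lev {M q : ℕ} (hM : 1 ≤ M) (hq : q.Prime) (h : M ^ 2 ≤ lev M q) : Big M q := by
  have hM' : (0 : ℝ) < (M : ℝ) ^ 13 := by positivity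
  refine ⟨hq, ?_⟩
  unfold lev at h
  have h1 : M ^ 2 ≠ 0 := by positivity
  have h2 := (Nat.le_floor_iff' h1).1 h
  rw [le_div_iff₀ hM'] at h2
  push_cast at h2
  calc (M : ℝ) ^ 15 = (M : ℝ) ^ 2 * (M : ℝ) ^ 13 := by ring
    _ ≤ _ := h2

theorem lev_lt_KK {M q : ℕ} (hM : 1 ≤ M) (h : ll (q : ℝ) ≤ 5 * (M : ℝ) ^ 20) :
    lev M q < KK M := by
  have hM' : (0 : ℝ) < (M : ℝ) ^ 13 := by positivity
  have hM1 : (1 : ℝ) ≤ M := by exact_mod_cast hM
  unfold lev KK
  have h1 : ll (q : ℝ) / (M : ℝ) ^ 13 ≤ 5 * (M : ℝ) ^ 7 := by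
    rw [div_le_iff₀ hM']
    calc _ ≤ _ := h
      _ = _ := by ring
  have h2 : ⌊ll (q : ℝ) / (M : ℝ) ^ 13⌋₊ ≤ 5 * M ^ 7 := by
    apply Nat.floor_le_of_le
    push_cast
    exact h1
  have h3 : 0 < M ^ 7 := by positivity
  omega

/-- `exp (exp (lev q * M^13)) ≤ q` for big primes. -/
theorem exp_exp_lev_le {M q : ℕ} (hM : 1 ≤ M) (h : Big M q) :
    Real.exp (Real.exp ((lev M q : ℝ) * (M : ℝ) ^ 13)) ≤ q := by
  have h3 := big_three_le h
  have hq : (3 : ℝ) ≤ q := by exact_mod_cast h3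
  have h1 := lev_mul_le hM h
  have hlog : 0 < Real.log q := Real.log_pos (by linarith only [hq])
  have h2 : Real.exp ((lev M q : ℝ) * (M : ℝ) ^ 13) ≤ Real.log q := by
    rw [← Real.exp_log hlog]
    exact Real.exp_le_exp.2 h1
  calc _ ≤ Real.exp (Real.log q) := Real.exp_le_exp.2 h2
    _ = q := Real.exp_log (by linarith)

theorem Om_eq_sum {n : ℕ} : Om n = ∑ q ∈ n.primeFactors, n.factorization q := by
  unfold Om
  rw [← List.sum_toFinset_count_eq_length]
  apply Finset.sum_congr rfl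
  intro q _
  exact Nat.primeFactorsList_count_eq

theorem prof_sum_le (M n : ℕ) (s : Finset ℕ) : ∑ k ∈ s, prof M n k ≤ Om n := by
  classical
  rw [Om_eq_sum]
  unfold prof
  have h : ∀ k ∈ s, ∀ q ∈ n.primeFactors.filter (fun q => lev M q = k), lev M q = k :=
    fun k _ q hq => (Finset.mem_filter.1 hq).2
  calc ∑ k ∈ s, ∑ q ∈ n.primeFactors.filter (fun q => lev M q = k), n.factorization q
      = ∑ q ∈ n.primeFactors.filter (fun q => lev M q ∈ s), n.factorization q := by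
        rw [← Finset.sum_fiberwise_of_maps_to (g := lev M) (t := s)
          (s := n.primeFactors.filter (fun q => lev M q ∈ s)) (fun q hq => (Finset.mem_filter.1 hq).2)]
        apply Finset.sum_congr rfl
        intro k hk
        apply Finset.sum_congr _ (fun _ _ => rfl)
        ext q
        simp only [Finset.mem_filter]
        constructor
        · rintro ⟨h1, h2⟩; exact ⟨⟨h1, by rw [h2]; exact hk⟩, h2⟩
        · rintro ⟨⟨h1, _⟩, h2⟩; exact ⟨h1, h2⟩
    _ ≤ _ := Finset.sum_le_sum_of_subset (Finset.filter_subset _ _)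

theorem prof_eq_zero_of {M n k : ℕ} (h : ∀ q : ℕ, q.Prime → q ∣ n → lev M q ≠ k) :
    prof M n k = 0 := by
  unfold prof
  apply Finset.sum_eq_zero
  intro q hq
  rw [Finset.mem_filter, Nat.mem_primeFactors] at hq
  exact absurd hq.2 (h q hq.1.1 hq.1.2.1)

theorem exists_of_prof_pos {M n k : ℕ} (h : 0 < prof M n k) :
    ∃ q : ℕ, q.Prime ∧ q ∣ n ∧ lev M q = k := by
  by_contra hcon
  push Not at hcon
  have := prof_eq_zero_of (M := M) (n := n) (k := k) hcon
  omega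

end Vale.Agent.P031.Col
end
end

section

section

/-! Collision lemma, part 1: data attached to a matrix of cells. -/

namespace Vale.Agent.P031.Col

open Finset Filter Topology

open Classical in
/-- level of a line: largest level of a big prime factor of the line product; zero if none -/
noncomputable def kap (M m : ℕ) (n : Cell m → ℕ) (l : Line m) : ℕ :=
  ((lineProd (linc m) n l).primeFactors.filter (fun q => Big M q)).sup (lev M)

/-- levels allowed in a cell -/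
def okc {m : ℕ} (κ : Line m → ℕ) : Cell m → ℕ → Prop
  | .inl (some i, some j), k => k ≤ κ (.inl i) ∧ k ≤ κ (.inr (.inl j))
  | .inl (some _, none), _ => False
  | .inl (none, _), _ => False
  | .inr t, k => k ≤ κ (.inr (.inr t))

/-- the threshold of a line -/
noncomputable def zz (M : ℕ) {m : ℕ} (κ : Line m → ℕ) (l : Line m) : ℝ :=
  Real.exp (Real.exp ((κ l : ℝ) * (M : ℝ) ^ 13))

/-- the saving of a line -/
noncomputable def sv (M : ℕ) {m : ℕ} (κ : Line m → ℕ) (l : Line m) : ℝ :=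
  Real.exp (-((κ l : ℝ) * (M : ℝ) ^ 13))

/-- constrained lines -/
def Lset (M : ℕ) {m : ℕ} (κ : Line m → ℕ) : Finset (Line m) :=
  Finset.univ.filter (fun l => M ^ 2 ≤ κ l)

/-- matrices with given data -/
structure GoodN (M m X : ℕ) (κ : Line m → ℕ) (N : ℕ → ℕ) (n : Cell m → ℕ) : Prop where
  box : n ∈ box (Cell m) X
  adm : LAdm (linc m) (zz M κ) (Lset M κ) n
  ok : ∀ c R, Big M R → R ∣ n c → okc κ c (lev M R)
  prof : ∀ k ∈ Finset.Ico (M ^ 2) (KK M), prof M (∏ c, n c) k = N k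

theorem kap_pos_iff {M m : ℕ} {n : Cell m → ℕ} {l : Line m} (h : kap M m n l ≠ 0) :
    ∃ R : ℕ, Big M R ∧ R ∣ lineProd (linc m) n l ∧ lev M R = kap M m n l := by
  classical
  have hne : ((lineProd (linc m) n l).primeFactors.filter (fun q => Big M q)).Nonempty := by
    by_contra hcon
    rw [Finset.not_nonempty_iff_eq_empty] at hcon
    apply h
    unfold kap
    rw [hcon, Finset.sup_empty]
    rfl
  obtain ⟨R, hR, hsup⟩ := Finset.exists_mem_eq_sup _ hne (lev M)
  rw [Finset.mem_filter, Nat.mem_primeFactors] at hR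
  exact ⟨R, hR.2, hR.1.2.1, by unfold kap; exact hsup.symm⟩

theorem le_kap {M m : ℕ} {n : Cell m → ℕ} {l : Line m} {R : ℕ} (hpos : ∀ c, 0 < n c)
    (hR : Big M R) (hd : R ∣ lineProd (linc m) n l) : lev M R ≤ kap M m n l := by
  classical
  unfold kap
  apply Finset.le_sup (f := lev M)
  rw [Finset.mem_filter, Nat.mem_primeFactors]
  refine ⟨⟨hR.1, hd, ?_⟩, hR⟩
  exact (Finset.prod_pos (fun c _ => hpos c)).ne'

theorem dvd_lineProd {m : ℕ} {n : Cell m → ℕ} {l : Line m} {c : Cell m} (h : c ∈ linc m l) :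
    n c ∣ lineProd (linc m) n l := Finset.dvd_prod_of_mem _ h

theorem mem_linc_row {m : ℕ} (i : Fin m) (o : Option (Fin m)) :
    (Sum.inl (some i, o) : Cell m) ∈ linc m (.inl i) := by
  unfold linc
  exact Finset.mem_image.2 ⟨o, Finset.mem_univ _, rfl⟩

theorem mem_linc_col {m : ℕ} (o : Option (Fin m)) (j : Fin m) :
    (Sum.inl (o, some j) : Cell m) ∈ linc m (.inr (.inl j)) := by
  unfold linc
  exact Finset.mem_image.2 ⟨o, Finset.mem_univ _, rfl⟩

theorem mem_linc_single {m : ℕ} (t : Fin m) :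
    (Sum.inr t : Cell m) ∈ linc m (.inr (.inr t)) := by
  unfold linc
  exact Finset.mem_singleton_self _

/-- every cell is on at most two lines -/
theorem lines_le_two {m : ℕ} (c : Cell m) (L : Finset (Line m)) (h : ∀ l ∈ L, c ∈ linc m l) :
    L.card ≤ 2 := by
  have key : ∀ a b : Line m, (∀ l, c ∈ linc m l → l = a ∨ l = b) → L.card ≤ 2 := by
    intro a b hab
    have : L ⊆ {a, b} := by
      intro l hl
      rcases hab l (h l hl) with h' | h' <;> simp [h']
    exact (Finset.card_le_card this).trans Finset.card_le_two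
  have keyrow : ∀ i, c ∈ linc m (.inl i) → ∃ o, c = .inl (some i, o) := by
    intro i hi
    unfold linc at hi
    obtain ⟨o, _, ho⟩ := Finset.mem_image.1 hi
    exact ⟨o, ho.symm⟩
  have keycol : ∀ j, c ∈ linc m (.inr (.inl j)) → ∃ o, c = .inl (o, some j) := by
    intro i hi
    unfold linc at hi
    obtain ⟨o, _, ho⟩ := Finset.mem_image.1 hi
    exact ⟨o, ho.symm⟩
  have keys : ∀ t, c ∈ linc m (.inr (.inr t)) → c = .inr t := by
    intro t ht
    unfold linc at ht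
    exact Finset.mem_singleton.1 ht
  rcases L.eq_empty_or_nonempty with rfl | ⟨l0, hl0⟩
  · simp
  have hc0 := h l0 hl0
  rcases c with ⟨o, o'⟩ | t
  · -- rows and columns
    have hall : ∀ l, (Sum.inl (o, o') : Cell m) ∈ linc m l →
        (∃ i, o = some i ∧ l = .inl i) ∨ (∃ j, o' = some j ∧ l = .inr (.inl j)) := by
      intro l hl
      rcases l with i | j | t
      · obtain ⟨x, hx⟩ := keyrow i hl
        left
        refine ⟨i, ?_, rfl⟩
        simpa using (congrArg Prod.fst (Sum.inl.inj hx))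
      · obtain ⟨x, hx⟩ := keycol j hl
        right
        refine ⟨j, ?_, rfl⟩
        simpa using (congrArg Prod.snd (Sum.inl.inj hx))
      · have := keys t hl
        exact absurd this (by simp)
    cases o with
    | none =>
      cases o' with
      | none =>
        apply key l0 l0
        intro l hl
        rcases hall l hl with ⟨i, hi, _⟩ | ⟨j, hj, _⟩
        · exact absurd hi (by simp)
        · exact absurd hj (by simp)
      | some j =>
        apply key (.inr (.inl j)) (.inr (.inl j))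
        intro l hl
        rcases hall l hl with ⟨i, hi, _⟩ | ⟨j', hj, hl'⟩
        · exact absurd hi (by simp)
        · rw [Option.some.injEq] at hj
          rw [hl', hj]; simp
    | some i =>
      cases o' with
      | none =>
        apply key (.inl i) (.inl i)
        intro l hl
        rcases hall l hl with ⟨i', hi, hl'⟩ | ⟨j', hj, hl'⟩
        · rw [Option.some.injEq] at hi
          rw [hl', hi]; simp
        · exact absurd hj (by simp)
      | some j =>
        apply key (.inl i) (.inr (.inl j))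
        intro l hl
        rcases hall l hl with ⟨i', hi, hl'⟩ | ⟨j', hj, hl'⟩
        · rw [Option.some.injEq] at hi
          rw [hl', hi]; simp
        · rw [Option.some.injEq] at hj
          rw [hl', hj]; simp
  · apply key (.inr (.inr t)) (.inr (.inr t))
    intro l hl
    rcases l with i | j | t'
    · obtain ⟨x, hx⟩ := keyrow i hl
      exact absurd hx (by simp)
    · obtain ⟨x, hx⟩ := keycol j hl
      exact absurd hx (by simp)
    · have := keys t' hl
      rw [Sum.inr.injEq] at this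
      rw [this]; simp

/-- the matrix of a pair of representations has its own data -/
theorem goodN_of_mat {M m X : ℕ} (hM : 1 ≤ M) {S : Finset ℕ} {D : ℕ} {S' : Finset ℕ}
    {D' u : ℕ} {n : Cell m → ℕ} (hmat : Mat m S D S' D' u n) (hS : ∀ p ∈ S, Big M p)
    (hS' : ∀ p ∈ S', Big M p) (hD : Small M D) (hD' : Small M D') (huX : u ≤ X) :
    GoodN M m X (kap M m n) (prof M u) n := by
  have hu : 0 < u := by
    rw [← hmat.prod]; exact Finset.prod_pos (fun c _ => hmat.pos c)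
  have hle : ∀ c, n c ≤ u := by
    intro c
    apply Nat.le_of_dvd hu
    rw [← hmat.prod]
    exact Finset.dvd_prod_of_mem _ (Finset.mem_univ c)
  have hM2 : 0 < M ^ 2 := by positivity
  refine ⟨?_, ⟨?_, ?_, ?_⟩, ?_, ?_⟩
  · rw [mem_box]
    exact fun c => ⟨hmat.pos c, (hle c).trans huX⟩
  · intro l hl
    rw [Lset, Finset.mem_filter] at hl
    obtain ⟨R, hR, hd, -⟩ := kap_pos_iff (M := M) (n := n) (l := l) (by omega)
    rcases hmat.line l with h1 | h1
    · rw [h1] at hd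
      have := big_three_le hR
      have := Nat.le_of_dvd one_pos hd
      omega
    · rcases Finset.mem_union.1 h1 with h2 | h2
      · exact (hS _ h2).1
      · exact (hS' _ h2).1
  · intro l hl
    rw [Lset, Finset.mem_filter] at hl
    obtain ⟨R, hR, hd, hlev⟩ := kap_pos_iff (M := M) (n := n) (l := l) (by omega)
    refine ⟨R, hR.1, hd, ?_⟩
    unfold zz
    rw [← hlev]
    exact exp_exp_lev_le hM hR
  · intro l hl l' hl' hne
    rw [Lset, Finset.mem_filter] at hl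
    obtain ⟨R, hR, hd, hlev⟩ := kap_pos_iff (M := M) (n := n) (l := l) (by omega)
    apply hmat.ne l l' hne
    intro h1
    rw [h1] at hd
    have := big_three_le hR
    have := Nat.le_of_dvd one_pos hd
    omega
  · intro c R hR hd
    rcases c with ⟨o, o'⟩ | t
    · cases o with
      | none =>
        exfalso
        exact hD.2 R (hd.trans (hmat.dvd o')) hR
      | some i =>
        cases o' with
        | none =>
          exfalso
          exact hD'.2 R (hd.trans (hmat.dvd' (some i))) hR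
        | some j =>
          refine ⟨?_, ?_⟩
          · exact le_kap hmat.pos hR (hd.trans (dvd_lineProd (mem_linc_row i (some j))))
          · exact le_kap hmat.pos hR (hd.trans (dvd_lineProd (mem_linc_col (some i) j)))
    · exact le_kap hmat.pos hR (hd.trans (dvd_lineProd (mem_linc_single t)))
  · intro k _
    rw [hmat.prod]

end Vale.Agent.P031.Col
end
end

section

section

/-! Number of roots of `n ∏ (a n + 1)` modulo squarefree numbers. -/

open Finset Nat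

namespace Vale.Agent.P031

/-- `n ∏_{a ∈ A} (a n + 1)` -/
def form (A : Finset ℕ) (n : ℕ) : ℕ := n * ∏ a ∈ A, (a * n + 1)

/-- number of roots of the form modulo `d` -/
noncomputable def rt (A : Finset ℕ) (d : ℕ) : ℕ :=
  Nat.card {x : ZMod d // x * ∏ a ∈ A, ((a : ZMod d) * x + 1) = 0}

lemma rt_mul (A : Finset ℕ) {m n : ℕ} (h : Nat.Coprime m n) :
    rt A (m * n) = rt A m * rt A n := by
  unfold rt
  rw [← Nat.card_prod]
  let e := ZMod.chineseRemainder h
  have key : ∀ x : ZMod (m * n), e (x * ∏ a ∈ A, ((a : ZMod (m * n)) * x + 1)) =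
      ((e x).1 * ∏ a ∈ A, ((a : ZMod m) * (e x).1 + 1),
        (e x).2 * ∏ a ∈ A, ((a : ZMod n) * (e x).2 + 1)) := by
    intro x
    rw [map_mul, map_prod]
    have : ∀ a ∈ A, e ((a : ZMod (m * n)) * x + 1) =
        ((a : ZMod m) * (e x).1 + 1, (a : ZMod n) * (e x).2 + 1) := by
      intro a _
      rw [map_add, map_mul, map_natCast, map_one]
      rfl
    rw [Finset.prod_congr rfl this]
    ext
    · simp [Prod.fst_prod]
    · simp [Prod.snd_prod]
  have hiff : ∀ x : ZMod (m * n), x * ∏ a ∈ A, ((a : ZMod (m * n)) * x + 1) = 0 ↔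
      ((e x).1 * ∏ a ∈ A, ((a : ZMod m) * (e x).1 + 1) = 0 ∧
        (e x).2 * ∏ a ∈ A, ((a : ZMod n) * (e x).2 + 1) = 0) := by
    intro x
    rw [← map_eq_zero_iff e e.injective, key x, Prod.mk_eq_zero]
  refine Nat.card_congr ?_
  exact
    { toFun := fun x => (⟨(e x.1).1, ((hiff x.1).1 x.2).1⟩, ⟨(e x.1).2, ((hiff x.1).1 x.2).2⟩)
      invFun := fun y => ⟨e.symm (y.1.1, y.2.1), by
        rw [hiff]
        simp only [RingEquiv.apply_symm_apply]
        exact ⟨y.1.2, y.2.2⟩⟩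
      left_inv := by
        intro x
        apply Subtype.ext
        simp
      right_inv := by
        intro y
        simp }

lemma rt_one (A : Finset ℕ) : rt A 1 = 1 := by
  unfold rt
  have : Subsingleton {x : ZMod 1 // x * ∏ a ∈ A, ((a : ZMod 1) * x + 1) = 0} := by
    constructor
    intro a b
    apply Subtype.ext
    exact Subsingleton.elim _ _
  have h2 : Nonempty {x : ZMod 1 // x * ∏ a ∈ A, ((a : ZMod 1) * x + 1) = 0} :=
    ⟨⟨0, Subsingleton.elim _ _⟩⟩
  exact Nat.card_unique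

lemma rt_prime (A : Finset ℕ) {p : ℕ} (hp : p.Prime) (h1 : ∀ a ∈ A, ¬ p ∣ a)
    (h2 : ∀ a ∈ A, ∀ b ∈ A, (a : ZMod p) = b → a = b) : rt A p = A.card + 1 := by
  have : Fact p.Prime := ⟨hp⟩
  unfold rt
  rw [Nat.card_eq_fintype_card, Fintype.card_subtype]
  have ha0 : ∀ a ∈ A, (a : ZMod p) ≠ 0 := by
    intro a ha h
    exact h1 a ha ((ZMod.natCast_eq_zero_iff a p).1 h)
  have : (Finset.univ.filter (fun x : ZMod p => x * ∏ a ∈ A, ((a : ZMod p) * x + 1) = 0)) =
      insert 0 (A.image (fun a : ℕ => -((a : ZMod p)⁻¹))) := by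
    ext x
    simp only [Finset.mem_filter, Finset.mem_univ, true_and, _root_.mul_eq_zero, Finset.prod_eq_zero_iff,
      Finset.mem_insert, Finset.mem_image]
    constructor
    · rintro (h | ⟨a, ha, h⟩)
      · left; exact h
      · right
        refine ⟨a, ha, ?_⟩
        have := ha0 a ha
        field_simp
        linear_combination -h
    · rintro (h | ⟨a, ha, h⟩)
      · left; exact h
      · right
        refine ⟨a, ha, ?_⟩
        rw [← h]
        have := ha0 a ha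
        field_simp
        ring
  rw [this, Finset.card_insert_of_notMem, Finset.card_image_of_injOn]
  · intro a ha b hb hab
    simp only [neg_inj, inv_inj] at hab
    exact h2 a ha b hb hab
  · intro h
    obtain ⟨a, ha, h⟩ := Finset.mem_image.1 h
    rw [neg_eq_zero, inv_eq_zero] at h
    exact ha0 a ha h

lemma rt_prod_primes (A : Finset ℕ) (S : Finset ℕ) (hS : ∀ p ∈ S, p.Prime)
    (h : ∀ p ∈ S, rt A p = A.card + 1) : rt A (∏ p ∈ S, p) = (A.card + 1) ^ S.card := by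
  induction S using Finset.induction_on with
  | empty => simp [rt_one]
  | insert q S hq ih =>
    rw [Finset.prod_insert hq, rt_mul, ih (fun p hp => hS p (Finset.mem_insert_of_mem hp))
      (fun p hp => h p (Finset.mem_insert_of_mem hp)), h q (Finset.mem_insert_self q S),
      Finset.card_insert_of_notMem hq, pow_succ, mul_comm]
    apply Nat.Coprime.prod_right
    intro p hp
    rw [Nat.coprime_primes (hS q (Finset.mem_insert_self q S)) (hS p (Finset.mem_insert_of_mem hp))]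
    rintro rfl
    exact hq hp

lemma rt_squarefree (A : Finset ℕ) {d : ℕ} (hd : Squarefree d)
    (h : ∀ p ∈ d.primeFactors, rt A p = A.card + 1) :
    rt A d = (A.card + 1) ^ d.primeFactors.card := by
  have := rt_prod_primes A d.primeFactors (fun p hp => Nat.prime_of_mem_primeFactors hp) h
  rwa [Nat.prod_primeFactors_of_squarefree hd] at this

/-- counting integers `n ≤ N` with `d ∣ form A n` -/
lemma form_count (A : Finset ℕ) {d N : ℕ} (hd : d ≠ 0) :
    |(((Icc 1 N).filter (fun n => d ∣ form A n)).card : ℝ) - (rt A d : ℝ) * N / d| ≤ rt A d := by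
  have : NeZero d := ⟨hd⟩
  set R : Finset (ZMod d) :=
    Finset.univ.filter (fun x : ZMod d => x * ∏ a ∈ A, ((a : ZMod d) * x + 1) = 0) with hR
  have hrt : rt A d = R.card := by
    unfold rt
    rw [Nat.card_eq_fintype_card, Fintype.card_subtype]
  have hcast : ∀ n : ℕ, d ∣ form A n ↔ (n : ZMod d) ∈ R := by
    intro n
    rw [← ZMod.natCast_eq_zero_iff, hR, Finset.mem_filter]
    unfold form
    push_cast
    simp
  have hmaps : ∀ n ∈ (Icc 1 N).filter (fun n => d ∣ form A n), (n : ZMod d) ∈ R := by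
    intro n hn
    exact (hcast n).1 (Finset.mem_filter.1 hn).2
  have hcard := Finset.card_eq_sum_card_fiberwise hmaps
  have hfib : ∀ x ∈ R, (((Icc 1 N).filter (fun n => d ∣ form A n)).filter
      (fun n : ℕ => (n : ZMod d) = x)) = (Icc 1 N).filter (fun n => n ≡ x.val [MOD d]) := by
    intro x hx
    ext n
    simp only [Finset.mem_filter]
    constructor
    · rintro ⟨⟨h1, _⟩, h3⟩
      refine ⟨h1, ?_⟩
      rw [← ZMod.natCast_eq_natCast_iff, ZMod.natCast_val, ZMod.cast_id, h3]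
    · rintro ⟨h1, h2⟩
      rw [← ZMod.natCast_eq_natCast_iff, ZMod.natCast_val, ZMod.cast_id] at h2
      have h3 : (n : ZMod d) = x := h2
      refine ⟨⟨h1, (hcast n).2 (h3 ▸ hx)⟩, h3⟩
  have hcard2 : ((((Icc 1 N).filter (fun n => d ∣ form A n)).card : ℕ) : ℝ) =
      ∑ x ∈ R, ((((Icc 1 N).filter (fun n => n ≡ x.val [MOD d])).card : ℕ) : ℝ) := by
    rw [hcard]
    push_cast
    apply Finset.sum_congr rfl
    intro x hx
    rw [hfib x hx]
  rw [hcard2, hrt]
  have : (R.card : ℝ) * N / d = ∑ x ∈ R, (N : ℝ) / d := by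
    rw [Finset.sum_const, nsmul_eq_mul]; ring
  rw [this, ← Finset.sum_sub_distrib]
  calc _ ≤ ∑ x ∈ R, |((((Icc 1 N).filter (fun n => n ≡ x.val [MOD d])).card : ℕ) : ℝ) - (N:ℝ) / d| :=
        Finset.abs_sum_le_sum_abs _ _
    _ ≤ ∑ x ∈ R, (1:ℝ) := Finset.sum_le_sum fun x _ =>
        Vale.Agent.P005.Selberg.class_count N d x.val (Nat.pos_of_ne_zero hd)
    _ = R.card := by simp

end Vale.Agent.P031
end
end

section

section

/-! Selberg sieve bound for `n, a n + 1 (a ∈ A)` simultaneously prime, raw form. -/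

open Finset Nat ArithmeticFunction

namespace Vale.Agent.P031

open BoundingSieve Vale.Agent.P005.Selberg

/-- primes up to `z` not dividing `Q` -/
def goodPrimes (Q z : ℕ) : Finset ℕ := (Icc 1 z).filter (fun p => p.Prime ∧ ¬ p ∣ Q)

lemma mem_goodPrimes {Q z p : ℕ} : p ∈ goodPrimes Q z ↔ p ≤ z ∧ p.Prime ∧ ¬ p ∣ Q := by
  simp only [goodPrimes, Finset.mem_filter, Finset.mem_Icc]
  constructor
  · rintro ⟨h1, h2⟩; exact ⟨h1.2, h2⟩
  · rintro ⟨h1, h2⟩; exact ⟨⟨h2.1.one_le, h1⟩, h2⟩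

lemma sqfree_prod_primes (S : Finset ℕ) (hS : ∀ p ∈ S, p.Prime) : Squarefree (∏ p ∈ S, p) := by
  induction S using Finset.induction_on with
  | empty => simp
  | insert q S hq ih =>
    rw [Finset.prod_insert hq]
    have hc : Nat.Coprime q (∏ p ∈ S, p) := by
      apply Nat.Coprime.prod_right
      intro p hp
      rw [Nat.coprime_primes (hS q (Finset.mem_insert_self q S)) (hS p (Finset.mem_insert_of_mem hp))]
      rintro rfl
      exact hq hp
    rw [Nat.squarefree_mul hc]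
    exact ⟨(hS q (Finset.mem_insert_self q S)).squarefree,
      ih (fun p hp => hS p (Finset.mem_insert_of_mem hp))⟩

lemma prime_dvd_prod {S : Finset ℕ} (hS : ∀ p ∈ S, p.Prime) {p : ℕ} (hp : p.Prime) :
    p ∣ ∏ q ∈ S, q ↔ p ∈ S := by
  constructor
  · intro h
    obtain ⟨q, hq, hpq⟩ := (Prime.dvd_finsetProd_iff hp.prime _).1 h
    rwa [(Nat.prime_dvd_prime_iff_eq hp (hS q hq)).1 hpq]
  · intro h; exact Finset.dvd_prod_of_mem _ h

lemma goodPrimes_prime {Q z : ℕ} : ∀ p ∈ goodPrimes Q z, p.Prime := fun _ hp => (mem_goodPrimes.1 hp).2.1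

lemma form_injOn (A : Finset ℕ) (N : ℕ) : Set.InjOn (form A) ((Icc 1 N : Finset ℕ) : Set ℕ) := by
  have hmono : StrictMono (form A) := by
    intro a b hab
    unfold form
    have h1 : ∏ c ∈ A, (c * a + 1) ≤ ∏ c ∈ A, (c * b + 1) := by
      apply Finset.prod_le_prod'
      intro c _
      have := Nat.mul_le_mul_left c hab.le
      omega
    have h2 : 0 < ∏ c ∈ A, (c * a + 1) := Finset.prod_pos (fun c _ => by omega)
    calc a * ∏ c ∈ A, (c * a + 1) < b * ∏ c ∈ A, (c * a + 1) := Nat.mul_lt_mul_of_pos_right hab h2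
      _ ≤ b * ∏ c ∈ A, (c * b + 1) := Nat.mul_le_mul_left b h1
  exact hmono.injective.injOn

/-- admissibility: every prime not dividing `Q` has the generic number of roots, and is larger
than the number of forms. -/
structure SAdm (A : Finset ℕ) (Q : ℕ) : Prop where
  ne_zero : Q ≠ 0
  big : ∀ p : ℕ, p.Prime → ¬ p ∣ Q → A.card + 1 < p
  rt_eq : ∀ p : ℕ, p.Prime → ¬ p ∣ Q → rt A p = A.card + 1

/-- The sieve problem. -/
noncomputable def tupleSieve (A : Finset ℕ) (Q N z : ℕ) (h : SAdm A Q) : BoundingSieve where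
  support := (Icc 1 N).image (form A)
  prodPrimes := ∏ p ∈ goodPrimes Q z, p
  prodPrimes_squarefree := sqfree_prod_primes _ goodPrimes_prime
  weights := fun _ => 1
  weights_nonneg := fun _ => zero_le_one
  totalMass := N
  nu := prodPrimeFactors (fun p => ((A.card + 1 : ℕ) : ℝ) / p)
  nu_mult := IsMultiplicative.prodPrimeFactors _
  nu_pos_of_prime := by
    intro p hp _
    rw [prodPrimeFactors_apply hp.ne_zero, Nat.Prime.primeFactors hp, Finset.prod_singleton]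
    have := hp.pos
    positivity
  nu_lt_one_of_prime := by
    intro p hp hpd
    have h3 := (mem_goodPrimes.1 ((prime_dvd_prod goodPrimes_prime hp).1 hpd)).2.2
    rw [prodPrimeFactors_apply hp.ne_zero, Nat.Prime.primeFactors hp, Finset.prod_singleton]
    have h4 := h.big p hp h3
    have hp0 : (0:ℝ) < p := by exact_mod_cast hp.pos
    rw [div_lt_one hp0]
    exact_mod_cast h4

variable {A : Finset ℕ} {Q N z : ℕ} (h : SAdm A Q)

lemma tuple_nu {d : ℕ} (hd : Squarefree d) :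
    (tupleSieve A Q N z h).nu d = (((A.card + 1) ^ d.primeFactors.card : ℕ) : ℝ) / d := by
  change (prodPrimeFactors (fun p => ((A.card + 1 : ℕ) : ℝ) / p)) d = _
  rw [prodPrimeFactors_apply hd.ne_zero, Finset.prod_div_distrib]
  congr 1
  · rw [Finset.prod_const]; push_cast; rfl
  · rw [← Nat.cast_prod, Nat.prod_primeFactors_of_squarefree hd]

lemma good_of_dvd {d p : ℕ} (hd : d ∣ (tupleSieve A Q N z h).prodPrimes) (hp : p ∈ d.primeFactors) :
    p ∈ goodPrimes Q z := by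
  have hpp := Nat.prime_of_mem_primeFactors hp
  exact (prime_dvd_prod goodPrimes_prime hpp).1 ((Nat.dvd_of_mem_primeFactors hp).trans hd)

lemma tuple_rem {d : ℕ} (hd : d ∣ (tupleSieve A Q N z h).prodPrimes) :
    |(tupleSieve A Q N z h).rem d| ≤ d := by
  have hsq := squarefree_of_dvd_prodPrimes hd
  have hc := form_count A (N := N) hsq.ne_zero
  have hrt : rt A d = (A.card + 1) ^ d.primeFactors.card := by
    apply rt_squarefree A hsq
    intro p hp
    have := mem_goodPrimes.1 (good_of_dvd h hd hp)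
    exact h.rt_eq p this.2.1 this.2.2
  have hle : rt A d ≤ d := by
    rw [hrt, ← Finset.prod_const]
    calc ∏ p ∈ d.primeFactors, (A.card + 1) ≤ ∏ p ∈ d.primeFactors, p := by
          apply Finset.prod_le_prod'
          intro p hp
          have := mem_goodPrimes.1 (good_of_dvd h hd hp)
          exact (h.big p this.2.1 this.2.2).le
      _ = d := Nat.prod_primeFactors_of_squarefree hsq
  unfold rem
  rw [tuple_nu h hsq]
  have h2 : (tupleSieve A Q N z h).multSum d =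
      (((Icc 1 N).filter (fun n => d ∣ form A n)).card : ℝ) := by
    unfold multSum
    change ∑ x ∈ (Icc 1 N).image (form A), (if d ∣ x then (1:ℝ) else 0) = _
    rw [Finset.sum_image (form_injOn A N), Finset.card_filter]
    push_cast
    rfl
  rw [h2, ← hrt]
  have e : (rt A d : ℝ) / d * (tupleSieve A Q N z h).totalMass = (rt A d : ℝ) * N / d := by
    change (rt A d : ℝ) / d * (N:ℝ) = _
    ring
  rw [e]
  exact hc.trans (by exact_mod_cast hle)

lemma tuple_err : ∑ d1 ∈ dset (tupleSieve A Q N z h) z, ∑ d2 ∈ dset (tupleSieve A Q N z h) z,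
      |(tupleSieve A Q N z h).rem (Nat.lcm d1 d2)| ≤ (z:ℝ) ^ 4 := by
  have hcard : ((dset (tupleSieve A Q N z h) z).card : ℝ) ≤ z := by
    have : dset (tupleSieve A Q N z h) z ⊆ Icc 1 z := by
      intro d hd
      have := mem_dset.1 hd
      rw [Finset.mem_Icc]
      exact ⟨Nat.pos_of_dvd_of_pos this.1 (Nat.pos_of_ne_zero prodPrimes_ne_zero), this.2⟩
    have := Finset.card_le_card this
    rw [Nat.card_Icc] at this
    exact_mod_cast (by omega : (dset (tupleSieve A Q N z h) z).card ≤ z)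
  have hterm : ∀ d1 ∈ dset (tupleSieve A Q N z h) z, ∀ d2 ∈ dset (tupleSieve A Q N z h) z,
      |(tupleSieve A Q N z h).rem (Nat.lcm d1 d2)| ≤ (z:ℝ)^2 := by
    intro d1 h1 d2 h2
    have h1' := mem_dset.1 h1
    have h2' := mem_dset.1 h2
    refine (tuple_rem h (Nat.lcm_dvd h1'.1 h2'.1)).trans ?_
    have : Nat.lcm d1 d2 ≤ z ^ 2 := by
      calc Nat.lcm d1 d2 ≤ d1 * d2 := by
            apply Nat.le_of_dvd
            · exact Nat.mul_pos (Nat.pos_of_dvd_of_pos h1'.1 (Nat.pos_of_ne_zero prodPrimes_ne_zero))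
                (Nat.pos_of_dvd_of_pos h2'.1 (Nat.pos_of_ne_zero prodPrimes_ne_zero))
            · exact Nat.lcm_dvd_mul d1 d2
        _ ≤ z * z := Nat.mul_le_mul h1'.2 h2'.2
        _ = z ^ 2 := by ring
    exact_mod_cast this
  calc _ ≤ ∑ d1 ∈ dset (tupleSieve A Q N z h) z, ∑ d2 ∈ dset (tupleSieve A Q N z h) z, (z:ℝ)^2 :=
        Finset.sum_le_sum fun d1 h1 => Finset.sum_le_sum fun d2 h2 => hterm d1 h1 d2 h2
    _ = ((dset (tupleSieve A Q N z h) z).card : ℝ) *
          (((dset (tupleSieve A Q N z h) z).card : ℝ) * (z:ℝ)^2) := by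
        simp only [Finset.sum_const, nsmul_eq_mul]
    _ ≤ z * (z * (z:ℝ)^2) := by gcongr
    _ = (z:ℝ)^4 := by ring

/-- divisor sums of `j ^ Ω` -/
lemma sum_divisors_cm_le (j : ℕ) (n : ℕ) :
    n ≠ 0 → ∑ a ∈ n.divisors, Vale.Agent.P005.Selberg.cm (fun _ => (j:ℝ)) a ≤ Vale.Agent.P005.Selberg.cm (fun _ => ((j+1 : ℕ):ℝ)) n := by
  have hnn : ∀ m : ℕ, 0 ≤ Vale.Agent.P005.Selberg.cm (fun _ => (j:ℝ)) m := fun m => cm_nonneg (fun _ _ => Nat.cast_nonneg j) m
  induction n using induction_on_primes with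
  | zero => intro h; exact absurd rfl h
  | one =>
    intro _
    rw [map_one, Nat.divisors_one, Finset.sum_singleton, map_one]
  | prime_mul p a hp ih =>
    intro hpa
    have ha : a ≠ 0 := by rintro rfl; simp at hpa
    rw [map_mul, cm_prime hp]
    have ih' := ih ha
    have hsub : (p * a).divisors ⊆ a.divisors ∪ a.divisors.image (fun e => p * e) := by
      intro e he
      rw [Nat.mem_divisors] at he
      rw [Finset.mem_union, Finset.mem_image, Nat.mem_divisors]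
      by_cases hpe : p ∣ e
      · right
        obtain ⟨e', rfl⟩ := hpe
        refine ⟨e', ?_, rfl⟩
        rw [Nat.mem_divisors]
        exact ⟨Nat.dvd_of_mul_dvd_mul_left hp.pos he.1, ha⟩
      · left
        have hc : Nat.Coprime e p := ((Nat.Prime.coprime_iff_not_dvd hp).2 hpe).symm
        exact ⟨hc.dvd_of_dvd_mul_left he.1, ha⟩
    calc ∑ e ∈ (p * a).divisors, Vale.Agent.P005.Selberg.cm (fun _ => (j:ℝ)) e
        ≤ ∑ e ∈ a.divisors ∪ a.divisors.image (fun e => p * e), Vale.Agent.P005.Selberg.cm (fun _ => (j:ℝ)) e :=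
          Finset.sum_le_sum_of_subset_of_nonneg hsub (fun m _ _ => hnn m)
      _ ≤ ∑ e ∈ a.divisors, Vale.Agent.P005.Selberg.cm (fun _ => (j:ℝ)) e +
          ∑ e ∈ a.divisors.image (fun e => p * e), Vale.Agent.P005.Selberg.cm (fun _ => (j:ℝ)) e := by
          rw [← Finset.sum_union_inter]
          exact le_add_of_nonneg_right (Finset.sum_nonneg fun m _ => hnn m)
      _ = ∑ e ∈ a.divisors, Vale.Agent.P005.Selberg.cm (fun _ => (j:ℝ)) e +
          j * ∑ e ∈ a.divisors, Vale.Agent.P005.Selberg.cm (fun _ => (j:ℝ)) e := by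
          rw [Finset.sum_image (fun x _ y _ hxy => Nat.eq_of_mul_eq_mul_left hp.pos hxy),
            Finset.mul_sum]
          congr 1
          apply Finset.sum_congr rfl
          intro e _
          rw [map_mul, cm_prime hp]
      _ ≤ ((j+1 : ℕ):ℝ) * Vale.Agent.P005.Selberg.cm (fun _ => ((j+1 : ℕ):ℝ)) a := by
          push_cast
          push_cast at ih'
          nlinarith only [ih']

/-- iterated lower bound -/
lemma cm_sum_ge (Q w : ℕ) (j : ℕ) :
    (∑ b ∈ (Icc 1 w).filter (fun a => Nat.Coprime a Q), (b:ℝ)⁻¹) ^ j ≤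
      ∑ n ∈ (Icc 1 (w^j)).filter (fun a => Nat.Coprime a Q), Vale.Agent.P005.Selberg.cm (fun _ => (j:ℝ)) n * (n:ℝ)⁻¹ := by
  induction j with
  | zero =>
    have : (1:ℕ) ∈ (Icc 1 (w^0)).filter (fun a => Nat.Coprime a Q) := by simp
    have h1 := Finset.single_le_sum (f := fun n : ℕ => Vale.Agent.P005.Selberg.cm (fun _ => ((0:ℕ):ℝ)) n * (n:ℝ)⁻¹)
      (fun n _ => mul_nonneg (cm_nonneg (fun _ _ => Nat.cast_nonneg 0) n) (by positivity)) this
    simpa using h1
  | succ j ih =>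
    set H := (Icc 1 w).filter (fun a => Nat.Coprime a Q) with hH
    set B := (Icc 1 (w^j)).filter (fun a => Nat.Coprime a Q) with hB
    have hH0 : 0 ≤ ∑ b ∈ H, (b:ℝ)⁻¹ := Finset.sum_nonneg fun _ _ => by positivity
    have hmaps : ∀ x ∈ B ×ˢ H, x.1 * x.2 ∈ (Icc 1 (w^(j+1))).filter (fun a => Nat.Coprime a Q) := by
      rintro ⟨a, b⟩ h
      simp only [Finset.mem_product, hB, hH, Finset.mem_filter, Finset.mem_Icc] at h
      rw [Finset.mem_filter, Finset.mem_Icc]
      refine ⟨⟨Nat.mul_pos h.1.1.1 h.2.1.1, ?_⟩, Nat.Coprime.mul_left h.1.2 h.2.2⟩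
      rw [pow_succ]
      exact Nat.mul_le_mul h.1.1.2 h.2.1.2
    calc (∑ b ∈ H, (b:ℝ)⁻¹) ^ (j+1) = (∑ b ∈ H, (b:ℝ)⁻¹) ^ j * ∑ b ∈ H, (b:ℝ)⁻¹ := pow_succ _ _
      _ ≤ (∑ n ∈ B, Vale.Agent.P005.Selberg.cm (fun _ => (j:ℝ)) n * (n:ℝ)⁻¹) * ∑ b ∈ H, (b:ℝ)⁻¹ := by gcongr
      _ = ∑ x ∈ B ×ˢ H, Vale.Agent.P005.Selberg.cm (fun _ => (j:ℝ)) x.1 * ((x.1 * x.2 : ℕ):ℝ)⁻¹ := by
          rw [Finset.sum_mul_sum, ← Finset.sum_product']
          apply Finset.sum_congr rfl
          intro x _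
          push_cast
          rw [mul_inv]; ring
      _ ≤ _ := by
          rw [← Finset.sum_fiberwise_of_maps_to hmaps]
          apply Finset.sum_le_sum
          intro n hn
          have hn1 := (Finset.mem_Icc.1 (Finset.mem_filter.1 hn).1).1
          have hn0 : n ≠ 0 := by omega
          have h1 : ∀ x ∈ (B ×ˢ H).filter (fun x => x.1 * x.2 = n),
              Vale.Agent.P005.Selberg.cm (fun _ => (j:ℝ)) x.1 * ((x.1 * x.2 : ℕ):ℝ)⁻¹ =
                Vale.Agent.P005.Selberg.cm (fun _ => (j:ℝ)) x.1 * (n:ℝ)⁻¹ := by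
            intro x hx
            rw [(Finset.mem_filter.1 hx).2]
          rw [Finset.sum_congr rfl h1, ← Finset.sum_mul]
          apply mul_le_mul_of_nonneg_right _ (by positivity)
          refine le_trans ?_ (sum_divisors_cm_le j n hn0)
          have hinj : Set.InjOn (fun x : ℕ × ℕ => x.1)
              (((B ×ˢ H).filter (fun x => x.1 * x.2 = n) : Finset (ℕ × ℕ)) : Set (ℕ × ℕ)) := by
            rintro ⟨a, b⟩ hab ⟨a', b'⟩ hab' heq
            simp only [Finset.coe_filter, Finset.mem_product, Set.mem_ofPred_eq, hB, hH,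
              Finset.mem_filter, Finset.mem_Icc] at hab hab' heq
            subst heq
            have ha : 0 < a := hab.1.1.1.1
            have : b = b' := Nat.eq_of_mul_eq_mul_left ha (hab.2.trans hab'.2.symm)
            rw [this]
          rw [← Finset.sum_image (g := fun x : ℕ × ℕ => x.1) (f := fun a => Vale.Agent.P005.Selberg.cm (fun _ => (j:ℝ)) a) hinj]
          apply Finset.sum_le_sum_of_subset_of_nonneg
          · intro a ha
            obtain ⟨x, hx, rfl⟩ := Finset.mem_image.1 ha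
            rw [Nat.mem_divisors]
            exact ⟨⟨x.2, (Finset.mem_filter.1 hx).2.symm⟩, hn0⟩
          · intro a _ _
            exact cm_nonneg (fun _ _ => Nat.cast_nonneg j) a

lemma tuple_SS_ge (w : ℕ) (hz : w ^ (A.card + 1) ≤ z) :
    ((Q.totient : ℝ) / Q * Real.log ((w:ℝ) + 1)) ^ (A.card + 1) ≤ SS (tupleSieve A Q N z h) z := by
  refine le_trans ?_ (le_SS (s := tupleSieve A Q N z h) (z := z))
  have hQ := h.ne_zero
  have hharm : Real.log ((w:ℝ) + 1) ≤ ∑ n ∈ Icc 1 w, (n:ℝ)⁻¹ := by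
    have h := log_add_one_le_harmonic w
    rw [harmonic_eq_sum_Icc] at h
    push_cast at h
    exact h
  have h0 : 0 ≤ Real.log ((w:ℝ) + 1) := Real.log_nonneg (by linarith only [])
  have h1 : (Q.totient : ℝ) / Q * Real.log ((w:ℝ) + 1) ≤
      ∑ a ∈ (Icc 1 w).filter (fun a => Nat.Coprime a Q), (a:ℝ)⁻¹ := by
    refine le_trans ?_ (coprime_sum_ge Q w hQ)
    gcongr
  have h2 := cm_sum_ge Q w (A.card + 1)
  have h3 : ((Q.totient : ℝ) / Q * Real.log ((w:ℝ) + 1)) ^ (A.card + 1) ≤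
      (∑ a ∈ (Icc 1 w).filter (fun a => Nat.Coprime a Q), (a:ℝ)⁻¹) ^ (A.card + 1) := by
    gcongr
  refine (h3.trans h2).trans ?_
  set ω : ℕ → ℝ := fun p => if p ∣ (tupleSieve A Q N z h).prodPrimes then
    (tupleSieve A Q N z h).nu p else 0 with hω
  have hω0 : ∀ p, p.Prime → 0 ≤ ω p := by
    intro p hp
    simp only [hω]
    split_ifs with hh
    · exact ((tupleSieve A Q N z h).nu_pos_of_prime p hp hh).le
    · exact le_rfl
  calc _ ≤ ∑ n ∈ (Icc 1 z).filter (fun a => Nat.Coprime a Q), Vale.Agent.P005.Selberg.cm (fun _ => ((A.card + 1 : ℕ):ℝ)) n * (n:ℝ)⁻¹ := by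
        apply Finset.sum_le_sum_of_subset_of_nonneg
        · intro n hn
          rw [Finset.mem_filter, Finset.mem_Icc] at hn ⊢
          exact ⟨⟨hn.1.1, hn.1.2.trans hz⟩, hn.2⟩
        · intro n _ _
          exact mul_nonneg (cm_nonneg (fun _ _ => Nat.cast_nonneg _) n) (by positivity)
    _ = ∑ n ∈ (Icc 1 z).filter (fun a => Nat.Coprime a Q), Vale.Agent.P005.Selberg.cm ω n := by
        apply Finset.sum_congr rfl
        intro n hn
        rw [Finset.mem_filter, Finset.mem_Icc] at hn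
        have hn0 : n ≠ 0 := by omega
        rw [← cm_inv n hn0, cm_apply hn0, cm_apply hn0, cm_apply hn0, ← List.prod_map_mul]
        congr 1
        apply List.map_congr_left
        intro p hp
        have hpp := Nat.prime_of_mem_primeFactorsList hp
        have hpn := Nat.dvd_of_mem_primeFactorsList hp
        have hpQ : ¬ p ∣ Q := by
          intro hpQ
          have := Nat.dvd_gcd hpn hpQ
          rw [Nat.coprime_iff_gcd_eq_one.1 hn.2] at this
          exact hpp.one_lt.ne' (Nat.dvd_one.1 this)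
        have hd : p ∣ (tupleSieve A Q N z h).prodPrimes :=
          (prime_dvd_prod goodPrimes_prime hpp).2 (mem_goodPrimes.2
            ⟨(Nat.le_of_dvd (by omega) hpn).trans hn.1.2, hpp, hpQ⟩)
        simp only [hω, hd, if_true]
        rw [tuple_nu h hpp.squarefree, Nat.Prime.primeFactors hpp, Finset.card_singleton, pow_one,
          div_eq_mul_inv]
    _ ≤ _ := by
        apply Finset.sum_le_sum_of_subset_of_nonneg (Finset.filter_subset _ _)
        intro n _ _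
        exact cm_nonneg hω0 n

include h in
/-- **Sieve bound for `q, a q + 1 (a ∈ A)` simultaneously prime**, raw form. -/
theorem tuple_bound_raw (hA : ∀ a ∈ A, 0 < a) (w : ℕ) (hw : 1 ≤ w) :
    (((Icc 1 N).filter (fun q => q.Prime ∧ ∀ a ∈ A, (a * q + 1).Prime)).card : ℝ) ≤
      ((w ^ (A.card + 1) : ℕ) : ℝ) +
      N / ((Q.totient : ℝ) / Q * Real.log ((w:ℝ) + 1)) ^ (A.card + 1) +
      ((w ^ (A.card + 1) : ℕ) : ℝ) ^ 4 := by
  set z := w ^ (A.card + 1) with hzdef
  have hz1 : 1 ≤ z := Nat.one_le_pow _ _ hw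
  have hS := tuple_SS_ge (N := N) h w hzdef.ge
  have hsel := selberg_bound (s := tupleSieve A Q N z h) (z := z) hz1
  have herr := tuple_err (N := N) (z := z) h
  have hQ := h.ne_zero
  have hQ0 : (0:ℝ) < Q := by exact_mod_cast Nat.pos_of_ne_zero hQ
  have ht : (0:ℝ) < Q.totient := by exact_mod_cast Nat.totient_pos.2 (Nat.pos_of_ne_zero hQ)
  have hlog : 0 < Real.log ((w:ℝ) + 1) := Real.log_pos (by
    have : (1:ℝ) ≤ w := by exact_mod_cast hw
    linarith only [this])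
  have hpos : 0 < ((Q.totient : ℝ) / Q * Real.log ((w:ℝ) + 1)) ^ (A.card + 1) := by positivity
  have hmain : (tupleSieve A Q N z h).totalMass / SS (tupleSieve A Q N z h) z ≤
      N / ((Q.totient : ℝ) / Q * Real.log ((w:ℝ) + 1)) ^ (A.card + 1) := by
    change (N:ℝ) / _ ≤ _
    gcongr
  have hcount : (((Icc 1 N).filter (fun q => q.Prime ∧ ∀ a ∈ A, (a * q + 1).Prime)).card : ℝ) ≤
      z + (tupleSieve A Q N z h).siftedSum := by
    have hsift : (tupleSieve A Q N z h).siftedSum =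
        (((Icc 1 N).filter (fun n => Nat.Coprime (tupleSieve A Q N z h).prodPrimes
          (form A n))).card : ℝ) := by
      unfold siftedSum
      change ∑ x ∈ (Icc 1 N).image (form A),
        (if Nat.Coprime (tupleSieve A Q N z h).prodPrimes x then (1:ℝ) else 0) = _
      rw [Finset.sum_image (form_injOn A N), Finset.card_filter]
      push_cast
      rfl
    rw [hsift]
    have hsub : (Icc 1 N).filter (fun q => q.Prime ∧ ∀ a ∈ A, (a * q + 1).Prime) ⊆
        (Icc 1 z) ∪ (Icc 1 N).filter (fun n => Nat.Coprime (tupleSieve A Q N z h).prodPrimes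
          (form A n)) := by
      intro q hq
      rw [Finset.mem_filter] at hq
      rw [Finset.mem_union]
      by_cases hqz : q ≤ z
      · left; rw [Finset.mem_Icc]; exact ⟨(Finset.mem_Icc.1 hq.1).1, hqz⟩
      · right
        rw [Finset.mem_filter]
        refine ⟨hq.1, ?_⟩
        change Nat.Coprime (∏ p ∈ goodPrimes Q z, p) _
        apply Nat.Coprime.prod_left
        intro p hp
        have hp' := mem_goodPrimes.1 hp
        unfold form
        apply Nat.Coprime.mul_right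
        · rw [Nat.coprime_primes hp'.2.1 hq.2.1]; omega
        · apply Nat.Coprime.prod_right
          intro a ha
          rw [Nat.coprime_primes hp'.2.1 (hq.2.2 a ha)]
          have : q ≤ a * q := Nat.le_mul_of_pos_left q (hA a ha)
          omega
    have h1 := Finset.card_le_card hsub
    have h2 := Finset.card_union_le (Icc 1 z) ((Icc 1 N).filter (fun n =>
      Nat.Coprime (tupleSieve A Q N z h).prodPrimes (form A n)))
    rw [Nat.card_Icc] at h2
    have h3 : ((Icc 1 N).filter (fun q => q.Prime ∧ ∀ a ∈ A, (a * q + 1).Prime)).card ≤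
      z + ((Icc 1 N).filter (fun n => Nat.Coprime (tupleSieve A Q N z h).prodPrimes
          (form A n))).card := by omega
    exact_mod_cast h3
  linarith only [hmain, herr, hsel, hcount]

end Vale.Agent.P031
end
end
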