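import Mathlib
import Vale.Agent.P031.Bdl.B1
import Vale.Agent.P003.Mertens

set_option linter.all false

section

section

/-!
# Mertens' second theorem (bounded error form)

`∑_{p ≤ z} 1/p = log log z + O(1)`, by Abel summation from Mertens' first theorem.
-/

namespace Vale.Agent.P031

open Finset Real
open Vale.Agent.P003

/-- sum of `1/p` over primes `p ≤ n`. -/
noncomputable def recipSum (n : ℕ) : ℝ := ∑ p ∈ PLE n, (1 : ℝ) / p

/-- sum of `log p / p` over primes `p ≤ n`. -/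
noncomputable def logSum (n : ℕ) : ℝ := ∑ p ∈ PLE n, Real.log p / p

theorem PLE_succ_prime {n : ℕ} (h : (n + 1).Prime) :
    PLE (n + 1) = insert (n + 1) (PLE n) := by
  ext p
  simp only [mem_PLE, Finset.mem_insert]
  constructor
  · rintro ⟨h1, h2⟩
    rcases Nat.lt_or_ge n p with h3 | h3
    · left; omega
    · right; exact ⟨h3, h2⟩
  · rintro (rfl | ⟨h1, h2⟩)
    · exact ⟨le_refl _, h⟩
    · exact ⟨by omega, h2⟩

theorem PLE_succ_not_prime {n : ℕ} (h : ¬ (n + 1).Prime) :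
    PLE (n + 1) = PLE n := by
  ext p
  simp only [mem_PLE]
  constructor
  · rintro ⟨h1, h2⟩
    refine ⟨?_, h2⟩
    rcases Nat.lt_or_ge n p with h3 | h3
    · have : p = n + 1 := by omega
      subst this
      exact absurd h2 h
    · exact h3
  · rintro ⟨h1, h2⟩
    exact ⟨by omega, h2⟩

theorem recipSum_succ (n : ℕ) (hn : 2 ≤ n) :
    recipSum (n + 1) - recipSum n = (logSum (n + 1) - logSum n) / Real.log ((n : ℝ) + 1) := by
  have hlog : 0 < Real.log ((n : ℝ) + 1) := by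
    apply Real.log_pos
    have : (2 : ℝ) ≤ n := by exact_mod_cast hn
    linarith only [this]
  by_cases h : (n + 1).Prime
  · have hnot : n + 1 ∉ PLE n := by
      rw [mem_PLE]; rintro ⟨h1, _⟩; omega
    unfold recipSum logSum
    rw [PLE_succ_prime h, Finset.sum_insert hnot, Finset.sum_insert hnot]
    push_cast
    have hn1 : (n : ℝ) + 1 ≠ 0 := by positivity
    field_simp
    ring
  · unfold recipSum logSum
    rw [PLE_succ_not_prime h]
    simp

theorem logSum_le (n : ℕ) (hn : 1 ≤ n) : logSum n ≤ Real.log n + 4 := by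
  have h := sum_log_div_le n hn
  have h4 : Real.log 4 ≤ 4 := by
    have := Real.log_le_sub_one_of_pos (x := (4 : ℝ)) (by norm_num)
    linarith only [this]
  unfold logSum
  linarith only [h4, h]

theorem logSum_ge (n : ℕ) (hn : 1 ≤ n) : Real.log n - 4 ≤ logSum n :=
  sum_log_div_ge n hn

theorem recipSum_two : recipSum 2 = 1 / 2 := by
  have : PLE 2 = {2} := by
    ext p
    rw [mem_PLE, Finset.mem_singleton]
    constructor
    · rintro ⟨h1, h2⟩
      have := h2.two_le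
      omega
    · rintro rfl
      exact ⟨le_refl _, Nat.prime_two⟩
  unfold recipSum
  rw [this, Finset.sum_singleton]
  norm_num

theorem logSum_two : logSum 2 = Real.log 2 / 2 := by
  have : PLE 2 = {2} := by
    ext p
    rw [mem_PLE, Finset.mem_singleton]
    constructor
    · rintro ⟨h1, h2⟩
      have := h2.two_le
      omega
    · rintro rfl
      exact ⟨le_refl _, Nat.prime_two⟩
  unfold logSum
  rw [this, Finset.sum_singleton]
  norm_num

theorem log_facts (n : ℕ) (hn : 2 ≤ n) :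
    0 < Real.log n ∧ Real.log n < Real.log ((n : ℝ) + 1) ∧
      Real.log ((n : ℝ) + 1) ≤ Real.log n + 1 := by
  have h2 : (2 : ℝ) ≤ n := by exact_mod_cast hn
  refine ⟨Real.log_pos (by linarith), Real.log_lt_log (by linarith) (by linarith), ?_⟩
  have h3 : (n : ℝ) + 1 = n * (1 + 1 / n) := by
    field_simp
  rw [h3, Real.log_mul (by positivity) (by positivity)]
  have h4 := Real.log_le_sub_one_of_pos (x := 1 + 1 / (n : ℝ)) (by positivity)
  have h5 : (1 : ℝ) / n ≤ 1 := by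
    rw [div_le_one (by linarith only [h2])]; linarith only [h2]
  linarith only [h4, h5]

theorem recipSum_upper (n : ℕ) (hn : 2 ≤ n) :
    recipSum n ≤ logSum n / Real.log n + (Real.log (Real.log n) - Real.log (Real.log 2))
      + 4 * (1 / Real.log 2 - 1 / Real.log n) := by
  induction n, hn using Nat.le_induction with
  | base =>
    rw [recipSum_two, logSum_two]
    have := Real.log_two_gt_d9
    push_cast
    have h : Real.log 2 / 2 / Real.log 2 = 1 / 2 := by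
      have : Real.log 2 ≠ 0 := by linarith only [this]
      field_simp
    rw [h]
    simp
  | succ n hn ih =>
    have hs := recipSum_succ n hn
    obtain ⟨ha, hab, hb⟩ := log_facts n hn
    have hA := logSum_le n (by omega)
    push_cast
    set a := Real.log n with ha_def
    set b := Real.log ((n : ℝ) + 1) with hb_def
    have hb0 : 0 < b := by linarith only [hab, ha]
    have h1 : 0 ≤ 1 / a - 1 / b := by
      have := one_div_le_one_div_of_le ha hab.le
      linarith only [this]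
    have h2 : logSum n * (1 / a - 1 / b) ≤ (a + 4) * (1 / a - 1 / b) :=
      mul_le_mul_of_nonneg_right hA h1
    have h3 : a * (1 / a - 1 / b) ≤ Real.log b - Real.log a := by
      have e1 : a * (1 / a - 1 / b) = 1 - a / b := by
        field_simp
      have h4 := Real.log_le_sub_one_of_pos (x := a / b) (by positivity)
      rw [Real.log_div ha.ne' hb0.ne'] at h4
      rw [e1]
      linarith only [h4]
    have e2 : logSum (n + 1) / b = logSum n / a + (logSum (n + 1) - logSum n) / b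
        - logSum n * (1 / a - 1 / b) := by
      field_simp
      ring
    rw [e2]
    linarith only [hs, h3, ih, h2]

theorem recipSum_lower (n : ℕ) (hn : 2 ≤ n) :
    logSum n / Real.log n + (Real.log (Real.log n) - Real.log (Real.log 2))
      - 5 * (1 / Real.log 2 - 1 / Real.log n) ≤ recipSum n := by
  induction n, hn using Nat.le_induction with
  | base =>
    rw [recipSum_two, logSum_two]
    have := Real.log_two_gt_d9
    push_cast
    have h : Real.log 2 / 2 / Real.log 2 = 1 / 2 := by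
      have : Real.log 2 ≠ 0 := by linarith only [this]
      field_simp
    rw [h]
    simp
  | succ n hn ih =>
    have hs := recipSum_succ n hn
    obtain ⟨ha, hab, hb⟩ := log_facts n hn
    have hA := logSum_ge n (by omega)
    push_cast
    set a := Real.log n with ha_def
    set b := Real.log ((n : ℝ) + 1) with hb_def
    have hb0 : 0 < b := by linarith only [hab, ha]
    have h1 : 0 ≤ 1 / a - 1 / b := by
      have := one_div_le_one_div_of_le ha hab.le
      linarith only [this]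
    have h2 : (a - 4) * (1 / a - 1 / b) ≤ logSum n * (1 / a - 1 / b) :=
      mul_le_mul_of_nonneg_right hA h1
    have h3 : Real.log b - Real.log a ≤ (a + 1) * (1 / a - 1 / b) := by
      have h4 := Real.log_le_sub_one_of_pos (x := b / a) (by positivity)
      rw [Real.log_div hb0.ne' ha.ne'] at h4
      have h5 : b / a - 1 ≤ (a + 1) * (1 / a - 1 / b) := by
        have e1 : (a + 1) * (1 / a - 1 / b) - (b / a - 1) = (a + 1 - b) * (b - a) / (a * b) := by
          field_simp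
        have : 0 ≤ (a + 1 - b) * (b - a) / (a * b) := by
          apply div_nonneg
          · apply mul_nonneg <;> linarith only [hb, hab]
          · positivity
        linarith only [e1, this]
      linarith only [h4, h5]
    have e2 : logSum (n + 1) / b = logSum n / a + (logSum (n + 1) - logSum n) / b
        - logSum n * (1 / a - 1 / b) := by
      field_simp
      ring
    rw [e2]
    linarith only [hs, h3, ih, h2]

theorem logSum_div_bounds (n : ℕ) (hn : 2 ≤ n) :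
    -6 ≤ logSum n / Real.log n ∧ logSum n / Real.log n ≤ 8 := by
  obtain ⟨ha, -, -⟩ := log_facts n hn
  have h1 := logSum_le n (by omega)
  have h2 := logSum_ge n (by omega)
  have h3 : Real.log 2 ≤ Real.log n := Real.log_le_log (by norm_num) (by exact_mod_cast hn)
  have h4 := Real.log_two_gt_d9
  constructor
  · rw [le_div_iff₀ ha]; linarith only [h4, h2, h3]
  · rw [div_le_iff₀ ha]; linarith only [h4, h3, h1]

theorem recipSum_near (n : ℕ) (hn : 2 ≤ n) :
    |recipSum n - Real.log (Real.log n)| ≤ 20 := by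
  have h1 := recipSum_upper n hn
  have h2 := recipSum_lower n hn
  obtain ⟨h3, h4⟩ := logSum_div_bounds n hn
  obtain ⟨ha, -, -⟩ := log_facts n hn
  have hl2 := Real.log_two_gt_d9
  have hl2' := Real.log_two_lt_d9
  have h5 : 1 / Real.log 2 ≤ 2 := by
    rw [div_le_iff₀ (by linarith only [hl2])]; linarith only [hl2]
  have h6 : 0 ≤ 1 / Real.log n := by positivity
  have h7 : 1 / Real.log n ≤ 1 / Real.log 2 := by
    apply one_div_le_one_div_of_le (by linarith only [hl2])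
    exact Real.log_le_log (by norm_num) (by exact_mod_cast hn)
  have h8 : Real.log (Real.log 2) ≤ 0 := Real.log_nonpos (by linarith only [hl2]) (by linarith only [hl2'])
  have h9 : -1 ≤ Real.log (Real.log 2) := by
    rw [Real.le_log_iff_exp_le (by linarith only [hl2])]
    have : Real.exp (-1) ≤ 1 / 2 := by
      rw [Real.exp_neg]
      have := Real.exp_one_gt_d9
      rw [inv_eq_one_div]
      apply one_div_le_one_div_of_le <;> linarith only [this]
    linarith only [hl2, this]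
  rw [abs_le]
  constructor <;> linarith only [h5, h8, h6, h2, h3, h1, h9, h4]

/-- **Mertens' second theorem**, bounded error form:
`|∑_{p ≤ z} 1/p - log log z| ≤ C` for all real `z ≥ 3`. -/
theorem mertens_explicit (z : ℝ) (hz : 3 ≤ z) :
    |∑ p ∈ (Finset.range (⌊z⌋₊ + 1)).filter Nat.Prime, (1 : ℝ) / p
      - Real.log (Real.log z)| ≤ 21 := by
  set n := ⌊z⌋₊ with hn_def
  have hn3 : 3 ≤ n := Nat.le_floor (by exact_mod_cast hz)
  have h1 := recipSum_near n (by omega)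
  obtain ⟨ha, hab, hb⟩ := log_facts n (by omega)
  have hn3r : (3 : ℝ) ≤ n := by exact_mod_cast hn3
  have h2 : (n : ℝ) ≤ z := Nat.floor_le (by linarith only [hz])
  have h3 : z < (n : ℝ) + 1 := Nat.lt_floor_add_one z
  have h4 : Real.log n ≤ Real.log z := Real.log_le_log (by linarith) h2
  have h5 : Real.log z ≤ Real.log ((n : ℝ) + 1) := Real.log_le_log (by linarith) h3.le
  have h1n : 1 ≤ Real.log n := by
    rw [Real.le_log_iff_exp_le (by linarith)]
    have := Real.exp_one_lt_d9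
    linarith only [this, hn3r]
  have h6 : Real.log (Real.log n) ≤ Real.log (Real.log z) := Real.log_le_log ha h4
  have h7 : Real.log (Real.log z) ≤ Real.log (Real.log n) + 1 := by
    have h8 := Real.log_le_sub_one_of_pos (x := Real.log z / Real.log n) (by
      apply div_pos _ ha; linarith)
    rw [Real.log_div (by linarith) ha.ne'] at h8
    have h9 : Real.log z / Real.log n ≤ 2 := by
      rw [div_le_iff₀ ha]; linarith
    linarith only [h9, h8]
  have e : ∑ p ∈ (Finset.range (n + 1)).filter Nat.Prime, (1 : ℝ) / p = recipSum n := rfl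
  rw [e]
  rw [abs_le] at h1 ⊢
  constructor <;> linarith only [h7, h6, h1.1, h1.2]

end Vale.Agent.P031
end
end

section

section

/-!
Corollaries of the second theorem of Mertens.
-/

namespace Vale.Agent.P031

open Finset Filter Topology

/-- telescoping bound -/
theorem sum_inv_mul_pred_le (s : Finset ℕ) (a : ℕ) (ha : 2 ≤ a) (hs : ∀ n ∈ s, a ≤ n) :
    ∑ n ∈ s, 1 / ((n : ℝ) * ((n : ℝ) - 1)) ≤ 1 / ((a : ℝ) - 1) := by
  have key : ∀ N : ℕ, ∑ n ∈ Finset.Ico a (a + N), 1 / ((n : ℝ) * ((n : ℝ) - 1)) =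
      1 / ((a : ℝ) - 1) - 1 / ((a : ℝ) + N - 1) := by
    intro N
    have ha' : (2 : ℝ) ≤ a := by exact_mod_cast ha
    induction N with
    | zero => simp
    | succ N ih =>
      rw [← Nat.add_assoc, Finset.sum_Ico_succ_top (by omega), ih]
      push_cast
      have h1 : (a : ℝ) + N - 1 ≠ 0 := by
        have : (0 : ℝ) ≤ N := Nat.cast_nonneg N
        linarith only [ha']
      have h2 : (a : ℝ) + N ≠ 0 := by
        have : (0 : ℝ) ≤ N := Nat.cast_nonneg N
        linarith only [ha']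
      have h3 : (a : ℝ) + (N + 1) - 1 ≠ 0 := by
        have : (0 : ℝ) ≤ N := Nat.cast_nonneg N
        linarith only [ha']
      have h4 : (a : ℝ) - 1 ≠ 0 := by linarith
      field_simp
      ring
  have hsub : s ⊆ Finset.Ico a (a + (s.sup id + 1)) := by
    intro n hn
    rw [Finset.mem_Ico]
    have : n ≤ s.sup id := Finset.le_sup (f := id) hn
    exact ⟨hs n hn, by omega⟩
  have hpos : ∀ n ∈ Finset.Ico a (a + (s.sup id + 1)), n ∉ s →
      0 ≤ 1 / ((n : ℝ) * ((n : ℝ) - 1)) := by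
    intro n hn _
    have h1 : (2 : ℝ) ≤ n := by
      exact_mod_cast ha.trans (Finset.mem_Ico.mp hn).1
    have : 0 ≤ (n : ℝ) * ((n : ℝ) - 1) := mul_nonneg (by linarith) (by linarith)
    positivity
  refine (Finset.sum_le_sum_of_subset_of_nonneg hsub hpos).trans ?_
  rw [key]
  have ha' : (2 : ℝ) ≤ a := by exact_mod_cast ha
  have : 0 ≤ 1 / ((a : ℝ) + ((s.sup id + 1 : ℕ) : ℝ) - 1) := by
    have : (0 : ℝ) ≤ ((s.sup id + 1 : ℕ) : ℝ) := Nat.cast_nonneg _
    apply div_nonneg zero_le_one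
    linarith
  linarith only [this]

theorem sum_inv_pred_le (s : Finset ℕ) (hs : ∀ p ∈ s, Nat.Prime p) :
    ∑ p ∈ s, 1 / ((p : ℝ) - 1) ≤ ∑ p ∈ s, 1 / (p : ℝ) + 1 := by
  have h1 : ∑ p ∈ s, 1 / ((p : ℝ) - 1) =
      ∑ p ∈ s, 1 / (p : ℝ) + ∑ p ∈ s, 1 / ((p : ℝ) * ((p : ℝ) - 1)) := by
    rw [← Finset.sum_add_distrib]
    refine Finset.sum_congr rfl fun p hp => ?_
    have h2 : (2 : ℝ) ≤ p := by exact_mod_cast (hs p hp).two_le
    have h3 : (p : ℝ) - 1 ≠ 0 := by linarith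
    have h4 : (p : ℝ) ≠ 0 := by linarith
    field_simp
    ring
  have h5 := sum_inv_mul_pred_le s 2 le_rfl fun p hp => (hs p hp).two_le
  rw [h1]
  norm_num at h5 ⊢
  exact h5

theorem log_pos_of_prime {p : ℕ} (hp : p.Prime) : 0 < Real.log (p : ℝ) :=
  Real.log_pos (by exact_mod_cast hp.one_lt)

theorem ll_le_iff {p : ℕ} (hp : p.Prime) (b : ℝ) :
    ll (p : ℝ) ≤ b ↔ (p : ℝ) ≤ Real.exp (Real.exp b) := by
  have h0 : (0 : ℝ) < p := by exact_mod_cast hp.pos
  rw [ll, Real.log_le_iff_le_exp (log_pos_of_prime hp), Real.log_le_iff_le_exp h0]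

theorem ll_exp_exp (b : ℝ) : ll (Real.exp (Real.exp b)) = b := by
  rw [ll, Real.log_exp, Real.log_exp]

theorem three_le_exp_exp {b : ℝ} (hb : 1 / 2 ≤ b) : 3 ≤ Real.exp (Real.exp b) := by
  have h1 : (3 / 2 : ℝ) ≤ Real.exp b := by
    have := Real.add_one_le_exp b
    linarith only [hb, this]
  have h2 : (5 / 2 : ℝ) ≤ Real.exp (3 / 2) := by
    have := Real.add_one_le_exp (3 / 2 : ℝ)
    linarith only [this]
  have h3 : (3 : ℝ) ≤ Real.exp (3 / 2) := by
    have h4 : (1.25 : ℝ) ≤ Real.exp (1 / 4) := by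
      have := Real.add_one_le_exp (1 / 4 : ℝ)
      linarith only [this]
    have h5 : Real.exp (3 / 2) = Real.exp (1 / 4) ^ 6 := by
      rw [← Real.exp_nat_mul]; norm_num
    rw [h5]
    calc (3 : ℝ) ≤ 1.25 ^ 6 := by norm_num
      _ ≤ Real.exp (1 / 4) ^ 6 := pow_le_pow_left₀ (by norm_num) h4 6
  exact h3.trans (Real.exp_le_exp.mpr h1)

/-- primes up to `z` -/
noncomputable def pt (z : ℝ) : Finset ℕ := (Finset.range (⌊z⌋₊ + 1)).filter Nat.Prime

theorem mem_pt {z : ℝ} (hz : 0 ≤ z) {p : ℕ} : p ∈ pt z ↔ p.Prime ∧ (p : ℝ) ≤ z := by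
  rw [pt, Finset.mem_filter, Finset.mem_range, Nat.lt_succ_iff, Nat.le_floor_iff hz, and_comm]

theorem pt_upper (b : ℝ) (hb : 1 / 2 ≤ b) :
    ∑ p ∈ pt (Real.exp (Real.exp b)), 1 / (p : ℝ) ≤ b + 21 := by
  have h := mertens_explicit _ (three_le_exp_exp hb)
  have h2 : Real.log (Real.log (Real.exp (Real.exp b))) = b := ll_exp_exp b
  rw [h2, abs_le] at h
  unfold pt
  linarith only [h.2]

theorem pt_lower (b : ℝ) (hb : 1 / 2 ≤ b) :
    b - 21 ≤ ∑ p ∈ pt (Real.exp (Real.exp b)), 1 / (p : ℝ) := by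
  have h := mertens_explicit _ (three_le_exp_exp hb)
  have h2 : Real.log (Real.log (Real.exp (Real.exp b))) = b := ll_exp_exp b
  rw [h2, abs_le] at h
  unfold pt
  linarith only [h.1]

/-- upper bound for the mass of primes with `ll p ≤ b` -/
theorem sum_inv_prime_le (b : ℝ) (s : Finset ℕ) (hb : 0 ≤ b)
    (hs : ∀ p ∈ s, p.Prime ∧ ll (p : ℝ) ≤ b) : ∑ p ∈ s, 1 / (p : ℝ) ≤ b + 22 := by
  have h1 : s ⊆ pt (Real.exp (Real.exp (b + 1))) := by
    intro p hp
    rw [mem_pt (Real.exp_pos _).le]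
    exact ⟨(hs p hp).1, (ll_le_iff (hs p hp).1 _).mp ((hs p hp).2.trans (by linarith))⟩
  refine (Finset.sum_le_sum_of_subset_of_nonneg h1 fun p _ _ => by positivity).trans ?_
  have := pt_upper (b + 1) (by linarith)
  linarith

/-- upper bound for the mass of primes with `a ≤ ll p ≤ b` -/
theorem sum_inv_prime_le_sub (a b : ℝ) (s : Finset ℕ) (ha : 0 ≤ a) (hab : a ≤ b)
    (hs : ∀ p ∈ s, p.Prime ∧ a ≤ ll (p : ℝ) ∧ ll (p : ℝ) ≤ b) :
    ∑ p ∈ s, 1 / (p : ℝ) ≤ b - a + 44 := by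
  rcases lt_or_ge a 1 with h | h
  · have := sum_inv_prime_le b s (ha.trans hab) fun p hp => ⟨(hs p hp).1, (hs p hp).2.2⟩
    linarith only [h, this]
  · have h1 : s ⊆ pt (Real.exp (Real.exp b)) := by
      intro p hp
      rw [mem_pt (Real.exp_pos _).le]
      exact ⟨(hs p hp).1, (ll_le_iff (hs p hp).1 _).mp (hs p hp).2.2⟩
    have h2 : pt (Real.exp (Real.exp (a - 1 / 2))) ⊆ pt (Real.exp (Real.exp b)) := by
      intro p hp
      rw [mem_pt (Real.exp_pos _).le] at hp ⊢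
      exact ⟨hp.1, hp.2.trans (Real.exp_le_exp.mpr (Real.exp_le_exp.mpr (by linarith)))⟩
    have h3 : Disjoint s (pt (Real.exp (Real.exp (a - 1 / 2)))) := by
      rw [Finset.disjoint_left]
      intro p hp hp'
      rw [mem_pt (Real.exp_pos _).le] at hp'
      have h4 := (ll_le_iff (hs p hp).1 _).mpr hp'.2
      have h5 := (hs p hp).2.1
      linarith
    have h4 : ∑ p ∈ s, 1 / (p : ℝ) + ∑ p ∈ pt (Real.exp (Real.exp (a - 1 / 2))), 1 / (p : ℝ) ≤
        ∑ p ∈ pt (Real.exp (Real.exp b)), 1 / (p : ℝ) := by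
      rw [← Finset.sum_union h3]
      exact Finset.sum_le_sum_of_subset_of_nonneg (Finset.union_subset h1 h2)
        fun p _ _ => by positivity
    have h5 := pt_upper b (by linarith)
    have h6 := pt_lower (a - 1 / 2) (by linarith only [h])
    linarith only [h4, h6, h5]

theorem sum_inv_le : ∃ C : ℝ, 0 < C ∧ ∀ (a b : ℝ) (s : Finset ℕ), 0 ≤ a → a ≤ b →
    (∀ p ∈ s, p.Prime ∧ a ≤ ll (p : ℝ) ∧ ll (p : ℝ) ≤ b) →
    ∑ p ∈ s, 1 / ((p : ℝ) - 1) ≤ b - a + C := by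
  refine ⟨45, by norm_num, fun a b s ha hab hs => ?_⟩
  have h1 := sum_inv_pred_le s fun p hp => (hs p hp).1
  have h2 := sum_inv_prime_le_sub a b s ha hab hs
  linarith only [h2, h1]

theorem sum_inv_le' : ∃ C : ℝ, 0 < C ∧ ∀ (b : ℝ) (s : Finset ℕ), 0 ≤ b →
    (∀ p ∈ s, p.Prime ∧ ll (p : ℝ) ≤ b) → ∑ p ∈ s, 1 / ((p : ℝ) - 1) ≤ b + C := by
  refine ⟨23, by norm_num, fun b s hb hs => ?_⟩
  have h1 := sum_inv_pred_le s fun p hp => (hs p hp).1
  have h2 := sum_inv_prime_le b s hb hs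
  linarith only [h2, h1]

open Classical in
theorem le_sum_inv : ∃ C : ℝ, 0 < C ∧ ∀ (a b : ℝ) (N : ℕ), 0 ≤ a → a ≤ b →
    Real.exp (Real.exp b) ≤ N →
    b - a - C ≤ ∑ p ∈ (Finset.range (N + 1)).filter
      (fun p : ℕ => p.Prime ∧ a ≤ ll (p : ℝ) ∧ ll (p : ℝ) ≤ b), 1 / (p : ℝ) := by
  refine ⟨43, by norm_num, fun a b N ha hab hN => ?_⟩
  have hnn : 0 ≤ ∑ p ∈ (Finset.range (N + 1)).filter
      (fun p : ℕ => p.Prime ∧ a ≤ ll (p : ℝ) ∧ ll (p : ℝ) ≤ b), 1 / (p : ℝ) :=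
    Finset.sum_nonneg fun p _ => by positivity
  rcases lt_or_ge b 1 with h | h
  · linarith only [h, ha, hnn]
  · have h1 : pt (Real.exp (Real.exp b)) ⊆ (Finset.range (N + 1)).filter
        (fun p : ℕ => p.Prime ∧ a ≤ ll (p : ℝ) ∧ ll (p : ℝ) ≤ b) ∪
        pt (Real.exp (Real.exp (a + 1))) := by
      intro p hp
      rw [mem_pt (Real.exp_pos _).le] at hp
      rw [Finset.mem_union, mem_pt (Real.exp_pos _).le, Finset.mem_filter, Finset.mem_range]
      by_cases hpa : a ≤ ll (p : ℝ)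
      · left
        refine ⟨?_, hp.1, hpa, (ll_le_iff hp.1 _).mpr hp.2⟩
        have : (p : ℝ) ≤ N := hp.2.trans hN
        have : p ≤ N := by exact_mod_cast this
        omega
      · right
        push Not at hpa
        exact ⟨hp.1, (ll_le_iff hp.1 _).mp (by linarith)⟩
    have h2 : ∑ p ∈ pt (Real.exp (Real.exp b)), 1 / (p : ℝ) ≤
        ∑ p ∈ (Finset.range (N + 1)).filter
        (fun p : ℕ => p.Prime ∧ a ≤ ll (p : ℝ) ∧ ll (p : ℝ) ≤ b), 1 / (p : ℝ) +
        ∑ p ∈ pt (Real.exp (Real.exp (a + 1))), 1 / (p : ℝ) := by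
      refine (Finset.sum_le_sum_of_subset_of_nonneg h1 fun p _ _ => by positivity).trans ?_
      rw [← Finset.sum_union_inter]
      exact le_add_of_nonneg_right (Finset.sum_nonneg fun p _ => by positivity)
    have h3 := pt_lower b (by linarith only [h])
    have h4 := pt_upper (a + 1) (by linarith only [ha])
    linarith only [h2, h4, h3]

end Vale.Agent.P031
end
end

section

section

/-!
# P031: the upward recursion
-/

namespace Vale.Agent.P031.Rc

open Finset Filter Topology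

theorem sum_le_of_cover {α β : Type*} (S : Finset α) (A : Finset β) (f : β → α) (g : α → ℝ)
    (w : β → ℝ) (hcov : ∀ x ∈ S, ∃ b ∈ A, f b = x ∧ g x ≤ w b) (hw : ∀ b ∈ A, 0 ≤ w b) :
    ∑ x ∈ S, g x ≤ ∑ b ∈ A, w b := by
  classical
  rcases S.eq_empty_or_nonempty with h0 | h0
  · subst h0
    simpa using Finset.sum_nonneg hw
  obtain ⟨x₀, hx₀⟩ := h0
  obtain ⟨b₀, -⟩ := hcov x₀ hx₀
  have : Nonempty β := ⟨b₀⟩
  choose! b hbA hbf hbw using hcov
  have hinj : Set.InjOn b S := by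
    intro x hx y hy hxy
    have h1 := hbf x hx
    have h2 := hbf y hy
    rw [← h1, ← h2, hxy]
  calc ∑ x ∈ S, g x ≤ ∑ x ∈ S, w (b x) := Finset.sum_le_sum fun x hx => hbw x hx
    _ = ∑ y ∈ S.image b, w y := (Finset.sum_image hinj).symm
    _ ≤ ∑ y ∈ A, w y := by
        refine Finset.sum_le_sum_of_subset_of_nonneg ?_ fun y hy _ => hw y hy
        intro y hy
        obtain ⟨x, hx, rfl⟩ := Finset.mem_image.1 hy
        exact hbA x hx

theorem Ch_inv {M J Q D : ℕ} (h : Ch M J Q D) : (J = 0 ∧ Q = 1) ∨ ∃ J' P D' : ℕ, J = J' + 1 ∧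
    D = (Q - 1) * D' ∧ Nrm M Q ∧ P < Q ∧ Ch M J' P D' ∧
    GG M ((Q - 1) * D') ≤ (M : ℝ) ^ 18 ∧ NoSq M ((Q - 1) * D') := by
  cases h with
  | nil n s hn hs => exact Or.inl ⟨rfl, rfl⟩
  | cons p J P D' hp hPp hch' hG hsq =>
    exact Or.inr ⟨J, P, D', rfl, rfl, hp, hPp, hch', hG, hsq⟩

theorem Cost_small {M D : ℕ} (j : ℕ) (hM : 1 ≤ M) (hD : Small M D) : Cost M j D = 0 := by
  unfold Cost
  rw [YY_small hD]
  have : (fun i => HH M i D) = fun _ => (0 : ℝ) := by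
    funext i
    exact HH_small M i D hM hD
  rw [this]
  exact Psi_zero _

theorem Om_DD {M r D : ℕ} (hD : D ∈ DD M r) (hr : r + 1 ≤ M) : Om D ≤ M ^ 26 := by
  refine hD.2.trans ?_
  calc (r + 1) * M ^ 25 ≤ M * M ^ 25 := Nat.mul_le_mul_right _ hr
    _ = M ^ 26 := by ring

/-- the sum over the new prime in the upward recursion -/
theorem up_inner (M r j q : ℕ) (T c C0 C1 : ℝ) (hc : 0 < c) (hC0 : 0 ≤ C0) (hC1 : 0 ≤ C1)
    (hM : 1 ≤ M)
    (hsum : ∀ (a b : ℝ) (s : Finset ℕ), 0 ≤ a → a ≤ b →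
      (∀ p ∈ s, p.Prime ∧ a ≤ ll (p : ℝ) ∧ ll (p : ℝ) ≤ b) →
      ∑ p ∈ s, 1 / ((p : ℝ) - 1) ≤ b - a + C1) :
    ∑ b ∈ (DF M r (j + 1) (T + (C0 + 2 * c) * (M : ℝ) ^ 18)).sigma
      (fun D => (Finset.range (NN M + 1)).filter (fun p : ℕ => p.Prime ∧
      max 0 (xs M D - 2 * (M : ℝ) ^ 18 + (M : ℝ) ^ 15) ≤ ll (p : ℝ) ∧
      ll (p : ℝ) ≤ xs M D + (T + (C0 + 2 * c) * (M : ℝ) ^ 18 - Cost M (j + 1) D) / c +
        (M : ℝ) ^ 15)),
      (T + (C0 + 2 * c) * (M : ℝ) ^ 18 - Cost M (j + 1) b.1) ^ q / (((b.2 : ℝ) - 1) * (b.1 : ℝ)) ≤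
      (1 / c + 2 + C1) * FF M r (j + 1) (q + 1)
        (T + (C0 + 2 * c + 1 + (1 + (1 / c + 2 + C1))) * (M : ℝ) ^ 18) := by
  set C2 : ℝ := C0 + 2 * c with hC2
  set K : ℝ := 1 / c + 2 + C1 with hK
  set C : ℝ := C2 + 1 + (1 + K) with hC
  set T' : ℝ := T + C * (M : ℝ) ^ 18 with hT'
  set Lam : ℕ → ℝ := fun D => T + C2 * (M : ℝ) ^ 18 - Cost M (j + 1) D with hLam
  set PP : ℕ → Finset ℕ := fun D => (Finset.range (NN M + 1)).filter (fun p : ℕ => p.Prime ∧
    max 0 (xs M D - 2 * (M : ℝ) ^ 18 + (M : ℝ) ^ 15) ≤ ll (p : ℝ) ∧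
    ll (p : ℝ) ≤ xs M D + Lam D / c + (M : ℝ) ^ 15) with hPP
  set B : Finset ℕ := (DF M r (j + 1) (T + C2 * (M : ℝ) ^ 18)) with hB
  have hC2pos : 0 < C2 := by positivity
  have hKpos : 0 < K := by positivity
  have h18 : (1 : ℝ) ≤ (M : ℝ) ^ 18 := one_le_pow₀ (by exact_mod_cast hM)
  have hLam0 : ∀ D ∈ B, 0 ≤ Lam D := by
    intro D hD
    have := (mem_DF.1 hD).2.2
    simp only [hLam]
    linarith only [this]
  rw [Finset.sum_sigma]
  have hBsub : B ⊆ DF M r (j + 1) T' := by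
    apply DF_mono
    rw [hT', hC]
    have h1 : 0 ≤ (1 + (1 + K)) * (M : ℝ) ^ 18 := by positivity
    linarith only [h1]
  calc ∑ D ∈ B, ∑ p ∈ PP D, (Lam D) ^ q / (((p : ℝ) - 1) * (D : ℝ))
      ≤ ∑ D ∈ B, K * ((T' - Cost M (j + 1) D) ^ (q + 1) / (D : ℝ)) := by
        refine Finset.sum_le_sum fun D hD => ?_
        have hL := hLam0 D hD
        have hD1 : (0 : ℝ) < D := by
          have := (mem_DF.1 hD).1.1
          exact_mod_cast this
        have h1 : ∑ p ∈ PP D, (Lam D) ^ q / (((p : ℝ) - 1) * (D : ℝ)) =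
            (Lam D) ^ q / (D : ℝ) * ∑ p ∈ PP D, 1 / ((p : ℝ) - 1) := by
          rw [Finset.mul_sum]
          refine Finset.sum_congr rfl fun p hp => ?_
          simp only [hPP, Finset.mem_filter] at hp
          have h2 : (1 : ℝ) < (p : ℝ) := by exact_mod_cast hp.2.1.one_lt
          have h3 : (p : ℝ) - 1 ≠ 0 := by linarith only [h2]
          field_simp
        have hsp : ∑ p ∈ PP D, 1 / ((p : ℝ) - 1) ≤ Lam D / c + 2 * (M : ℝ) ^ 18 + C1 := by
          have hLc : 0 ≤ Lam D / c := by positivity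
          have hxs0 : 0 ≤ xs M D := (YY_nonneg M D).trans (le_max_left _ _)
          have h15 : (0 : ℝ) ≤ (M : ℝ) ^ 15 := by positivity
          have := hsum (max 0 (xs M D - 2 * (M : ℝ) ^ 18 + (M : ℝ) ^ 15))
            (xs M D + Lam D / c + (M : ℝ) ^ 15) (PP D) (le_max_left _ _)
            (max_le (by linarith only [hLc, h15, hxs0]) (by linarith only [hLc, h18])) (by
              intro p hp
              simp only [hPP, Finset.mem_filter] at hp
              exact ⟨hp.2.1, hp.2.2.1, hp.2.2.2⟩)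
          refine this.trans ?_
          have h4 : xs M D - 2 * (M : ℝ) ^ 18 + (M : ℝ) ^ 15 ≤
            max 0 (xs M D - 2 * (M : ℝ) ^ 18 + (M : ℝ) ^ 15) := le_max_right _ _
          linarith only [h4]
        have hT'L : Lam D + (M : ℝ) ^ 18 ≤ T' - Cost M (j + 1) D := by
          simp only [hLam, hT', hC]
          have h1 : 0 ≤ (1 + K) * (M : ℝ) ^ 18 := by positivity
          linarith only [h1]
        have hK1 : Lam D / c + 2 * (M : ℝ) ^ 18 + C1 ≤ K * (Lam D + (M : ℝ) ^ 18) := by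
          rw [hK]
          have h1 : 0 ≤ 1 / c * (M : ℝ) ^ 18 := by positivity
          have h2 : 0 ≤ (2 + C1) * Lam D := by positivity
          have h3 : Lam D / c = 1 / c * Lam D := by ring
          rw [h3]
          linarith only [mul_nonneg (sub_nonneg.2 h18) (sub_nonneg.2 hC1), h2, h1]
        rw [h1]
        calc (Lam D) ^ q / (D : ℝ) * ∑ p ∈ PP D, 1 / ((p : ℝ) - 1)
            ≤ (Lam D) ^ q / (D : ℝ) * (K * (Lam D + (M : ℝ) ^ 18)) := by
              apply mul_le_mul_of_nonneg_left (hsp.trans hK1)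
              positivity
          _ ≤ (T' - Cost M (j + 1) D) ^ q / (D : ℝ) * (K * (T' - Cost M (j + 1) D)) := by
              have h5 : Lam D ≤ T' - Cost M (j + 1) D := by linarith only [hT'L, h18]
              have h6 : 0 ≤ T' - Cost M (j + 1) D := by linarith only [hT'L, hL, h18]
              gcongr
          _ = K * ((T' - Cost M (j + 1) D) ^ (q + 1) / (D : ℝ)) := by ring
    _ = K * ∑ D ∈ B, ((T' - Cost M (j + 1) D) ^ (q + 1) / (D : ℝ)) := by rw [Finset.mul_sum]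
    _ ≤ K * FF M r (j + 1) (q + 1) T' := by
        apply mul_le_mul_of_nonneg_left _ hKpos.le
        unfold FF
        refine Finset.sum_le_sum_of_subset_of_nonneg hBsub fun D hD _ => ?_
        have h1 := (mem_DF.1 hD).2.2
        have h2 : 0 ≤ T' - Cost M (j + 1) D := by linarith only [h1]
        positivity

/-- upward recursion, fixed level. -/
theorem up_aux (J₀ j : ℕ) (hj : 1 ≤ j) (hjJ : j ≤ J₀) : ∃ C : ℝ, 0 < C ∧ ∀ᶠ M : ℕ in atTop,
    ∀ (r q : ℕ) (T : ℝ), r ≤ J₀ → (M : ℝ) ^ 19 ≤ T →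
    FF M r j q T ≤ C * FF M r (j + 1) (q + 1) (T + C * (M : ℝ) ^ 18) := by
  obtain ⟨c, C0, hc, hC0, hcost⟩ := cost_lower J₀ j hj hjJ
  obtain ⟨C1, hC1, hsum⟩ := sum_inv_le
  set C2 : ℝ := C0 + 2 * c with hC2
  set K : ℝ := 1 / c + 2 + C1 with hK
  set C : ℝ := C2 + 1 + (1 + K) with hC
  have hC2pos : 0 < C2 := by positivity
  have hKpos : 0 < K := by positivity
  refine ⟨C, by positivity, ?_⟩
  filter_upwards [hcost, eventually_ge_atTop 2, eventually_ge_atTop (J₀ + 1)] with M hcM hM hMJ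
    r q T hr hT
  have hM1 : 1 ≤ M := by omega
  have hMr : (2 : ℝ) ≤ M := by exact_mod_cast hM
  have h18 : (1 : ℝ) ≤ (M : ℝ) ^ 18 := one_le_pow₀ (by linarith only [hMr])
  have hT1 : 1 ≤ T := (one_le_pow₀ (by linarith only [hMr] : (1 : ℝ) ≤ M)).trans hT
  have hrM : r + 1 ≤ M := by omega
  set T' : ℝ := T + C * (M : ℝ) ^ 18 with hT'
  have hTT' : T ≤ T' := by
    have : 0 ≤ C * (M : ℝ) ^ 18 := by positivity
    linarith only [this]
  classical
  -- split into small and non small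
  have hsplit : FF M r j q T =
      ∑ D ∈ (DF M r j T).filter (fun D => Small M D), (T - Cost M j D) ^ q / (D : ℝ) +
      ∑ D ∈ (DF M r j T).filter (fun D => ¬ Small M D), (T - Cost M j D) ^ q / (D : ℝ) := by
    unfold FF
    rw [Finset.sum_filter_add_sum_filter_not]
  have hsmall : ∑ D ∈ (DF M r j T).filter (fun D => Small M D), (T - Cost M j D) ^ q / (D : ℝ) ≤
      FF M r (j + 1) (q + 1) T' := by
    unfold FF
    calc ∑ D ∈ (DF M r j T).filter (fun D => Small M D), (T - Cost M j D) ^ q / (D : ℝ)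
        ≤ ∑ D ∈ (DF M r j T).filter (fun D => Small M D),
          (T' - Cost M (j + 1) D) ^ (q + 1) / (D : ℝ) := by
          refine Finset.sum_le_sum fun D hD => ?_
          rw [Finset.mem_filter] at hD
          rw [Cost_small j hM1 hD.2, Cost_small (j + 1) hM1 hD.2, sub_zero, sub_zero]
          have h1 : T ^ q ≤ T' ^ (q + 1) := by
            calc T ^ q ≤ T ^ (q + 1) := pow_le_pow_right₀ hT1 (by omega)
              _ ≤ T' ^ (q + 1) := by gcongr
          gcongr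
      _ ≤ _ := by
          refine Finset.sum_le_sum_of_subset_of_nonneg ?_ fun D hD _ => ?_
          · intro D hD
            rw [Finset.mem_filter, mem_DF] at hD
            rw [mem_DF]
            refine ⟨hD.1.1, hD.1.2.1, ?_⟩
            rw [Cost_small (j + 1) hM1 hD.2]
            linarith only [hT1, hTT']
          · have h1 := (mem_DF.1 hD).2.2
            have h2 : 0 ≤ T' - Cost M (j + 1) D := by linarith only [h1]
            positivity
  -- non small part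
  set Lam : ℕ → ℝ := fun D => T + C2 * (M : ℝ) ^ 18 - Cost M (j + 1) D with hLam
  set PP : ℕ → Finset ℕ := fun D => (Finset.range (NN M + 1)).filter (fun p : ℕ => p.Prime ∧
    max 0 (xs M D - 2 * (M : ℝ) ^ 18 + (M : ℝ) ^ 15) ≤ ll (p : ℝ) ∧
    ll (p : ℝ) ≤ xs M D + Lam D / c + (M : ℝ) ^ 15) with hPP
  set B : Finset ℕ := (DF M r (j + 1) (T + C2 * (M : ℝ) ^ 18)) with hB
  have hLam0 : ∀ D ∈ B, 0 ≤ Lam D := by
    intro D hD
    have := (mem_DF.1 hD).2.2
    simp only [hLam]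
    linarith only [this]
  have hcover : ∑ D ∈ (DF M r j T).filter (fun D => ¬ Small M D), (T - Cost M j D) ^ q / (D : ℝ) ≤
      ∑ b ∈ B.sigma PP, (Lam b.1) ^ q / (((b.2 : ℝ) - 1) * (b.1 : ℝ)) := by
    refine sum_le_of_cover _ _ (fun b : (_ : ℕ) × ℕ => (b.2 - 1) * b.1) _ _ ?_ ?_
    · intro D hD
      rw [Finset.mem_filter, mem_DF] at hD
      obtain ⟨⟨⟨hD1, hDN⟩, hDD, hDT⟩, hDs⟩ := hD
      obtain ⟨⟨J, P, hJ, hch⟩, hOm⟩ := hDD
      have hOmM : Om D ≤ M ^ 26 := Om_DD ⟨⟨J, P, hJ, hch⟩, hOm⟩ hrM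
      rcases Ch_inv hch with ⟨hJ0, -⟩ | ⟨J', P', D', hJe, hDe, hp, hPp, hch', hG, hsq⟩
      · subst hJ0
        exact absurd (Small_of_Ch_zero hch hM1 (by omega)) hDs
      · subst hDe
        have hDne : (P - 1) * D' ≠ 0 := by omega
        have hD'0 : D' ≠ 0 := right_ne_zero_of_mul hDne
        have hp0 : P - 1 ≠ 0 := left_ne_zero_of_mul hDne
        have hPle : P ≤ NN M := by
          have h1 : P - 1 ≤ (P - 1) * D' := Nat.le_mul_of_pos_right _ (Nat.pos_of_ne_zero hD'0)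
          omega
        have hlP : ll (P : ℝ) ≤ 5 * (M : ℝ) ^ 20 := ll_le_of_le_NN hPle
        obtain ⟨h1, h2⟩ := hcM J' P' P D' hp hPp hch' hG hlP hD'0 hOmM hsq
        have h3 : Cost M (j + 1) D' ≤ Cost M j ((P - 1) * D') + C2 * (M : ℝ) ^ 18 := by
          have : c * (xs M D' - xi M P) ≤ c * (2 * (M : ℝ) ^ 18) := by
            apply mul_le_mul_of_nonneg_left _ hc.le
            linarith only [h1]
          rw [hC2]
          linarith only [this, h2]
        refine ⟨⟨D', P⟩, ?_, rfl, ?_⟩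
        · rw [Finset.mem_sigma]
          constructor
          · rw [hB, mem_DF]
            refine ⟨⟨Nat.pos_of_ne_zero hD'0, ?_⟩, ⟨⟨_, _, ?_, hch'⟩, ?_⟩, ?_⟩
            · have h5 : D' ≤ (P - 1) * D' := Nat.le_mul_of_pos_left _ (Nat.pos_of_ne_zero hp0)
              exact lt_of_le_of_lt h5 hDN
            · omega
            · exact (Om_le_of_dvd hDne (dvd_mul_left D' (P - 1))).trans hOm
            · linarith only [h3, hDT]
          · simp only [hPP, Finset.mem_filter, Finset.mem_range]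
            refine ⟨by omega, hp.big.1, ?_, ?_⟩
            · apply max_le
              · have h6 : (0 : ℝ) ≤ (M : ℝ) ^ 15 := by positivity
                exact h6.trans hp.big.2
              · have : xi M P = ll (P : ℝ) - (M : ℝ) ^ 15 := rfl
                linarith only [this, h1]
            · have h7 : xi M P - xs M D' ≤ Lam D' / c := by
                rw [le_div_iff₀ hc]
                simp only [hLam]
                have h8 : 0 ≤ 2 * c * (M : ℝ) ^ 18 := by positivity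
                rw [hC2]
                linarith only [hDT, h8, h2]
              have : xi M P = ll (P : ℝ) - (M : ℝ) ^ 15 := rfl
              linarith only [h7, this]
        · have h9 : (((P - 1) * D' : ℕ) : ℝ) = ((P : ℝ) - 1) * (D' : ℝ) := by
            rw [Nat.cast_mul, Nat.cast_sub hp.big.1.one_lt.le, Nat.cast_one]
          show (T - Cost M j ((P - 1) * D')) ^ q / (((P - 1) * D' : ℕ) : ℝ) ≤
            (Lam D') ^ q / (((P : ℝ) - 1) * (D' : ℝ))
          rw [h9]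
          have h10 : (0 : ℝ) < (P : ℝ) - 1 := by
            have : (1 : ℝ) < P := by exact_mod_cast hp.big.1.one_lt
            linarith only [this]
          have h11 : (0 : ℝ) < D' := by exact_mod_cast Nat.pos_of_ne_zero hD'0
          have h12 : 0 ≤ T - Cost M j ((P - 1) * D') := by linarith only [hDT]
          have h13 : T - Cost M j ((P - 1) * D') ≤ Lam D' := by
            simp only [hLam]
            linarith only [h3]
          gcongr
    · intro b hb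
      rw [Finset.mem_sigma] at hb
      obtain ⟨hb1, hb2⟩ := hb
      have h1 := hLam0 _ hb1
      simp only [hPP, Finset.mem_filter] at hb2
      have h2 : (1 : ℝ) < (b.2 : ℝ) := by exact_mod_cast hb2.2.1.one_lt
      have h3 : 0 ≤ (b.2 : ℝ) - 1 := by linarith only [h2]
      positivity
  have hinner : ∑ b ∈ B.sigma PP, (Lam b.1) ^ q / (((b.2 : ℝ) - 1) * (b.1 : ℝ)) ≤
      K * FF M r (j + 1) (q + 1) T' :=
    up_inner M r j q T c C0 C1 hc hC0.le hC1.le hM1 hsum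
  rw [hsplit]
  have hFF := FF_nonneg M r (j + 1) (q + 1) T'
  have hle : (1 + K) * FF M r (j + 1) (q + 1) T' ≤ C * FF M r (j + 1) (q + 1) T' := by
    apply mul_le_mul_of_nonneg_right _ hFF
    rw [hC]
    linarith only [hC0, hc]
  linarith only [hle, hinner, hcover, hsmall]

end Vale.Agent.P031.Rc

namespace Vale.Agent.P031

open Rc Finset Filter Topology

/-- **upward recursion** -/
theorem up (J₀ : ℕ) : ∃ C : ℝ, 0 < C ∧ ∀ᶠ M : ℕ in atTop, ∀ (r j q : ℕ) (T : ℝ), r ≤ J₀ →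
    1 ≤ j → j ≤ J₀ → q ≤ J₀ → (M : ℝ) ^ 19 ≤ T → T ≤ 9 / 2 * (M : ℝ) ^ 20 →
    FF M r j q T ≤ C * FF M r (j + 1) (q + 1) (T + C * (M : ℝ) ^ 18) := by
  have h : ∀ j : ℕ, ∃ C : ℝ, 0 < C ∧ (1 ≤ j → j ≤ J₀ → ∀ᶠ M : ℕ in atTop,
      ∀ (r q : ℕ) (T : ℝ), r ≤ J₀ → (M : ℝ) ^ 19 ≤ T →
      FF M r j q T ≤ C * FF M r (j + 1) (q + 1) (T + C * (M : ℝ) ^ 18)) := by
    intro j
    by_cases hj : 1 ≤ j ∧ j ≤ J₀
    · obtain ⟨C, hC, hh⟩ := up_aux J₀ j hj.1 hj.2
      exact ⟨C, hC, fun _ _ => hh⟩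
    · exact ⟨1, one_pos, fun h1 h2 => absurd ⟨h1, h2⟩ hj⟩
  choose Cf hCf0 hCf using h
  refine ⟨1 + ∑ j ∈ Finset.range (J₀ + 1), Cf j, ?_, ?_⟩
  · have : 0 ≤ ∑ j ∈ Finset.range (J₀ + 1), Cf j := Finset.sum_nonneg fun j _ => (hCf0 j).le
    linarith
  have hall : ∀ᶠ M : ℕ in atTop, ∀ j ∈ Finset.Icc 1 J₀, ∀ (r q : ℕ) (T : ℝ), r ≤ J₀ →
      (M : ℝ) ^ 19 ≤ T →
      FF M r j q T ≤ Cf j * FF M r (j + 1) (q + 1) (T + Cf j * (M : ℝ) ^ 18) := by
    rw [Filter.eventually_all_finset]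
    intro j hj
    rw [Finset.mem_Icc] at hj
    exact hCf j hj.1 hj.2
  filter_upwards [hall] with M hM r j q T hr hj1 hj2 _ hT _
  have h1 := hM j (Finset.mem_Icc.2 ⟨hj1, hj2⟩) r q T hr hT
  have hle : Cf j ≤ 1 + ∑ j ∈ Finset.range (J₀ + 1), Cf j := by
    have := Finset.single_le_sum (f := Cf) (fun i _ => (hCf0 i).le)
      (Finset.mem_range.2 (Nat.lt_succ_of_le hj2))
    linarith only [this]
  refine h1.trans ?_
  have hTle : T + Cf j * (M : ℝ) ^ 18 ≤
      T + (1 + ∑ j ∈ Finset.range (J₀ + 1), Cf j) * (M : ℝ) ^ 18 := by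
    gcongr
  calc Cf j * FF M r (j + 1) (q + 1) (T + Cf j * (M : ℝ) ^ 18)
      ≤ Cf j * FF M r (j + 1) (q + 1)
        (T + (1 + ∑ j ∈ Finset.range (J₀ + 1), Cf j) * (M : ℝ) ^ 18) :=
        mul_le_mul_of_nonneg_left (FF_mono hTle) (hCf0 j).le
    _ ≤ _ := mul_le_mul_of_nonneg_right hle (FF_nonneg _ _ _ _ _)

end Vale.Agent.P031
end
end

section

section

/-!
# P031: tools for the downward recursion
-/

namespace Vale.Agent.P031.Rc

open Finset Filter Topology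

/-- Distinct values versus representations. -/
theorem sum_image_add_coll {α β : Type*} [DecidableEq α] [DecidableEq β] (A : Finset β)
    (f : β → α) (g : α → ℝ) (hg : ∀ b ∈ A, 0 ≤ g (f b)) :
    ∑ b ∈ A, g (f b) ≤ ∑ x ∈ A.image f, g x +
      ∑ c ∈ (A ×ˢ A).filter (fun c => c.1 ≠ c.2 ∧ f c.1 = f c.2), g (f c.1) := by
  classical
  rcases A.eq_empty_or_nonempty with h0 | ⟨b₀, hb₀⟩
  · subst h0
    simp
  have hne : Nonempty β := ⟨b₀⟩
  have hex : ∀ x : α, ∃ b : β, x ∈ A.image f → b ∈ A ∧ f b = x := by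
    intro x
    by_cases hx : x ∈ A.image f
    · obtain ⟨b, hb, hbx⟩ := Finset.mem_image.1 hx
      exact ⟨b, fun _ => ⟨hb, hbx⟩⟩
    · exact ⟨b₀, fun h => absurd h hx⟩
  choose s hs using hex
  rw [← Finset.sum_filter_add_sum_filter_not A (fun b => b = s (f b))]
  apply add_le_add
  · have hinj : Set.InjOn f (A.filter (fun b => b = s (f b))) := by
      intro b hb b' hb' hbb
      rw [Finset.mem_coe, Finset.mem_filter] at hb hb'
      rw [hb.2, hb'.2, hbb]
    rw [← Finset.sum_image hinj]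
    refine Finset.sum_le_sum_of_subset_of_nonneg ?_ ?_
    · exact Finset.image_subset_image (Finset.filter_subset _ _)
    · intro x hx _
      obtain ⟨b, hb, rfl⟩ := Finset.mem_image.1 hx
      exact hg b hb
  · have hinj : Set.InjOn (fun b => (b, s (f b))) (A.filter (fun b => ¬ b = s (f b))) := by
      intro b _ b' _ hbb
      exact (Prod.ext_iff.1 hbb).1
    have h1 : ∑ b ∈ A.filter (fun b => ¬ b = s (f b)), g (f b) =
        ∑ c ∈ (A.filter (fun b => ¬ b = s (f b))).image (fun b => (b, s (f b))), g (f c.1) := by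
      rw [Finset.sum_image hinj]
    rw [h1]
    refine Finset.sum_le_sum_of_subset_of_nonneg ?_ ?_
    · intro c hc
      obtain ⟨b, hb, rfl⟩ := Finset.mem_image.1 hc
      rw [Finset.mem_filter] at hb
      obtain ⟨h2, h3⟩ := hs (f b) (Finset.mem_image_of_mem f hb.1)
      rw [Finset.mem_filter, Finset.mem_product]
      exact ⟨⟨hb.1, h2⟩, hb.2, h3.symm⟩
    · intro c hc _
      rw [Finset.mem_filter, Finset.mem_product] at hc
      exact hg _ hc.1.1

/-- `n ≤ (gpf n)^(Om n)` in logarithmic form -/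
theorem log_le_Om_mul {n : ℕ} (hn : 2 ≤ n) : Real.log n ≤ (Om n : ℝ) * Real.log (gpf n) := by
  have hn0 : n ≠ 0 := by omega
  have hg := gpf_prime hn
  have h1 : n ≤ (gpf n) ^ (Om n) := by
    have h2 : n.primeFactorsList.prod = n := Nat.prod_primeFactorsList hn0
    have h3 : n.primeFactorsList.prod ≤ (gpf n) ^ n.primeFactorsList.length := by
      apply List.prod_le_pow_card
      intro q hq
      have : q ∈ n.primeFactors := by
        rw [Nat.mem_primeFactors_iff_mem_primeFactorsList]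
        exact hq
      exact Finset.le_sup (f := id) this
    rw [h2] at h3
    exact h3
  have h4 : (0 : ℝ) < n := by exact_mod_cast Nat.pos_of_ne_zero hn0
  calc Real.log n ≤ Real.log (((gpf n) ^ (Om n) : ℕ) : ℝ) :=
        Real.log_le_log h4 (by exact_mod_cast h1)
    _ = (Om n : ℝ) * Real.log (gpf n) := by
        push_cast
        rw [Real.log_pow]

theorem log_le_exp_of_ll {z t : ℝ} (hz : 1 < z) (h : ll z ≤ t) : Real.log z ≤ Real.exp t := by
  have h1 : 0 < Real.log z := Real.log_pos hz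
  rw [← Real.exp_log h1]
  exact Real.exp_le_exp.2 h

theorem NoSq_of_Small {M D : ℕ} (h : Small M D) : NoSq M D := fun q hq hd =>
  h.2 q ((dvd_pow_self q two_ne_zero).trans hd) hq

theorem NoSq_of_Ch {M J P D : ℕ} (hM : 1 ≤ M) (hD : D ≠ 0) (h : Ch M J P D) : NoSq M D := by
  rcases Ch_inv h with ⟨hJ, -⟩ | ⟨J', P', D', -, hDe, -, -, -, -, hsq⟩
  · subst hJ
    exact NoSq_of_Small (Small_of_Ch_zero h hM hD)
  · rw [hDe]
    exact hsq

theorem NoSq_mul {M a b : ℕ} (ha : NoSq M a) (hb : NoSq M b)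
    (hab : ¬ ∃ q, Big M q ∧ q ∣ b ∧ q ∣ a) : NoSq M (a * b) := by
  intro q hq hd
  by_cases h1 : q ∣ a
  · have h2 : ¬ q ∣ b := fun h => hab ⟨q, hq, h, h1⟩
    have h3 : Nat.Coprime (q ^ 2) b := (Nat.Prime.coprime_iff_not_dvd hq.1).2 h2 |>.pow_left 2
    exact ha q hq (h3.dvd_of_dvd_mul_right hd)
  · have h3 : Nat.Coprime (q ^ 2) a := (Nat.Prime.coprime_iff_not_dvd hq.1).2 h1 |>.pow_left 2
    exact hb q hq (h3.dvd_of_dvd_mul_left hd)

theorem Big_lb {M q : ℕ} (hq : Big M q) : Real.exp (Real.exp ((M : ℝ) ^ 15)) ≤ (q : ℝ) := by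
  have h1 : (1 : ℝ) < q := by exact_mod_cast hq.1.one_lt
  have h2 : 0 < Real.log q := Real.log_pos h1
  have h3 := hq.2
  unfold ll at h3
  have h4 := (Real.le_log_iff_exp_le h2).1 h3
  exact (Real.le_log_iff_exp_le (by linarith)).1 h4

/-- exponential growth facts -/
theorem tendsto_natpow_atTop (k : ℕ) (hk : k ≠ 0) :
    Tendsto (fun M : ℕ => (M : ℝ) ^ k) atTop atTop :=
  (tendsto_pow_atTop hk).comp tendsto_natCast_atTop_atTop

theorem harmonic_real (n : ℕ) : ∑ k ∈ Finset.Icc 1 n, 1 / (k : ℝ) ≤ 1 + Real.log n := by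
  have h := harmonic_le_one_add_log n
  rw [harmonic_eq_sum_Icc] at h
  push_cast at h
  simpa [one_div] using h

theorem sum_prime_dvd (q N : ℕ) (hq : 1 ≤ q) :
    ∑ p ∈ (Finset.range (N + 1)).filter (fun p : ℕ => p.Prime ∧ q ∣ p - 1), 1 / (p : ℝ) ≤
      1 / (q : ℝ) * (1 + Real.log N) := by
  have h1 : ∑ p ∈ (Finset.range (N + 1)).filter (fun p : ℕ => p.Prime ∧ q ∣ p - 1), 1 / (p : ℝ) ≤
      ∑ k ∈ Finset.Icc 1 N, 1 / (q : ℝ) * (1 / (k : ℝ)) := by
    refine sum_le_of_cover _ _ (fun k => q * k + 1) _ _ ?_ ?_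
    · intro p hp
      rw [Finset.mem_filter, Finset.mem_range] at hp
      obtain ⟨hpN, hpp, k, hk⟩ := hp
      have hp2 := hpp.two_le
      have hk1 : 1 ≤ k := by
        rcases Nat.eq_zero_or_pos k with h | h
        · subst h
          omega
        · exact h
      refine ⟨k, ?_, by omega, ?_⟩
      · rw [Finset.mem_Icc]
        refine ⟨hk1, ?_⟩
        have : k ≤ q * k := Nat.le_mul_of_pos_left k hq
        omega
      · have h2 : (p : ℝ) = (q : ℝ) * k + 1 := by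
          have : p = q * k + 1 := by omega
          rw [this]
          push_cast
          ring
        rw [h2, div_mul_div_comm, one_mul]
        have h3 : (0 : ℝ) < (q : ℝ) * k := by
          have : (0 : ℝ) < q := by exact_mod_cast hq
          have : (0 : ℝ) < k := by exact_mod_cast hk1
          positivity
        apply one_div_le_one_div_of_le h3
        linarith only []
    · intro k _
      positivity
  refine h1.trans ?_
  rw [← Finset.mul_sum]
  apply mul_le_mul_of_nonneg_left (harmonic_real N)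
  positivity

theorem card_primeFactors_le_Om (D : ℕ) : D.primeFactors.card ≤ Om D := by
  unfold Om
  exact List.toFinset_card_le _

open Classical in
/-- mass of the primes `p` such that `p - 1` shares a big prime with `D` -/
theorem excl_mass : ∀ᶠ M : ℕ in atTop, ∀ (D : ℕ), Om D ≤ M ^ 26 → D ≠ 0 →
    ∑ p ∈ (Finset.range (NN M + 1)).filter
      (fun p : ℕ => p.Prime ∧ ∃ q, Big M q ∧ q ∣ D ∧ q ∣ p - 1), 1 / (p : ℝ) ≤ 1 := by
  filter_upwards [eventually_ge_atTop 2] with M hM D hOm hD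
  have hMr : (2 : ℝ) ≤ M := by exact_mod_cast hM
  have hM0 : (0 : ℝ) < M := by linarith only [hMr]
  set Q := D.primeFactors.filter (fun q => Big M q) with hQ
  have h1 : ∑ p ∈ (Finset.range (NN M + 1)).filter
      (fun p : ℕ => p.Prime ∧ ∃ q, Big M q ∧ q ∣ D ∧ q ∣ p - 1), 1 / (p : ℝ) ≤
      ∑ b ∈ Q.sigma (fun q => (Finset.range (NN M + 1)).filter
        (fun p : ℕ => p.Prime ∧ q ∣ p - 1)), 1 / (b.2 : ℝ) := by
    refine sum_le_of_cover _ _ (fun b : (_ : ℕ) × ℕ => b.2) _ _ ?_ ?_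
    · intro p hp
      rw [Finset.mem_filter] at hp
      obtain ⟨hpN, hpp, q, hq, hqD, hqp⟩ := hp
      refine ⟨⟨q, p⟩, ?_, rfl, le_refl _⟩
      rw [Finset.mem_sigma, hQ, Finset.mem_filter, Finset.mem_filter]
      exact ⟨⟨Nat.mem_primeFactors.2 ⟨hq.1, hqD, hD⟩, hq⟩, hpN, hpp, hqp⟩
    · intro b _
      positivity
  refine h1.trans ?_
  rw [Finset.sum_sigma]
  have hlog : Real.log (NN M) ≤ Real.exp (5 * (M : ℝ) ^ 20) := by
    rcases Nat.lt_or_ge (NN M) 2 with h | h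
    · have : Real.log (NN M) = 0 := by
        interval_cases (NN M) <;> simp
      rw [this]
      positivity
    · exact log_le_exp_of_ll (by exact_mod_cast h) (ll_le_of_le_NN (le_refl _))
  have hE : (M : ℝ) ^ 26 * (1 + Real.exp (5 * (M : ℝ) ^ 20)) ≤
      Real.exp (Real.exp ((M : ℝ) ^ 15)) := by
    have h2 : (M : ℝ) ≤ Real.exp M := by linarith only [Real.add_one_le_exp (M : ℝ)]
    have h3 : (M : ℝ) ^ 26 ≤ Real.exp (26 * M) := by
      calc (M : ℝ) ^ 26 ≤ (Real.exp M) ^ 26 := by gcongr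
        _ = Real.exp (26 * M) := by rw [← Real.exp_nat_mul]; norm_num
    have h4 : 1 + Real.exp (5 * (M : ℝ) ^ 20) ≤ Real.exp (5 * (M : ℝ) ^ 20 + 1) := by
      rw [Real.exp_add]
      have h5 : (1 : ℝ) ≤ Real.exp (5 * (M : ℝ) ^ 20) := Real.one_le_exp (by positivity)
      have h6 : (2 : ℝ) ≤ Real.exp 1 := by linarith only [Real.add_one_le_exp (1 : ℝ)]
      linarith only [mul_nonneg (sub_nonneg.2 h5) (sub_nonneg.2 h6), h6, h5]
    have h7 : (26 : ℝ) * M + (5 * (M : ℝ) ^ 20 + 1) ≤ Real.exp ((M : ℝ) ^ 15) := by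
      have h8 := Real.quadratic_le_exp_of_nonneg (x := (M : ℝ) ^ 15) (by positivity)
      have h9 : ((M : ℝ) ^ 15) ^ 2 = (M : ℝ) ^ 20 * (M : ℝ) ^ 10 := by ring
      have h10 : (1024 : ℝ) ≤ (M : ℝ) ^ 10 := by
        calc (1024 : ℝ) = 2 ^ 10 := by norm_num
          _ ≤ (M : ℝ) ^ 10 := by gcongr
      have h11 : (M : ℝ) ≤ (M : ℝ) ^ 20 := by
        calc (M : ℝ) = (M : ℝ) ^ 1 := (pow_one _).symm
          _ ≤ (M : ℝ) ^ 20 := pow_le_pow_right₀ (by linarith only [hMr]) (by norm_num)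
      have h12 : 0 < (M : ℝ) ^ 20 := by positivity
      have h13 : (0 : ℝ) ≤ (M : ℝ) ^ 15 := by positivity
      rw [h9] at h8
      nlinarith only [h11, h10, h13, h8]
    calc (M : ℝ) ^ 26 * (1 + Real.exp (5 * (M : ℝ) ^ 20))
        ≤ Real.exp (26 * M) * Real.exp (5 * (M : ℝ) ^ 20 + 1) := by gcongr
      _ = Real.exp (26 * M + (5 * (M : ℝ) ^ 20 + 1)) := by rw [← Real.exp_add]
      _ ≤ _ := Real.exp_le_exp.2 h7
  calc ∑ q ∈ Q, ∑ p ∈ (Finset.range (NN M + 1)).filter (fun p : ℕ => p.Prime ∧ q ∣ p - 1),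
        1 / (p : ℝ)
      ≤ ∑ q ∈ Q, Real.exp (-Real.exp ((M : ℝ) ^ 15)) * (1 + Real.exp (5 * (M : ℝ) ^ 20)) := by
        refine Finset.sum_le_sum fun q hq => ?_
        rw [hQ, Finset.mem_filter] at hq
        refine (sum_prime_dvd q (NN M) hq.2.1.one_lt.le).trans ?_
        have h2 : 1 / (q : ℝ) ≤ Real.exp (-Real.exp ((M : ℝ) ^ 15)) := by
          rw [Real.exp_neg, ← one_div]
          exact one_div_le_one_div_of_le (Real.exp_pos _) (Big_lb hq.2)
        have h3 : 0 ≤ 1 + Real.log (NN M) := by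
          have := Real.log_natCast_nonneg (NN M)
          linarith only [this]
        exact mul_le_mul h2 (by linarith only [hlog]) h3 (Real.exp_pos _).le
    _ = (Q.card : ℝ) * (Real.exp (-Real.exp ((M : ℝ) ^ 15)) *
        (1 + Real.exp (5 * (M : ℝ) ^ 20))) := by
        rw [Finset.sum_const, nsmul_eq_mul]
    _ ≤ (M : ℝ) ^ 26 * (Real.exp (-Real.exp ((M : ℝ) ^ 15)) *
        (1 + Real.exp (5 * (M : ℝ) ^ 20))) := by
        have h2 : Q.card ≤ M ^ 26 :=
          (Finset.card_filter_le _ _).trans ((card_primeFactors_le_Om D).trans hOm)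
        have h3 : (Q.card : ℝ) ≤ (M : ℝ) ^ 26 := by exact_mod_cast h2
        gcongr
    _ = (M : ℝ) ^ 26 * (1 + Real.exp (5 * (M : ℝ) ^ 20)) *
        Real.exp (-Real.exp ((M : ℝ) ^ 15)) := by ring
    _ ≤ Real.exp (Real.exp ((M : ℝ) ^ 15)) * Real.exp (-Real.exp ((M : ℝ) ^ 15)) := by gcongr
    _ = 1 := by rw [← Real.exp_add]; simp

end Vale.Agent.P031.Rc
end
end

section

section

/-!
# P031: the downward recursion
-/

namespace Vale.Agent.P031.Rc

open Finset Filter Topology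

theorem lt_NN_of_log {M : ℕ} {y : ℝ} (hy : 0 < y)
    (h : Real.log y ≤ Real.exp (5 * (M : ℝ) ^ 20) - 1) : y < NN M := by
  set E := Real.exp (5 * (M : ℝ) ^ 20) with hE
  have hE1 : 1 ≤ E := Real.one_le_exp (by positivity)
  have h1 : y ≤ Real.exp (E - 1) := by
    rw [← Real.exp_log hy]
    exact Real.exp_le_exp.2 h
  have h2 : Real.exp E - 1 < NN M := by
    have := Nat.lt_floor_add_one (Real.exp (Real.exp (5 * (M : ℝ) ^ 20)))
    unfold NN
    linarith
  have h3 : Real.exp E = Real.exp (E - 1) * Real.exp 1 := by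
    rw [← Real.exp_add]
    ring_nf
  have h4 : (2 : ℝ) ≤ Real.exp 1 := by linarith [Real.add_one_le_exp (1 : ℝ)]
  have h5 : 1 ≤ Real.exp (E - 1) := Real.one_le_exp (by linarith)
  nlinarith only [h1, h2, h5, h3, h4]

/-- the interval end used for the new primes is below the cut-off -/
theorem exp_exp_le_NN {M : ℕ} (hM : 2 ≤ M) {b : ℝ} (hb : b ≤ 23 / 5 * (M : ℝ) ^ 20) :
    Real.exp (Real.exp b) ≤ NN M := by
  refine (lt_NN_of_log (Real.exp_pos _) ?_).le
  rw [Real.log_exp]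
  have hMr : (2 : ℝ) ≤ M := by exact_mod_cast hM
  have h20 : (2 : ℝ) ^ 20 ≤ (M : ℝ) ^ 20 := by gcongr
  have h1 : Real.exp b + 1 ≤ Real.exp (23 / 5 * (M : ℝ) ^ 20 + 1) := by
    rw [Real.exp_add]
    have h2 : Real.exp b ≤ Real.exp (23 / 5 * (M : ℝ) ^ 20) := Real.exp_le_exp.2 hb
    have h3 : 1 ≤ Real.exp (23 / 5 * (M : ℝ) ^ 20) := Real.one_le_exp (by positivity)
    have h4 : (2 : ℝ) ≤ Real.exp 1 := by linarith only [Real.add_one_le_exp (1 : ℝ)]
    nlinarith only [h4, h3, h2]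
  have h5 : Real.exp (23 / 5 * (M : ℝ) ^ 20 + 1) ≤ Real.exp (5 * (M : ℝ) ^ 20) :=
    Real.exp_le_exp.2 (by linarith only [h20])
  linarith only [h1, h5]

theorem mul_lt_NN {M p D : ℕ} (hM : 2 ≤ M) (hp : p.Prime) (hD : D ≠ 0)
    (hlp : ll (p : ℝ) ≤ 23 / 5 * (M : ℝ) ^ 20) (hY : YY M D ≤ 9 / 2 * (M : ℝ) ^ 20)
    (hOm : Om D ≤ M ^ 26) : (p - 1) * D < NN M := by
  have hMr : (2 : ℝ) ≤ M := by exact_mod_cast hM
  have hp1 : (1 : ℝ) < p := by exact_mod_cast hp.one_lt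
  have hD1 : (1 : ℝ) ≤ D := by exact_mod_cast Nat.pos_of_ne_zero hD
  have hlogp : Real.log p ≤ Real.exp (23 / 5 * (M : ℝ) ^ 20) := log_le_exp_of_ll hp1 hlp
  have hlogD : Real.log D ≤ (M : ℝ) ^ 26 * Real.exp (23 / 5 * (M : ℝ) ^ 20) := by
    rcases Nat.lt_or_ge D 2 with h | h
    · have : D = 1 := by omega
      subst this
      simp only [Nat.cast_one, Real.log_one]
      positivity
    · refine (log_le_Om_mul h).trans ?_
      have hg := gpf_prime h
      have hg1 : (1 : ℝ) < gpf D := by exact_mod_cast hg.1.one_lt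
      have h1 : ll (gpf D : ℝ) ≤ 23 / 5 * (M : ℝ) ^ 20 := by
        have h2 : ll (gpf D : ℝ) - (M : ℝ) ^ 15 ≤ YY M D := le_max_right _ _
        have h3 : (M : ℝ) ^ 20 = (M : ℝ) ^ 15 * (M : ℝ) ^ 5 := by ring
        have h4 : (2 : ℝ) ^ 5 ≤ (M : ℝ) ^ 5 := by gcongr
        have h5 : 0 < (M : ℝ) ^ 15 := by positivity
        nlinarith only [h4, h5, h2, hY]
      have h2 := log_le_exp_of_ll hg1 h1
      have h3 : (Om D : ℝ) ≤ (M : ℝ) ^ 26 := by exact_mod_cast hOm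
      have h4 : 0 ≤ Real.log (gpf D : ℝ) := (Real.log_pos hg1).le
      gcongr
  have hpos : (0 : ℝ) < (p : ℝ) * D := by positivity
  have hlog : Real.log ((p : ℝ) * D) ≤ Real.exp (5 * (M : ℝ) ^ 20) - 1 := by
    rw [Real.log_mul (by positivity) (by positivity)]
    have h2 : (M : ℝ) ≤ Real.exp M := by linarith only [Real.add_one_le_exp (M : ℝ)]
    have h3 : (M : ℝ) ^ 26 ≤ Real.exp (26 * M) := by
      calc (M : ℝ) ^ 26 ≤ (Real.exp M) ^ 26 := by gcongr
        _ = Real.exp (26 * M) := by rw [← Real.exp_nat_mul]; norm_num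
    have h4 : (2 : ℝ) ^ 19 ≤ (M : ℝ) ^ 19 := by gcongr
    have h5 : (M : ℝ) ^ 20 = (M : ℝ) ^ 19 * M := by ring
    set F := Real.exp (23 / 5 * (M : ℝ) ^ 20) with hF
    have hF1 : 1 ≤ F := Real.one_le_exp (by positivity)
    have h6 : F * Real.exp (26 * M) * Real.exp 2 ≤ Real.exp (5 * (M : ℝ) ^ 20) := by
      rw [hF, ← Real.exp_add, ← Real.exp_add]
      apply Real.exp_le_exp.2
      nlinarith only [h4, hMr]
    have h7 : (3 : ℝ) ≤ Real.exp 2 := by linarith only [Real.add_one_le_exp (2 : ℝ)]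
    have h8 : 1 ≤ Real.exp (26 * (M : ℝ)) := Real.one_le_exp (by positivity)
    have h9 : 1 ≤ F * Real.exp (26 * M) := by nlinarith only [hF1, h8]
    have h10 : F ≤ F * Real.exp (26 * M) := by nlinarith only [hF1, h8]
    have h11 : (M : ℝ) ^ 26 * F ≤ F * Real.exp (26 * M) := by nlinarith only [hF1, h3]
    have h12 : 3 * (F * Real.exp (26 * M)) ≤ F * Real.exp (26 * M) * Real.exp 2 := by nlinarith only [h7, h9]
    linarith only [h10, hlogp, h11, hlogD, h6, h9, h12]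
  have h1 := lt_NN_of_log hpos hlog
  have h2 : (p - 1) * D ≤ p * D := Nat.mul_le_mul_right _ (Nat.sub_le _ _)
  have h3 : p * D < NN M := by exact_mod_cast h1
  omega

open Classical in
/-- new primes used in the downward recursion -/
noncomputable def PPl (M j : ℕ) (θ T : ℝ) (D : ℕ) : Finset ℕ :=
  (Finset.range (NN M + 1)).filter (fun p : ℕ => p.Prime ∧
    xs M D + θ * (T - Cost M (j + 1) D) / 2 + (M : ℝ) ^ 15 ≤ ll (p : ℝ) ∧
    ll (p : ℝ) ≤ xs M D + θ * (T - Cost M (j + 1) D) + (M : ℝ) ^ 15 ∧ Nrm M p ∧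
    ¬ ∃ q, Big M q ∧ q ∣ D ∧ q ∣ p - 1)

theorem mem_PPl {M j : ℕ} {θ T : ℝ} {D p : ℕ} : p ∈ PPl M j θ T D ↔ p < NN M + 1 ∧ (p.Prime ∧
    xs M D + θ * (T - Cost M (j + 1) D) / 2 + (M : ℝ) ^ 15 ≤ ll (p : ℝ) ∧
    ll (p : ℝ) ≤ xs M D + θ * (T - Cost M (j + 1) D) + (M : ℝ) ^ 15 ∧ Nrm M p ∧
    ¬ ∃ q, Big M q ∧ q ∣ D ∧ q ∣ p - 1) := by
  classical
  unfold PPl
  rw [Finset.mem_filter, Finset.mem_range]

theorem xs_nonneg (M D : ℕ) : 0 ≤ xs M D := (YY_nonneg M D).trans (le_max_left _ _)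

theorem xs_le_Cost (M j D : ℕ) (hj : 1 ≤ j) : xs M D ≤ Cost M (j + 1) D := by
  rw [Cost_succ M j D hj]
  exact le_Psi _ _ _

theorem YY_le_Cost (M j D : ℕ) : YY M D ≤ Cost M j D := le_Psi _ _ _

theorem Cost_nonneg (M j D : ℕ) : 0 ≤ Cost M j D := (YY_nonneg M D).trans (YY_le_Cost M j D)

/-- facts about the pairs used in the downward recursion -/
theorem low_pair (J₀ j : ℕ) (hj : 1 ≤ j) (hjJ : j ≤ J₀) : ∃ θ C : ℝ, 0 < θ ∧ θ ≤ 1 / 4 ∧ 0 < C ∧
    ∀ᶠ M : ℕ in atTop, ∀ (r : ℕ) (T : ℝ) (D p : ℕ), r ≤ J₀ → T ≤ 9 / 2 * (M : ℝ) ^ 20 →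
      D ∈ DF M r (j + 1) (T - C * (M : ℝ) ^ 18) → p ∈ PPl M j θ T D →
      (p - 1) * D ∈ DF M (r + 1) j T ∧
      (T - Cost M (j + 1) D) / 2 ≤ T - Cost M j ((p - 1) * D) ∧
      PD M r (NN M) (p, D) := by
  obtain ⟨Cu, hCu, hup⟩ := cost_upper J₀ j hj hjJ
  set θ : ℝ := 1 / (4 * Cu + 4) with hθ
  have hθ0 : 0 < θ := by positivity
  have hθCu : θ * (4 * Cu + 4) = 1 := by
    rw [hθ]
    field_simp
  have hθ1 : θ ≤ 1 / 4 := by nlinarith only [hCu, hθCu]
  set C : ℝ := 4 / θ + 4 * Cu with hC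
  refine ⟨θ, C, hθ0, hθ1, by positivity, ?_⟩
  filter_upwards [hup, step J₀, YY_near, eventually_ge_atTop 2, eventually_ge_atTop (J₀ + 2)] with
    M hupM hstep hYn hM hMJ r T D p hr hT hD hp
  have hM1 : 1 ≤ M := by omega
  have hMr : (2 : ℝ) ≤ M := by exact_mod_cast hM
  have h18 : (0 : ℝ) < (M : ℝ) ^ 18 := by positivity
  have h1718 : (M : ℝ) ^ 17 ≤ (M : ℝ) ^ 18 := pow_le_pow_right₀ (by linarith only [hMr]) (by norm_num)
  have hM18 : (M : ℝ) ≤ (M : ℝ) ^ 18 := by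
    calc (M : ℝ) = (M : ℝ) ^ 1 := (pow_one _).symm
      _ ≤ (M : ℝ) ^ 18 := pow_le_pow_right₀ (by linarith only [hMr]) (by norm_num)
  rw [mem_DF] at hD
  obtain ⟨⟨hD1, hDN⟩, hDD, hDT⟩ := hD
  have hD0 : D ≠ 0 := by omega
  have hOmD : Om D ≤ M ^ 26 := Om_DD hDD (by omega)
  obtain ⟨⟨J, P, hJ, hch⟩, hOmD'⟩ := hDD
  rw [mem_PPl] at hp
  obtain ⟨hpN, hpp, hlo, hhi, hnrm, hex⟩ := hp
  set Lam : ℝ := T - Cost M (j + 1) D with hLam
  have hLamC : C * (M : ℝ) ^ 18 ≤ Lam := by linarith only [hDT]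
  have hθL : 4 * (M : ℝ) ^ 18 ≤ θ * Lam := by
    have h1 : θ * (C * (M : ℝ) ^ 18) ≤ θ * Lam := mul_le_mul_of_nonneg_left hLamC hθ0.le
    have h2 : θ * (C * (M : ℝ) ^ 18) = (4 + 4 * Cu * θ) * (M : ℝ) ^ 18 := by
      rw [hC]
      field_simp
    have h3 : 0 ≤ 4 * Cu * θ * (M : ℝ) ^ 18 := by positivity
    linarith only [h3, h1, h2]
  have hLam0 : 0 ≤ Lam := le_trans (by positivity) hLamC
  have hxi1 : xs M D + θ * Lam / 2 ≤ xi M p := by
    unfold xi
    linarith only [hlo]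
  have hxi2 : xi M p ≤ xs M D + θ * Lam := by
    unfold xi
    linarith only [hhi]
  have hxsC := xs_le_Cost M j D hj
  have hlp : ll (p : ℝ) ≤ 23 / 5 * (M : ℝ) ^ 20 := by
    have h1 : θ * Lam ≤ Lam := by nlinarith only [hCu, hLam0, hθCu]
    have h3 : (M : ℝ) ^ 20 = (M : ℝ) ^ 15 * (M : ℝ) ^ 5 := by ring
    have h4 : (2 : ℝ) ^ 5 ≤ (M : ℝ) ^ 5 := by gcongr
    have h5 : 0 < (M : ℝ) ^ 15 := by positivity
    linarith [mul_eq_zero_of_left (sub_eq_zero.2 hθCu) (Lam - (0)), mul_nonneg (le_of_lt (sub_pos.2 h5)) (sub_nonneg.2 h4), mul_nonneg (le_of_lt (sub_pos.2 hCu)) (sub_nonneg.2 hθL), mul_nonneg (le_of_lt (sub_pos.2 hCu)) (sub_nonneg.2 hM18), hθL, hM18, hhi, h5, hxsC, hT]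
  have hlp5 : ll (p : ℝ) ≤ 5 * (M : ℝ) ^ 20 := by
    have : 0 < (M : ℝ) ^ 20 := by positivity
    linarith only [this, hlp]
  -- `P < p`
  have hPp : P < p := by
    rcases Ch_inv hch with ⟨-, hP1⟩ | ⟨J', P', D', hJe, hDe, hnP, -, -, -, -⟩
    · rw [hP1]
      exact hpp.one_lt
    · have hne : (P - 1) * D' ≠ 0 := by rw [← hDe]; exact hD0
      have hPle : P ≤ NN M := by
        have h1 : P - 1 ≤ (P - 1) * D' :=
          Nat.le_mul_of_pos_right _ (Nat.pos_of_ne_zero (right_ne_zero_of_mul hne))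
        omega
      have h2 := (hYn J P D (by omega) hch (ll_le_of_le_NN hPle)).1
      have h3 : YY M D ≤ xs M D := le_max_left _ _
      by_contra hlt
      push Not at hlt
      have h4 := ll_prime_mono hpp hlt
      unfold xi at hxi1
      linarith only [h3, h2, h4, hMr, hM18, hθL, hlo]
  have hp1 : p - 1 ≠ 0 := by have := hpp.two_le; omega
  have hDD0 : (p - 1) * D ≠ 0 := mul_ne_zero hp1 hD0
  have hOm1 : Om ((p - 1) * D) ≤ (r + 1 + 1) * M ^ 25 := by
    rw [Om_mul hp1 hD0]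
    have := hnrm.om_le
    have h2 : (r + 1 + 1) * M ^ 25 = (r + 1) * M ^ 25 + M ^ 25 := by ring
    omega
  have hOm2 : Om ((p - 1) * D) ≤ M ^ 26 := by
    refine hOm1.trans ?_
    calc (r + 1 + 1) * M ^ 25 ≤ M * M ^ 25 := Nat.mul_le_mul_right _ (by omega)
      _ = M ^ 26 := by ring
  have hsq : NoSq M ((p - 1) * D) := NoSq_mul hnrm.nosq (NoSq_of_Ch hM1 hD0 hch) hex
  have hq : ∀ q : ℕ, q.Prime → q ∣ D → q ≤ p := fun q hq hqD =>
    prime_dvd_le hM1 hch hPp hnrm.big hq hqD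
  have hGG : GG M ((p - 1) * D) ≤ -(M : ℝ) ^ 18 := by
    have h1 := hstep 0 p D (Nat.zero_le _) hnrm hlp5 hD0 hOmD hq
    rw [HH_zero, aa_zero, abs_le, zero_add] at h1
    have h2 : HH M 1 D ≤ xs M D := le_max_right _ _
    have h3 : ll (p : ℝ) - (M : ℝ) ^ 15 = xi M p := rfl
    rw [h3] at h1
    linarith only [hxi1, h1718, h2, hθL, h1.2]
  have hGG' : GG M ((p - 1) * D) ≤ (M : ℝ) ^ 18 := by linarith only [hGG, hM18]
  have hcost := hupM J P p D hnrm hPp hch hGG' hlp5 hD0 hOm2 hsq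
    (by have : 0 ≤ θ * Lam / 2 := by positivity
        linarith only [hxi1, hM18, hθL])
  have hhalf : Lam / 2 ≤ T - Cost M j ((p - 1) * D) := by
    have h1 : Cu * (xi M p - xs M D) ≤ Cu * (θ * Lam) :=
      mul_le_mul_of_nonneg_left (by linarith only [hxi2]) hCu.le
    have h2 : Cu * (θ * Lam) ≤ Lam / 4 := by nlinarith only [hθ0, hM18, hθL, hθCu]
    have h3 : Cu * (M : ℝ) ^ 17 ≤ Lam / 4 := by
      have h4 : Cu * (M : ℝ) ^ 17 ≤ Cu * (M : ℝ) ^ 18 := mul_le_mul_of_nonneg_left h1718 hCu.le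
      have h5 : 0 ≤ 4 / θ * (M : ℝ) ^ 18 := by positivity
      linarith only [hDT, h4, h5]
    have h6 : Cost M (j + 1) D = T - Lam := by rw [hLam]; ring
    linarith only [h2, hcost, h3, h1]
  have hch' : Ch M (J + 1) p ((p - 1) * D) := Ch.cons p J P D hnrm hPp hch hGG' hsq
  have hYD : YY M D ≤ 9 / 2 * (M : ℝ) ^ 20 := by
    have h1 := YY_le_Cost M (j + 1) D
    have h2 : 0 ≤ C * (M : ℝ) ^ 18 := by positivity
    linarith only [hT, h1, hLam0]
  have hlt : (p - 1) * D < NN M := mul_lt_NN hM hpp hD0 hlp hYD hOmD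
  refine ⟨?_, hhalf, ?_⟩
  · rw [mem_DF]
    refine ⟨⟨Nat.pos_of_ne_zero hDD0, hlt⟩, ⟨⟨J + 1, p, by omega, hch'⟩, hOm1⟩, ?_⟩
    have : 0 ≤ Lam / 2 := by positivity
    linarith only [hhalf, hLam0]
  · exact ⟨hnrm, ⟨J, P, hJ, hch, hPp⟩, hOm2, hsq, hGG, by exact_mod_cast hlt.le⟩

end Vale.Agent.P031.Rc
end
end

section

section

/-!
# P031: the downward recursion, final part
-/

namespace Vale.Agent.P031.Rc

open Finset Filter Topology

/-- statement of `np_mass` -/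
def NpMass : Prop :=
  ∀ᶠ M : ℕ in atTop, ∀ (s : Finset ℕ),
    (∀ p ∈ s, Big M p ∧ ¬ Nrm M p ∧ ll (p : ℝ) ≤ 5 * (M : ℝ) ^ 20) →
    ∑ p ∈ s, 1 / ((p : ℝ) - 1) ≤ Real.exp (-(M : ℝ) ^ 3)

/-- statement of `col_use_mass` -/
def ColUseMass : Prop :=
  ∀ᶠ M : ℕ in atTop, ∀ (r : ℕ) (x : ℝ) (A : Finset (ℕ × ℕ)), r < M →
    3 ≤ x → ll x ≤ 5 * (M : ℝ) ^ 20 → (∀ a ∈ A, PD M r x a) →
    ∑ c ∈ (A ×ˢ A).filter (fun c => c.1 ≠ c.2 ∧
      (c.1.1 - 1) * c.1.2 = (c.2.1 - 1) * c.2.2), 1 / (((c.1.1 - 1) * c.1.2 : ℕ) : ℝ)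
      ≤ Real.exp (-(M : ℝ) ^ 18 / 4)

/-- mass of the new primes -/
theorem low_mass (np_mass : NpMass) (j : ℕ) (hj : 1 ≤ j) (θ : ℝ) (hθ0 : 0 < θ) (hθ1 : θ ≤ 1 / 4) :
    ∀ᶠ M : ℕ in atTop, ∀ (T : ℝ) (D : ℕ), T ≤ 9 / 2 * (M : ℝ) ^ 20 → D ≠ 0 → Om D ≤ M ^ 26 →
      (M : ℝ) ^ 18 ≤ T - Cost M (j + 1) D →
      θ * (T - Cost M (j + 1) D) / 3 ≤ ∑ p ∈ PPl M j θ T D, 1 / (p : ℝ) := by
  obtain ⟨Cl, hCl, hle⟩ := le_sum_inv
  have hlarge : ∀ᶠ M : ℕ in atTop, 6 * (Cl + 2) / θ ≤ (M : ℝ) ^ 18 :=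
    (tendsto_natpow_atTop 18 (by norm_num)).eventually_ge_atTop _
  filter_upwards [hlarge, np_mass, excl_mass, eventually_ge_atTop 2] with M hbig hnp hexc hM
    T D hT hD0 hOm hLam
  have hMr : (2 : ℝ) ≤ M := by exact_mod_cast hM
  set Lam : ℝ := T - Cost M (j + 1) D with hLamdef
  have hLam0 : 0 ≤ Lam := le_trans (by positivity) hLam
  have hxs0 := xs_nonneg M D
  have hxsC := xs_le_Cost M j D hj
  set a : ℝ := xs M D + θ * Lam / 2 + (M : ℝ) ^ 15 with ha
  set b : ℝ := xs M D + θ * Lam + (M : ℝ) ^ 15 with hb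
  have h15 : (0 : ℝ) ≤ (M : ℝ) ^ 15 := by positivity
  have hθL : 0 ≤ θ * Lam := by positivity
  have ha15 : (M : ℝ) ^ 15 ≤ a := by rw [ha]; linarith only [hθL, hxs0]
  have hab : a ≤ b := by rw [ha, hb]; linarith only [hθL]
  have hb46 : b ≤ 23 / 5 * (M : ℝ) ^ 20 := by
    have h1 : θ * Lam ≤ Lam := by nlinarith only [hθ1, hLam0]
    have h3 : (M : ℝ) ^ 20 = (M : ℝ) ^ 15 * (M : ℝ) ^ 5 := by ring
    have h4 : (2 : ℝ) ^ 5 ≤ (M : ℝ) ^ 5 := by gcongr
    have h5 : 0 < (M : ℝ) ^ 15 := by positivity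
    rw [hb]
    nlinarith only [hxsC, h1, h4, hT, h15]
  have h1 := hle a b (NN M) (by linarith only [hθL, hxs0, ha, h15]) hab (exp_exp_le_NN hM hb46)
  classical
  -- split the sum
  have h2 : ∀ s : Finset ℕ, (∀ p ∈ s, p < NN M + 1 ∧ p.Prime ∧ a ≤ ll (p : ℝ) ∧ ll (p : ℝ) ≤ b) →
      ∑ p ∈ s, 1 / (p : ℝ) ≤ ∑ p ∈ PPl M j θ T D, 1 / (p : ℝ) + 2 := by
    intro s hs
    set s1 := s.filter (fun p => ¬ Nrm M p) with hs1
    set s2 := (Finset.range (NN M + 1)).filter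
      (fun p : ℕ => p.Prime ∧ ∃ q, Big M q ∧ q ∣ D ∧ q ∣ p - 1) with hs2
    have hsub : s ⊆ PPl M j θ T D ∪ (s1 ∪ s2) := by
      intro p hp
      obtain ⟨hpN, hpp, hlo, hhi⟩ := hs p hp
      rw [Finset.mem_union, Finset.mem_union]
      by_cases hn : Nrm M p
      · by_cases he : ∃ q, Big M q ∧ q ∣ D ∧ q ∣ p - 1
        · right; right
          rw [hs2, Finset.mem_filter, Finset.mem_range]
          exact ⟨hpN, hpp, he⟩
        · left
          rw [mem_PPl]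
          exact ⟨hpN, hpp, hlo, hhi, hn, he⟩
      · right; left
        rw [hs1, Finset.mem_filter]
        exact ⟨hp, hn⟩
    have hnn : ∀ p : ℕ, (0 : ℝ) ≤ 1 / (p : ℝ) := fun p => by positivity
    have e1 : ∑ p ∈ s1, 1 / (p : ℝ) ≤ 1 := by
      have h3 := hnp s1 (by
        intro p hp
        rw [hs1, Finset.mem_filter] at hp
        obtain ⟨hpN, hpp, hlo, hhi⟩ := hs p hp.1
        refine ⟨⟨hpp, by linarith only [hθL, hlo, hxs0, ha]⟩, hp.2, ?_⟩
        have : 0 < (M : ℝ) ^ 20 := by positivity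
        linarith only [this, hhi, hb46])
      have h4 : Real.exp (-(M : ℝ) ^ 3) ≤ 1 := Real.exp_le_one_iff.2 (by
        have : (0 : ℝ) ≤ (M : ℝ) ^ 3 := by positivity
        linarith only [this])
      refine le_trans (Finset.sum_le_sum fun p hp => ?_) (h3.trans h4)
      rw [hs1, Finset.mem_filter] at hp
      obtain ⟨hpN, hpp, hlo, hhi⟩ := hs p hp.1
      have h5 : (1 : ℝ) < p := by exact_mod_cast hpp.one_lt
      exact one_div_le_one_div_of_le (by linarith only [h5]) (by linarith only [])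
    have e2 : ∑ p ∈ s2, 1 / (p : ℝ) ≤ 1 := by
      have h3 := hexc D hOm hD0
      convert h3 using 2
    calc ∑ p ∈ s, 1 / (p : ℝ) ≤ ∑ p ∈ PPl M j θ T D ∪ (s1 ∪ s2), 1 / (p : ℝ) :=
          Finset.sum_le_sum_of_subset_of_nonneg hsub fun p _ _ => hnn p
      _ ≤ ∑ p ∈ PPl M j θ T D, 1 / (p : ℝ) + ∑ p ∈ s1 ∪ s2, 1 / (p : ℝ) := by
          rw [← Finset.sum_union_inter]
          linarith only [Finset.sum_nonneg fun p (_ : p ∈ PPl M j θ T D ∩ (s1 ∪ s2)) => hnn p]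
      _ ≤ ∑ p ∈ PPl M j θ T D, 1 / (p : ℝ) + (∑ p ∈ s1, 1 / (p : ℝ) + ∑ p ∈ s2, 1 / (p : ℝ)) := by
          have : ∑ p ∈ s1 ∪ s2, 1 / (p : ℝ) ≤ ∑ p ∈ s1, 1 / (p : ℝ) + ∑ p ∈ s2, 1 / (p : ℝ) := by
            rw [← Finset.sum_union_inter]
            linarith only [Finset.sum_nonneg fun p (_ : p ∈ s1 ∩ s2) => hnn p]
          linarith only [this]
      _ ≤ _ := by linarith only [e2, e1]
  have h3 := h1.trans (h2 _ (by
    intro p hp
    rw [Finset.mem_filter, Finset.mem_range] at hp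
    exact hp))
  have h4 : 6 * (Cl + 2) ≤ θ * Lam := by
    rw [div_le_iff₀ hθ0] at hbig
    linarith only [mul_nonneg (sub_nonneg.2 hLam) (le_of_lt (sub_pos.2 hθ0)), hbig]
  have h5 : b - a = θ * Lam / 2 := by rw [ha, hb]; ring
  linarith only [h3, h4, ha]

theorem one_mem_DF {M r j : ℕ} {T : ℝ} (hM : 1 ≤ M) (hT : 0 ≤ T) (hN : 1 < NN M) :
    1 ∈ DF M r j T := by
  have hsmall : Small M 1 := by
    refine ⟨one_ne_zero, fun q hq hb => ?_⟩
    have := hb.1.one_lt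
    have := Nat.le_of_dvd one_pos hq
    omega
  rw [mem_DF]
  refine ⟨⟨le_refl _, hN⟩, ⟨⟨0, 1, Nat.zero_le _, Ch.nil 1 1 hsmall (by simp)⟩, ?_⟩, ?_⟩
  · simp [Om]
  · rw [Cost_small j hM hsmall]
    exact hT

/-- polynomial times exponential is small -/
theorem pow_mul_exp_small (J₀ : ℕ) (ε : ℝ) (hε : 0 < ε) : ∀ᶠ M : ℕ in atTop, ∀ q : ℕ, q ≤ J₀ →
    (5 * (M : ℝ) ^ 20) ^ q * Real.exp (-(M : ℝ) ^ 18 / 4) ≤ ε := by
  have h1 : Tendsto (fun M : ℕ => Real.exp (-((M : ℝ) ^ 18 / 8))) atTop (𝓝 0) :=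
    Real.tendsto_exp_neg_atTop_nhds_zero.comp
      ((tendsto_natpow_atTop 18 (by norm_num)).atTop_div_const (by norm_num))
  have h2 : ∀ᶠ M : ℕ in atTop, Real.exp (-((M : ℝ) ^ 18 / 8)) ≤ ε :=
    (h1.eventually (gt_mem_nhds hε)).mono fun M hM => le_of_lt hM
  have h3 : ∀ᶠ M : ℕ in atTop, 168 * (J₀ : ℝ) ≤ (M : ℝ) ^ 17 :=
    (tendsto_natpow_atTop 17 (by norm_num)).eventually_ge_atTop _
  filter_upwards [h2, h3, eventually_ge_atTop 5] with M hM2 hM3 hM5 q hq
  have hMr : (5 : ℝ) ≤ M := by exact_mod_cast hM5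
  have h20 : (1 : ℝ) ≤ (M : ℝ) ^ 20 := one_le_pow₀ (by linarith only [hMr])
  have h4 : (M : ℝ) ≤ Real.exp M := by linarith only [Real.add_one_le_exp (M : ℝ)]
  have h5 : (5 * (M : ℝ) ^ 20) ^ q ≤ Real.exp (21 * J₀ * M) := by
    calc (5 * (M : ℝ) ^ 20) ^ q ≤ (5 * (M : ℝ) ^ 20) ^ J₀ :=
          pow_le_pow_right₀ (by linarith only [h20]) hq
      _ ≤ ((M : ℝ) ^ 21) ^ J₀ := by
          have : 5 * (M : ℝ) ^ 20 ≤ (M : ℝ) ^ 21 := by
            rw [pow_succ (M : ℝ) 20]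
            linarith only [mul_nonneg (sub_nonneg.2 hMr) (sub_nonneg.2 h20), hMr]
          gcongr
      _ ≤ ((Real.exp M) ^ 21) ^ J₀ := by gcongr
      _ = Real.exp (21 * J₀ * M) := by
          rw [← pow_mul, ← Real.exp_nat_mul]
          push_cast
          ring_nf
  calc (5 * (M : ℝ) ^ 20) ^ q * Real.exp (-(M : ℝ) ^ 18 / 4)
      ≤ Real.exp (21 * J₀ * M) * Real.exp (-(M : ℝ) ^ 18 / 4) := by gcongr
    _ = Real.exp (21 * J₀ * M + -(M : ℝ) ^ 18 / 4) := by rw [← Real.exp_add]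
    _ ≤ Real.exp (-((M : ℝ) ^ 18 / 8)) := by
        apply Real.exp_le_exp.2
        have h6 : (M : ℝ) ^ 18 = (M : ℝ) ^ 17 * M := by ring
        have h7 : 168 * (J₀ : ℝ) * M ≤ (M : ℝ) ^ 17 * M :=
          mul_le_mul_of_nonneg_right hM3 (by linarith only [])
        linarith only [h7]
    _ ≤ ε := hM2

/-- downward recursion, fixed level -/
theorem low_aux (np_mass : NpMass) (col_use_mass : ColUseMass) (J₀ j : ℕ) (hj : 1 ≤ j) (hjJ : j ≤ J₀) : ∃ C : ℝ, 0 < C ∧ ∀ᶠ M : ℕ in atTop,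
    ∀ (r q : ℕ) (T : ℝ), r ≤ J₀ → q ≤ J₀ → (M : ℝ) ^ 19 ≤ T → T ≤ 9 / 2 * (M : ℝ) ^ 20 →
    FF M r (j + 1) (q + 1) (T - C * (M : ℝ) ^ 18) ≤ C * FF M (r + 1) j q T := by
  obtain ⟨θ, C0, hθ0, hθ1, hC0, hpair⟩ := low_pair J₀ j hj hjJ
  set κ : ℝ := θ / (3 * 2 ^ J₀) with hκ
  have hκ0 : 0 < κ := by positivity
  set C : ℝ := C0 + 1 + 2 / κ with hC
  have hCpos : 0 < C := by positivity
  refine ⟨C, hCpos, ?_⟩
  have hlargeM : ∀ᶠ M : ℕ in atTop, C ≤ (M : ℝ) :=
    tendsto_natCast_atTop_atTop.eventually_ge_atTop _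
  -- the collision error is small
  have htiny : ∀ᶠ M : ℕ in atTop, ∀ q : ℕ, q ≤ J₀ →
      (5 * (M : ℝ) ^ 20) ^ q * Real.exp (-(M : ℝ) ^ 18 / 4) ≤ κ / 2 :=
    pow_mul_exp_small J₀ (κ / 2) (by positivity)
  filter_upwards [hpair, low_mass np_mass j hj θ hθ0 hθ1, col_use_mass, htiny, hlargeM,
    eventually_ge_atTop 2, eventually_ge_atTop (J₀ + 2)] with M hpairM hmassM hcolM htinyM hCM hM
    hMJ r q T hr hq hT1 hT2
  have hM1 : 1 ≤ M := by omega
  have hMr : (2 : ℝ) ≤ M := by exact_mod_cast hM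
  classical
  set T₂ : ℝ := T - C * (M : ℝ) ^ 18 with hT₂
  have h18 : (0 : ℝ) < (M : ℝ) ^ 18 := by positivity
  have hT₂0 : 0 ≤ T₂ := by
    have h1 : (M : ℝ) ^ 19 = (M : ℝ) * (M : ℝ) ^ 18 := by ring
    have h2 : C * (M : ℝ) ^ 18 ≤ M * (M : ℝ) ^ 18 := mul_le_mul_of_nonneg_right hCM h18.le
    rw [hT₂]
    linarith only [hT1, h2]
  have hT0 : 1 ≤ T := (one_le_pow₀ (by linarith only [hMr] : (1 : ℝ) ≤ M)).trans hT1
  set B := DF M r (j + 1) T₂ with hB
  have hBsub : ∀ D ∈ B, D ∈ DF M r (j + 1) (T - C0 * (M : ℝ) ^ 18) := by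
    intro D hD
    apply DF_mono _ hD
    rw [hT₂, hC]
    have : 0 ≤ (1 + 2 / κ) * (M : ℝ) ^ 18 := by positivity
    nlinarith only [this]
  have hBLam : ∀ D ∈ B, (M : ℝ) ^ 18 ≤ T - Cost M (j + 1) D := by
    intro D hD
    have h1 := (mem_DF.1 hD).2.2
    have h2 : (M : ℝ) ^ 18 ≤ C * (M : ℝ) ^ 18 := by
      have : 1 ≤ C := by
        rw [hC]
        have : 0 < 2 / κ := by positivity
        linarith only [this, hC0]
      nlinarith only [h18, this]
    rw [hT₂] at h1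
    linarith only [h2, h1]
  -- the set of pairs
  set A : Finset (ℕ × ℕ) := ((Finset.range (NN M + 1)) ×ˢ B).filter
    (fun a => a.1 ∈ PPl M j θ T a.2) with hA
  have hAmem : ∀ a ∈ A, a.2 ∈ B ∧ a.1 ∈ PPl M j θ T a.2 := by
    intro a ha
    rw [hA, Finset.mem_filter, Finset.mem_product] at ha
    exact ⟨ha.1.2, ha.2⟩
  set f : ℕ × ℕ → ℕ := fun a => (a.1 - 1) * a.2 with hf
  set g : ℕ → ℝ := fun D => (T - Cost M j D) ^ q / (D : ℝ) with hg
  have hfacts : ∀ a ∈ A, f a ∈ DF M (r + 1) j T ∧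
      (T - Cost M (j + 1) a.2) / 2 ≤ T - Cost M j (f a) ∧ PD M r (NN M) a := by
    intro a ha
    obtain ⟨h1, h2⟩ := hAmem a ha
    exact hpairM r T a.2 a.1 hr hT2 (hBsub _ h1) h2
  have hg0 : ∀ D ∈ DF M (r + 1) j T, 0 ≤ g D := by
    intro D hD
    have h1 := (mem_DF.1 hD).2.2
    have h2 : 0 ≤ T - Cost M j D := by linarith only [h1]
    simp only [hg]
    positivity
  have hmain := sum_image_add_coll A f g (fun a ha => hg0 _ (hfacts a ha).1)
  -- image part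
  have himg : ∑ x ∈ A.image f, g x ≤ FF M (r + 1) j q T := by
    unfold FF
    refine Finset.sum_le_sum_of_subset_of_nonneg ?_ fun D hD _ => hg0 D hD
    intro x hx
    obtain ⟨a, ha, rfl⟩ := Finset.mem_image.1 hx
    exact (hfacts a ha).1
  -- collision part
  have hNN3 : (3 : ℝ) ≤ (NN M : ℝ) := by
    have h1 := exp_exp_le_NN hM (b := 1) (by
      have : (1 : ℝ) ≤ (M : ℝ) ^ 20 := one_le_pow₀ (by linarith only [hMr])
      linarith only [this])
    have h2 : (2 : ℝ) ≤ Real.exp 1 := by linarith only [Real.add_one_le_exp (1 : ℝ)]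
    have h3 : (3 : ℝ) ≤ Real.exp (Real.exp 1) := by linarith only [h2, Real.add_one_le_exp (Real.exp 1)]
    linarith only [h3, h1]
  have hcoll : ∑ c ∈ (A ×ˢ A).filter (fun c => c.1 ≠ c.2 ∧ f c.1 = f c.2), g (f c.1) ≤ κ / 2 := by
    have h1 := hcolM r (NN M) A (by omega) hNN3 (ll_le_of_le_NN (le_refl _))
      (fun a ha => (hfacts a ha).2.2)
    calc ∑ c ∈ (A ×ˢ A).filter (fun c => c.1 ≠ c.2 ∧ f c.1 = f c.2), g (f c.1)
        ≤ ∑ c ∈ (A ×ˢ A).filter (fun c => c.1 ≠ c.2 ∧ f c.1 = f c.2),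
          (5 * (M : ℝ) ^ 20) ^ q * (1 / ((f c.1 : ℕ) : ℝ)) := by
          refine Finset.sum_le_sum fun c hc => ?_
          rw [Finset.mem_filter, Finset.mem_product] at hc
          have h2 := (mem_DF.1 (hfacts c.1 hc.1.1).1)
          have h3 := Cost_nonneg M j (f c.1)
          have h4 : T - Cost M j (f c.1) ≤ 5 * (M : ℝ) ^ 20 := by
            have : (0 : ℝ) < (M : ℝ) ^ 20 := by positivity
            linarith only [hT2, h3, this]
          have h5 : 0 ≤ T - Cost M j (f c.1) := by linarith only [h2.2.2]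
          simp only [hg]
          rw [div_eq_mul_one_div]
          gcongr
      _ = (5 * (M : ℝ) ^ 20) ^ q * ∑ c ∈ (A ×ˢ A).filter (fun c => c.1 ≠ c.2 ∧ f c.1 = f c.2),
          1 / ((f c.1 : ℕ) : ℝ) := by rw [Finset.mul_sum]
      _ ≤ (5 * (M : ℝ) ^ 20) ^ q * Real.exp (-(M : ℝ) ^ 18 / 4) := by
          apply mul_le_mul_of_nonneg_left _ (by positivity)
          convert h1 using 2
      _ ≤ κ / 2 := htinyM q hq
  -- lower bound of the sum over pairs
  set S : ℝ := ∑ D ∈ B, (T - Cost M (j + 1) D) ^ (q + 1) / (D : ℝ) with hS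
  have hlow : κ * S ≤ ∑ a ∈ A, g (f a) := by
    have h1 : ∑ a ∈ A, g (f a) = ∑ D ∈ B, ∑ p ∈ PPl M j θ T D, g ((p - 1) * D) := by
      rw [hA, Finset.sum_filter, Finset.sum_product_right]
      refine Finset.sum_congr rfl fun D hD => ?_
      rw [← Finset.sum_filter]
      refine Finset.sum_congr ?_ fun p _ => rfl
      ext p
      rw [Finset.mem_filter, Finset.mem_range]
      constructor
      · exact fun h => h.2
      · exact fun h => ⟨(mem_PPl.1 h).1, h⟩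
    rw [h1, hS, Finset.mul_sum]
    refine Finset.sum_le_sum fun D hD => ?_
    have hD' := mem_DF.1 hD
    have hDpos : (0 : ℝ) < D := by exact_mod_cast hD'.1.1
    have hLam := hBLam D hD
    set Lam : ℝ := T - Cost M (j + 1) D with hLamdef
    have hLam0 : 0 < Lam := lt_of_lt_of_le h18 hLam
    have hOm : Om D ≤ M ^ 26 := Om_DD hD'.2.1 (by omega)
    have hmass := hmassM T D hT2 (by have := hD'.1.1; omega) hOm hLam
    calc κ * (Lam ^ (q + 1) / (D : ℝ))
        ≤ (Lam / 2) ^ q / (D : ℝ) * (θ * Lam / 3) := by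
          have h2 : κ ≤ θ / (3 * 2 ^ q) := by
            rw [hκ]
            have : (2 : ℝ) ^ q ≤ 2 ^ J₀ := pow_le_pow_right₀ (by norm_num) hq
            gcongr
          have h3 : (Lam / 2) ^ q / (D : ℝ) * (θ * Lam / 3) =
              θ / (3 * 2 ^ q) * (Lam ^ (q + 1) / (D : ℝ)) := by
            rw [div_pow]
            field_simp
            try ring
          rw [h3]
          apply mul_le_mul_of_nonneg_right h2
          positivity
      _ ≤ (Lam / 2) ^ q / (D : ℝ) * ∑ p ∈ PPl M j θ T D, 1 / (p : ℝ) := by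
          apply mul_le_mul_of_nonneg_left hmass
          positivity
      _ = ∑ p ∈ PPl M j θ T D, (Lam / 2) ^ q / (D : ℝ) * (1 / (p : ℝ)) := by
          rw [Finset.mul_sum]
      _ ≤ ∑ p ∈ PPl M j θ T D, g ((p - 1) * D) := by
          refine Finset.sum_le_sum fun p hp => ?_
          obtain ⟨h4, h5, h6⟩ := hpairM r T D p hr hT2 (hBsub D hD) hp
          have hpp : p.Prime := (mem_PPl.1 hp).2.1
          have hp1 : (1 : ℝ) < p := by exact_mod_cast hpp.one_lt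
          simp only [hg]
          rw [Nat.cast_mul, Nat.cast_sub hpp.one_lt.le, Nat.cast_one]
          have h7 : (Lam / 2) ^ q / (D : ℝ) * (1 / (p : ℝ)) = (Lam / 2) ^ q / ((p : ℝ) * D) := by
            field_simp
          rw [h7]
          have h8 : (0 : ℝ) < ((p : ℝ) - 1) * D := by
            have : (0 : ℝ) < (p : ℝ) - 1 := by linarith only [hp1]
            positivity
          have h9 : ((p : ℝ) - 1) * D ≤ (p : ℝ) * D := by nlinarith only []
          have h10 : (Lam / 2) ^ q ≤ (T - Cost M j ((p - 1) * D)) ^ q := by gcongr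
          exact div_le_div₀ (le_trans (by positivity) h10) h10 h8 h9
  have hFFS : FF M r (j + 1) (q + 1) T₂ ≤ S := by
    unfold FF
    rw [hS]
    refine Finset.sum_le_sum fun D hD => ?_
    have h1 := (mem_DF.1 hD).2.2
    have h2 : 0 ≤ T₂ - Cost M (j + 1) D := by linarith only [h1]
    have h3 : T₂ ≤ T := by
      rw [hT₂]
      have : 0 ≤ C * (M : ℝ) ^ 18 := by positivity
      linarith only [this]
    gcongr
  have hS1 : 1 ≤ S := by
    have hN1 : 1 < NN M := by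
      have : (1 : ℝ) < (NN M : ℝ) := by linarith only [hNN3]
      exact_mod_cast this
    have h1 : 1 ∈ B := one_mem_DF hM1 hT₂0 hN1
    have hsmall : Small M 1 := by
      refine ⟨one_ne_zero, fun q hq hb => ?_⟩
      have := hb.1.one_lt
      have := Nat.le_of_dvd one_pos hq
      omega
    have h2 : (T - Cost M (j + 1) 1) ^ (q + 1) / ((1 : ℕ) : ℝ) ≤ S := by
      rw [hS]
      refine Finset.single_le_sum (f := fun D : ℕ => (T - Cost M (j + 1) D) ^ (q + 1) / (D : ℝ))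
        (fun D hD => ?_) h1
      have := hBLam D hD
      have h3 : 0 ≤ T - Cost M (j + 1) D := le_trans h18.le this
      show 0 ≤ (T - Cost M (j + 1) D) ^ (q + 1) / (D : ℝ)
      positivity
    rw [Cost_small (j + 1) hM1 hsmall, sub_zero, Nat.cast_one, div_one] at h2
    exact (one_le_pow₀ hT0).trans h2
  have hfin : κ * S ≤ FF M (r + 1) j q T + κ / 2 := by linarith only [hcoll, hlow, himg, hmain]
  have h1 : κ / 2 * S ≤ FF M (r + 1) j q T := by nlinarith only [hcoll, hlow, hκ0, himg, hmain, hS1]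
  have h2 : S ≤ 2 / κ * FF M (r + 1) j q T := by
    have h3 : 2 / κ * (κ / 2 * S) = S := by field_simp
    rw [← h3]
    apply mul_le_mul_of_nonneg_left h1
    positivity
  have h3 : 2 / κ * FF M (r + 1) j q T ≤ C * FF M (r + 1) j q T := by
    apply mul_le_mul_of_nonneg_right _ (FF_nonneg _ _ _ _ _)
    rw [hC]
    linarith only [hC0]
  linarith only [h3, hFFS, h2]

end Vale.Agent.P031.Rc

namespace Vale.Agent.P031

open Rc Finset Filter Topology

/-- **downward recursion** -/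
theorem low_of (np_mass : NpMass) (col_use_mass : ColUseMass) (J₀ : ℕ) : ∃ C : ℝ, 0 < C ∧ ∀ᶠ M : ℕ in atTop, ∀ (r j q : ℕ) (T : ℝ), r ≤ J₀ →
    1 ≤ j → j ≤ J₀ → q ≤ J₀ → (M : ℝ) ^ 19 ≤ T → T ≤ 9 / 2 * (M : ℝ) ^ 20 →
    FF M r (j + 1) (q + 1) (T - C * (M : ℝ) ^ 18) ≤ C * FF M (r + 1) j q T := by
  have h : ∀ j : ℕ, ∃ C : ℝ, 0 < C ∧ (1 ≤ j → j ≤ J₀ → ∀ᶠ M : ℕ in atTop,
      ∀ (r q : ℕ) (T : ℝ), r ≤ J₀ → q ≤ J₀ → (M : ℝ) ^ 19 ≤ T → T ≤ 9 / 2 * (M : ℝ) ^ 20 →
      FF M r (j + 1) (q + 1) (T - C * (M : ℝ) ^ 18) ≤ C * FF M (r + 1) j q T) := by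
    intro j
    by_cases hj : 1 ≤ j ∧ j ≤ J₀
    · obtain ⟨C, hC, hh⟩ := low_aux np_mass col_use_mass J₀ j hj.1 hj.2
      exact ⟨C, hC, fun _ _ => hh⟩
    · exact ⟨1, one_pos, fun h1 h2 => absurd ⟨h1, h2⟩ hj⟩
  choose Cf hCf0 hCf using h
  refine ⟨1 + ∑ j ∈ Finset.range (J₀ + 1), Cf j, ?_, ?_⟩
  · have : 0 ≤ ∑ j ∈ Finset.range (J₀ + 1), Cf j := Finset.sum_nonneg fun j _ => (hCf0 j).le
    linarith
  have hall : ∀ᶠ M : ℕ in atTop, ∀ j ∈ Finset.Icc 1 J₀, ∀ (r q : ℕ) (T : ℝ), r ≤ J₀ → q ≤ J₀ →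
      (M : ℝ) ^ 19 ≤ T → T ≤ 9 / 2 * (M : ℝ) ^ 20 →
      FF M r (j + 1) (q + 1) (T - Cf j * (M : ℝ) ^ 18) ≤ Cf j * FF M (r + 1) j q T := by
    rw [Filter.eventually_all_finset]
    intro j hj
    rw [Finset.mem_Icc] at hj
    exact hCf j hj.1 hj.2
  filter_upwards [hall] with M hM r j q T hr hj1 hj2 hq hT hT2
  have h1 := hM j (Finset.mem_Icc.2 ⟨hj1, hj2⟩) r q T hr hq hT hT2
  have hle : Cf j ≤ 1 + ∑ j ∈ Finset.range (J₀ + 1), Cf j := by
    have := Finset.single_le_sum (f := Cf) (fun i _ => (hCf0 i).le)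
      (Finset.mem_range.2 (Nat.lt_succ_of_le hj2))
    linarith only [this]
  have hTle : T - (1 + ∑ j ∈ Finset.range (J₀ + 1), Cf j) * (M : ℝ) ^ 18 ≤
      T - Cf j * (M : ℝ) ^ 18 := by
    gcongr
  calc FF M r (j + 1) (q + 1) (T - (1 + ∑ j ∈ Finset.range (J₀ + 1), Cf j) * (M : ℝ) ^ 18)
      ≤ FF M r (j + 1) (q + 1) (T - Cf j * (M : ℝ) ^ 18) := FF_mono hTle
    _ ≤ Cf j * FF M (r + 1) j q T := h1
    _ ≤ _ := mul_le_mul_of_nonneg_right hle (FF_nonneg _ _ _ _ _)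

end Vale.Agent.P031
end
end

section

section

/-!
# Mean values of completely multiplicative functions, over integers and over shifted primes

`cm ω` is the completely multiplicative function with `cm ω p = ω p`.  Crude (up to powers of
`T` and `log log x`) but uniform upper bounds for `∑_{n ≤ x} cm ω n` and for
`∑_{p ≤ x} cm ω (p - 1)`.
-/

namespace Vale.Agent.P031

open Finset Real
open Vale.Agent.P003 (PLE mem_PLE)
open Vale.Agent.P005.Selberg (cm cm_apply cm_zero cm_prime cm_nonneg cm_euler_le cm_inv)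

theorem cm_mul_fun {ω v : ℕ → ℝ} {n : ℕ} (hn : n ≠ 0) :
    cm (fun p => ω p * v p) n = cm ω n * cm v n := by
  rw [cm_apply hn, cm_apply hn, cm_apply hn, ← List.prod_map_mul]

theorem cm_rpow (s : ℝ) {n : ℕ} (hn : n ≠ 0) :
    cm (fun p => (p : ℝ) ^ s) n = (n : ℝ) ^ s := by
  rw [cm_apply hn]
  conv_rhs => rw [← Nat.prod_primeFactorsList hn]
  rw [Nat.cast_list_prod, ← Real.list_prod_map_rpow]
  · rw [List.map_map]; rfl
  · intro x hx
    obtain ⟨p, _, rfl⟩ := List.mem_map.1 hx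
    positivity

/-- The set of `y`-smooth numbers in `[1, x]`. -/
def smoothIcc (x y : ℕ) : Finset ℕ :=
  (Icc 1 x).filter (fun n => ∀ p ∈ n.primeFactors, p ≤ y)

theorem mem_smoothIcc {x y n : ℕ} :
    n ∈ smoothIcc x y ↔ (1 ≤ n ∧ n ≤ x) ∧ ∀ p, p.Prime → p ∣ n → p ≤ y := by
  simp only [smoothIcc, Finset.mem_filter, Finset.mem_Icc, Nat.mem_primeFactors]
  constructor
  · rintro ⟨h1, h2⟩
    exact ⟨h1, fun p hp hd => h2 p ⟨hp, hd, by omega⟩⟩
  · rintro ⟨h1, h2⟩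
    exact ⟨h1, fun p hp => h2 p hp.1 hp.2.1⟩

theorem euler_le_exp {g : ℕ → ℝ} {c : ℝ} (S : Finset ℕ)
    (h1 : ∀ p ∈ S, g p ≤ 0.75) (hc : ∀ p ∈ S, g p / (1 - g p) ≤ c * g p) :
    ∏ p ∈ S, (1 - g p)⁻¹ ≤ Real.exp (c * ∑ p ∈ S, g p) := by
  rw [Finset.mul_sum, Real.exp_sum]
  apply Finset.prod_le_prod
  · intro p hp
    have := h1 p hp
    have : 0 < 1 - g p := by linarith only [this]
    positivity
  · intro p hp
    have h1' := h1 p hp
    have h2 : 0 < 1 - g p := by linarith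
    have h3 : (1 - g p)⁻¹ = g p / (1 - g p) + 1 := by
      field_simp
      ring
    rw [h3]
    exact (Real.add_one_le_exp _).trans (Real.exp_le_exp.2 (hc p hp))

/-- The hypotheses on the weight function `ω`. -/
structure Wt (ω : ℕ → ℝ) (T : ℝ) : Prop where
  one_le : 1 ≤ T
  nonneg : ∀ p : ℕ, p.Prime → 0 ≤ ω p
  le : ∀ p : ℕ, p.Prime → ω p ≤ T
  small : ∀ p : ℕ, p.Prime → (p : ℝ) ≤ 16 * T ^ 2 → ω p ≤ 1

theorem two_rpow_bound {s : ℝ} (hs : s ≤ -(1/2)) {p : ℕ} (hp : 2 ≤ p) :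
    (p : ℝ) ^ s ≤ 0.7072 := by
  have hp' : (2 : ℝ) ≤ p := by exact_mod_cast hp
  have h1 : (p : ℝ) ^ s ≤ (p : ℝ) ^ (-(1/2) : ℝ) := by
    apply Real.rpow_le_rpow_of_exponent_le (by linarith only [hp']) hs
  have h2 : (p : ℝ) ^ (-(1/2) : ℝ) ≤ (2 : ℝ) ^ (-(1/2) : ℝ) := by
    apply Real.rpow_le_rpow_of_nonpos (by norm_num) hp' (by norm_num)
  have h3 : (2 : ℝ) ^ (-(1/2) : ℝ) ≤ 0.7072 := by
    rw [Real.rpow_neg (by norm_num), ← Real.sqrt_eq_rpow]
    have h4 : (1.4141 : ℝ) ≤ Real.sqrt 2 := by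
      apply Real.le_sqrt_of_sq_le; norm_num
    calc (Real.sqrt 2)⁻¹ ≤ (1.4141 : ℝ)⁻¹ := by gcongr
      _ ≤ 0.7072 := by norm_num
  linarith only [h1, h2, h3]

theorem smooth_sum_le {ω : ℕ → ℝ} {T : ℝ} (hω : Wt ω T) (x y : ℕ) (hx : 1 ≤ x)
    (hy : 2 ≤ Real.log y) :
    ∑ n ∈ smoothIcc x y, cm ω n ≤
      x * Real.exp (- (Real.log x / Real.log y)) * Real.exp (11 * T * recipSum y) := by
  set θ : ℝ := 1 / Real.log y with hθ
  have hlogy : 0 < Real.log y := by linarith only [hy]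
  have hθ0 : 0 < θ := by positivity
  have hθ1 : θ ≤ 1 / 2 := by
    rw [hθ]; gcongr
  have hT := hω.one_le
  have hx0 : (0 : ℝ) < x := by exact_mod_cast hx
  have hy1 : (1 : ℝ) < y := by
    by_contra h
    push Not at h
    have : Real.log y ≤ 0 := Real.log_nonpos (by positivity) h
    linarith only [hy, this]
  set g : ℕ → ℝ := fun p => ω p * (p : ℝ) ^ (θ - 1) with hg
  have hg0 : ∀ p, p.Prime → 0 ≤ g p := by
    intro p hp
    have := hω.nonneg p hp
    simp only [hg]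
    positivity
  have hg1 : ∀ p, p.Prime → g p ≤ 0.7072 := by
    intro p hp
    have hp2 := hp.two_le
    have hp' : (2 : ℝ) ≤ p := by exact_mod_cast hp2
    have hw0 := hω.nonneg p hp
    simp only [hg]
    have hr := two_rpow_bound (s := θ - 1) (by linarith only [hθ1]) hp2
    have hr0 : 0 < (p : ℝ) ^ (θ - 1) := by positivity
    by_cases hsm : (p : ℝ) ≤ 16 * T ^ 2
    · have := hω.small p hp hsm
      calc ω p * (p : ℝ) ^ (θ - 1) ≤ 1 * (p : ℝ) ^ (θ - 1) := by gcongr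
        _ ≤ 0.7072 := by linarith only [hr]
    · push Not at hsm
      have h1 := hω.le p hp
      have h2 : (p : ℝ) ^ (θ - 1) ≤ (p : ℝ) ^ (-(1/2) : ℝ) :=
        Real.rpow_le_rpow_of_exponent_le (by linarith only [hp']) (by linarith only [hθ1])
      have h3 : (p : ℝ) ^ (-(1/2) : ℝ) ≤ (16 * T ^ 2) ^ (-(1/2) : ℝ) :=
        Real.rpow_le_rpow_of_nonpos (by positivity) hsm.le (by norm_num)
      have h4 : (16 * T ^ 2 : ℝ) ^ (-(1/2) : ℝ) = (4 * T)⁻¹ := by
        rw [Real.rpow_neg (by positivity), ← Real.sqrt_eq_rpow]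
        congr 1
        rw [show (16 : ℝ) * T ^ 2 = (4 * T) ^ 2 by ring]
        exact Real.sqrt_sq (by positivity)
      rw [h4] at h3
      calc ω p * (p : ℝ) ^ (θ - 1) ≤ T * (4 * T)⁻¹ := by
            apply mul_le_mul h1 (h2.trans h3) hr0.le (by linarith only [hT])
        _ = 1 / 4 := by field_simp
        _ ≤ 0.7072 := by norm_num
  -- step 1
  have step1 : ∑ n ∈ smoothIcc x y, cm ω n ≤
      (x : ℝ) ^ (1 - θ) * ∑ n ∈ smoothIcc x y, cm g n := by
    rw [Finset.mul_sum]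
    apply Finset.sum_le_sum
    intro n hn
    obtain ⟨⟨hn1, hnx⟩, _⟩ := mem_smoothIcc.1 hn
    have hn0 : n ≠ 0 := by omega
    have hn' : (0 : ℝ) < n := by exact_mod_cast hn1
    have : cm g n = cm ω n * (n : ℝ) ^ (θ - 1) := by
      rw [hg, cm_mul_fun hn0, cm_rpow _ hn0]
    rw [this]
    have hc := cm_nonneg hω.nonneg n
    have h5 : (1 : ℝ) ≤ (x : ℝ) ^ (1 - θ) * (n : ℝ) ^ (θ - 1) := by
      have h6 : (n : ℝ) ^ (1 - θ) ≤ (x : ℝ) ^ (1 - θ) :=
        Real.rpow_le_rpow hn'.le (by exact_mod_cast hnx) (by linarith only [hθ1])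
      have h7 : (n : ℝ) ^ (θ - 1) = ((n : ℝ) ^ (1 - θ))⁻¹ := by
        rw [← Real.rpow_neg hn'.le]; congr 1; ring
      rw [h7, ← div_eq_mul_inv, le_div_iff₀ (by positivity)]
      linarith only [h6]
    calc cm ω n = cm ω n * 1 := by ring
      _ ≤ cm ω n * ((x : ℝ) ^ (1 - θ) * (n : ℝ) ^ (θ - 1)) := by gcongr
      _ = _ := by ring
  -- step 2
  have step2 : ∑ n ∈ smoothIcc x y, cm g n ≤ ∏ p ∈ PLE y, (1 - g p)⁻¹ := by
    have h := cm_euler_le (ω := g) hg0 (fun p hp => lt_of_le_of_lt (hg1 p hp) (by norm_num))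
      (PLE y) (smoothIcc x y) (by
        intro n hn
        obtain ⟨⟨hn1, hnx⟩, hn2⟩ := mem_smoothIcc.1 hn
        rw [Nat.mem_factoredNumbers]
        refine ⟨by omega, fun p hp => ?_⟩
        rw [mem_PLE]
        have hpp := Nat.prime_of_mem_primeFactorsList hp
        exact ⟨hn2 p hpp (Nat.dvd_of_mem_primeFactorsList hp), hpp⟩)
    refine h.trans (le_of_eq ?_)
    apply Finset.prod_congr _ (fun _ _ => rfl)
    ext p
    rw [Finset.mem_filter]
    exact ⟨fun h => h.1, fun h => ⟨h, (mem_PLE.1 h).2⟩⟩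
  have step3 : ∏ p ∈ PLE y, (1 - g p)⁻¹ ≤ Real.exp (4 * ∑ p ∈ PLE y, g p) := by
    apply euler_le_exp
    · intro p hp
      have := hg1 p (mem_PLE.1 hp).2
      linarith only [this]
    · intro p hp
      have h1 := hg1 p (mem_PLE.1 hp).2
      have h0 := hg0 p (mem_PLE.1 hp).2
      have h2 : 0 < 1 - g p := by linarith only [h1]
      rw [div_le_iff₀ h2]
      nlinarith only [h1, h0]
  have step4 : ∑ p ∈ PLE y, g p ≤ Real.exp 1 * T * recipSum y := by
    unfold recipSum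
    rw [Finset.mul_sum]
    apply Finset.sum_le_sum
    intro p hp
    obtain ⟨hpy, hpp⟩ := mem_PLE.1 hp
    have hp0 : (0 : ℝ) < p := by exact_mod_cast hpp.pos
    have h1 := hω.le p hpp
    have h2 : (p : ℝ) ^ θ ≤ Real.exp 1 := by
      calc (p : ℝ) ^ θ ≤ (y : ℝ) ^ θ :=
            Real.rpow_le_rpow hp0.le (by exact_mod_cast hpy) hθ0.le
        _ = Real.exp (Real.log y * θ) := by rw [Real.rpow_def_of_pos (by linarith only [hy1])]
        _ = Real.exp 1 := by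
            congr 1; rw [hθ]; field_simp
    simp only [hg]
    rw [Real.rpow_sub_one hp0.ne']
    calc ω p * ((p : ℝ) ^ θ / p) ≤ T * (Real.exp 1 / p) := by
          apply mul_le_mul h1 _ (by positivity) (by linarith only [hT])
          gcongr
      _ = Real.exp 1 * T * (1 / p) := by ring
  have hrs : 0 ≤ recipSum y := by
    unfold recipSum
    apply Finset.sum_nonneg
    intro p _
    positivity
  have step5 : (x : ℝ) ^ (1 - θ) = x * Real.exp (-(Real.log x / Real.log y)) := by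
    rw [Real.rpow_def_of_pos hx0, mul_sub, Real.exp_sub, mul_one, Real.exp_log hx0,
      Real.exp_neg, hθ, mul_one_div, div_eq_mul_inv]
  calc ∑ n ∈ smoothIcc x y, cm ω n
      ≤ (x : ℝ) ^ (1 - θ) * ∑ n ∈ smoothIcc x y, cm g n := step1
    _ ≤ (x : ℝ) ^ (1 - θ) * Real.exp (4 * ∑ p ∈ PLE y, g p) := by
        gcongr
        exact step2.trans step3
    _ ≤ (x : ℝ) ^ (1 - θ) * Real.exp (11 * T * recipSum y) := by
        have he : Real.exp 1 < 2.7182818286 := Real.exp_one_lt_d9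
        have hTr : 0 ≤ T * recipSum y := by positivity
        have h11 : 4 * ∑ p ∈ PLE y, g p ≤ 11 * T * recipSum y := by nlinarith only [step4, hTr, he]
        exact mul_le_mul_of_nonneg_left (Real.exp_le_exp.2 h11) (by positivity)
    _ = _ := by rw [step5]

theorem sum_primes_inv_sq_le (M : ℕ) : ∑ p ∈ PLE M, (1 : ℝ) / (p : ℝ) ^ 2 ≤ 1 := by
  have h1 : PLE M ⊆ Ioc 1 (M + 1) := by
    intro p hp
    obtain ⟨h1, h2⟩ := mem_PLE.1 hp
    rw [Finset.mem_Ioc]
    exact ⟨h2.one_lt, by omega⟩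
  have h2 := sum_Ioc_inv_sq_le_sub (α := ℝ) (k := 1) (n := M + 1) one_ne_zero (by omega)
  calc ∑ p ∈ PLE M, (1 : ℝ) / (p : ℝ) ^ 2 ≤ ∑ p ∈ Ioc 1 (M + 1), (1 : ℝ) / (p : ℝ) ^ 2 := by
        apply Finset.sum_le_sum_of_subset_of_nonneg h1
        intro i _ _; positivity
    _ = ∑ p ∈ Ioc 1 (M + 1), ((p : ℝ) ^ 2)⁻¹ := by
        apply Finset.sum_congr rfl; intro i _; rw [one_div]
    _ ≤ _ := h2
    _ ≤ 1 := by
        have : (0 : ℝ) ≤ ((M + 1 : ℕ) : ℝ)⁻¹ := by positivity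
        simp only [Nat.cast_one, inv_one]
        linarith only [this]

theorem sum_large_inv_sq_le (M N : ℕ) (hN : 1 ≤ N) :
    ∑ p ∈ (PLE M).filter (fun p => N < p), (1 : ℝ) / (p : ℝ) ^ 2 ≤ 1 / N := by
  rcases Nat.lt_or_ge M N with h | h
  · have : (PLE M).filter (fun p => N < p) = ∅ := by
      apply Finset.eq_empty_of_forall_notMem
      intro p hp
      rw [Finset.mem_filter, mem_PLE] at hp
      omega
    rw [this, Finset.sum_empty]
    positivity
  have h1 : (PLE M).filter (fun p => N < p) ⊆ Ioc N M := by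
    intro p hp
    rw [Finset.mem_filter, mem_PLE] at hp
    rw [Finset.mem_Ioc]
    exact ⟨hp.2, hp.1.1⟩
  have h2 := sum_Ioc_inv_sq_le_sub (α := ℝ) (k := N) (n := M) (by omega) h
  calc ∑ p ∈ (PLE M).filter (fun p => N < p), (1 : ℝ) / (p : ℝ) ^ 2
      ≤ ∑ p ∈ Ioc N M, (1 : ℝ) / (p : ℝ) ^ 2 := by
        apply Finset.sum_le_sum_of_subset_of_nonneg h1
        intro i _ _; positivity
    _ = ∑ p ∈ Ioc N M, ((p : ℝ) ^ 2)⁻¹ := by
        apply Finset.sum_congr rfl; intro i _; rw [one_div]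
    _ ≤ _ := h2
    _ ≤ 1 / N := by
        have : (0 : ℝ) ≤ (M : ℝ)⁻¹ := by positivity
        rw [one_div]
        linarith only [this]

/-- Full logarithmic mean value bound. -/
theorem log_sum_le {ω : ℕ → ℝ} {T : ℝ} (hω : Wt ω T) (x : ℕ) :
    ∑ n ∈ Icc 1 x, cm ω n / n ≤ Real.exp 4 * Real.exp (∑ p ∈ PLE x, ω p / p) := by
  have hT := hω.one_le
  set g : ℕ → ℝ := fun p => ω p * (p : ℝ)⁻¹ with hg
  have hg0 : ∀ p, p.Prime → 0 ≤ g p := by
    intro p hp
    have := hω.nonneg p hp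
    simp only [hg]
    positivity
  have hg1 : ∀ p, p.Prime → g p ≤ 1 / 2 := by
    intro p hp
    have hp' : (2 : ℝ) ≤ p := by exact_mod_cast hp.two_le
    have hw0 := hω.nonneg p hp
    simp only [hg]
    rw [← div_eq_mul_inv, div_le_iff₀ (by linarith)]
    by_cases hsm : (p : ℝ) ≤ 16 * T ^ 2
    · have := hω.small p hp hsm
      linarith only [this, hp']
    · push Not at hsm
      have h1 := hω.le p hp
      nlinarith only [h1, hT, hsm]
  have h1 : ∑ n ∈ Icc 1 x, cm ω n / n = ∑ n ∈ Icc 1 x, cm g n := by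
    apply Finset.sum_congr rfl
    intro n hn
    have hn0 : n ≠ 0 := by
      have := (Finset.mem_Icc.1 hn).1
      omega
    rw [hg, cm_mul_fun hn0, cm_inv n hn0, div_eq_mul_inv]
  have h2 : ∑ n ∈ Icc 1 x, cm g n ≤ ∏ p ∈ PLE x, (1 - g p)⁻¹ := by
    have h := cm_euler_le (ω := g) hg0 (fun p hp => lt_of_le_of_lt (hg1 p hp) (by norm_num))
      (PLE x) (Icc 1 x) (by
        intro n hn
        obtain ⟨hn1, hnx⟩ := Finset.mem_Icc.1 hn
        rw [Nat.mem_factoredNumbers]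
        refine ⟨by omega, fun p hp => ?_⟩
        rw [mem_PLE]
        have hpp := Nat.prime_of_mem_primeFactorsList hp
        exact ⟨(Nat.le_of_dvd hn1 (Nat.dvd_of_mem_primeFactorsList hp)).trans hnx, hpp⟩)
    refine h.trans (le_of_eq ?_)
    apply Finset.prod_congr _ (fun _ _ => rfl)
    ext p
    rw [Finset.mem_filter]
    exact ⟨fun h => h.1, fun h => ⟨h, (mem_PLE.1 h).2⟩⟩
  have h3 : ∏ p ∈ PLE x, (1 - g p)⁻¹ ≤ Real.exp (∑ p ∈ PLE x, (g p + 2 * g p ^ 2)) := by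
    rw [Real.exp_sum]
    apply Finset.prod_le_prod
    · intro p hp
      have := hg1 p (mem_PLE.1 hp).2
      have : 0 < 1 - g p := by linarith
      positivity
    · intro p hp
      have h1' := hg1 p (mem_PLE.1 hp).2
      have h0' := hg0 p (mem_PLE.1 hp).2
      have h2 : 0 < 1 - g p := by linarith
      have h3 : (1 - g p)⁻¹ = g p / (1 - g p) + 1 := by
        field_simp
        ring
      rw [h3]
      refine (Real.add_one_le_exp _).trans (Real.exp_le_exp.2 ?_)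
      rw [div_le_iff₀ h2]
      nlinarith [mul_nonneg h0' h0', mul_nonneg (mul_nonneg h0' h0') (by linarith : (0:ℝ) ≤ 1 / 2 - g p)]
  have h4 : ∑ p ∈ PLE x, g p ^ 2 ≤ 2 := by
    set N : ℕ := ⌊16 * T ^ 2⌋₊ with hN
    have hN1 : 16 * T ^ 2 - 1 < N := Nat.sub_one_lt_floor _
    have hN2 : (15 : ℝ) * T ^ 2 ≤ N := by nlinarith
    have hN3 : 1 ≤ N := by
      have : (1 : ℝ) ≤ N := by nlinarith
      exact_mod_cast this
    have h5 : ∀ p ∈ PLE x, g p ^ 2 ≤ 1 / (p : ℝ) ^ 2 + if N < p then T ^ 2 * (1 / (p : ℝ) ^ 2) else 0 := by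
      intro p hp
      obtain ⟨_, hpp⟩ := mem_PLE.1 hp
      have hw0 := hω.nonneg p hpp
      have hp0 : (0 : ℝ) < p := by exact_mod_cast hpp.pos
      have hgp : g p ^ 2 = (ω p) ^ 2 * (1 / (p : ℝ) ^ 2) := by
        simp only [hg]
        field_simp
      rw [hgp]
      have hpos : 0 ≤ 1 / (p : ℝ) ^ 2 := by positivity
      split_ifs with h
      · have := hω.le p hpp
        have : (ω p) ^ 2 ≤ T ^ 2 := by gcongr
        linarith only [mul_nonneg (sub_nonneg.2 hpos) (sub_nonneg.2 this), hpos]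
      · have hle : (p : ℝ) ≤ 16 * T ^ 2 := by
          push Not at h
          calc (p : ℝ) ≤ N := by exact_mod_cast h
            _ ≤ 16 * T ^ 2 := Nat.floor_le (by positivity)
        have := hω.small p hpp hle
        have : (ω p) ^ 2 ≤ 1 := by nlinarith only [hw0, this]
        nlinarith only [hpos, this]
    refine (Finset.sum_le_sum h5).trans ?_
    rw [Finset.sum_add_distrib, ← Finset.sum_filter, ← Finset.mul_sum]
    have h6 := sum_primes_inv_sq_le x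
    have h7 := sum_large_inv_sq_le x N hN3
    have h8 : T ^ 2 * ∑ p ∈ (PLE x).filter (fun p => N < p), (1 : ℝ) / (p : ℝ) ^ 2 ≤ 1 := by
      calc T ^ 2 * ∑ p ∈ (PLE x).filter (fun p => N < p), (1 : ℝ) / (p : ℝ) ^ 2
          ≤ T ^ 2 * (1 / N) := by gcongr
        _ ≤ 1 := by
            rw [mul_one_div, div_le_one (by positivity)]
            nlinarith only [hN2]
    linarith only [h8, h6]
  rw [h1, ← Real.exp_add]
  refine h2.trans (h3.trans (Real.exp_le_exp.2 ?_))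
  rw [Finset.sum_add_distrib, ← Finset.mul_sum]
  have : ∑ p ∈ PLE x, g p = ∑ p ∈ PLE x, ω p / p := by
    apply Finset.sum_congr rfl
    intro p _
    rw [hg, div_eq_mul_inv]
  linarith only [this, h4]

theorem recipSum_mono {m n : ℕ} (h : m ≤ n) : recipSum m ≤ recipSum n := by
  unfold recipSum
  apply Finset.sum_le_sum_of_subset_of_nonneg
  · intro p hp
    rw [mem_PLE] at *
    exact ⟨hp.1.trans h, hp.2⟩
  · intro i _ _; positivity

/-- `∑_{p ≤ n} 1/p ≤ L + 20` if `log log n ≤ L`, `1 ≤ L`. -/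
theorem recipSum_le {n : ℕ} {L : ℝ} (hL : 1 ≤ L) (h : Real.log (Real.log n) ≤ L) :
    recipSum n ≤ L + 20 := by
  rcases Nat.lt_or_ge n 2 with h2 | h2
  · have : recipSum n ≤ recipSum 2 := recipSum_mono (by omega)
    rw [recipSum_two] at this
    linarith only [hL, this]
  · have := (abs_le.1 (recipSum_near n h2)).2
    linarith

theorem card_primeFactors_le_log {a : ℕ} (ha : 1 ≤ a) :
    (a.primeFactors.card : ℝ) ≤ 2 * Real.log a := by
  have h1 : 2 ^ a.primeFactors.card ≤ a := by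
    calc 2 ^ a.primeFactors.card ≤ ∏ p ∈ a.primeFactors, p := by
          apply Finset.pow_card_le_prod
          intro p hp
          exact (Nat.prime_of_mem_primeFactors hp).two_le
      _ ≤ a := Nat.le_of_dvd ha (Nat.prod_primeFactors_dvd a)
  have h2 : ((2 : ℝ)) ^ a.primeFactors.card ≤ a := by exact_mod_cast h1
  have h3 := Real.log_le_log (by positivity) h2
  rw [Real.log_pow] at h3
  have h4 : (1 / 2 : ℝ) ≤ Real.log 2 := by
    have := Real.log_two_gt_d9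
    linarith only [this]
  have h5 : (0 : ℝ) ≤ a.primeFactors.card := by positivity
  nlinarith only [h4, h3]

/-- `a / φ(a) ≪ log log x` for `a ≤ x`. -/
theorem div_totient_le {a x : ℕ} {L : ℝ} (ha : 1 ≤ a) (hax : a ≤ x) (hx : 2 ≤ x) (hL : 1 ≤ L)
    (hxL : Real.log (Real.log x) ≤ L) :
    (a : ℝ) / a.totient ≤ Real.exp 30 * L := by
  have ha0 : (0 : ℝ) < a := by exact_mod_cast ha
  have hx0 : (1 : ℝ) < x := by exact_mod_cast (by omega : 1 < x)
  have hlx : 0 < Real.log x := Real.log_pos hx0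
  have hlx2 : Real.log x ≤ Real.exp L := by
    rw [← Real.log_le_iff_le_exp hlx]; exact hxL
  have h1 : (a.totient : ℝ) = a * ∏ p ∈ a.primeFactors, (1 - (p : ℝ)⁻¹) := by
    have := Nat.totient_eq_mul_prod_factors a
    have h2 : ((a.totient : ℚ) : ℝ) = ((a * ∏ p ∈ a.primeFactors, (1 - (p : ℚ)⁻¹) : ℚ) : ℝ) := by
      rw [this]
    push_cast at h2
    exact h2
  have hpos : 0 < ∏ p ∈ a.primeFactors, (1 - (p : ℝ)⁻¹) := by
    apply Finset.prod_pos
    intro p hp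
    have hp2 : (2 : ℝ) ≤ p := by exact_mod_cast (Nat.prime_of_mem_primeFactors hp).two_le
    have : (p : ℝ)⁻¹ ≤ 2⁻¹ := by gcongr
    linarith only [this]
  have h2 : (a : ℝ) / a.totient = ∏ p ∈ a.primeFactors, (1 - (1 : ℝ) / p)⁻¹ := by
    rw [h1, Finset.prod_inv_distrib]
    simp only [one_div]
    field_simp
  rw [h2]
  set n : ℕ := ⌊Real.log x⌋₊ + 3 with hn
  have h3 : ∀ p ∈ a.primeFactors, (1 - (1 : ℝ) / p)⁻¹ ≤
      Real.exp (1 / (p : ℝ) + 2 * (1 / (p : ℝ) ^ 2)) := by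
    intro p hp
    have hp2 : (2 : ℝ) ≤ p := by exact_mod_cast (Nat.prime_of_mem_primeFactors hp).two_le
    have hg : (1 : ℝ) / p ≤ 1 / 2 := by gcongr
    have hg0 : 0 < (1 : ℝ) / p := by positivity
    have h2 : 0 < 1 - (1 : ℝ) / p := by linarith only [hg0, hg]
    have h3 : (1 - (1 : ℝ) / p)⁻¹ = ((1 : ℝ) / p) / (1 - (1 : ℝ) / p) + 1 := by
      have : (p : ℝ) ≠ 0 := by positivity
      have h4 : 1 - (1 : ℝ) / p ≠ 0 := h2.ne'
      rw [div_add_one h4, inv_eq_one_div]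
      congr 1
      ring
    rw [h3]
    refine (Real.add_one_le_exp _).trans (Real.exp_le_exp.2 ?_)
    rw [div_le_iff₀ h2]
    have h5 : (1 : ℝ) / (p : ℝ) ^ 2 = ((1 : ℝ) / p) ^ 2 := by rw [div_pow, one_pow]
    rw [h5]
    set g := (1 : ℝ) / p
    nlinarith only [mul_nonneg (mul_nonneg hg0.le hg0.le) (by linarith only [hg] : (0:ℝ) ≤ 1 / 2 - g)]
  have h4 : ∏ p ∈ a.primeFactors, (1 - (1 : ℝ) / p)⁻¹ ≤
      Real.exp (∑ p ∈ a.primeFactors, (1 / (p : ℝ) + 2 * (1 / (p : ℝ) ^ 2))) := by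
    rw [Real.exp_sum]
    apply Finset.prod_le_prod _ h3
    intro p hp
    have hp2 : (2 : ℝ) ≤ p := by exact_mod_cast (Nat.prime_of_mem_primeFactors hp).two_le
    have hg : (1 : ℝ) / p ≤ 1 / 2 := by gcongr
    have h2 : 0 < 1 - (1 : ℝ) / p := by linarith only [hg]
    positivity
  refine h4.trans ?_
  have h5 : ∑ p ∈ a.primeFactors, (1 / (p : ℝ) ^ 2) ≤ 1 := by
    refine le_trans ?_ (sum_primes_inv_sq_le a)
    apply Finset.sum_le_sum_of_subset_of_nonneg
    · intro p hp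
      rw [mem_PLE]
      exact ⟨Nat.le_of_mem_primeFactors hp, Nat.prime_of_mem_primeFactors hp⟩
    · intro i _ _; positivity
  have h6 : ∑ p ∈ a.primeFactors, (1 / (p : ℝ)) ≤ recipSum n + 2 := by
    have h7 : ∀ p ∈ a.primeFactors, (1 : ℝ) / p ≤
        (if p ≤ n then (1 : ℝ) / p else 0) + 1 / Real.log x := by
      intro p hp
      have hp0 : (0 : ℝ) < p := by exact_mod_cast (Nat.prime_of_mem_primeFactors hp).pos
      have : 0 < 1 / Real.log x := by positivity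
      split_ifs with h
      · linarith only [this]
      · push Not at h
        have h8 : Real.log x ≤ p := by
          have h9 := Nat.lt_floor_add_one (Real.log x)
          have h10 : ((⌊Real.log x⌋₊ + 3 : ℕ) : ℝ) < p := by exact_mod_cast h
          push_cast at h10
          linarith only [h10, h9]
        rw [zero_add]
        gcongr
    refine (Finset.sum_le_sum h7).trans ?_
    rw [Finset.sum_add_distrib]
    apply add_le_add
    · rw [← Finset.sum_filter]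
      unfold recipSum
      apply Finset.sum_le_sum_of_subset_of_nonneg
      · intro p hp
        rw [Finset.mem_filter] at hp
        rw [mem_PLE]
        exact ⟨hp.2, Nat.prime_of_mem_primeFactors hp.1⟩
      · intro i _ _; positivity
    · rw [Finset.sum_const, nsmul_eq_mul]
      have h8 := card_primeFactors_le_log ha
      have h9 : Real.log a ≤ Real.log x := Real.log_le_log ha0 (by exact_mod_cast hax)
      rw [mul_one_div, div_le_iff₀ hlx]
      linarith only [h9, h8]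
  have h7 : recipSum n ≤ Real.log L + 2 + 20 := by
    have h8 := (abs_le.1 (recipSum_near n (by omega))).2
    have h9 : Real.log (Real.log n) ≤ Real.log L + 2 := by
      have h10 : (n : ℝ) ≤ 4 * Real.exp L := by
        have : (n : ℝ) = (⌊Real.log x⌋₊ : ℝ) + 3 := by rw [hn]; push_cast; ring
        rw [this]
        have h11 : (⌊Real.log x⌋₊ : ℝ) ≤ Real.log x := Nat.floor_le hlx.le
        have h12 : 1 ≤ Real.exp L := Real.one_le_exp (by linarith only [hL])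
        linarith only [h11, h12, hlx2]
      have hn3 : (3 : ℝ) ≤ n := by rw [hn]; push_cast; linarith only []
      have h13 : Real.log n ≤ 3 * L := by
        calc Real.log n ≤ Real.log (4 * Real.exp L) := Real.log_le_log (by linarith only [hn3]) h10
          _ = Real.log 4 + L := by rw [Real.log_mul (by norm_num) (by positivity), Real.log_exp]
          _ ≤ 3 * L := by
            have : Real.log 4 ≤ 2 := by
              rw [show (4 : ℝ) = 2 ^ 2 by norm_num, Real.log_pow]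
              have := Real.log_two_lt_d9
              push_cast
              linarith only [this]
            linarith only [this, hL]
      have h14 : 0 < Real.log n := Real.log_pos (by linarith only [hn3])
      calc Real.log (Real.log n) ≤ Real.log (3 * L) := Real.log_le_log h14 h13
        _ = Real.log 3 + Real.log L := Real.log_mul (by norm_num) (by linarith only [hL])
        _ ≤ Real.log L + 2 := by
          have : Real.log 3 ≤ 2 := by
            have := Real.log_le_sub_one_of_pos (show (0 : ℝ) < 3 by norm_num)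
            linarith only [this]
          linarith only [this]
    linarith only [h8, h9]
  have h8 : ∑ p ∈ a.primeFactors, (1 / (p : ℝ) + 2 * (1 / (p : ℝ) ^ 2)) ≤ 30 + Real.log L := by
    rw [Finset.sum_add_distrib, ← Finset.mul_sum]
    linarith only [h7, h6, h5]
  calc Real.exp (∑ p ∈ a.primeFactors, (1 / (p : ℝ) + 2 * (1 / (p : ℝ) ^ 2)))
      ≤ Real.exp (30 + Real.log L) := Real.exp_le_exp.2 h8
    _ = Real.exp 30 * L := by rw [Real.exp_add, Real.exp_log (by linarith only [hL])]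

/-- Prime pairs `q, a q + 1`, `q ≤ N`. -/
theorem pair_count_le {a N : ℕ} {B : ℝ} (ha : 1 ≤ a) (hB1 : 1 ≤ B)
    (hB : (a : ℝ) / a.totient ≤ B) (hN : 2 ≤ N) :
    (((Icc 1 N).filter (fun q => q.Prime ∧ (a * q + 1).Prime)).card : ℝ) ≤
      20000 * B * N / (Real.log N) ^ 2 := by
  have hN0 : (0 : ℝ) < N := by exact_mod_cast (by omega : 0 < N)
  have hlN : 0 < Real.log N := Real.log_pos (by exact_mod_cast (by omega : 1 < N))
  rcases Nat.lt_or_ge N (2 ^ 10) with h | h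
  · have h1 : (((Icc 1 N).filter (fun q => q.Prime ∧ (a * q + 1).Prime)).card : ℝ) ≤ N := by
      have := Finset.card_filter_le (Icc 1 N) (fun q => q.Prime ∧ (a * q + 1).Prime)
      rw [Nat.card_Icc] at this
      exact_mod_cast this
    refine h1.trans ?_
    rw [le_div_iff₀ (by positivity)]
    have h2 : Real.log N ≤ 7 := by
      have h3 : (N : ℝ) ≤ 2 ^ 10 := by exact_mod_cast h.le
      have h4 := Real.log_le_log hN0 h3
      rw [Real.log_pow] at h4
      have := Real.log_two_lt_d9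
      push_cast at h4
      linarith only [this, h4]
    have h3 : (Real.log N) ^ 2 ≤ 49 := by nlinarith only [h2, hlN]
    nlinarith only [h3, hB1]
  · -- large `N`
    set z : ℕ := ⌊(N : ℝ) ^ (1 / 5 : ℝ)⌋₊ with hz
    set w : ℝ := (N : ℝ) ^ (1 / 5 : ℝ) with hw
    have hw4 : 4 ≤ w := by
      have h1 : ((2 : ℝ) ^ 10) ^ (1 / 5 : ℝ) ≤ w := by
        apply Real.rpow_le_rpow (by positivity) (by exact_mod_cast h) (by norm_num)
      have h2 : ((2 : ℝ) ^ 10) ^ (1 / 5 : ℝ) = 4 := by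
        rw [show ((2 : ℝ) ^ 10) = 4 ^ (5 : ℝ) by norm_num, ← Real.rpow_mul (by norm_num)]
        norm_num
      linarith only [h1]
    have hzw : (z : ℝ) ≤ w := Nat.floor_le (by linarith)
    have hzw2 : w - 1 < z := Nat.sub_one_lt_floor _
    have hz2 : 2 ≤ z := by
      have : (2 : ℝ) < z := by linarith
      exact_mod_cast this.le
    have hlw : Real.log w = Real.log N / 5 := by
      rw [hw, Real.log_rpow hN0]; ring
    have hlz : Real.log N / 10 ≤ Real.log z := by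
      have h1 : Real.sqrt w ≤ z := by
        have : Real.sqrt w ≤ w / 2 := by
          rw [Real.sqrt_le_left (by linarith)]
          nlinarith
        linarith only [this, hzw2, hw4]
      have h2 : Real.log (Real.sqrt w) ≤ Real.log z := Real.log_le_log (by positivity) h1
      rw [Real.log_sqrt (by linarith only [hw4]), hlw] at h2
      linarith only [h2]
    have hraw := Vale.Agent.P005.Selberg.pair_bound_raw a N z (by omega) hz2
    have hw5 : w ^ 5 = N := by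
      rw [hw, ← Real.rpow_natCast, ← Real.rpow_mul hN0.le]
      norm_num
    have hz4 : (z : ℝ) + (z : ℝ) ^ 4 ≤ 2 * w ^ 4 := by
      have h1 : (z : ℝ) ^ 4 ≤ w ^ 4 := by gcongr
      have h2 : w ≤ w ^ 4 := by
        have : w * 1 ≤ w * w ^ 3 := by
          apply mul_le_mul_of_nonneg_left _ (by linarith only [hw4])
          exact one_le_pow₀ (by linarith only [hw4])
        nlinarith only [this]
      linarith only [h1, h2, hzw]
    have h5 : w ^ 4 ≤ 100 * N / (Real.log N) ^ 2 := by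
      rw [le_div_iff₀ (by positivity)]
      have h6 : Real.log N ≤ 10 * Real.sqrt w := by
        have h7 := Real.log_le_sub_one_of_pos (show 0 < Real.sqrt w by positivity)
        rw [Real.log_sqrt (by linarith only [hw4]), hlw] at h7
        linarith only [h7]
      have h8 : (Real.log N) ^ 2 ≤ 100 * w := by
        have h9 : (Real.log N) ^ 2 ≤ (10 * Real.sqrt w) ^ 2 := by gcongr
        rw [mul_pow, Real.sq_sqrt (by linarith only [hw4])] at h9
        linarith only [h9]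
      calc w ^ 4 * (Real.log N) ^ 2 ≤ w ^ 4 * (100 * w) := by gcongr
        _ = 100 * w ^ 5 := by ring
        _ = 100 * N := by rw [hw5]
    have h6 : 16 * ((a : ℝ) / a.totient) * N / (Real.log z) ^ 2 ≤ 1600 * B * N / (Real.log N) ^ 2 := by
      have h7 : (Real.log N / 10) ^ 2 ≤ (Real.log z) ^ 2 := by gcongr
      calc 16 * ((a : ℝ) / a.totient) * N / (Real.log z) ^ 2
          ≤ 16 * B * N / (Real.log N / 10) ^ 2 := by gcongr
        _ = 1600 * B * N / (Real.log N) ^ 2 := by field_simp; ring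
    have h7 : 200 * N / (Real.log N) ^ 2 ≤ 200 * B * N / (Real.log N) ^ 2 := by
      gcongr
      nlinarith only [hB1]
    have h8 : (200 : ℝ) * N / (Real.log N) ^ 2 = 2 * (100 * N / (Real.log N) ^ 2) := by ring
    have h9 : 1600 * B * N / (Real.log N) ^ 2 + 200 * B * N / (Real.log N) ^ 2 ≤
        20000 * B * N / (Real.log N) ^ 2 := by
      rw [← add_div]
      gcongr
      nlinarith only [mul_nonneg (by linarith only [hB1] : (0:ℝ) ≤ B) hN0.le]
    linarith only [h9, h8, h7, h6, h5, hz4, hraw]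

/-- The non-smooth part of a sum over shifted primes. -/
theorem nonsmooth_shifted_le {ω : ℕ → ℝ} {T : ℝ} (hω : Wt ω T) (x y : ℕ) (hx : 2 ≤ x) (hy : 2 ≤ y)
    {L : ℝ} (hL : 1 ≤ L) (hxL : Real.log (Real.log x) ≤ L) :
    ∑ p ∈ (PLE x).filter (fun p => p - 1 ∉ smoothIcc x y ∧ 2 ≤ p), cm ω (p - 1) ≤
      20000 * Real.exp 30 * T * L * x / (Real.log y) ^ 2 * ∑ n ∈ Icc 1 x, cm ω n / n := by
  classical
  have hT := hω.one_le
  have hly : 0 < Real.log y := Real.log_pos (by exact_mod_cast (by omega : 1 < y))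
  set A := (PLE x).filter (fun p => p - 1 ∉ smoothIcc x y ∧ 2 ≤ p) with hA
  set B : Finset (ℕ × ℕ) := ((Icc 1 x) ×ˢ (Icc 1 x)).filter
    (fun c => y < c.2 ∧ c.2.Prime ∧ c.1 * c.2 ≤ x ∧ (c.1 * c.2 + 1).Prime) with hB
  have hex : ∀ p ∈ A, ∃ c ∈ B, c.1 * c.2 + 1 = p := by
    intro p hp
    rw [hA, Finset.mem_filter, mem_PLE] at hp
    obtain ⟨⟨hpx, hpp⟩, hns, hp2⟩ := hp
    rw [mem_smoothIcc] at hns
    push Not at hns
    obtain ⟨R, hR, hRd, hRy⟩ := hns ⟨by omega, by omega⟩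
    obtain ⟨a, ha⟩ := hRd
    have hp1 : p = a * R + 1 := by
      have : a * R = p - 1 := by rw [ha]; ring
      omega
    have ha0 : 1 ≤ a := by
      rcases Nat.eq_zero_or_pos a with h | h
      · subst h; simp at hp1; omega
      · exact h
    refine ⟨(a, R), ?_, hp1.symm⟩
    rw [hB, Finset.mem_filter, Finset.mem_product, Finset.mem_Icc, Finset.mem_Icc]
    have h1 : a * R ≤ x := by omega
    have h2 : a ≤ a * R := Nat.le_mul_of_pos_right a hR.pos
    have h3 : R ≤ a * R := Nat.le_mul_of_pos_left R ha0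
    refine ⟨⟨⟨ha0, h2.trans h1⟩, hR.one_le, h3.trans h1⟩, hRy, hR, h1, ?_⟩
    rw [← hp1]; exact hpp
  have step1 : ∑ p ∈ A, cm ω (p - 1) ≤ ∑ c ∈ B, T * cm ω c.1 := by
    choose! f hfB hf using hex
    have h1 : ∑ p ∈ A, cm ω (p - 1) ≤ ∑ p ∈ A, T * cm ω (f p).1 := by
      apply Finset.sum_le_sum
      intro p hp
      have h2 := hf p hp
      have h3 : p - 1 = (f p).1 * (f p).2 := by omega
      have h4 := hfB p hp
      rw [hB, Finset.mem_filter] at h4
      rw [h3, map_mul, cm_prime h4.2.2.1, mul_comm]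
      have := cm_nonneg hω.nonneg (f p).1
      have := hω.le _ h4.2.2.1
      gcongr
    refine h1.trans ?_
    have h5 : Set.InjOn f (A : Set ℕ) := by
      intro p hp q hq hpq
      have h6 := hf p hp
      have h7 := hf q hq
      rw [← h6, ← h7, hpq]
    rw [← Finset.sum_image (f := fun c : ℕ × ℕ => T * cm ω c.1) h5]
    apply Finset.sum_le_sum_of_subset_of_nonneg
    · intro c hc
      obtain ⟨p, hp, rfl⟩ := Finset.mem_image.1 hc
      exact hfB p hp
    · intro c _ _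
      have := cm_nonneg hω.nonneg c.1
      positivity
  have step2 : ∑ c ∈ B, T * cm ω c.1 =
      ∑ a ∈ Icc 1 x, T * cm ω a *
        ((((Icc 1 x).filter (fun R => y < R ∧ R.Prime ∧ a * R ≤ x ∧ (a * R + 1).Prime)).card : ℝ)) := by
    rw [hB, Finset.sum_filter, Finset.sum_product]
    apply Finset.sum_congr rfl
    intro a _
    rw [← Finset.sum_filter]
    simp only [Finset.sum_const, nsmul_eq_mul]
    ring
  have step3 : ∀ a ∈ Icc 1 x, T * cm ω a *
        ((((Icc 1 x).filter (fun R => y < R ∧ R.Prime ∧ a * R ≤ x ∧ (a * R + 1).Prime)).card : ℝ))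
        ≤ 20000 * Real.exp 30 * T * L * x / (Real.log y) ^ 2 * (cm ω a / a) := by
    intro a ha
    obtain ⟨ha1, hax⟩ := Finset.mem_Icc.1 ha
    have ha0 : (0 : ℝ) < a := by exact_mod_cast ha1
    have hc := cm_nonneg hω.nonneg a
    have hcard : ((((Icc 1 x).filter (fun R => y < R ∧ R.Prime ∧ a * R ≤ x ∧ (a * R + 1).Prime)).card : ℝ))
        ≤ 20000 * (Real.exp 30 * L) * (x / a) / (Real.log y) ^ 2 := by
      by_cases hemp : ((Icc 1 x).filter (fun R => y < R ∧ R.Prime ∧ a * R ≤ x ∧ (a * R + 1).Prime)) = ∅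
      · rw [hemp, Finset.card_empty, Nat.cast_zero]
        positivity
      obtain ⟨R, hR⟩ := Finset.nonempty_iff_ne_empty.2 hemp
      rw [Finset.mem_filter] at hR
      set N : ℕ := x / a with hN
      have hRN : R ≤ N := (Nat.le_div_iff_mul_le (by omega)).2 (by linarith only [hR.2.2.2.1])
      have hyN : y < N := hR.2.1.trans_le hRN
      have hsub : (Icc 1 x).filter (fun R => y < R ∧ R.Prime ∧ a * R ≤ x ∧ (a * R + 1).Prime) ⊆
          (Icc 1 N).filter (fun q => q.Prime ∧ (a * q + 1).Prime) := by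
        intro q hq
        rw [Finset.mem_filter] at hq ⊢
        rw [Finset.mem_Icc] at hq ⊢
        refine ⟨⟨hq.1.1, ?_⟩, hq.2.2.1, hq.2.2.2.2⟩
        exact (Nat.le_div_iff_mul_le (by omega)).2 (by linarith only [hq.2.2.2.1])
      have h1 := Finset.card_le_card hsub
      have hdt := div_totient_le ha1 hax hx hL hxL
      have hB1 : 1 ≤ Real.exp 30 * L := by
        have : 1 ≤ Real.exp 30 := Real.one_le_exp (by norm_num)
        linarith only [mul_nonneg (sub_nonneg.2 this) (sub_nonneg.2 hL), hL, this]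
      have h2 := pair_count_le (N := N) ha1 hB1 hdt (by omega)
      have h3 : (N : ℝ) ≤ x / a := Nat.cast_div_le
      have h4 : Real.log y ≤ Real.log N :=
        Real.log_le_log (by exact_mod_cast (by omega : 0 < y)) (by exact_mod_cast hyN.le)
      calc ((((Icc 1 x).filter (fun R => y < R ∧ R.Prime ∧ a * R ≤ x ∧ (a * R + 1).Prime)).card : ℝ))
          ≤ (((Icc 1 N).filter (fun q => q.Prime ∧ (a * q + 1).Prime)).card : ℝ) := by
            exact_mod_cast h1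
        _ ≤ 20000 * (Real.exp 30 * L) * N / (Real.log N) ^ 2 := h2
        _ ≤ 20000 * (Real.exp 30 * L) * (x / a) / (Real.log y) ^ 2 := by gcongr
    calc T * cm ω a *
        ((((Icc 1 x).filter (fun R => y < R ∧ R.Prime ∧ a * R ≤ x ∧ (a * R + 1).Prime)).card : ℝ))
        ≤ T * cm ω a * (20000 * (Real.exp 30 * L) * (x / a) / (Real.log y) ^ 2) := by
          gcongr
      _ = _ := by field_simp
  calc ∑ p ∈ A, cm ω (p - 1) ≤ ∑ c ∈ B, T * cm ω c.1 := step1
    _ = _ := step2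
    _ ≤ ∑ a ∈ Icc 1 x, 20000 * Real.exp 30 * T * L * x / (Real.log y) ^ 2 * (cm ω a / a) :=
        Finset.sum_le_sum step3
    _ = _ := by rw [Finset.mul_sum]

theorem injOn_pred_PLE (x : ℕ) : Set.InjOn (fun p : ℕ => p - 1) (PLE x : Set ℕ) := by
  intro p hp q hq hpq
  have h1 := (mem_PLE.1 hp).2.two_le
  have h2 := (mem_PLE.1 hq).2.two_le
  simp only at hpq
  omega

theorem shifted_trivial {ω : ℕ → ℝ} {T : ℝ} (hω : Wt ω T) (x : ℕ) :
    ∑ p ∈ PLE x, cm ω (p - 1) ≤ x * (Real.exp 4 * Real.exp (∑ p ∈ PLE x, ω p / p)) := by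
  classical
  have h1 : ∑ p ∈ PLE x, cm ω (p - 1) ≤ ∑ n ∈ Icc 1 x, cm ω n := by
    rw [← Finset.sum_image (f := fun n => cm ω n) (injOn_pred_PLE x)]
    apply Finset.sum_le_sum_of_subset_of_nonneg
    · intro n hn
      obtain ⟨p, hp, rfl⟩ := Finset.mem_image.1 hn
      obtain ⟨hpx, hpp⟩ := mem_PLE.1 hp
      have := hpp.two_le
      rw [Finset.mem_Icc]
      constructor <;> omega
    · intro n _ _
      exact cm_nonneg hω.nonneg n
  have h2 : ∑ n ∈ Icc 1 x, cm ω n ≤ x * ∑ n ∈ Icc 1 x, cm ω n / n := by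
    rw [Finset.mul_sum]
    apply Finset.sum_le_sum
    intro n hn
    obtain ⟨hn1, hnx⟩ := Finset.mem_Icc.1 hn
    have hn0 : (0 : ℝ) < n := by exact_mod_cast hn1
    have hnx' : (n : ℝ) ≤ x := by exact_mod_cast hnx
    have hc := cm_nonneg hω.nonneg n
    rw [mul_div_assoc', le_div_iff₀ hn0]
    linarith only [mul_nonneg (sub_nonneg.2 hc) (sub_nonneg.2 hnx')]
  refine h1.trans (h2.trans ?_)
  have := log_sum_le hω x
  gcongr

theorem smooth_part_small {T L : ℝ} {x y : ℕ} (hT : 1 ≤ T) (hL : 1 ≤ L) (hx : 2 ≤ x)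
    (hxL : Real.log (Real.log x) ≤ L) (hyx : y ≤ x) (hly : 0 < Real.log y)
    (hly1 : Real.log y ≤ Real.log x / (300 * (T * L))) :
    (x : ℝ) * Real.exp (- (Real.log x / Real.log y)) * Real.exp (11 * T * recipSum y) ≤
        x / (Real.log x) ^ 2 := by
  have hx0 : (0 : ℝ) < x := by exact_mod_cast (by omega : 0 < x)
  have hlx : 0 < Real.log x := Real.log_pos (by exact_mod_cast (by omega : 1 < x))
  have hrec : recipSum y ≤ 21 * L := by
    have h1 := recipSum_le (n := x) hL hxL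
    have h2 := recipSum_mono hyx
    linarith only [h1, hL, h2]
  have hu0 : 0 < 300 * (T * L) := by positivity
  have h1 : 300 * (T * L) ≤ Real.log x / Real.log y := by
    rw [le_div_iff₀ hly]
    rw [le_div_iff₀ hu0] at hly1
    linarith
  have h2 : 11 * T * recipSum y ≤ 231 * (T * L) := by
    calc 11 * T * recipSum y ≤ 11 * T * (21 * L) := by gcongr
      _ = 231 * (T * L) := by ring
  have h3 : Real.exp (- (Real.log x / Real.log y)) * Real.exp (11 * T * recipSum y) ≤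
      Real.exp (- (2 * L)) := by
    rw [← Real.exp_add]
    apply Real.exp_le_exp.2
    have h4 : L ≤ T * L := by linarith only [mul_nonneg (sub_nonneg.2 hL) (sub_nonneg.2 hT), hT]
    linarith only [h4, h1, hL, h2]
  have h4 : (Real.log x) ^ 2 ≤ Real.exp (2 * L) := by
    have h5 : Real.log x ≤ Real.exp L := by
      rw [← Real.log_le_iff_le_exp hlx]; exact hxL
    calc (Real.log x) ^ 2 ≤ (Real.exp L) ^ 2 := by gcongr
      _ = Real.exp (2 * L) := by rw [← Real.exp_nat_mul]; norm_num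
  rw [mul_assoc, le_div_iff₀ (by positivity)]
  calc (x : ℝ) * (Real.exp (- (Real.log x / Real.log y)) * Real.exp (11 * T * recipSum y)) *
        (Real.log x) ^ 2
      ≤ x * Real.exp (- (2 * L)) * Real.exp (2 * L) := by gcongr
    _ = x := by rw [mul_assoc, ← Real.exp_add]; simp

theorem exists_cut {x : ℕ} {u : ℝ} (hu : 1 ≤ u) (hx : 3 ≤ x) (hcase : 6 * u ≤ Real.log x) :
    ∃ y : ℕ, 2 ≤ y ∧ y ≤ x ∧ 2 ≤ Real.log y ∧ Real.log y ≤ Real.log x / u ∧
      Real.log x / (2 * u) ≤ Real.log y := by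
  have hu0 : 0 < u := by linarith
  have hx0 : (0 : ℝ) < x := by exact_mod_cast (by omega : 0 < x)
  have hlx : 0 < Real.log x := Real.log_pos (by exact_mod_cast (by omega : 1 < x))
  have hu1 : 6 ≤ Real.log x / u := by rw [le_div_iff₀ hu0]; exact hcase
  set w : ℝ := Real.exp (Real.log x / u) with hw
  have hw7 : 7 ≤ w := by
    have := Real.add_one_le_exp (Real.log x / u)
    linarith only [this, hu1]
  have hyw : (⌊w⌋₊ : ℝ) ≤ w := Nat.floor_le (by linarith)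
  have hyw2 : w - 1 < ⌊w⌋₊ := Nat.sub_one_lt_floor _
  have hy0 : (0 : ℝ) < ⌊w⌋₊ := by linarith
  have hly1 : Real.log ⌊w⌋₊ ≤ Real.log x / u := by
    have := Real.log_le_log hy0 hyw
    rwa [hw, Real.log_exp] at this
  have hly2 : Real.log x / u - 1 ≤ Real.log ⌊w⌋₊ := by
    have h1 : w / 2 ≤ ⌊w⌋₊ := by linarith only [hw7, hyw2]
    have h2 := Real.log_le_log (by linarith only [hw7]) h1
    rw [Real.log_div (by positivity) (by norm_num), hw, Real.log_exp] at h2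
    have := Real.log_two_lt_d9
    linarith only [h2, this]
  refine ⟨⌊w⌋₊, ?_, ?_, by linarith only [hu1, hly2], hly1, ?_⟩
  · have : (2 : ℝ) < ⌊w⌋₊ := by linarith only [hw7, hyw2]
    exact_mod_cast this.le
  · have h1 : Real.log ⌊w⌋₊ ≤ Real.log x := by
      refine hly1.trans ?_
      rw [div_le_iff₀ hu0]
      linarith only [mul_nonneg (sub_nonneg.2 hu) (sub_nonneg.2 hu), mul_nonneg (sub_nonneg.2 hcase) (sub_nonneg.2 hu), hu]
    exact_mod_cast (Real.log_le_log_iff hy0 hx0).1 h1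
  · have : Real.log x / (2 * u) = (Real.log x / u) / 2 := by field_simp
    rw [this]; linarith only [hu1, hly2]

theorem shifted_split {ω : ℕ → ℝ} {T : ℝ} (hω : Wt ω T) (x y : ℕ) :
    ∑ p ∈ PLE x, cm ω (p - 1) ≤ ∑ n ∈ smoothIcc x y, cm ω n +
      ∑ p ∈ (PLE x).filter (fun p => p - 1 ∉ smoothIcc x y ∧ 2 ≤ p), cm ω (p - 1) := by
  classical
  rw [← Finset.sum_filter_add_sum_filter_not (PLE x)
      (fun p => p - 1 ∉ smoothIcc x y ∧ 2 ≤ p) (fun p => cm ω (p - 1)), add_comm]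
  have hA : ∑ p ∈ (PLE x).filter (fun p => ¬ (p - 1 ∉ smoothIcc x y ∧ 2 ≤ p)), cm ω (p - 1) ≤
      ∑ n ∈ smoothIcc x y, cm ω n := by
    rw [← Finset.sum_image (f := fun n => cm ω n)
      ((injOn_pred_PLE x).mono (by intro p hp; exact (Finset.mem_filter.1 hp).1))]
    apply Finset.sum_le_sum_of_subset_of_nonneg
    · intro n hn
      obtain ⟨p, hp, rfl⟩ := Finset.mem_image.1 hn
      rw [Finset.mem_filter] at hp
      obtain ⟨hpx, hpp⟩ := mem_PLE.1 hp.1
      have h2 := hpp.two_le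
      by_contra hcon
      exact hp.2 ⟨hcon, h2⟩
    · intro n _ _
      exact cm_nonneg hω.nonneg n
  linarith

/-- **Mean value of a multiplicative function over shifted primes** (crude uniform bound). -/
theorem shifted_sum_le {ω : ℕ → ℝ} {T : ℝ} (hω : Wt ω T) (x : ℕ) (hx : 3 ≤ x)
    {L : ℝ} (hL : 1 ≤ L) (hxL : Real.log (Real.log x) ≤ L) :
    ∑ p ∈ PLE x, cm ω (p - 1) ≤
      10 ^ 10 * Real.exp 34 * (T * L) ^ 3 * (x / (Real.log x) ^ 2) *
        Real.exp (∑ p ∈ PLE x, ω p / p) := by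
  have hT := hω.one_le
  have hx0 : (0 : ℝ) < x := by exact_mod_cast (by omega : 0 < x)
  have hlx : 0 < Real.log x := Real.log_pos (by exact_mod_cast (by omega : 1 < x))
  have hS0 : 0 ≤ ∑ p ∈ PLE x, ω p / p := by
    apply Finset.sum_nonneg
    intro p hp
    have := hω.nonneg p (mem_PLE.1 hp).2
    positivity
  have hTL : 1 ≤ T * L := by nlinarith only [hL, hT]
  have htriv := shifted_trivial hω x
  have hlog := log_sum_le hω x
  set S : ℝ := ∑ p ∈ PLE x, ω p / p with hS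
  set Z : ℝ := x / (Real.log x) ^ 2 with hZ
  have hZ0 : 0 ≤ Z := by positivity
  have hE34 : Real.exp 34 = Real.exp 30 * Real.exp 4 := by rw [← Real.exp_add]; norm_num
  have he30 : (1 : ℝ) ≤ Real.exp 30 := Real.one_le_exp (by norm_num)
  have he4 : (1 : ℝ) ≤ Real.exp 4 := Real.one_le_exp (by norm_num)
  have heS : 1 ≤ Real.exp S := Real.one_le_exp hS0
  have hpow : (T * L) ^ 2 ≤ (T * L) ^ 3 := pow_le_pow_right₀ hTL (by norm_num)
  have hpow1 : 1 ≤ (T * L) ^ 3 := one_le_pow₀ hTL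
  rcases lt_or_ge (Real.log x) (6 * (300 * (T * L))) with hcase | hcase
  · -- small `x`
    have h3 : (Real.log x) ^ 2 ≤ 3240000 * (T * L) ^ 2 := by
      have : (Real.log x) ^ 2 ≤ (6 * (300 * (T * L))) ^ 2 := by gcongr
      linarith only [this]
    have h4 : (x : ℝ) ≤ 3240000 * (T * L) ^ 2 * Z := by
      rw [hZ, mul_div_assoc', le_div_iff₀ (by positivity)]
      nlinarith only [h3]
    calc ∑ p ∈ PLE x, cm ω (p - 1) ≤ x * (Real.exp 4 * Real.exp S) := htriv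
      _ ≤ 3240000 * (T * L) ^ 2 * Z * (Real.exp 4 * Real.exp S) := by gcongr
      _ ≤ 10 ^ 10 * (T * L) ^ 3 * Z * (Real.exp 30 * Real.exp 4 * Real.exp S) := by
          have h5 : Real.exp 4 * Real.exp S ≤ Real.exp 30 * Real.exp 4 * Real.exp S := by
            have : 0 < Real.exp 4 * Real.exp S := by positivity
            nlinarith only [this, he30]
          gcongr
          norm_num
      _ = 10 ^ 10 * Real.exp 34 * (T * L) ^ 3 * Z * Real.exp S := by rw [hE34]; ring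
  · -- large `x`
    obtain ⟨y, hy2, hyx, hly4, hly1, hly3⟩ :=
      exists_cut (u := 300 * (T * L)) (by linarith only [hTL]) hx hcase
    have hsm := smooth_sum_le hω x y (by omega) hly4
    have hB := smooth_part_small hT hL (by omega) hxL hyx (by linarith only [hly4]) hly1
    have hC := nonsmooth_shifted_le hω x y (by omega) hy2 hL hxL
    have hlogn : 0 ≤ ∑ n ∈ Icc 1 x, cm ω n / n := by
      apply Finset.sum_nonneg
      intro n _
      have := cm_nonneg hω.nonneg n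
      positivity
    have h1 : (x : ℝ) / (Real.log y) ^ 2 ≤ 360000 * (T * L) ^ 2 * Z := by
      have h2 : (Real.log x / (2 * (300 * (T * L)))) ^ 2 ≤ (Real.log y) ^ 2 := by gcongr
      calc (x : ℝ) / (Real.log y) ^ 2 ≤ x / (Real.log x / (2 * (300 * (T * L)))) ^ 2 := by gcongr
        _ = 360000 * (T * L) ^ 2 * Z := by rw [hZ]; field_simp; ring
    have hD : 20000 * Real.exp 30 * T * L * x / (Real.log y) ^ 2 * ∑ n ∈ Icc 1 x, cm ω n / n ≤
        7200000000 * (T * L) ^ 3 * Z * (Real.exp 30 * Real.exp 4 * Real.exp S) := by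
      calc 20000 * Real.exp 30 * T * L * x / (Real.log y) ^ 2 * ∑ n ∈ Icc 1 x, cm ω n / n
          = 20000 * Real.exp 30 * (T * L) * (x / (Real.log y) ^ 2) *
              ∑ n ∈ Icc 1 x, cm ω n / n := by ring
        _ ≤ 20000 * Real.exp 30 * (T * L) * (360000 * (T * L) ^ 2 * Z) *
            (Real.exp 4 * Real.exp S) := by gcongr
        _ = _ := by ring
    have hsplit := shifted_split hω x y
    have hF : Z ≤ 1 * (T * L) ^ 3 * Z * (Real.exp 30 * Real.exp 4 * Real.exp S) := by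
      have h2 : 1 ≤ Real.exp 30 * Real.exp 4 * Real.exp S := by
        have : 1 ≤ Real.exp 30 * Real.exp 4 := by linarith only [mul_nonneg (sub_nonneg.2 he4) (sub_nonneg.2 he30), he30, he4]
        linarith only [mul_nonneg (sub_nonneg.2 heS) (sub_nonneg.2 he4), mul_nonneg (sub_nonneg.2 hlog) (sub_nonneg.2 he30), mul_nonneg (sub_nonneg.2 hlogn) (sub_nonneg.2 he30), he4, heS]
      calc Z = 1 * 1 * Z * 1 := by ring
        _ ≤ _ := by gcongr
    have hG : 10 ^ 10 * Real.exp 34 * (T * L) ^ 3 * Z * Real.exp S =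
        10 ^ 10 * ((T * L) ^ 3 * Z * (Real.exp 30 * Real.exp 4 * Real.exp S)) := by
      rw [hE34]; ring
    have hH : 0 ≤ (T * L) ^ 3 * Z * (Real.exp 30 * Real.exp 4 * Real.exp S) := by positivity
    rw [hG]
    have hI : 7200000000 * (T * L) ^ 3 * Z * (Real.exp 30 * Real.exp 4 * Real.exp S) =
      7200000000 * ((T * L) ^ 3 * Z * (Real.exp 30 * Real.exp 4 * Real.exp S)) := by ring
    have hJ : 1 * (T * L) ^ 3 * Z * (Real.exp 30 * Real.exp 4 * Real.exp S) =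
      1 * ((T * L) ^ 3 * Z * (Real.exp 30 * Real.exp 4 * Real.exp S)) := by ring
    linarith only [hB, hsm, hC, hsplit, hD, hF, hZ0]

end Vale.Agent.P031
end
end

section

section

/-!
# Exponential moment (Chernoff) bounds for shifted primes; `cn_count`
-/

namespace Vale.Agent.P031

open Finset Real Filter
open Vale.Agent.P003 (PLE mem_PLE)
open Vale.Agent.P005.Selberg (cm cm_apply cm_zero cm_prime cm_nonneg cm_euler_le cm_inv)

theorem cm_const (θ : ℝ) {n : ℕ} (hn : n ≠ 0) : cm (fun _ => θ) n = θ ^ (Om n) := by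
  rw [cm_apply hn, Om]
  simp

theorem cm_eq_prod (ω : ℕ → ℝ) {n : ℕ} (hn : n ≠ 0) :
    cm ω n = ∏ q ∈ n.primeFactors, ω q ^ (n.factorization q) := by
  rw [cm_apply hn, Finset.prod_list_map_count]
  apply Finset.prod_congr rfl
  intro q _
  rw [Nat.primeFactorsList_count_eq]

theorem cm_level (M k : ℕ) (t : ℝ) {n : ℕ} (hn : n ≠ 0) :
    cm (fun q => if lev M q = k then t else 1) n = t ^ (prof M n k) := by
  rw [cm_eq_prod _ hn, prof, ← Finset.prod_pow_eq_pow_sum, Finset.prod_filter]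
  apply Finset.prod_congr rfl
  intro q _
  split_ifs <;> simp

theorem floor_facts {z : ℝ} (hz : 3 ≤ z) :
    3 ≤ ⌊z⌋₊ ∧ (⌊z⌋₊ : ℝ) ≤ z ∧ Real.log z ≤ 2 * Real.log ⌊z⌋₊ ∧ 1 < Real.log ⌊z⌋₊ := by
  have h1 : 3 ≤ ⌊z⌋₊ := Nat.le_floor (by exact_mod_cast hz)
  have h1' : (3 : ℝ) ≤ ⌊z⌋₊ := by exact_mod_cast h1
  have h2 : (⌊z⌋₊ : ℝ) ≤ z := Nat.floor_le (by linarith only [hz])
  have h3 : z < ⌊z⌋₊ + 1 := Nat.lt_floor_add_one z
  refine ⟨h1, h2, ?_, ?_⟩
  · have h4 : z ≤ (⌊z⌋₊ : ℝ) ^ 2 := by nlinarith only [h3, h1']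
    have h5 := Real.log_le_log (by linarith) h4
    rw [Real.log_pow] at h5
    exact_mod_cast h5
  · rw [Real.lt_log_iff_exp_lt (by linarith)]
    have := Real.exp_one_lt_d9
    linarith only [this, h1']

theorem count_le_of_weight {ω : ℕ → ℝ} {T : ℝ} (hω : Wt ω T) {z L B : ℝ} (hz : 3 ≤ z)
    (hL : 1 ≤ L) (hzL : ll z ≤ L) (s : Finset ℕ)
    (hs : ∀ p ∈ s, p.Prime ∧ (p : ℝ) ≤ z ∧ B ≤ cm ω (p - 1)) :
    (s.card : ℝ) * B ≤ 4 * 10 ^ 10 * Real.exp 34 * (T * L) ^ 3 * (z / (Real.log z) ^ 2) *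
      Real.exp (∑ p ∈ PLE ⌊z⌋₊, ω p / p) := by
  obtain ⟨hx3, hxz, hlog2, hlog1⟩ := floor_facts hz
  have hT := hω.one_le
  set x : ℕ := ⌊z⌋₊ with hx
  have hx0 : (0 : ℝ) < x := by exact_mod_cast (by omega : 0 < x)
  have hlz : 0 < Real.log z := Real.log_pos (by linarith only [hz])
  have h1 : (s.card : ℝ) * B ≤ ∑ p ∈ PLE x, cm ω (p - 1) := by
    calc (s.card : ℝ) * B = ∑ p ∈ s, B := by rw [Finset.sum_const, nsmul_eq_mul]
      _ ≤ ∑ p ∈ s, cm ω (p - 1) := Finset.sum_le_sum fun p hp => (hs p hp).2.2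
      _ ≤ ∑ p ∈ PLE x, cm ω (p - 1) := by
          apply Finset.sum_le_sum_of_subset_of_nonneg
          · intro p hp
            rw [mem_PLE]
            exact ⟨Nat.le_floor (hs p hp).2.1, (hs p hp).1⟩
          · intro p _ _
            exact cm_nonneg hω.nonneg _
  have h2 : Real.log (Real.log x) ≤ L := by
    refine le_trans ?_ hzL
    unfold ll
    exact Real.log_le_log (by linarith) (Real.log_le_log hx0 hxz)
  have h3 := shifted_sum_le hω x hx3 hL h2
  have h4 : (x : ℝ) / (Real.log x) ^ 2 ≤ 4 * (z / (Real.log z) ^ 2) := by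
    have h5 : (Real.log z / 2) ^ 2 ≤ (Real.log x) ^ 2 := by
      have : Real.log z / 2 ≤ Real.log x := by linarith only [hlog2]
      gcongr
    calc (x : ℝ) / (Real.log x) ^ 2 ≤ z / (Real.log z / 2) ^ 2 := by gcongr
      _ = 4 * (z / (Real.log z) ^ 2) := by field_simp; ring
  calc (s.card : ℝ) * B ≤ _ := h1
    _ ≤ _ := h3
    _ ≤ 10 ^ 10 * Real.exp 34 * (T * L) ^ 3 * (4 * (z / (Real.log z) ^ 2)) *
        Real.exp (∑ p ∈ PLE x, ω p / p) := by gcongr
    _ = _ := by ring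

theorem recipSum_floor_le {z : ℝ} (hz : 3 ≤ z) : recipSum ⌊z⌋₊ ≤ ll z + 20 := by
  obtain ⟨hx3, hxz, hlog2, hlog1⟩ := floor_facts hz
  have h := (abs_le.1 (recipSum_near ⌊z⌋₊ (by omega))).2
  have hx0 : (0 : ℝ) < ⌊z⌋₊ := by exact_mod_cast (by omega : 0 < ⌊z⌋₊)
  have h2 : Real.log (Real.log ⌊z⌋₊) ≤ ll z := by
    unfold ll
    exact Real.log_le_log (by linarith) (Real.log_le_log hx0 hxz)
  linarith

theorem cube_le_exp {ε W : ℝ} (hε : 0 < ε) (hW : 0 ≤ W) :
    (1 + W) ^ 3 ≤ 6 * Real.exp ε / ε ^ 3 * Real.exp (ε * W) := by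
  have h1 := Real.pow_div_factorial_le_exp (ε * (1 + W)) (by positivity) 3
  have h2 : Real.exp (ε * (1 + W)) = Real.exp ε * Real.exp (ε * W) := by
    rw [← Real.exp_add]; ring_nf
  rw [h2] at h1
  have h3 : ((3 : ℕ).factorial : ℝ) = 6 := by norm_num [Nat.factorial]
  rw [h3, div_le_iff₀ (by norm_num)] at h1
  rw [div_mul_eq_mul_div, le_div_iff₀ (by positivity)]
  calc (1 + W) ^ 3 * ε ^ 3 = (ε * (1 + W)) ^ 3 := by ring
    _ ≤ _ := h1
    _ = _ := by ring

theorem cn_count : ∃ c C : ℝ, 0 < c ∧ 0 < C ∧ ∀ (z : ℝ) (s : Finset ℕ), 3 ≤ z →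
    (∀ p ∈ s, p.Prime ∧ (p : ℝ) ≤ z ∧ (Om (p - 1) : ℝ) < 9 / 10 * ll z) →
    (s.card : ℝ) ≤ C * z / (Real.log z) ^ (1 + c) := by
  refine ⟨0.004, 4 * 10 ^ 10 * Real.exp 34 * (6 * Real.exp 0.0005 / 0.0005 ^ 3) * Real.exp 20,
    by norm_num, by positivity, ?_⟩
  intro z s hz hs
  have hlz1 : 1 < Real.log z := by
    rw [Real.lt_log_iff_exp_lt (by linarith)]
    have := Real.exp_one_lt_d9
    linarith only [hz, this]
  have hW0 : 0 < ll z := Real.log_pos hlz1
  set W := ll z with hW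
  have hexpW : Real.exp W = Real.log z := by rw [hW, ll, Real.exp_log (by linarith)]
  have hwt : Wt (fun _ => (9 / 10 : ℝ)) 1 :=
    ⟨le_rfl, fun _ _ => by norm_num, fun _ _ => by norm_num, fun _ _ _ => by norm_num⟩
  set B : ℝ := Real.exp (-(0.106 * (9 / 10 * W))) with hB
  have hkey : Real.exp (-0.106) ≤ 9 / 10 := by
    have h1 := Real.quadratic_le_exp_of_nonneg (show (0 : ℝ) ≤ 0.106 by norm_num)
    rw [Real.exp_neg]
    calc (Real.exp 0.106)⁻¹ ≤ (1 + 0.106 + 0.106 ^ 2 / 2)⁻¹ := by gcongr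
      _ ≤ 9 / 10 := by norm_num
  have h := count_le_of_weight hwt (B := B) hz (L := 1 + W) (by linarith only [hW0]) (by linarith only []) s (by
    intro p hp
    obtain ⟨hpp, hpz, hom⟩ := hs p hp
    refine ⟨hpp, hpz, ?_⟩
    have hp1 : p - 1 ≠ 0 := by have := hpp.two_le; omega
    rw [cm_const _ hp1, hB]
    calc Real.exp (-(0.106 * (9 / 10 * W))) ≤ Real.exp (-0.106 * (Om (p - 1))) := by
          apply Real.exp_le_exp.2
          linarith only [hom]
      _ = Real.exp (-0.106) ^ (Om (p - 1)) := by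
          rw [← Real.exp_nat_mul]; ring_nf
      _ ≤ (9 / 10 : ℝ) ^ (Om (p - 1)) := by gcongr)
  have hsum : ∑ p ∈ PLE ⌊z⌋₊, (9 / 10 : ℝ) / p ≤ 9 / 10 * W + 20 := by
    have h1 : ∑ p ∈ PLE ⌊z⌋₊, (9 / 10 : ℝ) / p = 9 / 10 * recipSum ⌊z⌋₊ := by
      unfold recipSum
      rw [Finset.mul_sum]
      apply Finset.sum_congr rfl
      intro p _; ring
    rw [h1]
    have := recipSum_floor_le hz
    rw [← hW] at this
    linarith only [this]
  have hcube := cube_le_exp (show (0 : ℝ) < 0.0005 by norm_num) hW0.le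
  have hBpos : 0 < B := Real.exp_pos _
  have hz2 : z / (Real.log z) ^ 2 = z * Real.exp (-(2 * W)) := by
    rw [← hexpW, ← Real.exp_nat_mul, Real.exp_neg, div_eq_mul_inv]; norm_num
  have hfin : (Real.log z) ^ ((1 : ℝ) + 0.004) = Real.exp (1.004 * W) := by
    rw [← hexpW, ← Real.exp_mul]; ring_nf
  rw [hfin, le_div_iff₀ (Real.exp_pos _)]
  set K : ℝ := 4 * 10 ^ 10 * Real.exp 34 with hK
  have hK0 : 0 < K := by positivity
  have h2 : (s.card : ℝ) * B ≤ K * ((6 * Real.exp 0.0005 / 0.0005 ^ 3) * Real.exp (0.0005 * W)) *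
      (z * Real.exp (-(2 * W))) * Real.exp (9 / 10 * W + 20) := by
    refine h.trans ?_
    rw [hz2, one_mul]
    gcongr
  have h3 : (s.card : ℝ) = (s.card : ℝ) * B * B⁻¹ := by field_simp
  rw [h3]
  have hBinv : B⁻¹ = Real.exp (0.106 * (9 / 10 * W)) := by rw [hB, ← Real.exp_neg, neg_neg]
  rw [hBinv]
  calc (s.card : ℝ) * B * Real.exp (0.106 * (9 / 10 * W)) * Real.exp (1.004 * W)
      ≤ K * ((6 * Real.exp 0.0005 / 0.0005 ^ 3) * Real.exp (0.0005 * W)) *
      (z * Real.exp (-(2 * W))) * Real.exp (9 / 10 * W + 20) * Real.exp (0.106 * (9 / 10 * W)) *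
        Real.exp (1.004 * W) := by gcongr
    _ = K * (6 * Real.exp 0.0005 / 0.0005 ^ 3) * Real.exp 20 * z *
        Real.exp (0.0005 * W + -(2 * W) + 9 / 10 * W + 0.106 * (9 / 10 * W) + 1.004 * W) := by
        simp only [Real.exp_add]; ring
    _ ≤ K * (6 * Real.exp 0.0005 / 0.0005 ^ 3) * Real.exp 20 * z * 1 := by
        gcongr
        apply Real.exp_le_one_iff.2
        linarith only [hW0]
    _ = _ := by ring

end Vale.Agent.P031
end
end

section

section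

/-!
Rankin sums.
-/

namespace Vale.Agent.P031

open Finset Filter Topology

/-- completely multiplicative extension of `p ↦ f p`, divided by `n` -/
noncomputable def rk (f : ℕ → ℝ) (n : ℕ) : ℝ :=
  (n.factorization.prod fun p k => f p ^ k) / (n : ℝ)

theorem rk_eq (f : ℕ → ℝ) (n : ℕ) :
    rk f n = (∏ p ∈ n.primeFactors, (f p) ^ (n.factorization p)) / (n : ℝ) := rfl

theorem rk_mul (f : ℕ → ℝ) (m n : ℕ) : rk f (m * n) = rk f m * rk f n := by
  rcases eq_or_ne m 0 with hm | hm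
  · subst hm; simp [rk]
  rcases eq_or_ne n 0 with hn | hn
  · subst hn; simp [rk]
  unfold rk
  rw [Nat.factorization_mul hm hn, Finsupp.prod_add_index' (by simp) (by intro a b c; exact pow_add _ _ _),
    Nat.cast_mul, mul_div_mul_comm]

/-- as a monoid hom -/
noncomputable def rkHom (f : ℕ → ℝ) : ℕ →* ℝ where
  toFun := rk f
  map_one' := by simp [rk]
  map_mul' := rk_mul f

theorem rk_prime (f : ℕ → ℝ) {p : ℕ} (hp : p.Prime) : rk f p = f p / p := by
  unfold rk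
  rw [hp.factorization, Finsupp.prod_single_index (by simp), pow_one]

theorem rankin (P : Finset ℕ) (hP : ∀ p ∈ P, p.Prime) (f : ℕ → ℝ) (hf0 : ∀ p ∈ P, 0 ≤ f p)
    (hf1 : ∀ p ∈ P, f p < p) (s : Finset ℕ) (hs : ∀ n ∈ s, n ≠ 0 ∧ n.primeFactors ⊆ P) :
    ∑ n ∈ s, (∏ p ∈ n.primeFactors, (f p) ^ (n.factorization p)) / (n : ℝ)
      ≤ ∏ p ∈ P, (1 - f p / p)⁻¹ := by
  classical
  set g : ℕ → ℝ := fun p => if p ∈ P then f p else 0 with hg
  have hg0 : ∀ p, 0 ≤ g p := by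
    intro p
    simp only [hg]
    split_ifs with h
    · exact hf0 p h
    · exact le_rfl
  have h1 : ∀ {p : ℕ}, p.Prime → ‖rkHom g p‖ < 1 := by
    intro p hp
    have hp0 : (0 : ℝ) < p := by exact_mod_cast hp.pos
    show ‖rk g p‖ < 1
    rw [rk_prime g hp, Real.norm_of_nonneg (div_nonneg (hg0 p) hp0.le), div_lt_one hp0]
    simp only [hg]
    split_ifs with h
    · exact hf1 p h
    · exact hp0
  obtain ⟨hsum, hhas⟩ :=
    EulerProduct.summable_and_hasSum_factoredNumbers_prod_filter_prime_geometric h1 P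
  have hprod : ∏ p ∈ P with p.Prime, (1 - rkHom g p)⁻¹ = ∏ p ∈ P, (1 - f p / p)⁻¹ := by
    rw [Finset.filter_true_of_mem hP]
    refine Finset.prod_congr rfl fun p hp => ?_
    show (1 - rk g p)⁻¹ = _
    rw [rk_prime g (hP p hp)]
    simp only [hg, if_pos hp]
  rw [hprod] at hhas
  have hnonneg : ∀ n : ℕ, 0 ≤ rk g n := by
    intro n
    rw [rk_eq]
    exact div_nonneg (Finset.prod_nonneg fun p _ => pow_nonneg (hg0 p) _) (Nat.cast_nonneg n)
  have hmem : ∀ n ∈ s, n ∈ Nat.factoredNumbers P := fun n hn =>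
    Nat.mem_factoredNumbers_of_primeFactors_subset (hs n hn).1 (hs n hn).2
  have hle := sum_le_hasSum (s.subtype (fun n => n ∈ Nat.factoredNumbers P))
    (fun i _ => hnonneg i) hhas
  refine le_trans (le_of_eq ?_) hle
  have h2 := Finset.sum_subtype_of_mem (p := fun n => n ∈ Nat.factoredNumbers P)
    (f := fun n => rk g n) hmem
  refine Eq.trans ?_ h2.symm
  refine Finset.sum_congr rfl fun n hn => ?_
  show _ = rk g n
  rw [rk_eq]
  congr 1
  refine Finset.prod_congr rfl fun p hp => ?_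
  have := (hs n hn).2 hp
  simp only [hg, if_pos this]

theorem inv_one_sub_le_exp {x : ℝ} (h0 : 0 ≤ x) (h1 : x ≤ 2 / 3) :
    (1 - x)⁻¹ ≤ Real.exp (x + 3 * x ^ 2) := by
  have h2 : 0 < 1 - x := by linarith only [h1]
  rw [inv_le_comm₀ h2 (Real.exp_pos _), ← Real.exp_neg]
  have h3 : 0 < 1 + (x + 3 * x ^ 2) := by positivity
  have h4 : Real.exp (-(x + 3 * x ^ 2)) ≤ (1 + (x + 3 * x ^ 2))⁻¹ := by
    rw [Real.exp_neg]
    apply inv_anti₀ h3
    have := Real.add_one_le_exp (x + 3 * x ^ 2)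
    linarith
  refine h4.trans ?_
  rw [inv_le_iff_one_le_mul₀ h3]
  nlinarith only [mul_nonneg (sq_nonneg x) (by linarith : (0 : ℝ) ≤ 2 / 3 - x)]

/-- bound for an Euler product -/
theorem prod_inv_le (P : Finset ℕ) (f : ℕ → ℝ) (θ : ℝ) (h0 : 0 ≤ θ)
    (hθ : θ < 2) (hf0 : ∀ p ∈ P, 0 ≤ f p) (hf : ∀ p ∈ P, p ≠ 2 → f p / p ≤ 2 / 3)
    (h2 : f 2 ≤ θ) :
    ∏ p ∈ P, (1 - f p / p)⁻¹ ≤
      (1 - θ / 2)⁻¹ * Real.exp (∑ p ∈ P, (f p / p) + ∑ p ∈ P.erase 2, 3 * (f p / p) ^ 2) := by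
  have hx0 : ∀ p ∈ P, 0 ≤ f p / p := fun p hp => div_nonneg (hf0 p hp) (Nat.cast_nonneg p)
  have h3 : ∏ p ∈ P.erase 2, (1 - f p / p)⁻¹ ≤
      Real.exp (∑ p ∈ P.erase 2, (f p / p + 3 * (f p / p) ^ 2)) := by
    rw [Real.exp_sum]
    refine Finset.prod_le_prod (fun p hp => ?_) fun p hp => ?_
    · have := hf p (Finset.mem_of_mem_erase hp) (Finset.ne_of_mem_erase hp)
      rw [inv_nonneg]; linarith only [this]
    · exact inv_one_sub_le_exp (hx0 p (Finset.mem_of_mem_erase hp))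
        (hf p (Finset.mem_of_mem_erase hp) (Finset.ne_of_mem_erase hp))
  rw [Finset.sum_add_distrib] at h3
  have h1 : 1 ≤ (1 - θ / 2)⁻¹ := by
    rw [one_le_inv₀ (by linarith)]; linarith
  by_cases h2P : 2 ∈ P
  · rw [← Finset.mul_prod_erase P _ h2P, ← Finset.add_sum_erase P _ h2P]
    have h4 : (1 - f 2 / ((2 : ℕ) : ℝ))⁻¹ ≤ (1 - θ / 2)⁻¹ := by
      apply inv_anti₀ (by linarith only [hθ])
      push_cast
      linarith only [h2]
    have h5 := hx0 2 h2P
    refine mul_le_mul h4 (h3.trans (Real.exp_le_exp.mpr (by linarith only [h5]))) ?_ (by linarith only [h1])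
    refine Finset.prod_nonneg fun p hp => ?_
    have := hf p (Finset.mem_of_mem_erase hp) (Finset.ne_of_mem_erase hp)
    rw [inv_nonneg]; linarith only [this]
  · rw [Finset.erase_eq_of_notMem h2P] at h3 ⊢
    refine h3.trans ?_
    exact le_mul_of_one_le_left (Real.exp_pos _).le h1

/-- bound for an Euler product with `f ≤ 2` -/
theorem prod_inv_le_two (P : Finset ℕ) (hP : ∀ p ∈ P, p.Prime) (f : ℕ → ℝ) (θ : ℝ) (h0 : 0 ≤ θ)
    (hθ : θ < 2) (hf0 : ∀ p ∈ P, 0 ≤ f p) (hf : ∀ p ∈ P, f p ≤ 2) (h2 : f 2 ≤ θ) :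
    ∏ p ∈ P, (1 - f p / p)⁻¹ ≤ (1 - θ / 2)⁻¹ * Real.exp (∑ p ∈ P, (f p / p) + 6) := by
  have h3 : ∀ p ∈ P, p ≠ 2 → (3 : ℝ) ≤ p := by
    intro p hp hp2
    have := (hP p hp).two_le
    have : 3 ≤ p := by omega
    exact_mod_cast this
  refine (prod_inv_le P f θ h0 hθ hf0 (fun p hp hp2 => ?_) h2).trans ?_
  · have := h3 p hp hp2
    rw [div_le_iff₀ (by linarith)]
    have := hf p hp
    linarith
  · have h1 : 0 ≤ (1 - θ / 2)⁻¹ := by rw [inv_nonneg]; linarith
    refine mul_le_mul_of_nonneg_left (Real.exp_le_exp.mpr ?_) h1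
    have h4 := sum_inv_mul_pred_le (P.erase 2) 3 (by norm_num) (fun p hp => by
      have := (hP p (Finset.mem_of_mem_erase hp)).two_le
      have := Finset.ne_of_mem_erase hp
      omega)
    have h5 : ∑ p ∈ P.erase 2, 3 * (f p / p) ^ 2 ≤
        12 * ∑ p ∈ P.erase 2, 1 / ((p : ℝ) * ((p : ℝ) - 1)) := by
      rw [Finset.mul_sum]
      refine Finset.sum_le_sum fun p hp => ?_
      have h6 := h3 p (Finset.mem_of_mem_erase hp) (Finset.ne_of_mem_erase hp)
      have h7 := hf p (Finset.mem_of_mem_erase hp)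
      have h8 := hf0 p (Finset.mem_of_mem_erase hp)
      have h9 : (f p / p) ^ 2 ≤ 4 / ((p : ℝ) * ((p : ℝ) - 1)) := by
        rw [div_pow]
        refine div_le_div₀ (by norm_num) (by linarith only [mul_nonneg (sub_nonneg.2 h7) (sub_nonneg.2 h7), mul_nonneg (sub_nonneg.2 h8) (sub_nonneg.2 h7)]) (by nlinarith only [h6]) (by nlinarith only [])
      calc 3 * (f p / p) ^ 2 ≤ 3 * (4 / ((p : ℝ) * ((p : ℝ) - 1))) := by linarith only [h9]
        _ = 12 * (1 / ((p : ℝ) * ((p : ℝ) - 1))) := by ring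
    have h10 : 1 / (((3 : ℕ) : ℝ) - 1) = 1 / 2 := by norm_num
    rw [h10] at h4
    linarith only [h4, h5]

theorem Om_eq (n : ℕ) : Om n = ∑ p ∈ n.primeFactors, n.factorization p := by
  have := ArithmeticFunction.cardFactors_eq_sum_factorization (n := n)
  rw [ArithmeticFunction.cardFactors_apply] at this
  exact this

theorem subset_pt {z : ℝ} (hz : 0 ≤ z) {n : ℕ}
    (hn : 1 ≤ n ∧ ∀ q : ℕ, q.Prime → q ∣ n → (q : ℝ) ≤ z) :
    n ≠ 0 ∧ n.primeFactors ⊆ pt z := by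
  refine ⟨by omega, fun p hp => ?_⟩
  rw [mem_pt hz]
  have h := Nat.prime_of_mem_primeFactors hp
  exact ⟨h, hn.2 p h (Nat.dvd_of_mem_primeFactors hp)⟩

theorem pt_prime {z : ℝ} : ∀ p ∈ pt z, p.Prime := fun _ hp => (Finset.mem_filter.mp hp).2

theorem pt_sum_le (z : ℝ) (hz : 3 ≤ z) : ∑ p ∈ pt z, 1 / (p : ℝ) ≤ ll z + 21 := by
  have h := (abs_le.mp (mertens_explicit z hz)).2
  unfold pt ll
  linarith

theorem log_pos_of_three_le {z : ℝ} (hz : 3 ≤ z) : 0 < Real.log z :=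
  Real.log_pos (by linarith)

theorem exp_ll_three {z : ℝ} (hz : 3 ≤ z) : Real.exp (ll z) = Real.log z :=
  Real.exp_log (log_pos_of_three_le hz)

theorem sum_pow_Om (θ : ℝ) (h0 : 0 ≤ θ) (h2 : θ < 2) : ∃ C : ℝ, 0 < C ∧
    ∀ (z : ℝ) (s : Finset ℕ), 3 ≤ z →
    (∀ n ∈ s, 1 ≤ n ∧ ∀ q : ℕ, q.Prime → q ∣ n → (q : ℝ) ≤ z) →
    ∑ n ∈ s, θ ^ (Om n) / (n : ℝ) ≤ C * (Real.log z) ^ θ := by
  have hpos : 0 < (1 - θ / 2)⁻¹ := by rw [inv_pos]; linarith
  refine ⟨(1 - θ / 2)⁻¹ * Real.exp (θ * 21 + 6), by positivity, fun z s hz hs => ?_⟩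
  have h1 := rankin (pt z) pt_prime (fun _ => θ) (fun _ _ => h0)
    (fun p hp => lt_of_lt_of_le h2 (by exact_mod_cast (pt_prime p hp).two_le)) s
    (fun n hn => subset_pt (by linarith) (hs n hn))
  have h3 := prod_inv_le_two (pt z) pt_prime (fun _ => θ) θ h0 h2 (fun _ _ => h0)
    (fun _ _ => h2.le) le_rfl
  have h4 : ∑ n ∈ s, θ ^ (Om n) / (n : ℝ) =
      ∑ n ∈ s, (∏ p ∈ n.primeFactors, θ ^ (n.factorization p)) / (n : ℝ) := by
    refine Finset.sum_congr rfl fun n _ => ?_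
    rw [Om_eq, Finset.prod_pow_eq_pow_sum]
  rw [h4]
  refine h1.trans (h3.trans ?_)
  have h5 : ∑ p ∈ pt z, θ / (p : ℝ) ≤ θ * (ll z + 21) := by
    have : ∑ p ∈ pt z, θ / (p : ℝ) = θ * ∑ p ∈ pt z, 1 / (p : ℝ) := by
      rw [Finset.mul_sum]
      exact Finset.sum_congr rfl fun p _ => by ring
    rw [this]
    exact mul_le_mul_of_nonneg_left (pt_sum_le z hz) h0
  have h6 : (Real.log z) ^ θ = Real.exp (θ * ll z) := by
    rw [Real.rpow_def_of_pos (log_pos_of_three_le hz), mul_comm]; rfl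
  rw [h6, mul_assoc, ← Real.exp_add]
  refine mul_le_mul_of_nonneg_left (Real.exp_le_exp.mpr ?_) hpos.le
  linarith only [h5]

/-! ### levels -/

theorem lev_eq_iff {M q k : ℕ} (hM : 1 ≤ M) (hk : k ≠ 0) :
    lev M q = k ↔ (k : ℝ) * (M : ℝ) ^ 13 ≤ ll (q : ℝ) ∧
      ll (q : ℝ) < ((k : ℝ) + 1) * (M : ℝ) ^ 13 := by
  have h : (0 : ℝ) < (M : ℝ) ^ 13 := by positivity
  rw [lev, Nat.floor_eq_iff' hk, le_div_iff₀ h, div_lt_iff₀ h]

theorem lev_sum_le {M k : ℕ} (hM : 1 ≤ M) (hk : k ≠ 0) (s : Finset ℕ)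
    (hs : ∀ p ∈ s, p.Prime ∧ lev M p = k) : ∑ p ∈ s, 1 / (p : ℝ) ≤ (M : ℝ) ^ 13 + 44 := by
  have h : (0 : ℝ) < (M : ℝ) ^ 13 := by positivity
  have h1 := sum_inv_prime_le_sub ((k : ℝ) * (M : ℝ) ^ 13) (((k : ℝ) + 1) * (M : ℝ) ^ 13) s
    (by positivity) (by linarith only [h]) (fun p hp => ⟨(hs p hp).1,
      ((lev_eq_iff hM hk).mp (hs p hp).2).1, ((lev_eq_iff hM hk).mp (hs p hp).2).2.le⟩)
  linarith only [h1]

theorem lev_two (M : ℕ) : lev M 2 = 0 := by
  rw [lev, Nat.floor_eq_zero]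
  have h1 : ll ((2 : ℕ) : ℝ) ≤ 0 := by
    rw [ll]
    apply Real.log_nonpos (Real.log_nonneg (by norm_num))
    push_cast
    linarith only [Real.log_two_lt_d9]
  have : ll ((2 : ℕ) : ℝ) / (M : ℝ) ^ 13 ≤ 0 := div_nonpos_of_nonpos_of_nonneg h1 (by positivity)
  linarith

theorem om_large : ∃ C : ℝ, 0 < C ∧ ∀ (z : ℝ) (T : ℕ), 3 ≤ z →
    (((Finset.Icc 1 ⌊z⌋₊).filter (fun n => T ≤ Om n)).card : ℝ)
      ≤ C * z * (Real.log z) ^ 2 * (2 / 3 : ℝ) ^ T := by
  obtain ⟨C, hC, h⟩ := sum_pow_Om (3 / 2) (by norm_num) (by norm_num)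
  refine ⟨C, hC, fun z T hz => ?_⟩
  set s := (Finset.Icc 1 ⌊z⌋₊).filter (fun n => T ≤ Om n) with hs
  have hsz : ∀ n ∈ s, 1 ≤ n ∧ (n : ℝ) ≤ z ∧ T ≤ Om n := by
    intro n hn
    rw [hs, Finset.mem_filter, Finset.mem_Icc] at hn
    exact ⟨hn.1.1, (Nat.le_floor_iff (by linarith only [hz])).mp hn.1.2, hn.2⟩
  have h1 := h z s hz (fun n hn => ⟨(hsz n hn).1, fun q hq hqn => by
    have h2 : q ≤ n := Nat.le_of_dvd (hsz n hn).1 hqn
    have h3 : (q : ℝ) ≤ n := by exact_mod_cast h2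
    exact h3.trans (hsz n hn).2.1⟩)
  have h2 : (s.card : ℝ) ≤ z * (2 / 3 : ℝ) ^ T * ∑ n ∈ s, (3 / 2 : ℝ) ^ (Om n) / (n : ℝ) := by
    rw [Finset.mul_sum, Finset.card_eq_sum_ones, Nat.cast_sum]
    refine Finset.sum_le_sum fun n hn => ?_
    obtain ⟨h3, h4, h5⟩ := hsz n hn
    have h6 : (0 : ℝ) < n := by exact_mod_cast h3
    have h7 : (1 : ℝ) ≤ z / n := by rw [one_le_div h6]; exact h4
    have h8 : (1 : ℝ) ≤ (2 / 3 : ℝ) ^ T * (3 / 2 : ℝ) ^ (Om n) := by
      obtain ⟨j, hj⟩ := Nat.exists_eq_add_of_le h5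
      rw [hj, pow_add, ← mul_assoc, ← mul_pow]
      norm_num
      exact one_le_pow₀ (by norm_num)
    push_cast
    calc (1 : ℝ) ≤ (z / n) * ((2 / 3 : ℝ) ^ T * (3 / 2 : ℝ) ^ (Om n)) :=
          one_le_mul_of_one_le_of_one_le h7 h8
      _ = z * (2 / 3 : ℝ) ^ T * ((3 / 2 : ℝ) ^ (Om n) / (n : ℝ)) := by ring
  refine h2.trans ?_
  have hlog1 : 1 ≤ Real.log z := by
    rw [← Real.log_exp 1]
    apply Real.log_le_log (Real.exp_pos _)
    linarith only [hz, Real.exp_one_lt_d9]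
  have h9 : (Real.log z) ^ (3 / 2 : ℝ) ≤ (Real.log z) ^ 2 := by
    rw [← Real.rpow_natCast (Real.log z) 2]
    exact Real.rpow_le_rpow_of_exponent_le hlog1 (by norm_num)
  have h10 : 0 ≤ z * (2 / 3 : ℝ) ^ T := by positivity
  calc z * (2 / 3 : ℝ) ^ T * ∑ n ∈ s, (3 / 2 : ℝ) ^ (Om n) / (n : ℝ)
      ≤ z * (2 / 3 : ℝ) ^ T * (C * (Real.log z) ^ 2) := by
        refine mul_le_mul_of_nonneg_left (h1.trans ?_) h10
        exact mul_le_mul_of_nonneg_left h9 hC.le
    _ = C * z * (Real.log z) ^ 2 * (2 / 3 : ℝ) ^ T := by ring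

open Classical in
theorem nosq_count (M : ℕ) (hM : 1 ≤ M) (z : ℝ) (hz : 1 ≤ z) :
    (((Finset.Icc 1 ⌊z⌋₊).filter (fun n => ¬ NoSq M n)).card : ℝ)
      ≤ 2 * z * Real.exp (-Real.exp ((M : ℝ) ^ 15)) := by
  set Y := Real.exp (Real.exp ((M : ℝ) ^ 15)) with hY
  have hM15 : (1 : ℝ) ≤ (M : ℝ) ^ 15 := one_le_pow₀ (by exact_mod_cast hM)
  have hY3 : 3 ≤ Y := three_le_exp_exp (by linarith only [hM15])
  set Q := (Finset.Icc 1 ⌊z⌋₊).filter (fun q => Big M q) with hQ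
  have hQY : ∀ q ∈ Q, ⌈Y⌉₊ ≤ q := by
    intro q hq
    rw [hQ, Finset.mem_filter] at hq
    rw [Nat.ceil_le, hY]
    by_contra hcon
    push Not at hcon
    have h1 : ll (q : ℝ) < (M : ℝ) ^ 15 := by
      have h2 : Real.log q < Real.exp ((M : ℝ) ^ 15) := by
        rw [Real.log_lt_iff_lt_exp (by exact_mod_cast hq.2.1.pos)]; exact hcon
      rw [ll, Real.log_lt_iff_lt_exp (log_pos_of_prime hq.2.1)]; exact h2
    exact absurd hq.2.2 (not_le.mpr h1)
  have h1 : (Finset.Icc 1 ⌊z⌋₊).filter (fun n => ¬ NoSq M n) ⊆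
      Q.biUnion fun q => (Finset.Icc 1 ⌊z⌋₊).filter (fun n => q ^ 2 ∣ n) := by
    intro n hn
    rw [Finset.mem_filter, Finset.mem_Icc] at hn
    obtain ⟨⟨hn1, hn2⟩, hn3⟩ := hn
    unfold NoSq at hn3
    push Not at hn3
    obtain ⟨q, hq, hqn⟩ := hn3
    rw [Finset.mem_biUnion]
    refine ⟨q, ?_, ?_⟩
    · rw [hQ, Finset.mem_filter, Finset.mem_Icc]
      refine ⟨⟨hq.1.one_lt.le, ?_⟩, hq⟩
      have : q ≤ q ^ 2 := Nat.le_self_pow two_ne_zero q
      exact (this.trans (Nat.le_of_dvd hn1 hqn)).trans hn2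
    · rw [Finset.mem_filter, Finset.mem_Icc]
      exact ⟨⟨hn1, hn2⟩, hqn⟩
  have h2 : ((Q.biUnion fun q => (Finset.Icc 1 ⌊z⌋₊).filter (fun n => q ^ 2 ∣ n)).card : ℝ) ≤
      ∑ q ∈ Q, z / (q : ℝ) ^ 2 := by
    refine (Nat.cast_le.mpr Finset.card_biUnion_le).trans ?_
    rw [Nat.cast_sum]
    refine Finset.sum_le_sum fun q hq => ?_
    have h3 : ((Finset.Icc 1 ⌊z⌋₊).filter (fun n => q ^ 2 ∣ n)).card = ⌊z⌋₊ / q ^ 2 := by
      have := Nat.Ioc_filter_dvd_card_eq_div ⌊z⌋₊ (q ^ 2)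
      rw [← this]
      congr 1
    rw [h3]
    refine Nat.cast_div_le.trans ?_
    rw [Nat.cast_pow]
    have hq0 : (0 : ℝ) < (q : ℝ) ^ 2 := by
      have : 0 < q := by
        rw [hQ, Finset.mem_filter, Finset.mem_Icc] at hq
        omega
      positivity
    exact div_le_div_of_nonneg_right (Nat.floor_le (by linarith only [hz])) hq0.le
  have hceil : 3 ≤ ⌈Y⌉₊ := by
    have : (3 : ℝ) ≤ ⌈Y⌉₊ := hY3.trans (Nat.le_ceil Y)
    exact_mod_cast this
  have h3 : ∑ q ∈ Q, z / (q : ℝ) ^ 2 ≤ z * (1 / ((⌈Y⌉₊ : ℝ) - 1)) := by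
    have h4 := sum_inv_mul_pred_le Q ⌈Y⌉₊ (by omega) hQY
    refine le_trans ?_ (mul_le_mul_of_nonneg_left h4 (by linarith only [hz]))
    rw [Finset.mul_sum]
    refine Finset.sum_le_sum fun q hq => ?_
    have h5 : (3 : ℝ) ≤ q := by exact_mod_cast hceil.trans (hQY q hq)
    rw [mul_one_div]
    exact div_le_div_of_nonneg_left (by linarith only [hz]) (by linarith only [mul_nonneg (sub_nonneg.2 h5) (sub_nonneg.2 h5), h5]) (by nlinarith only [])
  have h4 : 1 / ((⌈Y⌉₊ : ℝ) - 1) ≤ 2 * Real.exp (-Real.exp ((M : ℝ) ^ 15)) := by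
    rw [Real.exp_neg, ← hY]
    have h5 : Y ≤ ⌈Y⌉₊ := Nat.le_ceil Y
    rw [div_le_iff₀ (by linarith only [hY3, h5])]
    have h6 : Y⁻¹ * Y = 1 := inv_mul_cancel₀ (by linarith only [hY3])
    have h7 : 0 < Y⁻¹ := by positivity
    nlinarith only [hY3, h6, h5]
  calc (((Finset.Icc 1 ⌊z⌋₊).filter (fun n => ¬ NoSq M n)).card : ℝ)
      ≤ ((Q.biUnion fun q => (Finset.Icc 1 ⌊z⌋₊).filter (fun n => q ^ 2 ∣ n)).card : ℝ) :=
        Nat.cast_le.mpr (Finset.card_le_card h1)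
    _ ≤ z * (1 / ((⌈Y⌉₊ : ℝ) - 1)) := h2.trans h3
    _ ≤ z * (2 * Real.exp (-Real.exp ((M : ℝ) ^ 15))) :=
        mul_le_mul_of_nonneg_left h4 (by linarith only [hz])
    _ = 2 * z * Real.exp (-Real.exp ((M : ℝ) ^ 15)) := by ring

end Vale.Agent.P031
end
end

section

section

/-!
# Normal primes: `np_count`, `np_mass`
-/

namespace Vale.Agent.P031

open Finset Real Filter
open Vale.Agent.P003 (PLE mem_PLE)
open Vale.Agent.P005.Selberg (cm cm_apply cm_zero cm_prime cm_nonneg cm_euler_le cm_inv)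

theorem ev_pow_le_exp (C : ℝ) (n : ℕ) : ∀ᶠ M : ℕ in atTop, C * (M : ℝ) ^ n ≤ Real.exp M := by
  have h := (isLittleO_pow_exp_atTop (n := n)).comp_tendsto tendsto_natCast_atTop_atTop
  have h2 := h.def (c := (1 / (|C| + 1))) (by positivity)
  filter_upwards [h2] with M hM
  simp only [Function.comp_apply, Real.norm_eq_abs] at hM
  rw [abs_of_nonneg (by positivity), abs_of_pos (Real.exp_pos _)] at hM
  have h3 : C ≤ |C| + 1 := by linarith [le_abs_self C]
  calc C * (M : ℝ) ^ n ≤ (|C| + 1) * (M : ℝ) ^ n := by gcongr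
    _ ≤ (|C| + 1) * (1 / (|C| + 1) * Real.exp M) := by gcongr
    _ = Real.exp M := by field_simp

theorem lev_eq_iff_np {M q k : ℕ} (hM : 1 ≤ M) (hk : 1 ≤ k) :
    lev M q = k ↔ (k : ℝ) * (M : ℝ) ^ 13 ≤ ll (q : ℝ) ∧ ll (q : ℝ) < ((k : ℝ) + 1) * (M : ℝ) ^ 13 := by
  have hM0 : (0 : ℝ) < (M : ℝ) ^ 13 := by
    have : (1 : ℝ) ≤ M := by exact_mod_cast hM
    positivity
  rw [lev, Nat.floor_eq_iff' (by omega), le_div_iff₀ hM0, div_lt_iff₀ hM0]

/-- mass of the primes of level `k` up to `x` -/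
noncomputable def levMass (M x k : ℕ) : ℝ := ∑ p ∈ (PLE x).filter (fun q => lev M q = k), (1 : ℝ) / p

theorem levMass_le {M x k : ℕ} (hM : 1 ≤ M) (hk : 1 ≤ k) :
    levMass M x k ≤ (M : ℝ) ^ 13 + 44 := by
  have hM0 : (0 : ℝ) ≤ (M : ℝ) ^ 13 := by positivity
  have h := sum_inv_prime_le_sub ((k : ℝ) * (M : ℝ) ^ 13) (((k : ℝ) + 1) * (M : ℝ) ^ 13)
    ((PLE x).filter (fun q => lev M q = k)) (by positivity) (by nlinarith only [hM0]) (by
      intro p hp
      rw [Finset.mem_filter, lev_eq_iff_np hM hk, mem_PLE] at hp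
      exact ⟨hp.1.2, hp.2.1, hp.2.2.le⟩)
  unfold levMass
  linarith only [h]

theorem levMass_ge : ∃ C : ℝ, 0 < C ∧ ∀ M x k : ℕ, 1 ≤ M → 1 ≤ k →
    Real.exp (Real.exp (((k : ℝ) + 1) * (M : ℝ) ^ 13)) ≤ (x : ℝ) + 1 →
    (M : ℝ) ^ 13 - C ≤ levMass M x k := by
  obtain ⟨C, hC, h⟩ := le_sum_inv
  refine ⟨C + 1, by linarith, ?_⟩
  intro M x k hM hk hx
  have hM1 : (1 : ℝ) ≤ (M : ℝ) ^ 13 := one_le_pow₀ (by exact_mod_cast hM)
  have hk1 : (1 : ℝ) ≤ k := by exact_mod_cast hk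
  have hb : Real.exp (Real.exp (((k : ℝ) + 1) * (M : ℝ) ^ 13 - 1)) ≤ (x : ℝ) := by
    set b := ((k : ℝ) + 1) * (M : ℝ) ^ 13 with hb
    have hb2 : 2 ≤ b := by linarith only [mul_nonneg (sub_nonneg.2 hM1) (sub_nonneg.2 hk1), hk1, hM1]
    have h1 : Real.exp (b - 1) + 1 ≤ Real.exp b := by
      have h2 : Real.exp b = Real.exp (b - 1) * Real.exp 1 := by rw [← Real.exp_add]; ring_nf
      have h3 : 2 ≤ Real.exp (b - 1) := by
        have := Real.add_one_le_exp (b - 1)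
        linarith only [hb2, this]
      have h4 : 2 ≤ Real.exp 1 := by
        have := Real.add_one_le_exp (1 : ℝ)
        linarith
      nlinarith only [h4, h2, h3]
    have h5 : Real.exp (Real.exp (b - 1)) * Real.exp 1 ≤ Real.exp (Real.exp b) := by
      rw [← Real.exp_add]
      exact Real.exp_le_exp.2 h1
    have h6 : 1 ≤ Real.exp (Real.exp (b - 1)) := Real.one_le_exp (Real.exp_pos _).le
    have h4 : 2 ≤ Real.exp 1 := by
      have := Real.add_one_le_exp (1 : ℝ)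
      linarith
    nlinarith only [h5, hx, h4, h6]
  have h1 := h ((k : ℝ) * (M : ℝ) ^ 13) (((k : ℝ) + 1) * (M : ℝ) ^ 13 - 1) x (by positivity)
    (by nlinarith only [hM1]) hb
  have h2 : ∑ p ∈ (Finset.range (x + 1)).filter
      (fun p : ℕ => p.Prime ∧ (k : ℝ) * (M : ℝ) ^ 13 ≤ ll (p : ℝ) ∧
        ll (p : ℝ) ≤ ((k : ℝ) + 1) * (M : ℝ) ^ 13 - 1), 1 / (p : ℝ) ≤ levMass M x k := by
    unfold levMass
    apply Finset.sum_le_sum_of_subset_of_nonneg
    · intro p hp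
      rw [Finset.mem_filter, Finset.mem_range] at hp
      rw [Finset.mem_filter, mem_PLE, lev_eq_iff_np hM hk]
      exact ⟨⟨by omega, hp.2.1⟩, hp.2.2.1, by linarith only [hp.2.2.2]⟩
    · intro p _ _; positivity
  have h3 : ((k : ℝ) + 1) * (M : ℝ) ^ 13 - 1 - (k : ℝ) * (M : ℝ) ^ 13 - C =
    (M : ℝ) ^ 13 - (C + 1) := by ring
  refine le_trans (le_of_eq h3.symm) (h1.trans ?_)
  convert h2 using 2

/-- the weight function of a level -/
theorem wt_level {M k : ℕ} {t : ℝ} (hM : 2 ≤ M) (hk : 1 ≤ k) (ht0 : 0 ≤ t) (ht : t ≤ 2) :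
    Wt (fun q => if lev M q = k then t else 1) 2 := by
  refine ⟨by norm_num, ?_, ?_, ?_⟩
  · intro p _
    split_ifs <;> linarith
  · intro p _
    split_ifs <;> linarith
  · intro p hp hp64
    rw [if_neg]
    intro hlev
    have hll : ll (p : ℝ) < 8192 := by
      have hp2 : (2 : ℝ) ≤ p := by exact_mod_cast hp.two_le
      have hlp : 0 < Real.log p := Real.log_pos (by linarith only [hp2])
      have h1 := Real.log_le_sub_one_of_pos (show (0 : ℝ) < p by linarith)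
      have h2 := Real.log_le_sub_one_of_pos hlp
      have h64 : (p : ℝ) ≤ 64 := hp64.trans (by norm_num)
      unfold ll
      linarith
    have h3 := ((lev_eq_iff_np (by omega) hk).1 hlev).1
    have h4 : (8192 : ℝ) ≤ (M : ℝ) ^ 13 := by
      have : (2 : ℝ) ≤ M := by exact_mod_cast hM
      calc (8192 : ℝ) = 2 ^ 13 := by norm_num
        _ ≤ (M : ℝ) ^ 13 := by gcongr
    have h5 : (1 : ℝ) ≤ k := by exact_mod_cast hk
    nlinarith only [h5, hll, h4, h3]

theorem sum_wt_level {M k x : ℕ} {t : ℝ} :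
    ∑ p ∈ PLE x, (if lev M p = k then t else 1) / (p : ℝ) = recipSum x + (t - 1) * levMass M x k := by
  have h1 : levMass M x k = ∑ p ∈ PLE x, if lev M p = k then (1 : ℝ) / p else 0 :=
    Finset.sum_filter _ _
  rw [h1, recipSum, Finset.mul_sum, ← Finset.sum_add_distrib]
  apply Finset.sum_congr rfl
  intro p _
  split_ifs <;> ring

/-- Chernoff count for a level, upper tail (`t ≥ 1`) or lower tail (`t ≤ 1`). -/
theorem level_count {M k : ℕ} {t B z L : ℝ} (hM : 2 ≤ M) (hk : 1 ≤ k) (ht0 : 0 ≤ t) (ht : t ≤ 2)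
    (hz : 3 ≤ z) (hL : 1 ≤ L) (hzL : ll z ≤ L) (s : Finset ℕ)
    (hs : ∀ p ∈ s, p.Prime ∧ (p : ℝ) ≤ z ∧ B ≤ t ^ (prof M (p - 1) k)) :
    (s.card : ℝ) * B ≤ (4 * 10 ^ 10 * Real.exp 54 * 8) * L ^ 3 * (z / Real.log z) *
      Real.exp ((t - 1) * levMass M ⌊z⌋₊ k) := by
  have h := count_le_of_weight (wt_level (M := M) (k := k) hM hk ht0 ht) (B := B) hz hL hzL s (by
    intro p hp
    obtain ⟨h1, h2, h3⟩ := hs p hp
    refine ⟨h1, h2, ?_⟩
    rw [cm_level]
    · exact h3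
    · have := h1.two_le; omega)
  rw [sum_wt_level] at h
  have hlz1 : 1 < Real.log z := by
    rw [Real.lt_log_iff_exp_lt (by linarith only [hz])]
    have := Real.exp_one_lt_d9
    linarith only [this, hz]
  have hrec := recipSum_floor_le hz
  have hexp : Real.exp (ll z) = Real.log z := by rw [ll, Real.exp_log (by linarith only [hlz1])]
  refine h.trans ?_
  have h1 : Real.exp (recipSum ⌊z⌋₊ + (t - 1) * levMass M ⌊z⌋₊ k) ≤
      Real.exp 20 * Real.log z * Real.exp ((t - 1) * levMass M ⌊z⌋₊ k) := by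
    rw [Real.exp_add, ← hexp, ← Real.exp_add 20]
    gcongr
    linarith only [hrec]
  calc 4 * 10 ^ 10 * Real.exp 34 * (2 * L) ^ 3 * (z / Real.log z ^ 2) *
      Real.exp (recipSum ⌊z⌋₊ + (t - 1) * levMass M ⌊z⌋₊ k)
      ≤ 4 * 10 ^ 10 * Real.exp 34 * (2 * L) ^ 3 * (z / Real.log z ^ 2) *
        (Real.exp 20 * Real.log z * Real.exp ((t - 1) * levMass M ⌊z⌋₊ k)) := by gcongr
    _ = 4 * 10 ^ 10 * (Real.exp 34 * Real.exp 20) * 8 * L ^ 3 *
        (z * (Real.log z / Real.log z ^ 2)) * Real.exp ((t - 1) * levMass M ⌊z⌋₊ k) := by ring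
    _ = _ := by
        have h2 : Real.log z / Real.log z ^ 2 = 1 / Real.log z := by
          have : Real.log z ≠ 0 := by linarith only [hlz1]
          field_simp
        have h3 : Real.exp 34 * Real.exp 20 = Real.exp 54 := by
          rw [← Real.exp_add]; norm_num
        rw [h2, h3]; ring

theorem one_lt_log_of_three_le {z : ℝ} (hz : 3 ≤ z) : 1 < Real.log z := by
  rw [Real.lt_log_iff_exp_lt (by linarith)]
  have := Real.exp_one_lt_d9
  linarith

/-- absorbing the polynomial factors -/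
theorem ev_absorb (C : ℝ) : ∀ᶠ M : ℕ in atTop, ∀ E : ℝ, E ≤ - (1 / 4 * (M : ℝ) ^ 5) + C →
    2 * ((4 * 10 ^ 10 * Real.exp 54 * 8) * (5 * (M : ℝ) ^ 20) ^ 3) * Real.exp E ≤
      Real.exp (-(2 * (M : ℝ) ^ 4)) := by
  have h1 := ev_pow_le_exp (2 * ((4 * 10 ^ 10 * Real.exp 54 * 8) * 125) * Real.exp C) 60
  filter_upwards [h1, eventually_ge_atTop 12] with M hM hM12 E hE
  have hM' : (12 : ℝ) ≤ M := by exact_mod_cast hM12
  have h2 : (M : ℝ) ≤ (M : ℝ) ^ 4 := by
    calc (M : ℝ) = (M : ℝ) ^ 1 := by ring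
      _ ≤ (M : ℝ) ^ 4 := pow_le_pow_right₀ (by linarith only [hM']) (by norm_num)
  have h3 : 12 * (M : ℝ) ^ 4 ≤ (M : ℝ) ^ 5 := by
    calc 12 * (M : ℝ) ^ 4 ≤ M * (M : ℝ) ^ 4 := by gcongr
      _ = (M : ℝ) ^ 5 := by ring
  calc 2 * ((4 * 10 ^ 10 * Real.exp 54 * 8) * (5 * (M : ℝ) ^ 20) ^ 3) * Real.exp E
      ≤ 2 * ((4 * 10 ^ 10 * Real.exp 54 * 8) * (5 * (M : ℝ) ^ 20) ^ 3) *
        Real.exp (- (1 / 4 * (M : ℝ) ^ 5) + C) := by gcongr
    _ = (2 * ((4 * 10 ^ 10 * Real.exp 54 * 8) * 125) * Real.exp C * (M : ℝ) ^ 60) *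
        Real.exp (- (1 / 4 * (M : ℝ) ^ 5)) := by rw [Real.exp_add]; ring
    _ ≤ Real.exp M * Real.exp (- (1 / 4 * (M : ℝ) ^ 5)) := by gcongr
    _ = Real.exp (M - 1 / 4 * (M : ℝ) ^ 5) := by rw [← Real.exp_add]; ring_nf
    _ ≤ Real.exp (-(2 * (M : ℝ) ^ 4)) := by
        apply Real.exp_le_exp.2
        linarith only [h3, h2]

/-- upper tail -/
theorem np_upper : ∀ᶠ M : ℕ in atTop, ∀ (z : ℝ) (k : ℕ) (s : Finset ℕ), 3 ≤ z →
    ll z ≤ 5 * (M : ℝ) ^ 20 → M ^ 2 ≤ k →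
    (∀ p ∈ s, p.Prime ∧ (p : ℝ) ≤ z ∧ (M : ℝ) ^ 13 + (M : ℝ) ^ 9 ≤ prof M (p - 1) k) →
    2 * (s.card : ℝ) ≤ z / Real.log z * Real.exp (-(2 * (M : ℝ) ^ 4)) := by
  filter_upwards [ev_absorb 44, eventually_ge_atTop 2] with M hM hM2 z k s hz hzL hk hs
  have hM' : (2 : ℝ) ≤ M := by exact_mod_cast hM2
  have hk1 : 1 ≤ k := le_trans (Nat.one_le_pow _ _ (by omega)) hk
  have hlz := one_lt_log_of_three_le hz
  set δ : ℝ := 1 / (M : ℝ) ^ 4 with hδ
  have hM4 : (16 : ℝ) ≤ (M : ℝ) ^ 4 := by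
    calc (16 : ℝ) = 2 ^ 4 := by norm_num
      _ ≤ (M : ℝ) ^ 4 := by gcongr
  have hδ0 : 0 < δ := by positivity
  have hδ1 : δ ≤ 1 / 16 := by rw [hδ]; gcongr
  have hδ13 : δ * (M : ℝ) ^ 13 = (M : ℝ) ^ 9 := by rw [hδ]; field_simp
  have hδ9 : δ * (M : ℝ) ^ 9 = (M : ℝ) ^ 5 := by rw [hδ]; field_simp
  have hδ2 : δ ^ 2 * (M : ℝ) ^ 13 = (M : ℝ) ^ 5 := by rw [sq, mul_assoc, hδ13, hδ9]
  have hexp := Real.abs_exp_sub_one_sub_id_le (x := δ / 2) (by rw [abs_of_pos (by positivity)]; linarith only [hδ1])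
  rw [abs_le] at hexp
  set t : ℝ := Real.exp (δ / 2) with ht
  have ht0 : 0 ≤ t := (Real.exp_pos _).le
  have ht1 : 1 ≤ t := Real.one_le_exp (by positivity)
  have ht2 : t ≤ 2 := by nlinarith only [hδ1, hδ0, hexp.2]
  have h := level_count (M := M) (k := k) (t := t)
    (B := Real.exp (δ / 2 * ((M : ℝ) ^ 13 + (M : ℝ) ^ 9))) hM2 hk1 ht0 ht2 hz
    (L := 5 * (M : ℝ) ^ 20) (by
      have : (1 : ℝ) ≤ (M : ℝ) ^ 20 := one_le_pow₀ (by linarith only [hM'])
      linarith only [this]) hzL s (by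
      intro p hp
      obtain ⟨h1, h2, h3⟩ := hs p hp
      refine ⟨h1, h2, ?_⟩
      rw [ht, ← Real.exp_nat_mul]
      apply Real.exp_le_exp.2
      linarith only [mul_nonneg (sub_nonneg.2 h3) (le_of_lt (sub_pos.2 hδ0))])
  have hmass := levMass_le (M := M) (x := ⌊z⌋₊) (k := k) (by omega) hk1
  have hE := hM ((t - 1) * levMass M ⌊z⌋₊ k - δ / 2 * ((M : ℝ) ^ 13 + (M : ℝ) ^ 9)) (by
    have h1 : (t - 1) * levMass M ⌊z⌋₊ k ≤ (t - 1) * ((M : ℝ) ^ 13 + 44) :=
      mul_le_mul_of_nonneg_left hmass (by linarith only [ht1])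
    have h2 : (t - 1) * (M : ℝ) ^ 13 ≤ (δ / 2 + (δ / 2) ^ 2) * (M : ℝ) ^ 13 := by
      apply mul_le_mul_of_nonneg_right _ (by positivity)
      linarith only [hexp.2]
    have h3 : (δ / 2 + (δ / 2) ^ 2) * (M : ℝ) ^ 13 = (M : ℝ) ^ 9 / 2 + (M : ℝ) ^ 5 / 4 := by
      calc (δ / 2 + (δ / 2) ^ 2) * (M : ℝ) ^ 13
          = (δ * (M : ℝ) ^ 13) / 2 + (δ ^ 2 * (M : ℝ) ^ 13) / 4 := by ring
        _ = _ := by rw [hδ13, hδ2]
    have h4 : δ / 2 * ((M : ℝ) ^ 13 + (M : ℝ) ^ 9) = (M : ℝ) ^ 9 / 2 + (M : ℝ) ^ 5 / 2 := by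
      calc δ / 2 * ((M : ℝ) ^ 13 + (M : ℝ) ^ 9)
          = (δ * (M : ℝ) ^ 13) / 2 + (δ * (M : ℝ) ^ 9) / 2 := by ring
        _ = _ := by rw [hδ13, hδ9]
    linarith only [h1, h2, hδ9, ht2, hδ2])
  rw [Real.exp_sub] at hE
  have hZ : 0 ≤ z / Real.log z := by positivity
  have hBpos := Real.exp_pos (δ / 2 * ((M : ℝ) ^ 13 + (M : ℝ) ^ 9))
  rw [mul_div_assoc', div_le_iff₀ hBpos] at hE
  have h5 : 2 * (s.card : ℝ) * Real.exp (δ / 2 * ((M : ℝ) ^ 13 + (M : ℝ) ^ 9)) ≤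
      (z / Real.log z * Real.exp (-(2 * (M : ℝ) ^ 4))) *
        Real.exp (δ / 2 * ((M : ℝ) ^ 13 + (M : ℝ) ^ 9)) := by
    calc 2 * (s.card : ℝ) * Real.exp (δ / 2 * ((M : ℝ) ^ 13 + (M : ℝ) ^ 9))
        = 2 * ((s.card : ℝ) * Real.exp (δ / 2 * ((M : ℝ) ^ 13 + (M : ℝ) ^ 9))) := by ring
      _ ≤ 2 * ((4 * 10 ^ 10 * Real.exp 54 * 8) * (5 * (M : ℝ) ^ 20) ^ 3 * (z / Real.log z) *
          Real.exp ((t - 1) * levMass M ⌊z⌋₊ k)) := by gcongr
      _ = (z / Real.log z) * (2 * ((4 * 10 ^ 10 * Real.exp 54 * 8) * (5 * (M : ℝ) ^ 20) ^ 3) *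
          Real.exp ((t - 1) * levMass M ⌊z⌋₊ k)) := by ring
      _ ≤ (z / Real.log z) * (Real.exp (-(2 * (M : ℝ) ^ 4)) *
          Real.exp (δ / 2 * ((M : ℝ) ^ 13 + (M : ℝ) ^ 9))) := by gcongr
      _ = _ := by ring
  exact le_of_mul_le_mul_right h5 hBpos

/-- lower tail -/
theorem np_lower : ∀ᶠ M : ℕ in atTop, ∀ (z : ℝ) (k : ℕ) (s : Finset ℕ), 3 ≤ z →
    ll z ≤ 5 * (M : ℝ) ^ 20 → M ^ 2 ≤ k → ((k : ℝ) + 1) * (M : ℝ) ^ 13 ≤ ll z →
    (∀ p ∈ s, p.Prime ∧ (p : ℝ) ≤ z ∧ (prof M (p - 1) k : ℝ) ≤ (M : ℝ) ^ 13 - (M : ℝ) ^ 9) →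
    2 * (s.card : ℝ) ≤ z / Real.log z * Real.exp (-(2 * (M : ℝ) ^ 4)) := by
  obtain ⟨C, hC, hge⟩ := levMass_ge
  filter_upwards [ev_absorb C, eventually_ge_atTop 2] with M hM hM2 z k s hz hzL hk hkz hs
  have hM' : (2 : ℝ) ≤ M := by exact_mod_cast hM2
  have hk1 : 1 ≤ k := le_trans (Nat.one_le_pow _ _ (by omega)) hk
  have hlz := one_lt_log_of_three_le hz
  set δ : ℝ := 1 / (M : ℝ) ^ 4 with hδ
  have hM4 : (16 : ℝ) ≤ (M : ℝ) ^ 4 := by
    calc (16 : ℝ) = 2 ^ 4 := by norm_num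
      _ ≤ (M : ℝ) ^ 4 := by gcongr
  have hδ0 : 0 < δ := by positivity
  have hδ1 : δ ≤ 1 / 16 := by rw [hδ]; gcongr
  have hδ13 : δ * (M : ℝ) ^ 13 = (M : ℝ) ^ 9 := by rw [hδ]; field_simp
  have hδ9 : δ * (M : ℝ) ^ 9 = (M : ℝ) ^ 5 := by rw [hδ]; field_simp
  have hδ2 : δ ^ 2 * (M : ℝ) ^ 13 = (M : ℝ) ^ 5 := by rw [sq, mul_assoc, hδ13, hδ9]
  have hexp := Real.abs_exp_sub_one_sub_id_le (x := -(δ / 2))
    (by rw [abs_neg, abs_of_pos (by positivity)]; linarith only [hδ1])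
  rw [abs_le] at hexp
  set t : ℝ := Real.exp (-(δ / 2)) with ht
  have ht0 : 0 ≤ t := (Real.exp_pos _).le
  have ht1 : t ≤ 1 := Real.exp_le_one_iff.2 (by linarith only [hδ0])
  have h := level_count (M := M) (k := k) (t := t)
    (B := Real.exp (-(δ / 2) * ((M : ℝ) ^ 13 - (M : ℝ) ^ 9))) hM2 hk1 ht0 (by linarith only [ht1]) hz
    (L := 5 * (M : ℝ) ^ 20) (by
      have : (1 : ℝ) ≤ (M : ℝ) ^ 20 := one_le_pow₀ (by linarith only [hM'])
      linarith only [this]) hzL s (by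
      intro p hp
      obtain ⟨h1, h2, h3⟩ := hs p hp
      refine ⟨h1, h2, ?_⟩
      rw [ht, ← Real.exp_nat_mul]
      apply Real.exp_le_exp.2
      linarith only [mul_nonneg (le_of_lt (sub_pos.2 hδ0)) (sub_nonneg.2 h3)])
  have hmass : (M : ℝ) ^ 13 - C ≤ levMass M ⌊z⌋₊ k := by
    apply hge M ⌊z⌋₊ k (by omega) hk1
    have h1 : Real.exp (Real.exp (((k : ℝ) + 1) * (M : ℝ) ^ 13)) ≤ z := by
      rw [← Real.le_log_iff_exp_le (by linarith only [hz]), ← Real.le_log_iff_exp_le (by linarith only [hlz])]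
      exact hkz
    linarith only [h1, Nat.lt_floor_add_one z]
  have hE := hM ((t - 1) * levMass M ⌊z⌋₊ k - -(δ / 2) * ((M : ℝ) ^ 13 - (M : ℝ) ^ 9)) (by
    have h1 : (t - 1) * levMass M ⌊z⌋₊ k ≤ (t - 1) * ((M : ℝ) ^ 13 - C) :=
      mul_le_mul_of_nonpos_left hmass (by linarith only [ht1])
    have h2 : (t - 1) * (M : ℝ) ^ 13 ≤ (-(δ / 2) + (δ / 2) ^ 2) * (M : ℝ) ^ 13 := by
      apply mul_le_mul_of_nonneg_right _ (by positivity)
      linarith only [hexp.2]
    have h3 : (-(δ / 2) + (δ / 2) ^ 2) * (M : ℝ) ^ 13 = -((M : ℝ) ^ 9 / 2) + (M : ℝ) ^ 5 / 4 := by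
      calc (-(δ / 2) + (δ / 2) ^ 2) * (M : ℝ) ^ 13
          = -((δ * (M : ℝ) ^ 13) / 2) + (δ ^ 2 * (M : ℝ) ^ 13) / 4 := by ring
        _ = _ := by rw [hδ13, hδ2]
    have h4 : -(δ / 2) * ((M : ℝ) ^ 13 - (M : ℝ) ^ 9) = -((M : ℝ) ^ 9 / 2) + (M : ℝ) ^ 5 / 2 := by
      calc -(δ / 2) * ((M : ℝ) ^ 13 - (M : ℝ) ^ 9)
          = -((δ * (M : ℝ) ^ 13) / 2) + (δ * (M : ℝ) ^ 9) / 2 := by ring
        _ = _ := by rw [hδ13, hδ9]
    have h5 : (1 - t) * C ≤ 1 * C := by
      apply mul_le_mul_of_nonneg_right _ hC.le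
      linarith only [ht0]
    linarith only [h1, h5, hδ9, h2, hδ2])
  rw [Real.exp_sub] at hE
  have hZ : 0 ≤ z / Real.log z := by positivity
  set Bx : ℝ := Real.exp (-(δ / 2) * ((M : ℝ) ^ 13 - (M : ℝ) ^ 9)) with hBx
  have hBpos : 0 < Bx := Real.exp_pos _
  rw [mul_div_assoc', div_le_iff₀ hBpos] at hE
  have h5 : 2 * (s.card : ℝ) * Bx ≤
      (z / Real.log z * Real.exp (-(2 * (M : ℝ) ^ 4))) * Bx := by
    calc 2 * (s.card : ℝ) * Bx
        = 2 * ((s.card : ℝ) * Bx) := by ring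
      _ ≤ 2 * ((4 * 10 ^ 10 * Real.exp 54 * 8) * (5 * (M : ℝ) ^ 20) ^ 3 * (z / Real.log z) *
          Real.exp ((t - 1) * levMass M ⌊z⌋₊ k)) := by gcongr
      _ = (z / Real.log z) * (2 * ((4 * 10 ^ 10 * Real.exp 54 * 8) * (5 * (M : ℝ) ^ 20) ^ 3) *
          Real.exp ((t - 1) * levMass M ⌊z⌋₊ k)) := by ring
      _ ≤ (z / Real.log z) * (Real.exp (-(2 * (M : ℝ) ^ 4)) * Bx) := by gcongr
      _ = _ := by ring
  exact le_of_mul_le_mul_right h5 hBpos

theorem not_Nrm_cases {M p : ℕ} (hb : Big M p) (hn : ¬ Nrm M p) :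
    ¬ NoSq M (p - 1) ∨ M ^ 25 + 1 ≤ Om (p - 1) ∨ (Om (p - 1) : ℝ) < 9 / 10 * ll (p : ℝ) ∨
    (∃ k : ℕ, M ^ 2 ≤ k ∧ (M : ℝ) ^ 13 + (M : ℝ) ^ 9 ≤ prof M (p - 1) k) ∨
    (∃ k : ℕ, M ^ 2 ≤ k ∧ ((k : ℝ) + 1) * (M : ℝ) ^ 13 ≤ ll (p : ℝ) ∧
      (prof M (p - 1) k : ℝ) ≤ (M : ℝ) ^ 13 - (M : ℝ) ^ 9) := by
  by_contra hcon
  push Not at hcon
  obtain ⟨h1, h2, h3, h4, h5⟩ := hcon
  apply hn
  refine ⟨hb, h1, by omega, h3, ?_, ?_⟩
  · intro k hk hkl
    have h6 := h4 k hk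
    have h7 := h5 k hk hkl
    rw [abs_le]
    constructor <;> linarith only [h7, h6]
  · intro k hk
    have h6 := h4 k hk
    rcases Nat.eq_zero_or_pos M with hM | hM
    · subst hM
      simp at h6 ⊢
      linarith only [h6]
    · have : (M : ℝ) ^ 9 ≤ (M : ℝ) ^ 13 :=
        pow_le_pow_right₀ (by exact_mod_cast hM) (by norm_num)
      linarith only [this, h6]

theorem np_ll_mono {a b : ℝ} (ha : 1 < a) (hab : a ≤ b) : ll a ≤ ll b := by
  unfold ll
  exact Real.log_le_log (Real.log_pos ha) (Real.log_le_log (by linarith) hab)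

theorem np_count : ∀ᶠ M : ℕ in atTop, ∀ (z : ℝ) (s : Finset ℕ), 3 ≤ z → ll z ≤ 5 * (M : ℝ) ^ 20 →
    (∀ p ∈ s, Big M p ∧ ¬ Nrm M p ∧ (p : ℝ) ≤ z) →
    (s.card : ℝ) ≤ z / Real.log z * Real.exp (-(M : ℝ) ^ 4) := by
  classical
  obtain ⟨C₁, hC₁, homl⟩ := om_large
  obtain ⟨c, C₂, hc, hC₂, hcn⟩ := cn_count
  have hevc : ∀ᶠ M : ℕ in atTop, 2 ≤ c * M := by
    have h := tendsto_natCast_atTop_atTop (R := ℝ)
    exact (h.const_mul_atTop hc).eventually_ge_atTop 2
  filter_upwards [np_upper, np_lower, eventually_ge_atTop 3, ev_pow_le_exp 9 20,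
    ev_pow_le_exp (4 * C₁) 0, ev_pow_le_exp (4 * C₂) 0, ev_pow_le_exp 24 7, hevc] with
    M hup hlo hM3 hev1 hev2 hev3 hev4 hev5 z s hz hzL hs
  have hM' : (3 : ℝ) ≤ M := by exact_mod_cast hM3
  have hlz1 := one_lt_log_of_three_le hz
  have hlz0 : 0 < Real.log z := by linarith
  have hZ : 0 ≤ z / Real.log z := by positivity
  rcases s.eq_empty_or_nonempty with hse | ⟨p₀, hp₀⟩
  · rw [hse, Finset.card_empty, Nat.cast_zero]
    positivity
  have hprime : ∀ p ∈ s, p.Prime := fun p hp => (hs p hp).1.1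
  have hgt1 : ∀ p ∈ s, (1 : ℝ) < p := fun p hp => by exact_mod_cast (hprime p hp).one_lt
  have hllz : ∀ p ∈ s, ll (p : ℝ) ≤ ll z := fun p hp => np_ll_mono (hgt1 p hp) (hs p hp).2.2
  have hz15 : (M : ℝ) ^ 15 ≤ ll z := ((hs p₀ hp₀).1.2).trans (hllz p₀ hp₀)
  have hM4_20 : (M : ℝ) ^ 4 ≤ (M : ℝ) ^ 20 := pow_le_pow_right₀ (by linarith only [hM']) (by norm_num)
  have hM1_20 : 1 ≤ (M : ℝ) ^ 20 := one_le_pow₀ (by linarith)
  have hM1_4 : (M : ℝ) ≤ (M : ℝ) ^ 4 := by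
    calc (M : ℝ) = (M : ℝ) ^ 1 := by ring
      _ ≤ (M : ℝ) ^ 4 := pow_le_pow_right₀ (by linarith) (by norm_num)
  have hM1_15 : (M : ℝ) ≤ (M : ℝ) ^ 15 := by
    calc (M : ℝ) = (M : ℝ) ^ 1 := by ring
      _ ≤ (M : ℝ) ^ 15 := pow_le_pow_right₀ (by linarith only [hM']) (by norm_num)
  have hexpll : Real.exp (ll z) = Real.log z := by rw [ll, Real.exp_log hlz0]
  have hlogz : Real.log z ≤ Real.exp (5 * (M : ℝ) ^ 20) := by
    rw [← hexpll]; exact Real.exp_le_exp.2 hzL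
  -- the big primes are at least 3
  have hge3 : ∀ p ∈ s, 3 ≤ p := by
    intro p hp
    have h1 := (hs p hp).1.2
    by_contra hlt
    have h2 : p = 2 := by
      have := (hprime p hp).two_le
      omega
    subst h2
    have h3 : ll ((2 : ℕ) : ℝ) ≤ 0 := by
      unfold ll
      apply Real.log_nonpos (Real.log_nonneg (by norm_num))
      have := Real.log_two_lt_d9
      push_cast
      linarith only [this]
    have h4 : (0 : ℝ) < (M : ℝ) ^ 15 := by positivity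
    linarith only [h3, h1, hM', hM1_15]
  set A := s.filter (fun p => ¬ NoSq M (p - 1)) with hA
  set B := s.filter (fun p => M ^ 25 + 1 ≤ Om (p - 1)) with hB
  set D := s.filter (fun p => (Om (p - 1) : ℝ) < 9 / 10 * ll (p : ℝ)) with hD
  set U := fun k : ℕ => s.filter (fun p : ℕ => M ^ 2 ≤ k ∧
    (M : ℝ) ^ 13 + (M : ℝ) ^ 9 ≤ prof M (p - 1) k) with hU
  set E := fun k : ℕ => s.filter (fun p : ℕ => M ^ 2 ≤ k ∧ ((k : ℝ) + 1) * (M : ℝ) ^ 13 ≤ ll (p : ℝ) ∧
      (prof M (p - 1) k : ℝ) ≤ (M : ℝ) ^ 13 - (M : ℝ) ^ 9) with hE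
  have hcover : s ⊆ A ∪ (B ∪ (D ∪ ((Finset.range (KK M)).biUnion U ∪
      (Finset.range (KK M)).biUnion E))) := by
    intro p hp
    simp only [Finset.mem_union, Finset.mem_biUnion, Finset.mem_range, hA, hB, hD, hU, hE,
      Finset.mem_filter]
    rcases not_Nrm_cases (hs p hp).1 (hs p hp).2.1 with h | h | h | ⟨k, hk, h⟩ | ⟨k, hk, h1, h2⟩
    · exact Or.inl ⟨hp, h⟩
    · exact Or.inr (Or.inl ⟨hp, h⟩)
    · exact Or.inr (Or.inr (Or.inl ⟨hp, h⟩))
    · refine Or.inr (Or.inr (Or.inr (Or.inl ⟨k, ?_, hp, hk, h⟩)))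
      have hpos : 0 < prof M (p - 1) k := by
        have h3 : (0 : ℝ) < (prof M (p - 1) k : ℝ) := by
          refine lt_of_lt_of_le ?_ h
          positivity
        exact_mod_cast h3
      unfold prof at hpos
      obtain ⟨q, hq, _⟩ := Finset.exists_ne_zero_of_sum_ne_zero hpos.ne'
      rw [Finset.mem_filter] at hq
      have hqp := Nat.prime_of_mem_primeFactors hq.1
      have hqle : q ≤ p - 1 := Nat.le_of_mem_primeFactors hq.1
      have hq1 : (1 : ℝ) < q := by exact_mod_cast hqp.one_lt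
      have hqz : (q : ℝ) ≤ z := by
        have : (q : ℝ) ≤ p := by exact_mod_cast (by omega : q ≤ p)
        exact this.trans (hs p hp).2.2
      rw [← hq.2]
      exact lev_lt_KK (by omega) ((np_ll_mono hq1 hqz).trans hzL)
    · refine Or.inr (Or.inr (Or.inr (Or.inr ⟨k, ?_, hp, hk, h1, h2⟩)))
      have h3 : ((k : ℝ) + 1) * (M : ℝ) ^ 13 ≤ 5 * (M : ℝ) ^ 20 := h1.trans ((hllz p hp).trans hzL)
      have h4 : ((k : ℝ) + 1) ≤ 5 * (M : ℝ) ^ 7 := by
        have h5 : (0 : ℝ) < (M : ℝ) ^ 13 := by positivity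
        have h6 : 5 * (M : ℝ) ^ 20 = (5 * (M : ℝ) ^ 7) * (M : ℝ) ^ 13 := by ring
        rw [h6] at h3
        exact le_of_mul_le_mul_right h3 h5
      have h7 : k + 1 ≤ 5 * M ^ 7 := by exact_mod_cast h4
      unfold KK
      omega
  have hcard : (s.card : ℝ) ≤ A.card + (B.card + (D.card +
      (∑ k ∈ Finset.range (KK M), ((U k).card : ℝ) + ∑ k ∈ Finset.range (KK M), ((E k).card : ℝ)))) := by
    have h1 := Finset.card_le_card hcover
    have h2 := Finset.card_union_le A (B ∪ (D ∪ ((Finset.range (KK M)).biUnion U ∪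
      (Finset.range (KK M)).biUnion E)))
    have h3 := Finset.card_union_le B (D ∪ ((Finset.range (KK M)).biUnion U ∪
      (Finset.range (KK M)).biUnion E))
    have h4 := Finset.card_union_le D ((Finset.range (KK M)).biUnion U ∪
      (Finset.range (KK M)).biUnion E)
    have h5 := Finset.card_union_le ((Finset.range (KK M)).biUnion U) ((Finset.range (KK M)).biUnion E)
    have h6 := Finset.card_biUnion_le (s := Finset.range (KK M)) (t := U)
    have h7 := Finset.card_biUnion_le (s := Finset.range (KK M)) (t := E)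
    have h8 : s.card ≤ A.card + (B.card + (D.card +
      (∑ k ∈ Finset.range (KK M), (U k).card + ∑ k ∈ Finset.range (KK M), (E k).card))) := by
      omega
    exact_mod_cast h8
  -- A
  have hAc : 4 * (A.card : ℝ) ≤ z / Real.log z * Real.exp (-(M : ℝ) ^ 4) := by
    have h1 := nosq_count M (by omega) z (by linarith only [hz])
    have h2 : (A.card : ℝ) ≤ (((Finset.Icc 1 ⌊z⌋₊).filter (fun n => ¬ NoSq M n)).card : ℝ) := by
      have : A.card ≤ ((Finset.Icc 1 ⌊z⌋₊).filter (fun n => ¬ NoSq M n)).card := by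
        apply Finset.card_le_card_of_injOn (fun p => p - 1)
        · intro p hp
          have hp' := Finset.mem_filter.1 hp
          have h3 := hge3 p hp'.1
          simp only [Finset.coe_filter, Set.mem_ofPred_eq, Finset.mem_Icc]
          refine ⟨⟨by omega, ?_⟩, hp'.2⟩
          apply Nat.le_floor
          have h4 : ((p - 1 : ℕ) : ℝ) ≤ p := by exact_mod_cast (Nat.sub_le p 1)
          exact h4.trans (hs p hp'.1).2.2
        · intro p hp q hq hpq
          have h3 := hge3 p (Finset.mem_filter.1 hp).1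
          have h4 := hge3 q (Finset.mem_filter.1 hq).1
          simp only at hpq
          omega
      exact_mod_cast this
    have h3 : (8 : ℝ) ≤ Real.exp (3 * (M : ℝ) ^ 20) := by
      have h4 := Real.add_one_le_exp (1 : ℝ)
      calc (8 : ℝ) = 2 ^ 3 := by norm_num
        _ ≤ (Real.exp 1) ^ 3 := by gcongr; linarith only [h4]
        _ = Real.exp 3 := by rw [← Real.exp_nat_mul]; norm_num
        _ ≤ Real.exp (3 * (M : ℝ) ^ 20) := Real.exp_le_exp.2 (by linarith only [hM1_4, hM', hM4_20])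
    have h5 : 9 * (M : ℝ) ^ 20 ≤ Real.exp ((M : ℝ) ^ 15) :=
      hev1.trans (Real.exp_le_exp.2 hM1_15)
    calc 4 * (A.card : ℝ) ≤ 4 * (2 * z * Real.exp (-Real.exp ((M : ℝ) ^ 15))) := by linarith only [h2, h1]
      _ = (z / Real.log z) * (8 * Real.log z * Real.exp (-Real.exp ((M : ℝ) ^ 15))) := by
          field_simp; ring
      _ ≤ (z / Real.log z) * (Real.exp (3 * (M : ℝ) ^ 20) * Real.exp (5 * (M : ℝ) ^ 20) *
          Real.exp (-(9 * (M : ℝ) ^ 20))) := by gcongr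
      _ = (z / Real.log z) * Real.exp (-(M : ℝ) ^ 20) := by
          rw [← Real.exp_add, ← Real.exp_add]; ring_nf
      _ ≤ _ := by gcongr
  -- B
  have hBc : 4 * (B.card : ℝ) ≤ z / Real.log z * Real.exp (-(M : ℝ) ^ 4) := by
    have h1 := homl z (M ^ 25 + 1) hz
    have h2 : (B.card : ℝ) ≤
        (((Finset.Icc 1 ⌊z⌋₊).filter (fun n => M ^ 25 + 1 ≤ Om n)).card : ℝ) := by
      have : B.card ≤ ((Finset.Icc 1 ⌊z⌋₊).filter (fun n => M ^ 25 + 1 ≤ Om n)).card := by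
        apply Finset.card_le_card_of_injOn (fun p => p - 1)
        · intro p hp
          have hp' := Finset.mem_filter.1 hp
          have h3 := hge3 p hp'.1
          simp only [Finset.coe_filter, Set.mem_ofPred_eq, Finset.mem_Icc]
          refine ⟨⟨by omega, ?_⟩, hp'.2⟩
          apply Nat.le_floor
          have h4 : ((p - 1 : ℕ) : ℝ) ≤ p := by exact_mod_cast (Nat.sub_le p 1)
          exact h4.trans (hs p hp'.1).2.2
        · intro p hp q hq hpq
          have h3 := hge3 p (Finset.mem_filter.1 hp).1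
          have h4 := hge3 q (Finset.mem_filter.1 hq).1
          simp only at hpq
          omega
      exact_mod_cast this
    have h3 : (2 / 3 : ℝ) ^ (M ^ 25 + 1) ≤ Real.exp (-(1 / 3 * (M : ℝ) ^ 25)) := by
      have h4 : (2 / 3 : ℝ) ≤ Real.exp (-(1 / 3)) := by
        have := Real.add_one_le_exp (-(1 / 3) : ℝ)
        linarith only [this]
      calc (2 / 3 : ℝ) ^ (M ^ 25 + 1) ≤ (2 / 3 : ℝ) ^ (M ^ 25) :=
            pow_le_pow_of_le_one (by norm_num) (by norm_num) (by omega)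
        _ ≤ (Real.exp (-(1 / 3))) ^ (M ^ 25) := by gcongr
        _ = Real.exp (-(1 / 3 * (M : ℝ) ^ 25)) := by
            rw [← Real.exp_nat_mul]; push_cast; ring_nf
    have h5 : 4 * C₁ ≤ Real.exp M := by simpa using hev2
    have h6 : 81 * (M : ℝ) ^ 20 ≤ 1 / 3 * (M : ℝ) ^ 25 := by
      have : (243 : ℝ) ≤ (M : ℝ) ^ 5 := by
        calc (243 : ℝ) = 3 ^ 5 := by norm_num
          _ ≤ (M : ℝ) ^ 5 := by gcongr
      calc 81 * (M : ℝ) ^ 20 = 1 / 3 * (243 * (M : ℝ) ^ 20) := by ring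
        _ ≤ 1 / 3 * ((M : ℝ) ^ 5 * (M : ℝ) ^ 20) := by gcongr
        _ = _ := by ring
    calc 4 * (B.card : ℝ) ≤ 4 * (C₁ * z * (Real.log z) ^ 2 * (2 / 3 : ℝ) ^ (M ^ 25 + 1)) := by
          linarith only [h2, h1]
      _ = (z / Real.log z) * (4 * C₁ * (Real.log z) ^ 3 * (2 / 3 : ℝ) ^ (M ^ 25 + 1)) := by
          field_simp
      _ ≤ (z / Real.log z) * (Real.exp M * (Real.exp (5 * (M : ℝ) ^ 20)) ^ 3 *
          Real.exp (-(1 / 3 * (M : ℝ) ^ 25))) := by gcongr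
      _ = (z / Real.log z) * Real.exp (M + 15 * (M : ℝ) ^ 20 - 1 / 3 * (M : ℝ) ^ 25) := by
          rw [← Real.exp_nat_mul, ← Real.exp_add, ← Real.exp_add]; ring_nf
      _ ≤ _ := by
          gcongr
          linarith only [h6, hM4_20, hM1_4]
  -- D
  have hDc : 4 * (D.card : ℝ) ≤ z / Real.log z * Real.exp (-(M : ℝ) ^ 4) := by
    have h1 := hcn z D hz (by
      intro p hp
      have hp' := Finset.mem_filter.1 hp
      refine ⟨hprime p hp'.1, (hs p hp'.1).2.2, ?_⟩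
      have := hllz p hp'.1
      linarith only [this, hp'.2])
    have h2 : (Real.log z) ^ (1 + c) = Real.log z * Real.exp (c * ll z) := by
      rw [Real.rpow_add hlz0, Real.rpow_one, ← hexpll, ← Real.exp_mul]
      ring_nf
    have h3 : 4 * C₂ ≤ Real.exp M := by simpa using hev3
    have h4 : (M : ℝ) + (M : ℝ) ^ 4 ≤ c * (M : ℝ) ^ 15 := by
      have h5 : (M : ℝ) ^ 4 ≤ (M : ℝ) ^ 14 := pow_le_pow_right₀ (by linarith only [hM']) (by norm_num)
      calc (M : ℝ) + (M : ℝ) ^ 4 ≤ 2 * (M : ℝ) ^ 14 := by linarith only [hM1_4, h5]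
        _ ≤ (c * M) * (M : ℝ) ^ 14 := by gcongr
        _ = c * (M : ℝ) ^ 15 := by ring
    rw [h2] at h1
    calc 4 * (D.card : ℝ) ≤ 4 * (C₂ * z / (Real.log z * Real.exp (c * ll z))) := by linarith only [h1]
      _ = (z / Real.log z) * (4 * C₂ * Real.exp (-(c * ll z))) := by
          rw [Real.exp_neg]; field_simp
      _ ≤ (z / Real.log z) * (Real.exp M * Real.exp (-(c * (M : ℝ) ^ 15))) := by gcongr
      _ = (z / Real.log z) * Real.exp (M - c * (M : ℝ) ^ 15) := by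
          rw [← Real.exp_add]; ring_nf
      _ ≤ _ := by
          gcongr
          linarith only [h4]
  -- U, E
  have hUc : ∀ k : ℕ, 2 * ((U k).card : ℝ) ≤ z / Real.log z * Real.exp (-(2 * (M : ℝ) ^ 4)) := by
    intro k
    by_cases hk : M ^ 2 ≤ k
    · apply hup z k (U k) hz hzL hk
      intro p hp
      have hp' := Finset.mem_filter.1 hp
      exact ⟨hprime p hp'.1, (hs p hp'.1).2.2, hp'.2.2⟩
    · have : U k = ∅ := by
        apply Finset.filter_eq_empty_iff.2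
        intro p _ h
        exact hk h.1
      rw [this, Finset.card_empty, Nat.cast_zero, mul_zero]
      positivity
  have hEc : ∀ k : ℕ, 2 * ((E k).card : ℝ) ≤ z / Real.log z * Real.exp (-(2 * (M : ℝ) ^ 4)) := by
    intro k
    rcases (E k).eq_empty_or_nonempty with he | ⟨p₁, hp₁⟩
    · rw [he, Finset.card_empty, Nat.cast_zero, mul_zero]
      positivity
    · have hp1 := Finset.mem_filter.1 hp₁
      apply hlo z k (E k) hz hzL hp1.2.1 (hp1.2.2.1.trans (hllz p₁ hp1.1))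
      intro p hp
      have hp' := Finset.mem_filter.1 hp
      exact ⟨hprime p hp'.1, (hs p hp'.1).2.2, hp'.2.2.2⟩
  have hUE : 4 * (∑ k ∈ Finset.range (KK M), ((U k).card : ℝ) +
      ∑ k ∈ Finset.range (KK M), ((E k).card : ℝ)) ≤ z / Real.log z * Real.exp (-(M : ℝ) ^ 4) := by
    rw [← Finset.sum_add_distrib]
    have h1 : ∑ k ∈ Finset.range (KK M), (((U k).card : ℝ) + ((E k).card : ℝ)) ≤
        (KK M : ℝ) * (z / Real.log z * Real.exp (-(2 * (M : ℝ) ^ 4))) := by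
      have h2 : ∀ k ∈ Finset.range (KK M), (((U k).card : ℝ) + ((E k).card : ℝ)) ≤
          z / Real.log z * Real.exp (-(2 * (M : ℝ) ^ 4)) := by
        intro k _
        have := hUc k
        have := hEc k
        linarith
      have h3 := Finset.sum_le_card_nsmul _ _ _ h2
      rwa [Finset.card_range, nsmul_eq_mul] at h3
    have h4 : (KK M : ℝ) = 6 * (M : ℝ) ^ 7 := by unfold KK; push_cast; ring
    calc 4 * ∑ k ∈ Finset.range (KK M), (((U k).card : ℝ) + ((E k).card : ℝ))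
        ≤ 4 * ((KK M : ℝ) * (z / Real.log z * Real.exp (-(2 * (M : ℝ) ^ 4)))) := by linarith only [h1]
      _ = (z / Real.log z) * ((24 * (M : ℝ) ^ 7) * Real.exp (-(2 * (M : ℝ) ^ 4))) := by
          rw [h4]; ring
      _ ≤ (z / Real.log z) * (Real.exp ((M : ℝ) ^ 4) * Real.exp (-(2 * (M : ℝ) ^ 4))) := by
          gcongr
          exact hev4.trans (Real.exp_le_exp.2 hM1_4)
      _ = _ := by rw [← Real.exp_add]; ring_nf
  linarith only [hBc, hAc, hUE, hcard, hDc]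

/-- From a bound for the counting function to a bound for the sum of reciprocals. -/
theorem mass_of_count {X η : ℝ} (hη : 0 ≤ η) (hX : 0 ≤ X) (s : Finset ℕ)
    (hs : ∀ p ∈ s, 3 ≤ p ∧ ll (p : ℝ) ≤ X)
    (hcount : ∀ z : ℝ, 3 ≤ z → ll z ≤ X →
      ((s.filter (fun p : ℕ => (p : ℝ) ≤ z)).card : ℝ) ≤ z / Real.log z * η) :
    ∑ p ∈ s, 1 / ((p : ℝ) - 1) ≤ 6 * η * (X + 2) := by
  classical
  have hlog2 := Real.log_two_gt_d9
  set J : ℕ := ⌊2 * Real.exp X⌋₊ with hJ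
  have hmaps : ∀ p ∈ s, Nat.log 2 p ∈ Finset.Icc 1 J := by
    intro p hp
    obtain ⟨h3, hll⟩ := hs p hp
    have hp0 : (0 : ℝ) < p := by exact_mod_cast (by omega : 0 < p)
    have hlp : 0 < Real.log p := Real.log_pos (by exact_mod_cast (by omega : 1 < p))
    rw [Finset.mem_Icc]
    refine ⟨Nat.log_pos (by norm_num) (by omega), ?_⟩
    apply Nat.le_floor
    have h4 : (2 : ℝ) ^ (Nat.log 2 p) ≤ p := by
      exact_mod_cast Nat.pow_log_le_self 2 (by omega)
    have h5 := Real.log_le_log (by positivity) h4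
    rw [Real.log_pow] at h5
    have h6 : Real.log p ≤ Real.exp X := by
      rw [← Real.log_le_iff_le_exp hlp]; exact hll
    have h7 : (0 : ℝ) ≤ (Nat.log 2 p : ℝ) := by positivity
    nlinarith only [hlog2, h6, h5]
  rw [← Finset.sum_fiberwise_of_maps_to hmaps]
  have hblock : ∀ j ∈ Finset.Icc 1 J, ∑ p ∈ s.filter (fun p => Nat.log 2 p = j), 1 / ((p : ℝ) - 1) ≤
      6 * η * ((j : ℝ)⁻¹) := by
    intro j hj
    have hj1 := (Finset.mem_Icc.1 hj).1
    have hj0 : (0 : ℝ) < j := by exact_mod_cast hj1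
    rcases (s.filter (fun p => Nat.log 2 p = j)).eq_empty_or_nonempty with he | hne
    · rw [he, Finset.sum_empty]
      positivity
    set b := s.filter (fun p => Nat.log 2 p = j) with hb
    set P := b.max' hne with hP
    have hPb : P ∈ b := Finset.max'_mem b hne
    have hPs := (Finset.mem_filter.1 hPb)
    obtain ⟨hP3, hPX⟩ := hs P hPs.1
    have hP2 : P < 2 ^ (j + 1) := by
      have := Nat.lt_pow_succ_log_self (b := 2) (by norm_num) P
      rwa [hPs.2] at this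
    have hP1 : 2 ^ j ≤ P := by
      have := Nat.pow_log_le_self 2 (x := P) (by omega)
      rwa [hPs.2] at this
    have hcard : (b.card : ℝ) ≤ P / Real.log P * η := by
      refine le_trans ?_ (hcount P (by exact_mod_cast hP3) hPX)
      have : b.card ≤ (s.filter (fun p : ℕ => (p : ℝ) ≤ (P : ℝ))).card := by
        apply Finset.card_le_card
        intro p hp
        rw [Finset.mem_filter]
        exact ⟨(Finset.mem_filter.1 hp).1, by exact_mod_cast Finset.le_max' b p hp⟩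
      exact_mod_cast this
    have hP1' : (2 : ℝ) ^ j ≤ P := by exact_mod_cast hP1
    have hP2' : (P : ℝ) ≤ 2 ^ (j + 1) := by exact_mod_cast hP2.le
    have hlP : j * Real.log 2 ≤ Real.log P := by
      have := Real.log_le_log (by positivity) hP1'
      rwa [Real.log_pow] at this
    have h2j : (0 : ℝ) < 2 ^ j := by positivity
    have hterm : ∀ p ∈ b, 1 / ((p : ℝ) - 1) ≤ 2 / 2 ^ j := by
      intro p hp
      have hp' := Finset.mem_filter.1 hp
      have h3 := (hs p hp'.1).1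
      have h4 : 2 ^ j ≤ p := by
        have := Nat.pow_log_le_self 2 (x := p) (by omega)
        rwa [hp'.2] at this
      have h5 : (2 : ℝ) ^ j ≤ p := by exact_mod_cast h4
      have h6 : (3 : ℝ) ≤ p := by exact_mod_cast h3
      rw [div_le_div_iff₀ (by linarith only [h6]) h2j]
      linarith only [h6, h5]
    calc ∑ p ∈ b, 1 / ((p : ℝ) - 1) ≤ b.card • (2 / (2 : ℝ) ^ j) := Finset.sum_le_card_nsmul _ _ _ hterm
      _ = (b.card : ℝ) * (2 / 2 ^ j) := by rw [nsmul_eq_mul]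
      _ ≤ (P / Real.log P * η) * (2 / 2 ^ j) := by gcongr
      _ ≤ (2 ^ (j + 1) / (j * Real.log 2) * η) * (2 / 2 ^ j) := by gcongr
      _ = (4 / Real.log 2) * η * (j : ℝ)⁻¹ := by
          rw [pow_succ]; field_simp; ring
      _ ≤ 6 * η * (j : ℝ)⁻¹ := by
          gcongr
          rw [div_le_iff₀ (by linarith only [hlog2])]
          linarith only [hlog2]
  refine (Finset.sum_le_sum hblock).trans ?_
  rw [← Finset.mul_sum]
  apply mul_le_mul_of_nonneg_left _ (by positivity)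
  have h1 := harmonic_le_one_add_log J
  rw [harmonic_eq_sum_Icc] at h1
  push_cast at h1
  refine h1.trans ?_
  have hJ2 : (J : ℝ) ≤ 2 * Real.exp X := Nat.floor_le (by positivity)
  have hJ1 : 1 ≤ J := by
    apply Nat.le_floor
    have := Real.one_le_exp hX
    push_cast
    linarith only [this]
  have h2 : Real.log J ≤ Real.log (2 * Real.exp X) :=
    Real.log_le_log (by exact_mod_cast hJ1) hJ2
  rw [Real.log_mul (by norm_num) (by positivity), Real.log_exp] at h2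
  have := Real.log_two_lt_d9
  linarith only [this, h2]

theorem np_mass : ∀ᶠ M : ℕ in atTop, ∀ (s : Finset ℕ),
    (∀ p ∈ s, Big M p ∧ ¬ Nrm M p ∧ ll (p : ℝ) ≤ 5 * (M : ℝ) ^ 20) →
    ∑ p ∈ s, 1 / ((p : ℝ) - 1) ≤ Real.exp (-(M : ℝ) ^ 3) := by
  filter_upwards [np_count, eventually_ge_atTop 2, ev_pow_le_exp 42 20] with M hM hM2 hev s hs
  have hM' : (2 : ℝ) ≤ M := by exact_mod_cast hM2
  have h20 : 1 ≤ (M : ℝ) ^ 20 := one_le_pow₀ (by linarith)
  have hge3 : ∀ p ∈ s, 3 ≤ p := by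
    intro p hp
    have h1 := (hs p hp).1.2
    by_contra hlt
    have h2 : p = 2 := by
      have := (hs p hp).1.1.two_le
      omega
    subst h2
    have h3 : ll ((2 : ℕ) : ℝ) ≤ 0 := by
      unfold ll
      apply Real.log_nonpos (Real.log_nonneg (by norm_num))
      have := Real.log_two_lt_d9
      push_cast
      linarith only [this]
    have h4 : (0 : ℝ) < (M : ℝ) ^ 15 := by positivity
    linarith
  have h := mass_of_count (X := 5 * (M : ℝ) ^ 20) (η := Real.exp (-(M : ℝ) ^ 4))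
    (Real.exp_pos _).le (by positivity) s (fun p hp => ⟨hge3 p hp, (hs p hp).2.2⟩) (by
      intro z hz hzX
      apply hM z _ hz hzX
      intro p hp
      have hp' := Finset.mem_filter.1 hp
      exact ⟨(hs p hp'.1).1, (hs p hp'.1).2.1, hp'.2⟩)
  refine h.trans ?_
  have h4 : (M : ℝ) + (M : ℝ) ^ 3 ≤ (M : ℝ) ^ 4 := by
    have h5 : (M : ℝ) ≤ (M : ℝ) ^ 3 := by
      calc (M : ℝ) = (M : ℝ) ^ 1 := by ring
        _ ≤ (M : ℝ) ^ 3 := pow_le_pow_right₀ (by linarith) (by norm_num)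
    calc (M : ℝ) + (M : ℝ) ^ 3 ≤ 2 * (M : ℝ) ^ 3 := by linarith only [h5]
      _ ≤ M * (M : ℝ) ^ 3 := by gcongr
      _ = (M : ℝ) ^ 4 := by ring
  calc 6 * Real.exp (-(M : ℝ) ^ 4) * (5 * (M : ℝ) ^ 20 + 2)
      ≤ (42 * (M : ℝ) ^ 20) * Real.exp (-(M : ℝ) ^ 4) := by
        have := Real.exp_pos (-(M : ℝ) ^ 4)
        nlinarith only [this, h20]
    _ ≤ Real.exp M * Real.exp (-(M : ℝ) ^ 4) := by gcongr
    _ = Real.exp (M - (M : ℝ) ^ 4) := by rw [← Real.exp_add]; ring_nf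
    _ ≤ _ := by
        apply Real.exp_le_exp.2
        linarith only [h4]

end Vale.Agent.P031
end
end

section

section

/-!
Integers with large functional `G`.
-/

namespace Vale.Agent.P031

open Finset Filter Topology

namespace UB

theorem lev_lt_iff_of_pos {M q k : ℕ} (hM : 1 ≤ M) (hk : 0 < k) :
    lev M q < k ↔ ll (q : ℝ) < (k : ℝ) * (M : ℝ) ^ 13 := by
  have h : (0 : ℝ) < (M : ℝ) ^ 13 := by positivity
  rw [lev, Nat.floor_lt' hk.ne', div_lt_iff₀ h]

theorem le_lev_iff {M q k : ℕ} (hM : 1 ≤ M) (hk : 0 < k) :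
    k ≤ lev M q ↔ (k : ℝ) * (M : ℝ) ^ 13 ≤ ll (q : ℝ) := by
  rw [← not_lt, lev_lt_iff_of_pos hM hk, not_lt]

theorem prof_le_Om (M n k : ℕ) : prof M n k ≤ Om n := by
  rw [prof, Om_eq]
  exact Finset.sum_le_sum_of_subset (Finset.filter_subset _ _)

theorem sum_prof_le_Om (M n : ℕ) (K : Finset ℕ) : ∑ k ∈ K, prof M n k ≤ Om n := by
  have h1 : ∑ k ∈ K, prof M n k =
      ∑ q ∈ n.primeFactors.filter (fun q => lev M q ∈ K), n.factorization q := by
    rw [← Finset.sum_fiberwise_of_maps_to (t := K) (g := fun q => lev M q)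
      (fun q hq => (Finset.mem_filter.mp hq).2)]
    refine Finset.sum_congr rfl fun k hk => ?_
    rw [prof]
    refine Finset.sum_congr ?_ fun _ _ => rfl
    ext q
    simp only [Finset.mem_filter]
    constructor
    · rintro ⟨h1, h2⟩
      exact ⟨⟨h1, by rw [h2]; exact hk⟩, h2⟩
    · rintro ⟨⟨h1, _⟩, h2⟩
      exact ⟨h1, h2⟩
  rw [h1, Om_eq]
  exact Finset.sum_le_sum_of_subset (Finset.filter_subset _ _)

/-- the weight attached to a profile -/
noncomputable def wf (M : ℕ) (N : ℕ → ℕ) (p : ℕ) : ℝ :=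
  if lev M p < M ^ 2 then 1 else (N (lev M p) : ℝ) / (M : ℝ) ^ 13

theorem prod_wf (M n : ℕ) (N : ℕ → ℕ) (hlev : ∀ p ∈ n.primeFactors, lev M p < KK M)
    (hN : ∀ k ∈ Finset.Ico (M ^ 2) (KK M), prof M n k = N k) :
    ∏ p ∈ n.primeFactors, (wf M N p) ^ (n.factorization p) =
      ∏ k ∈ Finset.Ico (M ^ 2) (KK M), ((N k : ℝ) / (M : ℝ) ^ 13) ^ (N k) := by
  rw [← Finset.prod_filter_mul_prod_filter_not n.primeFactors (fun p => lev M p < M ^ 2)]
  have h1 : ∏ p ∈ n.primeFactors.filter (fun p => lev M p < M ^ 2),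
      (wf M N p) ^ (n.factorization p) = 1 := by
    refine Finset.prod_eq_one fun p hp => ?_
    rw [wf, if_pos (Finset.mem_filter.mp hp).2, one_pow]
  rw [h1, one_mul]
  rw [← Finset.prod_fiberwise_of_maps_to (t := Finset.Ico (M ^ 2) (KK M))
    (g := fun q => lev M q) (fun q hq => by
      rw [Finset.mem_filter, not_lt] at hq
      rw [Finset.mem_Ico]
      exact ⟨hq.2, hlev q hq.1⟩)]
  refine Finset.prod_congr rfl fun k hk => ?_
  have h2 : ∀ p ∈ (n.primeFactors.filter (fun p => ¬ lev M p < M ^ 2)).filter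
      (fun p => lev M p = k), (wf M N p) ^ (n.factorization p) =
        ((N k : ℝ) / (M : ℝ) ^ 13) ^ (n.factorization p) := by
    intro p hp
    rw [Finset.mem_filter, Finset.mem_filter] at hp
    rw [wf, if_neg hp.1.2, hp.2]
  rw [Finset.prod_congr rfl h2, Finset.prod_pow_eq_pow_sum]
  congr 1
  rw [← hN k hk, prof]
  refine Finset.sum_congr ?_ fun _ _ => rfl
  ext q
  simp only [Finset.mem_filter]
  constructor
  · rintro ⟨⟨h1, _⟩, h2⟩
    exact ⟨h1, h2⟩
  · rintro ⟨h1, h2⟩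
    rw [Finset.mem_Ico] at hk
    exact ⟨⟨h1, by omega⟩, h2⟩

theorem wf_two (M : ℕ) (hM : 1 ≤ M) (N : ℕ → ℕ) : wf M N 2 = 1 := by
  rw [wf, lev_two, if_pos (by positivity)]

theorem wf_nonneg (M : ℕ) (N : ℕ → ℕ) (p : ℕ) : 0 ≤ wf M N p := by
  unfold wf
  split_ifs
  · exact zero_le_one
  · positivity

/-- a doubly exponential is large -/
theorem big_lower (M : ℕ) (hM : 4 ≤ M) :
    3 * (M : ℝ) ^ 26 + 2 ≤ Real.exp (Real.exp ((M : ℝ) ^ 15)) := by
  have hM' : (4 : ℝ) ≤ M := by exact_mod_cast hM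
  have h1 : (M : ℝ) ^ 15 / 4 ≤ Real.exp ((M : ℝ) ^ 15 / 4) := by
    have := Real.add_one_le_exp ((M : ℝ) ^ 15 / 4)
    linarith only [this]
  have h2 : ((M : ℝ) ^ 15 / 4) ^ 4 ≤ Real.exp ((M : ℝ) ^ 15) := by
    have h3 : Real.exp ((M : ℝ) ^ 15) = Real.exp ((M : ℝ) ^ 15 / 4) ^ 4 := by
      rw [← Real.exp_nat_mul]; congr 1; push_cast; ring
    rw [h3]
    exact pow_le_pow_left₀ (by positivity) h1 4
  have h3 : Real.exp ((M : ℝ) ^ 15) ≤ Real.exp (Real.exp ((M : ℝ) ^ 15)) := by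
    apply Real.exp_le_exp.mpr
    have := Real.add_one_le_exp ((M : ℝ) ^ 15)
    linarith only [this]
  refine le_trans ?_ (h2.trans h3)
  have h4 : ((M : ℝ) ^ 15 / 4) ^ 4 = (M : ℝ) ^ 26 * ((M : ℝ) ^ 34 / 256) := by ring
  have h5 : (4 : ℝ) ^ 34 ≤ (M : ℝ) ^ 34 := pow_le_pow_left₀ (by norm_num) hM' 34
  have h6 : (1 : ℝ) ≤ (M : ℝ) ^ 26 := one_le_pow₀ (by linarith only [hM'])
  rw [h4]
  linarith only [mul_nonneg (sub_nonneg.2 h6) (sub_nonneg.2 h5), h5, h6]

theorem prime_big_of_lev {M p : ℕ} (hM : 1 ≤ M) (hp : p.Prime) (h : ¬ lev M p < M ^ 2) :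
    Real.exp (Real.exp ((M : ℝ) ^ 15)) ≤ p := by
  rw [not_lt, le_lev_iff hM (by positivity)] at h
  push_cast at h
  rw [← pow_add] at h
  by_contra hcon
  push Not at hcon
  have h1 : ll (p : ℝ) < (M : ℝ) ^ 15 := by
    have h2 : Real.log p < Real.exp ((M : ℝ) ^ 15) := by
      rw [Real.log_lt_iff_lt_exp (by exact_mod_cast hp.pos)]; exact hcon
    rw [ll, Real.log_lt_iff_lt_exp (log_pos_of_prime hp)]; exact h2
  norm_num at h
  linarith

/-- mass of a profile class -/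
theorem profile_mass (M : ℕ) (hM : 4 ≤ M) (z : ℝ) (hz : 0 ≤ z) (s : Finset ℕ) (n₀ : ℕ)
    (hlev : ∀ p ∈ pt z, lev M p < KK M) (hOm : Om n₀ ≤ M ^ 26)
    (hs : ∀ n ∈ s, 1 ≤ n ∧ (n : ℝ) ≤ z ∧
      ∀ k ∈ Finset.Ico (M ^ 2) (KK M), prof M n k = prof M n₀ k) :
    ∑ n ∈ s, 1 / (n : ℝ) ≤
      2 * Real.exp (-GG M n₀ + (M : ℝ) ^ 15 + 44 * (M : ℝ) ^ 13 + 25) := by
  classical
  have hM1 : 1 ≤ M := by omega
  have hMr : (4 : ℝ) ≤ M := by exact_mod_cast hM
  set N : ℕ → ℕ := fun k => prof M n₀ k with hN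
  set lam : ℝ := (M : ℝ) ^ 13 with hlam
  have hlam0 : 0 < lam := by positivity
  set K := Finset.Ico (M ^ 2) (KK M) with hK
  set f : ℕ → ℝ := wf M N with hf
  set W : ℝ := ∏ k ∈ K, ((N k : ℝ) / lam) ^ (N k) with hW
  have hWpos : 0 < W := by
    refine Finset.prod_pos fun k _ => ?_
    rcases Nat.eq_zero_or_pos (N k) with h | h
    · rw [h]; simp
    · positivity
  have hprim : ∀ n ∈ s, n ≠ 0 ∧ n.primeFactors ⊆ pt z := by
    intro n hn
    refine subset_pt hz ⟨(hs n hn).1, fun q hq hqn => ?_⟩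
    have h2 : q ≤ n := Nat.le_of_dvd (hs n hn).1 hqn
    have h3 : (q : ℝ) ≤ n := by exact_mod_cast h2
    exact h3.trans (hs n hn).2.1
  have hNle : ∀ k, (N k : ℝ) ≤ (M : ℝ) ^ 26 := by
    intro k
    exact_mod_cast (prof_le_Om M n₀ k).trans hOm
  have hbig := big_lower M hM
  set Y := Real.exp (Real.exp ((M : ℝ) ^ 15)) with hY
  have hfle : ∀ p, f p ≤ lam := by
    intro p
    simp only [hf, wf]
    split_ifs
    · exact one_le_pow₀ (by linarith only [hMr])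
    · rw [div_le_iff₀ hlam0, hlam, ← pow_add]
      exact hNle _
  have hlamY : 2 * lam ≤ Y := by
    have h1 : (M : ℝ) ^ 13 ≤ (M : ℝ) ^ 26 := pow_le_pow_right₀ (by linarith only [hMr]) (by norm_num)
    have : (0 : ℝ) ≤ (M : ℝ) ^ 26 := by positivity
    simp only [hlam]
    linarith only [hbig, hlam0, h1]
  have hf23 : ∀ p ∈ pt z, p ≠ 2 → f p / p ≤ 2 / 3 := by
    intro p hp hp2
    have hpp := pt_prime p hp
    have hp3 : (3 : ℝ) ≤ p := by
      have := hpp.two_le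
      have : 3 ≤ p := by omega
      exact_mod_cast this
    rw [div_le_iff₀ (by linarith only [hp3])]
    by_cases h : lev M p < M ^ 2
    · simp only [hf, wf, if_pos h]; linarith only [hp3]
    · have h1 := prime_big_of_lev hM1 hpp h
      have h2 := hfle p
      linarith only [hlamY, h1, h2]
  have h2 : f 2 ≤ 1 := (wf_two M hM1 N).le
  have hrank := rankin (pt z) pt_prime f (fun p _ => wf_nonneg M N p) (fun p hp => by
    have hpp := pt_prime p hp
    rcases eq_or_ne p 2 with h | h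
    · rw [h]; push_cast; linarith only [h2]
    · have h1 := hf23 p hp h
      have h3 : (0 : ℝ) < p := by exact_mod_cast hpp.pos
      rw [div_le_iff₀ h3] at h1
      linarith only [h3, h1]) s hprim
  have hprod := prod_inv_le (pt z) f 1 zero_le_one (by norm_num) (fun p _ => wf_nonneg M N p)
    hf23 h2
  have hsq : ∑ p ∈ (pt z).erase 2, 3 * (f p / p) ^ 2 ≤ 3 := by
    rw [← Finset.sum_filter_add_sum_filter_not ((pt z).erase 2) (fun p => lev M p < M ^ 2)]
    have h3 : ∑ p ∈ ((pt z).erase 2).filter (fun p => lev M p < M ^ 2), 3 * (f p / p) ^ 2 ≤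
        3 * (1 / 2) := by
      have h4 := sum_inv_mul_pred_le (((pt z).erase 2).filter (fun p => lev M p < M ^ 2)) 3
        (by norm_num) (fun p hp => by
          rw [Finset.mem_filter, Finset.mem_erase] at hp
          have := (pt_prime p hp.1.2).two_le
          have := hp.1.1
          omega)
      have h10 : 1 / (((3 : ℕ) : ℝ) - 1) = 1 / 2 := by norm_num
      rw [h10] at h4
      refine le_trans ?_ (mul_le_mul_of_nonneg_left h4 (by norm_num))
      rw [Finset.mul_sum]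
      refine Finset.sum_le_sum fun p hp => ?_
      rw [Finset.mem_filter, Finset.mem_erase] at hp
      have h5 : (2 : ℝ) ≤ p := by exact_mod_cast (pt_prime p hp.1.2).two_le
      refine mul_le_mul_of_nonneg_left ?_ (by norm_num)
      simp only [hf, wf, if_pos hp.2]
      rw [div_pow, one_pow]
      exact div_le_div_of_nonneg_left zero_le_one (by nlinarith only [h5]) (by linarith only [])
    have h4 : ∑ p ∈ ((pt z).erase 2).filter (fun p => ¬ lev M p < M ^ 2), 3 * (f p / p) ^ 2 ≤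
        1 := by
      have hge : ∀ p ∈ ((pt z).erase 2).filter (fun p => ¬ lev M p < M ^ 2), ⌈Y⌉₊ ≤ p := by
        intro p hp
        rw [Finset.mem_filter, Finset.mem_erase] at hp
        rw [Nat.ceil_le]
        exact prime_big_of_lev hM1 (pt_prime p hp.1.2) hp.2
      have hY2 : 2 ≤ ⌈Y⌉₊ := by
        have h5 : (2 : ℝ) ≤ ⌈Y⌉₊ := by
          have : (0 : ℝ) ≤ (M : ℝ) ^ 26 := by positivity
          linarith only [hbig, this, Nat.le_ceil Y]
        exact_mod_cast h5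
      have h5 := sum_inv_mul_pred_le _ ⌈Y⌉₊ hY2 hge
      have h6 : ∑ p ∈ ((pt z).erase 2).filter (fun p => ¬ lev M p < M ^ 2), 3 * (f p / p) ^ 2 ≤
          (3 * (M : ℝ) ^ 26) * ∑ p ∈ ((pt z).erase 2).filter (fun p => ¬ lev M p < M ^ 2),
            1 / ((p : ℝ) * ((p : ℝ) - 1)) := by
        rw [Finset.mul_sum]
        refine Finset.sum_le_sum fun p hp => ?_
        rw [Finset.mem_filter, Finset.mem_erase] at hp
        have h7 : (2 : ℝ) ≤ p := by exact_mod_cast (pt_prime p hp.1.2).two_le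
        have h8 : (f p) ^ 2 ≤ (M : ℝ) ^ 26 := by
          have : (M : ℝ) ^ 26 = lam ^ 2 := by rw [hlam]; ring
          rw [this]
          exact pow_le_pow_left₀ (wf_nonneg M N p) (hfle p) 2
        rw [mul_assoc]
        refine mul_le_mul_of_nonneg_left ?_ (by norm_num)
        rw [div_pow, mul_one_div]
        exact div_le_div₀ (by positivity) h8 (by nlinarith only [h7]) (by nlinarith only [])
      refine h6.trans ?_
      refine (mul_le_mul_of_nonneg_left h5 (by positivity)).trans ?_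
      have h7 : Y ≤ ⌈Y⌉₊ := Nat.le_ceil Y
      have h8 : (0 : ℝ) ≤ (M : ℝ) ^ 26 := by positivity
      rw [mul_one_div, div_le_one (by linarith only [hbig, h8, h7])]
      linarith only [hbig, h7]
    linarith only [h3, h4]
  have hsum : ∑ p ∈ pt z, f p / p ≤
      (M : ℝ) ^ 15 + 22 + ∑ k ∈ K, (N k : ℝ) + 44 * lam := by
    rw [← Finset.sum_filter_add_sum_filter_not (pt z) (fun p => lev M p < M ^ 2)]
    have h3 : ∑ p ∈ (pt z).filter (fun p => lev M p < M ^ 2), f p / p ≤ (M : ℝ) ^ 15 + 22 := by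
      have h4 := sum_inv_prime_le ((M : ℝ) ^ 15) ((pt z).filter (fun p => lev M p < M ^ 2))
        (by positivity) (fun p hp => by
          rw [Finset.mem_filter] at hp
          refine ⟨pt_prime p hp.1, ?_⟩
          have h5 := (lev_lt_iff_of_pos hM1 (by positivity : 0 < M ^ 2)).mp hp.2
          push_cast at h5
          rw [← pow_add] at h5
          exact h5.le)
      refine le_trans (le_of_eq ?_) h4
      refine Finset.sum_congr rfl fun p hp => ?_
      rw [Finset.mem_filter] at hp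
      simp only [hf, wf, if_pos hp.2]
    have h4 : ∑ p ∈ (pt z).filter (fun p => ¬ lev M p < M ^ 2), f p / p ≤
        ∑ k ∈ K, (N k : ℝ) + 44 * lam := by
      rw [← Finset.sum_fiberwise_of_maps_to (t := K) (g := fun q => lev M q) (fun q hq => by
        rw [Finset.mem_filter, not_lt] at hq
        rw [hK, Finset.mem_Ico]
        exact ⟨hq.2, hlev q hq.1⟩)]
      have h5 : ∀ k ∈ K, ∑ p ∈ ((pt z).filter (fun p => ¬ lev M p < M ^ 2)).filter
          (fun p => lev M p = k), f p / p ≤ (N k : ℝ) + 44 * ((N k : ℝ) / lam) := by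
        intro k hk
        rw [hK, Finset.mem_Ico] at hk
        have hk0 : k ≠ 0 := by
          have : 0 < M ^ 2 := by positivity
          omega
        have h6 := lev_sum_le hM1 hk0 (((pt z).filter (fun p => ¬ lev M p < M ^ 2)).filter
          (fun p => lev M p = k)) (fun p hp => by
            rw [Finset.mem_filter, Finset.mem_filter] at hp
            exact ⟨pt_prime p hp.1.1, hp.2⟩)
        have h7 : ∑ p ∈ ((pt z).filter (fun p => ¬ lev M p < M ^ 2)).filter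
          (fun p => lev M p = k), f p / p = ((N k : ℝ) / lam) *
            ∑ p ∈ ((pt z).filter (fun p => ¬ lev M p < M ^ 2)).filter
          (fun p => lev M p = k), 1 / (p : ℝ) := by
          rw [Finset.mul_sum]
          refine Finset.sum_congr rfl fun p hp => ?_
          rw [Finset.mem_filter, Finset.mem_filter] at hp
          simp only [hf, wf, hp.2, if_neg (not_lt.mpr hk.1)]
          rw [mul_one_div]
        rw [h7]
        have h8 : 0 ≤ (N k : ℝ) / lam := by positivity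
        refine (mul_le_mul_of_nonneg_left h6 h8).trans (le_of_eq ?_)
        rw [← hlam]
        field_simp
      refine (Finset.sum_le_sum h5).trans ?_
      rw [Finset.sum_add_distrib, ← Finset.mul_sum, ← Finset.sum_div]
      have h6 : ∑ k ∈ K, (N k : ℝ) ≤ lam * lam := by
        have h7 : lam * lam = ((M ^ 26 : ℕ) : ℝ) := by rw [hlam]; push_cast; ring
        rw [h7]
        exact_mod_cast (sum_prof_le_Om M n₀ K).trans hOm
      have h7 : (∑ k ∈ K, (N k : ℝ)) / lam ≤ lam := by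
        rw [div_le_iff₀ hlam0]; exact h6
      linarith only [h7]
    linarith only [h3, h4]
  have hmain : ∑ n ∈ s, 1 / (n : ℝ) = W⁻¹ *
      ∑ n ∈ s, (∏ p ∈ n.primeFactors, (f p) ^ (n.factorization p)) / (n : ℝ) := by
    rw [Finset.mul_sum]
    refine Finset.sum_congr rfl fun n hn => ?_
    rw [hf, prod_wf M n N (fun p hp => hlev p ((hprim n hn).2 hp)) (hs n hn).2.2]
    rw [← hlam, ← hK, ← hW, ← mul_div_assoc, inv_mul_cancel₀ hWpos.ne']
  have hWinv : W⁻¹ = Real.exp (-∑ k ∈ K, (N k : ℝ) * Real.log ((N k : ℝ) / lam)) := by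
    rw [Real.exp_neg, Real.exp_sum]
    congr 1
    refine Finset.prod_congr rfl fun k _ => ?_
    rcases Nat.eq_zero_or_pos (N k) with h | h
    · rw [h]; simp
    · have h3 : 0 < (N k : ℝ) / lam := by positivity
      rw [Real.exp_nat_mul, Real.exp_log h3]
  have hGG : GG M n₀ = ∑ k ∈ K, (N k : ℝ) * Real.log ((N k : ℝ) / lam) - ∑ k ∈ K, (N k : ℝ) := by
    rw [GG, ← Finset.sum_sub_distrib]
    rfl
  rw [hmain]
  calc W⁻¹ * ∑ n ∈ s, (∏ p ∈ n.primeFactors, (f p) ^ (n.factorization p)) / (n : ℝ)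
      ≤ W⁻¹ * ((1 - 1 / 2)⁻¹ * Real.exp (∑ p ∈ pt z, (f p / p) +
          ∑ p ∈ (pt z).erase 2, 3 * (f p / p) ^ 2)) :=
        mul_le_mul_of_nonneg_left (hrank.trans hprod) (by positivity)
    _ ≤ W⁻¹ * (2 * Real.exp ((M : ℝ) ^ 15 + 22 + ∑ k ∈ K, (N k : ℝ) + 44 * lam + 3)) := by
        refine mul_le_mul_of_nonneg_left ?_ (by positivity)
        have h3 : ((1 : ℝ) - 1 / 2)⁻¹ = 2 := by norm_num
        rw [h3]
        exact mul_le_mul_of_nonneg_left (Real.exp_le_exp.mpr (by linarith only [hsum, hsq])) (by norm_num)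
    _ = 2 * Real.exp (-GG M n₀ + (M : ℝ) ^ 15 + 44 * lam + 25) := by
        rw [hWinv, hGG, mul_left_comm, ← Real.exp_add]
        congr 2
        ring

/-- all primes up to `z` have small level -/
theorem lev_lt_KK {M : ℕ} (hM : 1 ≤ M) {z : ℝ} (hz : 0 ≤ z) (hll : ll z ≤ 5 * (M : ℝ) ^ 20) :
    ∀ p ∈ pt z, lev M p < KK M := by
  intro p hp
  rw [mem_pt hz] at hp
  have hM' : (1 : ℝ) ≤ M := by exact_mod_cast hM
  rw [lev_lt_iff_of_pos hM (by unfold KK; positivity)]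
  have h1 : ll (p : ℝ) ≤ ll z := by
    unfold ll
    apply Real.log_le_log (log_pos_of_prime hp.1)
    exact Real.log_le_log (by exact_mod_cast hp.1.pos) hp.2
  have h2 : ((KK M : ℕ) : ℝ) * (M : ℝ) ^ 13 = 6 * (M : ℝ) ^ 20 := by
    unfold KK; push_cast; ring
  rw [h2]
  have : (0 : ℝ) < (M : ℝ) ^ 20 := by positivity
  linarith only [h1, hll, this]

end UB

open UB

/-- mass of integers with large `G` -/
theorem ub_mass : ∀ᶠ M : ℕ in atTop, ∀ (g z : ℝ) (s : Finset ℕ), ll z ≤ 5 * (M : ℝ) ^ 20 →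
    (∀ n ∈ s, 1 ≤ n ∧ (n : ℝ) ≤ z ∧ Om n ≤ M ^ 26 ∧ g ≤ GG M n) →
    ∑ n ∈ s, 1 / (n : ℝ) ≤ Real.exp (-g + (M : ℝ) ^ 16) := by
  filter_upwards [Filter.eventually_ge_atTop 300] with M hM
  intro g z s hz hs
  classical
  have hM1 : 1 ≤ M := by omega
  have hMr : (300 : ℝ) ≤ M := by exact_mod_cast hM
  rcases s.eq_empty_or_nonempty with hse | hse
  · subst hse; simp [Real.exp_nonneg]
  have hz0 : 0 ≤ z := by
    obtain ⟨n, hn⟩ := hse
    exact (Nat.cast_nonneg n).trans (hs n hn).2.1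
  set π : ℕ → (Fin (KK M) → ℕ) := fun n k => prof M n k with hπ
  set T := s.image π with hT
  have hcard : (T.card : ℝ) ≤ Real.exp (156 * (M : ℝ) ^ 8) := by
    have h1 : T ⊆ Fintype.piFinset (fun _ : Fin (KK M) => Finset.range (M ^ 26 + 1)) := by
      intro t ht
      rw [hT, Finset.mem_image] at ht
      obtain ⟨n, hn, rfl⟩ := ht
      rw [Fintype.mem_piFinset]
      intro k
      rw [Finset.mem_range]
      have := (prof_le_Om M n k).trans (hs n hn).2.2.1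
      simp only [hπ]
      omega
    have h2 := Finset.card_le_card h1
    rw [Fintype.card_piFinset_const, Finset.card_range] at h2
    have h3 : (T.card : ℝ) ≤ ((M : ℝ) ^ 26 + 1) ^ (KK M) := by exact_mod_cast h2
    refine h3.trans ?_
    have h4 : (M : ℝ) ^ 26 + 1 ≤ Real.exp (26 * M) := by
      have h5 : (M : ℝ) ^ 26 + 1 ≤ ((M : ℝ) + 1) ^ 26 := by
        have h6 : (M : ℝ) ^ 26 + 1 ^ 26 ≤ ((M : ℝ) + 1) ^ 26 :=
          pow_add_pow_le (by positivity) (by norm_num) (by norm_num)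
        simpa using h6
      refine h5.trans ?_
      have h7 : Real.exp (26 * (M : ℝ)) = Real.exp M ^ 26 := by
        rw [← Real.exp_nat_mul]; norm_num
      rw [h7]
      exact pow_le_pow_left₀ (by positivity) (Real.add_one_le_exp _) 26
    calc ((M : ℝ) ^ 26 + 1) ^ (KK M) ≤ (Real.exp (26 * M)) ^ (KK M) :=
          pow_le_pow_left₀ (by positivity) h4 _
      _ = Real.exp (156 * (M : ℝ) ^ 8) := by
          rw [← Real.exp_nat_mul, KK]; congr 1; push_cast; ring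
  have hclass : ∀ t ∈ T, ∑ n ∈ s.filter (fun n => π n = t), 1 / (n : ℝ) ≤
      2 * Real.exp (-g + (M : ℝ) ^ 15 + 44 * (M : ℝ) ^ 13 + 25) := by
    intro t ht
    rw [hT, Finset.mem_image] at ht
    obtain ⟨n₀, hn₀, rfl⟩ := ht
    have h1 := profile_mass M (by omega) z hz0 (s.filter (fun n => π n = π n₀)) n₀
      (UB.lev_lt_KK hM1 hz0 hz) (hs n₀ hn₀).2.2.1 (fun n hn => by
        rw [Finset.mem_filter] at hn
        refine ⟨(hs n hn.1).1, (hs n hn.1).2.1, fun k hk => ?_⟩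
        have h2 := congrFun hn.2 ⟨k, (Finset.mem_Ico.mp hk).2⟩
        exact h2)
    refine h1.trans ?_
    have h2 := (hs n₀ hn₀).2.2.2
    exact mul_le_mul_of_nonneg_left (Real.exp_le_exp.mpr (by linarith only [h2])) (by norm_num)
  rw [← Finset.sum_fiberwise_of_maps_to (t := T) (g := π)
    (fun n hn => Finset.mem_image_of_mem π hn)]
  refine (Finset.sum_le_sum hclass).trans ?_
  rw [Finset.sum_const, nsmul_eq_mul]
  have h2 : (2 : ℝ) ≤ Real.exp 1 := by linarith [Real.add_one_le_exp (1 : ℝ)]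
  calc (T.card : ℝ) * (2 * Real.exp (-g + (M : ℝ) ^ 15 + 44 * (M : ℝ) ^ 13 + 25))
      ≤ Real.exp (156 * (M : ℝ) ^ 8) *
        (Real.exp 1 * Real.exp (-g + (M : ℝ) ^ 15 + 44 * (M : ℝ) ^ 13 + 25)) := by
        refine mul_le_mul hcard ?_ (by positivity) (Real.exp_pos _).le
        exact mul_le_mul_of_nonneg_right h2 (Real.exp_pos _).le
    _ = Real.exp (-g + (M : ℝ) ^ 15 + 44 * (M : ℝ) ^ 13 + 26 + 156 * (M : ℝ) ^ 8) := by
        rw [← Real.exp_add, ← Real.exp_add]; congr 1; ring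
    _ ≤ Real.exp (-g + (M : ℝ) ^ 16) := by
        apply Real.exp_le_exp.mpr
        have h8 : (1 : ℝ) ≤ (M : ℝ) ^ 8 := one_le_pow₀ (by linarith)
        have e15 : (M : ℝ) ^ 15 = (M : ℝ) ^ 8 * (M : ℝ) ^ 7 := by ring
        have e13 : (M : ℝ) ^ 13 ≤ (M : ℝ) ^ 15 := pow_le_pow_right₀ (by linarith) (by norm_num)
        have e8 : (M : ℝ) ^ 8 ≤ (M : ℝ) ^ 15 := pow_le_pow_right₀ (by linarith) (by norm_num)
        have e0 : (1 : ℝ) ≤ (M : ℝ) ^ 15 := one_le_pow₀ (by linarith)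
        have e16 : (M : ℝ) ^ 16 = M * (M : ℝ) ^ 15 := by ring
        rw [e16]
        linarith [mul_nonneg (sub_nonneg.2 hMr) (sub_nonneg.2 e8), mul_nonneg (sub_nonneg.2 h8) (sub_nonneg.2 hMr), e13, hMr]

namespace UB

/-! ### the profile after removing a prime -/

theorem ph_sub_le (lam : ℝ) (hlam : 1 ≤ lam) (N : ℕ) (hN : 1 ≤ N) :
    ph lam N - ph lam ((N : ℝ) - 1) ≤ Real.log N := by
  unfold ph
  have hN' : (1 : ℝ) ≤ N := by exact_mod_cast hN
  have hlam0 : 0 < lam := by linarith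
  have hl : 0 ≤ Real.log lam := Real.log_nonneg hlam
  have hN0 : (0 : ℝ) < N := by linarith
  rcases hN'.lt_or_eq with h | h
  · have h1 : 0 < (N : ℝ) - 1 := by linarith
    rw [Real.log_div hN0.ne' hlam0.ne', Real.log_div h1.ne' hlam0.ne']
    have h2 : Real.log (N : ℝ) - Real.log ((N : ℝ) - 1) ≤ 1 / ((N : ℝ) - 1) := by
      rw [← Real.log_div hN0.ne' h1.ne']
      have h3 := Real.log_le_sub_one_of_pos (div_pos hN0 h1)
      refine h3.trans (le_of_eq ?_)
      field_simp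
      ring
    have h3 : ((N : ℝ) - 1) * (Real.log (N : ℝ) - Real.log ((N : ℝ) - 1)) ≤ 1 := by
      calc ((N : ℝ) - 1) * (Real.log (N : ℝ) - Real.log ((N : ℝ) - 1))
          ≤ ((N : ℝ) - 1) * (1 / ((N : ℝ) - 1)) := mul_le_mul_of_nonneg_left h2 h1.le
        _ = 1 := by rw [mul_one_div, div_self h1.ne']
    linarith only [h3, hl]
  · rw [← h]
    simp only [sub_self, zero_mul]
    rw [Real.log_div one_ne_zero hlam0.ne']
    simp
    linarith

theorem prof_mul {M a b : ℕ} (ha : a ≠ 0) (hb : b ≠ 0) (k : ℕ) :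
    prof M (a * b) k = prof M a k + prof M b k := by
  have h : ∀ n : ℕ, n ≠ 0 → prof M n k =
      n.factorization.sum (fun q e => if lev M q = k then e else 0) := by
    intro n _
    rw [prof, Finset.sum_filter]
    rfl
  rw [h _ (mul_ne_zero ha hb), h _ ha, h _ hb, Nat.factorization_mul ha hb,
    Finsupp.sum_add_index']
  · intro q; simp
  · intro q e₁ e₂; split_ifs <;> rfl

theorem prof_prime {M p : ℕ} (hp : p.Prime) (k : ℕ) :
    prof M p k = if lev M p = k then 1 else 0 := by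
  rw [prof, Finset.sum_filter, hp.primeFactors, Finset.sum_singleton, hp.factorization_self]

theorem GG_prime_mul_le (M : ℕ) (hM : 1 ≤ M) (p a : ℕ) (hp : p.Prime) (ha : a ≠ 0)
    (hOm : Om (p * a) ≤ M ^ 26) : GG M (p * a) - 26 * Real.log M ≤ GG M a := by
  have hM' : (1 : ℝ) ≤ M := by exact_mod_cast hM
  have hlogM : 0 ≤ Real.log M := Real.log_nonneg hM'
  unfold GG
  rw [sub_le_iff_le_add, ← sub_le_iff_le_add', ← Finset.sum_sub_distrib]
  have h1 : ∀ k ∈ Finset.Ico (M ^ 2) (KK M),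
      ph ((M : ℝ) ^ 13) (prof M (p * a) k : ℝ) - ph ((M : ℝ) ^ 13) (prof M a k : ℝ) ≤
        if lev M p = k then 26 * Real.log M else 0 := by
    intro k _
    have h2 := prof_mul (M := M) hp.ne_zero ha k
    rw [prof_prime hp] at h2
    split_ifs with h
    · rw [if_pos h] at h2
      have h3 := ph_sub_le ((M : ℝ) ^ 13) (one_le_pow₀ hM') (prof M (p * a) k) (by omega)
      have h4 : ((prof M (p * a) k : ℕ) : ℝ) - 1 = (prof M a k : ℝ) := by
        rw [h2]; push_cast; ring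
      rw [h4] at h3
      refine h3.trans ?_
      have h5 : (prof M (p * a) k : ℝ) ≤ (M : ℝ) ^ 26 := by
        exact_mod_cast (prof_le_Om M (p * a) k).trans hOm
      have h6 : (0 : ℝ) < (prof M (p * a) k : ℝ) := by
        have : 0 < prof M (p * a) k := by omega
        exact_mod_cast this
      have h7 := Real.log_le_log h6 h5
      rw [Real.log_pow] at h7
      exact_mod_cast h7
    · rw [if_neg h, zero_add] at h2
      rw [h2, sub_self]
  refine (Finset.sum_le_sum h1).trans ?_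
  rw [Finset.sum_ite_eq]
  split_ifs
  · exact le_rfl
  · positivity

theorem gpf_prime {n : ℕ} (hn : 2 ≤ n) : (gpf n).Prime ∧ gpf n ∣ n := by
  have hne : n.primeFactors.Nonempty := Nat.nonempty_primeFactors.mpr (by omega)
  have h : gpf n ∈ n.primeFactors := by
    obtain ⟨p, hp, hp'⟩ := Finset.exists_mem_eq_sup n.primeFactors hne id
    rw [gpf, hp']; exact hp
  exact ⟨Nat.prime_of_mem_primeFactors h, Nat.dvd_of_mem_primeFactors h⟩

theorem le_gpf {n q : ℕ} (hq : q ∈ n.primeFactors) : q ≤ gpf n :=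
  Finset.le_sup (f := id) hq

theorem le_gpf_pow {n : ℕ} (hn : 1 ≤ n) : n ≤ gpf n ^ Om n := by
  have h1 : n.primeFactorsList.prod = n := Nat.prod_primeFactorsList (by omega)
  conv_lhs => rw [← h1]
  rw [Om]
  apply List.prod_le_pow_card
  intro q hq
  apply le_gpf
  rwa [Nat.mem_primeFactors_iff_mem_primeFactorsList]

theorem card_pt (z : ℝ) : (pt z).card = Nat.primeCounting ⌊z⌋₊ := by
  rw [pt, Nat.primeCounting, Nat.primeCounting', Nat.count_eq_card_filter_range]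

theorem exists_chebyshev : ∃ x₀ : ℝ, ∀ x : ℝ, x₀ ≤ x →
    ((pt x).card : ℝ) ≤ 3 * x / Real.log x := by
  have h := Chebyshev.eventually_primeCounting_le (ε := 1) one_pos
  obtain ⟨x₀, hx₀⟩ := Filter.eventually_atTop.mp h
  refine ⟨max x₀ 3, fun x hx => ?_⟩
  have h1 := hx₀ x ((le_max_left _ _).trans hx)
  have h3 : 3 ≤ x := (le_max_right _ _).trans hx
  rw [card_pt]
  refine h1.trans ?_
  have h4 : Real.log 4 ≤ 2 := by
    have h5 : Real.log 4 = 2 * Real.log 2 := by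
      rw [← Real.log_rpow (by norm_num)]; norm_num
    rw [h5]
    linarith only [Real.log_two_lt_d9]
  have h6 := log_pos_of_three_le h3
  apply div_le_div_of_nonneg_right _ h6.le
  linarith only [mul_nonneg (sub_nonneg.2 h4) (sub_nonneg.2 h3), h4]

theorem exp_pow_ge {M : ℝ} (hM : 300 ≤ M) : 12 * M ^ 20 + 4 ≤ Real.exp (M ^ 16) ∧
    M ^ 32 / 4 ≤ Real.exp (M ^ 16) := by
  have h1 : M ^ 16 / 2 ≤ Real.exp (M ^ 16 / 2) := by
    have := Real.add_one_le_exp (M ^ 16 / 2)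
    linarith only [this]
  have h2 : (M ^ 16 / 2) ^ 2 ≤ Real.exp (M ^ 16) := by
    have h3 : Real.exp (M ^ 16) = Real.exp (M ^ 16 / 2) ^ 2 := by
      rw [← Real.exp_nat_mul]; congr 1; push_cast; ring
    rw [h3]
    exact pow_le_pow_left₀ (by positivity) h1 2
  have h3 : (M ^ 16 / 2) ^ 2 = M ^ 32 / 4 := by ring
  rw [h3] at h2
  refine ⟨le_trans ?_ h2, h2⟩
  have h4 : M ^ 32 = M ^ 20 * M ^ 12 := by ring
  have h5 : (1 : ℝ) ≤ M ^ 20 := one_le_pow₀ (by linarith only [hM])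
  have h6 : (300 : ℝ) ^ 12 ≤ M ^ 12 := pow_le_pow_left₀ (by norm_num) hM 12
  rw [h4]
  nlinarith only [h5, h6]

end UB

/-- number of integers with large `G` -/
theorem ub_count : ∀ᶠ M : ℕ in atTop, ∀ (g z : ℝ) (s : Finset ℕ), 3 ≤ z → (M : ℝ) ^ 16 ≤ ll z →
    ll z ≤ 5 * (M : ℝ) ^ 20 → g ≤ (M : ℝ) ^ 20 →
    (∀ n ∈ s, 1 ≤ n ∧ (n : ℝ) ≤ z ∧ Om n ≤ M ^ 26 ∧ g ≤ GG M n) →
    (s.card : ℝ) ≤ z / Real.log z * Real.exp (-g + (M : ℝ) ^ 17) := by
  obtain ⟨x₀, hcheb⟩ := exists_chebyshev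
  filter_upwards [Filter.eventually_ge_atTop 300, ub_mass,
    Filter.eventually_ge_atTop ⌈x₀⌉₊] with M hM hub hx₀
  intro g z s hz hz1 hz2 hg hs
  classical
  have hM1 : 1 ≤ M := by omega
  have hMr : (300 : ℝ) ≤ M := by exact_mod_cast hM
  have hx₀M : x₀ ≤ M := (Nat.le_ceil x₀).trans (by exact_mod_cast hx₀)
  set L := Real.log z with hL
  have hLpos : 0 < L := log_pos_of_three_le hz
  have hLge : Real.exp ((M : ℝ) ^ 16) ≤ L := by
    rw [hL, ← exp_ll_three hz]; exact Real.exp_le_exp.mpr hz1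
  obtain ⟨he1, he2⟩ := exp_pow_ge hMr
  have hzexp : z = Real.exp L := (Real.exp_log (by linarith only [hz])).symm
  have hM20 : (0 : ℝ) < (M : ℝ) ^ 20 := by positivity
  have hM17 : (0 : ℝ) < (M : ℝ) ^ 17 := by positivity
  have hM26 : (0 : ℝ) < (M : ℝ) ^ 26 := by positivity
  -- small n
  have hs1 : ((s.filter (fun n : ℕ => (n : ℝ) ≤ Real.exp (L / 2))).card : ℝ) ≤
      z / L * Real.exp (-g + (M : ℝ) ^ 17) / 2 := by
    have h1 : s.filter (fun n : ℕ => (n : ℝ) ≤ Real.exp (L / 2)) ⊆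
        Finset.Icc 1 ⌊Real.exp (L / 2)⌋₊ := by
      intro n hn
      rw [Finset.mem_filter] at hn
      rw [Finset.mem_Icc]
      exact ⟨(hs n hn.1).1, Nat.le_floor hn.2⟩
    have h2 : ((s.filter (fun n : ℕ => (n : ℝ) ≤ Real.exp (L / 2))).card : ℝ) ≤
        Real.exp (L / 2) := by
      have h3 := Finset.card_le_card h1
      rw [Nat.card_Icc, Nat.add_sub_cancel] at h3
      exact (Nat.cast_le.mpr h3).trans (Nat.floor_le (Real.exp_pos _).le)
    refine h2.trans ?_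
    have h3 : z / L * Real.exp (-g + (M : ℝ) ^ 17) / 2 =
        Real.exp (L - ll z - g + (M : ℝ) ^ 17) / 2 := by
      have : z / L = Real.exp (L - ll z) := by
        rw [Real.exp_sub, exp_ll_three hz, ← hL, ← hzexp]
      rw [this, ← Real.exp_add]; congr 2; ring
    rw [h3, le_div_iff₀ (by norm_num)]
    have h4 : (2 : ℝ) ≤ Real.exp 1 := by linarith only [Real.add_one_le_exp (1 : ℝ)]
    calc Real.exp (L / 2) * 2 ≤ Real.exp (L / 2) * Real.exp 1 :=
          mul_le_mul_of_nonneg_left h4 (Real.exp_pos _).le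
      _ = Real.exp (L / 2 + 1) := by rw [← Real.exp_add]
      _ ≤ _ := Real.exp_le_exp.mpr (by linarith only [he1, hLge, hz2, hM17, hg])
  -- large n
  set s2 := s.filter (fun n : ℕ => ¬ (n : ℝ) ≤ Real.exp (L / 2)) with hs2def
  have hs2 : ∀ n ∈ s2, n ∈ s ∧ Real.exp (L / 2) < n := by
    intro n hn
    rw [hs2def, Finset.mem_filter, not_le] at hn
    exact hn
  have hn2 : ∀ n ∈ s2, 2 ≤ n := by
    intro n hn
    have h1 : (1 : ℝ) < n := by
      refine lt_of_le_of_lt ?_ (hs2 n hn).2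
      exact Real.one_le_exp (by linarith only [he1, hM20, hLge])
    exact_mod_cast h1
  have hdecomp : ∀ n ∈ s2, (gpf n).Prime ∧ n / gpf n ≠ 0 ∧ n = gpf n * (n / gpf n) ∧
      L / (2 * (M : ℝ) ^ 26) ≤ Real.log (gpf n) := by
    intro n hn
    obtain ⟨h1, h2⟩ := gpf_prime (hn2 n hn)
    have h3 : n = gpf n * (n / gpf n) := (Nat.mul_div_cancel' h2).symm
    have h5 : n / gpf n ≠ 0 := by
      intro h0
      rw [h0, mul_zero] at h3
      have := hn2 n hn
      omega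
    refine ⟨h1, h5, h3, ?_⟩
    have h6 := le_gpf_pow (n := n) (by have := hn2 n hn; omega)
    have h7 : (n : ℝ) ≤ (gpf n : ℝ) ^ Om n := by exact_mod_cast h6
    have hn0 : (0 : ℝ) < n := by
      have := hn2 n hn
      exact_mod_cast (by omega : 0 < n)
    have h8 := Real.log_le_log hn0 h7
    rw [Real.log_pow] at h8
    have h9 : L / 2 < Real.log n := by
      rw [Real.lt_log_iff_exp_lt hn0]; exact (hs2 n hn).2
    have h10 : (Om n : ℝ) ≤ (M : ℝ) ^ 26 := by exact_mod_cast (hs n (hs2 n hn).1).2.2.1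
    have h11 := log_pos_of_prime h1
    rw [div_le_iff₀ (by positivity)]
    nlinarith only [h9, hM26, h8, hLpos, h10]
  set A := s2.image (fun n => n / gpf n) with hA
  have hAprop : ∀ a ∈ A, 1 ≤ a ∧ (a : ℝ) ≤ z ∧ Om a ≤ M ^ 26 ∧ g - 26 * Real.log M ≤ GG M a ∧
      L / (2 * (M : ℝ) ^ 26) ≤ Real.log (z / a) := by
    intro a ha
    rw [hA, Finset.mem_image] at ha
    obtain ⟨n, hn, rfl⟩ := ha
    obtain ⟨h1, h2, h3, h4⟩ := hdecomp n hn
    obtain ⟨h5, h6, h7, h8⟩ := hs n (hs2 n hn).1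
    set a := n / gpf n with haa
    have ha0 : (0 : ℝ) < a := by exact_mod_cast Nat.pos_of_ne_zero h2
    have hp0 : (0 : ℝ) < gpf n := by exact_mod_cast h1.pos
    have h9 : (gpf n : ℝ) * a = n := by exact_mod_cast h3.symm
    have h10 : a ≤ n := Nat.div_le_self _ _
    refine ⟨Nat.pos_of_ne_zero h2, ?_, ?_, ?_, ?_⟩
    · exact (Nat.cast_le.mpr h10).trans h6
    · refine le_trans ?_ h7
      have h11 : Om n = Om (gpf n) + Om a := by
        have := ArithmeticFunction.cardFactors_mul h1.ne_zero h2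
        rw [← h3] at this
        exact this
      omega
    · have h12 := GG_prime_mul_le M hM1 (gpf n) a h1 h2 (by rw [← h3]; exact h7)
      rw [← h3] at h12
      linarith only [h8, h12]
    · refine h4.trans (Real.log_le_log hp0 ?_)
      rw [le_div_iff₀ ha0, h9]
      exact h6
  have hMlog : 26 * Real.log M ≤ 26 * M := by
    have := Real.log_le_sub_one_of_pos (show (0 : ℝ) < M by linarith only [hMr])
    linarith only [this]
  have hmassA := hub (g - 26 * Real.log M) z A hz2 (fun a ha => by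
    obtain ⟨h1, h2, h3, h4, _⟩ := hAprop a ha
    exact ⟨h1, h2, h3, h4⟩)
  have hcardA : ∀ a ∈ A, ((pt (z / a)).card : ℝ) ≤ (z / L) * (6 * (M : ℝ) ^ 26) * (1 / (a : ℝ)) := by
    intro a ha
    obtain ⟨h1, h2, h3, h4, h5⟩ := hAprop a ha
    have ha0 : (0 : ℝ) < a := by exact_mod_cast h1
    have hza : 0 < z / a := by positivity
    have h6 : (M : ℝ) ^ 6 / 8 ≤ L / (2 * (M : ℝ) ^ 26) := by
      rw [le_div_iff₀ (by positivity)]
      have : (M : ℝ) ^ 6 / 8 * (2 * (M : ℝ) ^ 26) = (M : ℝ) ^ 32 / 4 := by ring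
      rw [this]
      linarith only [he2, hLge]
    have h7 : (M : ℝ) ≤ z / a := by
      have h8 : (M : ℝ) ≤ Real.exp ((M : ℝ) ^ 6 / 8) := by
        have h9 := Real.add_one_le_exp ((M : ℝ) ^ 6 / 8)
        have h10 : (M : ℝ) ^ 6 = M * (M : ℝ) ^ 5 := by ring
        have h11 : (300 : ℝ) ^ 5 ≤ (M : ℝ) ^ 5 := pow_le_pow_left₀ (by norm_num) hMr 5
        nlinarith only [h9, h11]
      refine h8.trans ?_
      rw [← Real.le_log_iff_exp_le hza]
      exact h6.trans h5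
    refine (hcheb (z / a) (hx₀M.trans h7)).trans ?_
    have hlogpos : 0 < L / (2 * (M : ℝ) ^ 26) := by positivity
    calc 3 * (z / a) / Real.log (z / a) ≤ 3 * (z / a) / (L / (2 * (M : ℝ) ^ 26)) :=
          div_le_div_of_nonneg_left (by positivity) hlogpos h5
      _ = (z / L) * (6 * (M : ℝ) ^ 26) * (1 / (a : ℝ)) := by
          field_simp
          ring
  have hs2card : (s2.card : ℝ) ≤ ∑ a ∈ A, ((pt (z / a)).card : ℝ) := by
    have h1 : s2.card ≤ (A.sigma (fun a => pt (z / (a : ℝ)))).card := by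
      apply Finset.card_le_card_of_injOn (fun n => (⟨n / gpf n, gpf n⟩ : Σ _ : ℕ, ℕ))
      · intro n hn
        rw [Finset.mem_coe] at hn
        obtain ⟨h1, h2, h3, h4⟩ := hdecomp n hn
        rw [Finset.mem_coe, Finset.mem_sigma]
        refine ⟨Finset.mem_image_of_mem _ hn, ?_⟩
        have ha0 : (0 : ℝ) < ((n / gpf n : ℕ) : ℝ) := by exact_mod_cast Nat.pos_of_ne_zero h2
        simp only
        rw [mem_pt (by positivity)]
        refine ⟨h1, ?_⟩
        rw [le_div_iff₀ ha0]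
        have h9 : (gpf n : ℝ) * ((n / gpf n : ℕ) : ℝ) = n := by exact_mod_cast h3.symm
        rw [h9]
        exact (hs n (hs2 n hn).1).2.1
      · intro n hn n' hn' heq
        rw [Finset.mem_coe] at hn hn'
        have h3 := (hdecomp n hn).2.2.1
        have h3' := (hdecomp n' hn').2.2.1
        simp only [Sigma.mk.injEq, heq_eq_eq] at heq
        rw [h3, h3', heq.1, heq.2]
    rw [Finset.card_sigma] at h1
    exact_mod_cast h1
  have hs2' : (s2.card : ℝ) ≤ z / L * Real.exp (-g + (M : ℝ) ^ 17) / 2 := by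
    refine hs2card.trans ((Finset.sum_le_sum hcardA).trans ?_)
    rw [← Finset.mul_sum]
    have hzL : 0 < z / L := by positivity
    have h12 : 12 * (M : ℝ) ^ 26 ≤ Real.exp (26 * M + 11) := by
      have h1 : (M : ℝ) ^ 26 ≤ Real.exp (26 * M) := by
        have h7 : Real.exp (26 * (M : ℝ)) = Real.exp M ^ 26 := by
          rw [← Real.exp_nat_mul]; norm_num
        rw [h7]
        refine pow_le_pow_left₀ (by positivity) ?_ 26
        linarith only [Real.add_one_le_exp (M : ℝ)]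
      have h2 : (12 : ℝ) ≤ Real.exp 11 := by linarith only [Real.add_one_le_exp (11 : ℝ)]
      rw [Real.exp_add]
      linarith only [mul_nonneg (sub_nonneg.2 h2) (le_of_lt (sub_pos.2 (Real.exp_pos (26 * (M : ℝ))))), h1]
    calc z / L * (6 * (M : ℝ) ^ 26) * ∑ a ∈ A, 1 / (a : ℝ)
        ≤ z / L * (6 * (M : ℝ) ^ 26) * Real.exp (-(g - 26 * Real.log M) + (M : ℝ) ^ 16) :=
          mul_le_mul_of_nonneg_left hmassA (by positivity)
      _ = z / L * (12 * (M : ℝ) ^ 26 *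
            Real.exp (-(g - 26 * Real.log M) + (M : ℝ) ^ 16)) / 2 := by ring
      _ ≤ z / L * Real.exp (-g + (M : ℝ) ^ 17) / 2 := by
          apply div_le_div_of_nonneg_right _ (by norm_num : (0 : ℝ) ≤ 2)
          apply mul_le_mul_of_nonneg_left _ hzL.le
          calc 12 * (M : ℝ) ^ 26 * Real.exp (-(g - 26 * Real.log M) + (M : ℝ) ^ 16)
              ≤ Real.exp (26 * M + 11) * Real.exp (-(g - 26 * Real.log M) + (M : ℝ) ^ 16) :=
                mul_le_mul_of_nonneg_right h12 (Real.exp_pos _).le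
            _ = Real.exp (26 * M + 11 + (-(g - 26 * Real.log M) + (M : ℝ) ^ 16)) := by
                rw [← Real.exp_add]
            _ ≤ Real.exp (-g + (M : ℝ) ^ 17) := by
                apply Real.exp_le_exp.mpr
                have h1 : (M : ℝ) ^ 17 = M * (M : ℝ) ^ 16 := by ring
                have h2 : (M : ℝ) ≤ (M : ℝ) ^ 16 := le_self_pow₀ (by linarith only [hMr]) (by norm_num)
                rw [h1]
                nlinarith only [hMlog, h2, hMr]
  have hsplit : (s.card : ℝ) = ((s.filter (fun n : ℕ => (n : ℝ) ≤ Real.exp (L / 2))).card : ℝ) +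
      (s2.card : ℝ) := by
    rw [hs2def, ← Nat.cast_add, Finset.card_filter_add_card_filter_not]
  rw [hsplit]
  linarith only [hs1, hs2']

end Vale.Agent.P031
end
end

section

section

/-!
P031, section E: crude bounds for the totient problem (`cn_mass`, `cm`, `cmc`).
-/

namespace Vale.Agent.P031

open Finset Filter Topology

namespace Crude

lemma tele (c : ℝ) (hc : 0 < c) (k : ℕ) (hk : 1 ≤ k) :
    c / ((k : ℝ) + 1) ^ (1 + c) ≤ (k : ℝ) ^ (-c) - ((k : ℝ) + 1) ^ (-c) := by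
  have hk0 : (0 : ℝ) < k := by exact_mod_cast hk
  have hk1 : (0 : ℝ) < (k : ℝ) + 1 := by linarith only []
  have h1 : (k : ℝ) ^ (-c) =
      ((k : ℝ) + 1) ^ (-c) * Real.exp (c * (Real.log ((k : ℝ) + 1) - Real.log k)) := by
    rw [Real.rpow_def_of_pos hk0, Real.rpow_def_of_pos hk1, ← Real.exp_add]
    congr 1; ring
  have h2 : 1 / ((k : ℝ) + 1) ≤ Real.log ((k : ℝ) + 1) - Real.log k := by
    have := Real.log_le_sub_one_of_pos (show 0 < (k : ℝ) / ((k : ℝ) + 1) by positivity)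
    rw [Real.log_div hk0.ne' hk1.ne'] at this
    have e : (k : ℝ) / ((k : ℝ) + 1) - 1 = -(1 / ((k : ℝ) + 1)) := by field_simp; ring
    linarith only [this, e]
  have h3 : 1 + c * (1 / ((k : ℝ) + 1)) ≤
      Real.exp (c * (Real.log ((k : ℝ) + 1) - Real.log k)) := by
    refine le_trans ?_ (Real.add_one_le_exp _)
    nlinarith only [hc, h2]
  have h4 : c / ((k : ℝ) + 1) ^ (1 + c) = ((k : ℝ) + 1) ^ (-c) * (c * (1 / ((k : ℝ) + 1))) := by
    rw [Real.rpow_add hk1, Real.rpow_one, Real.rpow_neg hk1.le]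
    field_simp
  rw [h4, h1]
  have := mul_le_mul_of_nonneg_left h3 (Real.rpow_nonneg hk1.le (-c))
  linarith only [this]

lemma tele_sum (c : ℝ) (hc : 0 < c) (K N : ℕ) (hK : 1 ≤ K) :
    ∑ k ∈ Finset.Ico K N, 1 / ((k : ℝ) + 1) ^ (1 + c) ≤ (K : ℝ) ^ (-c) / c := by
  rw [le_div_iff₀ hc, Finset.sum_mul]
  rcases le_or_gt K N with h | h
  · have h1 : ∑ k ∈ Finset.Ico K N, 1 / ((k : ℝ) + 1) ^ (1 + c) * c ≤
        ∑ k ∈ Finset.Ico K N, ((k : ℝ) ^ (-c) - ((k + 1 : ℕ) : ℝ) ^ (-c)) := by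
      apply Finset.sum_le_sum
      intro k hk
      rw [Finset.mem_Ico] at hk
      have := tele c hc k (by omega)
      push_cast
      calc 1 / ((k : ℝ) + 1) ^ (1 + c) * c = c / ((k : ℝ) + 1) ^ (1 + c) := by ring
        _ ≤ _ := this
    have h2 : ∑ k ∈ Finset.Ico K N, ((k : ℝ) ^ (-c) - ((k + 1 : ℕ) : ℝ) ^ (-c)) =
        (K : ℝ) ^ (-c) - (N : ℝ) ^ (-c) := by
      rw [← neg_inj, ← Finset.sum_neg_distrib]
      have := Finset.sum_Ico_sub (fun k : ℕ => (k : ℝ) ^ (-c)) h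
      simp only [neg_sub]
      linarith only [this]
    have h3 : 0 ≤ (N : ℝ) ^ (-c) := Real.rpow_nonneg (Nat.cast_nonneg _) _
    linarith only [h1, h3, h2]
  · rw [Finset.Ico_eq_empty_of_le h.le]
    simp
    exact Real.rpow_nonneg (Nat.cast_nonneg _) _

lemma two_pow_le_of_log {p : ℕ} (hp : p ≠ 0) : 2 ^ (Nat.log 2 p) ≤ p := Nat.pow_log_le_self 2 hp

end Crude

open Crude

theorem cn_mass : ∃ c C : ℝ, 0 < c ∧ 0 < C ∧ ∀ (t : ℝ) (s : Finset ℕ), 1 ≤ t →
    (∀ p ∈ s, p.Prime ∧ t ≤ ll (p : ℝ) ∧ (Om (p - 1) : ℝ) < 9 / 10 * ll (p : ℝ)) →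
    ∑ p ∈ s, 1 / ((p : ℝ) - 1) ≤ C * Real.exp (-(c * t)) := by
  obtain ⟨c, C, hc, hC, hcount⟩ := cn_count
  refine ⟨c, 4 * C / (Real.log 2) ^ (1 + c) / c * (2 : ℝ) ^ c, hc, ?_, ?_⟩
  · have : 0 < Real.log 2 := Real.log_pos (by norm_num)
    positivity
  intro t s ht hs
  have hl2 : 0 < Real.log 2 := Real.log_pos (by norm_num)
  have hl2' : Real.log 2 ≤ 1 := by
    have := Real.log_le_sub_one_of_pos (show (0 : ℝ) < 2 by norm_num)
    linarith
  have het : 2 ≤ Real.exp t := by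
    have := Real.add_one_le_exp t
    linarith
  set K : ℕ := ⌈Real.exp t⌉₊ - 1 with hK
  have hK1 : (K : ℝ) + 1 = (⌈Real.exp t⌉₊ : ℝ) := by
    have : 1 ≤ ⌈Real.exp t⌉₊ := Nat.one_le_iff_ne_zero.mpr (by
      intro h0
      rw [Nat.ceil_eq_zero] at h0
      linarith only [het, h0])
    rw [hK]; push_cast [Nat.cast_sub this]; ring
  have hKle : Real.exp t / 2 ≤ (K : ℝ) := by
    have := Nat.le_ceil (Real.exp t)
    linarith only [this, het, hK1]
  have hK2 : 1 ≤ K := by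
    have : (1 : ℝ) ≤ K := by linarith only [het, hKle]
    exact_mod_cast this
  -- each prime has log2 ≥ K
  have hlog : ∀ p ∈ s, Real.exp t ≤ Real.log p ∧ 1 < (p : ℝ) := by
    intro p hp
    obtain ⟨hp1, hp2, -⟩ := hs p hp
    have hp3 : (2 : ℝ) ≤ p := by exact_mod_cast hp1.two_le
    have h1 : 0 < Real.log p := Real.log_pos (by linarith only [hp3])
    refine ⟨?_, by linarith only [hp3]⟩
    rw [← Real.exp_log h1]
    exact Real.exp_le_exp.mpr hp2
  have hlog2 : ∀ p ∈ s, K ≤ Nat.log 2 p := by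
    intro p hp
    obtain ⟨h1, h2⟩ := hlog p hp
    have hp0 : p ≠ 0 := (hs p hp).1.ne_zero
    have h3 : p < 2 ^ (Nat.log 2 p + 1) := Nat.lt_pow_succ_log_self (by norm_num) p
    have h4 : Real.log p ≤ (Nat.log 2 p + 1 : ℕ) * Real.log 2 := by
      rw [← Real.log_pow]
      apply Real.log_le_log (by linarith only [h2])
      exact_mod_cast h3.le
    have h5 : Real.exp t ≤ (Nat.log 2 p + 1 : ℕ) := by
      have : ((Nat.log 2 p + 1 : ℕ) : ℝ) * Real.log 2 ≤ (Nat.log 2 p + 1 : ℕ) := by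
        have : (0 : ℝ) ≤ (Nat.log 2 p + 1 : ℕ) := Nat.cast_nonneg _
        nlinarith only [hl2']
      linarith only [h1, h4, this]
    have h6 : ⌈Real.exp t⌉₊ ≤ Nat.log 2 p + 1 := Nat.ceil_le.mpr h5
    omega
  obtain ⟨N, hN⟩ : ∃ N, ∀ p ∈ s, Nat.log 2 p < N :=
    ⟨(s.sup (fun p => Nat.log 2 p)) + 1, fun p hp =>
      Nat.lt_succ_of_le (Finset.le_sup (f := fun p => Nat.log 2 p) hp)⟩
  have hfib : ∑ p ∈ s, 1 / ((p : ℝ) - 1) =
      ∑ k ∈ Finset.Ico K N, ∑ p ∈ s.filter (fun p => Nat.log 2 p = k), 1 / ((p : ℝ) - 1) := by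
    rw [Finset.sum_fiberwise_of_maps_to]
    intro p hp
    rw [Finset.mem_Ico]
    exact ⟨hlog2 p hp, hN p hp⟩
  rw [hfib]
  have hinner : ∀ k ∈ Finset.Ico K N,
      ∑ p ∈ s.filter (fun p => Nat.log 2 p = k), 1 / ((p : ℝ) - 1) ≤
        4 * C / (Real.log 2) ^ (1 + c) * (1 / ((k : ℝ) + 1) ^ (1 + c)) := by
    intro k hk
    rw [Finset.mem_Ico] at hk
    have hk1 : 1 ≤ k := by omega
    have hcnt := hcount ((2 : ℝ) ^ (k + 1)) (s.filter (fun p => Nat.log 2 p = k))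
      (by
        have : (2 : ℝ) ^ 2 ≤ 2 ^ (k + 1) := pow_le_pow_right₀ (by norm_num) (by omega)
        linarith only [this])
      (by
        intro p hp
        rw [Finset.mem_filter] at hp
        obtain ⟨hp1, hp2, hp3⟩ := hs p hp.1
        have h3 : p < 2 ^ (Nat.log 2 p + 1) := Nat.lt_pow_succ_log_self (by norm_num) p
        rw [hp.2] at h3
        have h4 : (p : ℝ) ≤ 2 ^ (k + 1) := by exact_mod_cast h3.le
        refine ⟨hp1, h4, lt_of_lt_of_le hp3 ?_⟩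
        have := ll_mono (hlog p hp.1).2 h4
        linarith only [this])
    have hle : ∀ p ∈ s.filter (fun p => Nat.log 2 p = k), 1 / ((p : ℝ) - 1) ≤ 2 / (2 : ℝ) ^ k := by
      intro p hp
      rw [Finset.mem_filter] at hp
      have h0 := two_pow_le_of_log (hs p hp.1).1.ne_zero
      rw [hp.2] at h0
      have h1 : (2 : ℝ) ^ k ≤ p := by exact_mod_cast h0
      have h2 : (2 : ℝ) ≤ 2 ^ k := by
        calc (2 : ℝ) = 2 ^ 1 := by norm_num
          _ ≤ 2 ^ k := pow_le_pow_right₀ (by norm_num) hk1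
      rw [div_le_div_iff₀ (by linarith only [h1, h2]) (by positivity)]
      linarith only [h1, h2]
    calc ∑ p ∈ s.filter (fun p => Nat.log 2 p = k), 1 / ((p : ℝ) - 1)
        ≤ (s.filter (fun p => Nat.log 2 p = k)).card • (2 / (2 : ℝ) ^ k) :=
          Finset.sum_le_card_nsmul _ _ _ hle
      _ = ((s.filter (fun p => Nat.log 2 p = k)).card : ℝ) * (2 / (2 : ℝ) ^ k) := by
          rw [nsmul_eq_mul]
      _ ≤ (C * (2 : ℝ) ^ (k + 1) / (Real.log ((2 : ℝ) ^ (k + 1))) ^ (1 + c)) * (2 / (2 : ℝ) ^ k) := by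
          apply mul_le_mul_of_nonneg_right hcnt (by positivity)
      _ = 4 * C / (Real.log 2) ^ (1 + c) * (1 / ((k : ℝ) + 1) ^ (1 + c)) := by
          rw [Real.log_pow, Real.mul_rpow (by positivity) hl2.le]
          push_cast
          have : (0 : ℝ) < ((k : ℝ) + 1) ^ (1 + c) := by positivity
          have : (0 : ℝ) < (Real.log 2) ^ (1 + c) := by positivity
          field_simp
          ring
  refine (Finset.sum_le_sum hinner).trans ?_
  rw [← Finset.mul_sum]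
  have hts := tele_sum c hc K N hK2
  have hKc : (K : ℝ) ^ (-c) ≤ (2 : ℝ) ^ c * Real.exp (-(c * t)) := by
    have h1 : (K : ℝ) ^ (-c) ≤ (Real.exp t / 2) ^ (-c) :=
      Real.rpow_le_rpow_of_nonpos (by positivity) hKle (by linarith only [hc])
    refine h1.trans (le_of_eq ?_)
    rw [Real.div_rpow (Real.exp_pos t).le (by norm_num), ← Real.exp_mul, Real.rpow_neg (by norm_num)]
    rw [div_inv_eq_mul, mul_comm]
    congr 2
    ring
  have hA : 0 ≤ 4 * C / (Real.log 2) ^ (1 + c) := by positivity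
  calc 4 * C / (Real.log 2) ^ (1 + c) * ∑ k ∈ Finset.Ico K N, 1 / ((k : ℝ) + 1) ^ (1 + c)
      ≤ 4 * C / (Real.log 2) ^ (1 + c) * ((K : ℝ) ^ (-c) / c) :=
        mul_le_mul_of_nonneg_left hts hA
    _ ≤ 4 * C / (Real.log 2) ^ (1 + c) * (((2 : ℝ) ^ c * Real.exp (-(c * t))) / c) := by
        apply mul_le_mul_of_nonneg_left _ hA
        exact div_le_div_of_nonneg_right hKc hc.le
    _ = _ := by ring

/-! ### crude mass bound -/

namespace Crude

lemma mass_cover {ι : Type*} (s : Finset ℕ) (t : Finset ι) (f : ι → ℕ)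
    (h : ∀ d ∈ s, ∃ x ∈ t, f x = d) : ∑ d ∈ s, 1 / (d : ℝ) ≤ ∑ x ∈ t, 1 / (f x : ℝ) := by
  classical
  have hsub : s ⊆ t.image f := by
    intro d hd
    obtain ⟨x, hx, rfl⟩ := h d hd
    exact Finset.mem_image_of_mem f hx
  calc ∑ d ∈ s, 1 / (d : ℝ) ≤ ∑ d ∈ t.image f, 1 / (d : ℝ) :=
        Finset.sum_le_sum_of_subset_of_nonneg hsub (fun _ _ _ => by positivity)
    _ ≤ ∑ x ∈ t, 1 / (f x : ℝ) :=
        Finset.sum_image_le_of_nonneg (g := f) (f := fun d : ℕ => 1 / (d : ℝ))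
          (fun _ _ => by positivity)

lemma mass_prod (P s : Finset ℕ) (g : ℕ → ℕ) :
    ∑ x ∈ P ×ˢ s, 1 / ((g x.1 * x.2 : ℕ) : ℝ) =
      (∑ p ∈ P, 1 / (g p : ℝ)) * ∑ d ∈ s, 1 / (d : ℝ) := by
  rw [Finset.sum_product, Finset.sum_mul]
  apply Finset.sum_congr rfl
  intro p _
  rw [Finset.mul_sum]
  apply Finset.sum_congr rfl
  intro d _
  push_cast
  rw [one_div_mul_one_div]

lemma mass_union (s t : Finset ℕ) :
    ∑ d ∈ s ∪ t, 1 / (d : ℝ) ≤ ∑ d ∈ s, 1 / (d : ℝ) + ∑ d ∈ t, 1 / (d : ℝ) := by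
  classical
  rw [← Finset.sum_union_inter]
  have : 0 ≤ ∑ d ∈ s ∩ t, 1 / (d : ℝ) := Finset.sum_nonneg (fun _ _ => by positivity)
  linarith

lemma Om_eq_card (n : ℕ) : Om n = ArithmeticFunction.cardFactors n :=
  ArithmeticFunction.cardFactors_apply.symm

lemma Om_mul {a b : ℕ} (ha : a ≠ 0) (hb : b ≠ 0) : Om (a * b) = Om a + Om b := by
  rw [Om_eq_card, Om_eq_card, Om_eq_card, ArithmeticFunction.cardFactors_mul ha hb]

lemma Om_prod {ι : Type*} (s : Finset ι) (f : ι → ℕ) (h : ∀ i ∈ s, f i ≠ 0) :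
    Om (∏ i ∈ s, f i) = ∑ i ∈ s, Om (f i) := by
  classical
  induction s using Finset.induction_on with
  | empty => simp [Om]
  | insert a s ha ih =>
    rw [Finset.prod_insert ha, Finset.sum_insert ha, Om_mul (h a (Finset.mem_insert_self a s)),
      ih (fun i hi => h i (Finset.mem_insert_of_mem hi))]
    exact Finset.prod_ne_zero_iff.mpr (fun i hi => h i (Finset.mem_insert_of_mem hi))

lemma totient_prod {m : ℕ} (hm : m ≠ 0) :
    Nat.totient m = ∏ p ∈ m.primeFactors, (p ^ (m.factorization p - 1) * (p - 1)) := by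
  rw [Nat.totient_eq_prod_factorization hm, Finsupp.prod, Nat.support_factorization]

lemma Om_totient {m : ℕ} (hm : m ≠ 0) :
    ∑ p ∈ m.primeFactors, Om (p - 1) ≤ Om (Nat.totient m) := by
  have hne : ∀ p ∈ m.primeFactors, p ^ (m.factorization p - 1) * (p - 1) ≠ 0 := by
    intro p hp
    have := (Nat.prime_of_mem_primeFactors hp).two_le
    have h1 : p ^ (m.factorization p - 1) ≠ 0 := by positivity
    have h2 : p - 1 ≠ 0 := by omega
    exact mul_ne_zero h1 h2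
  rw [totient_prod hm, Om_prod _ _ hne]
  apply Finset.sum_le_sum
  intro p hp
  have h3 := hne p hp
  rw [Om_mul (left_ne_zero_of_mul h3) (right_ne_zero_of_mul h3)]
  exact Nat.le_add_left _ _

lemma prime_dvd_totient {m q : ℕ} (hm : m ≠ 0) (hq : q.Prime) (h : q ∣ Nat.totient m) :
    ∃ p : ℕ, p.Prime ∧ p ∣ m ∧ q ≤ p := by
  rw [totient_prod hm] at h
  obtain ⟨p, hp, hpq⟩ := Prime.exists_mem_finset_dvd hq.prime h
  have hp1 := Nat.prime_of_mem_primeFactors hp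
  refine ⟨p, hp1, Nat.dvd_of_mem_primeFactors hp, ?_⟩
  rcases (Nat.Prime.dvd_mul hq).mp hpq with h1 | h1
  · exact (Nat.le_of_dvd hp1.pos (hq.dvd_of_dvd_pow h1))
  · have := Nat.le_of_dvd (by have := hp1.two_le; omega) h1
    omega

open Classical in
/-- totients `d ≤ B` with a preimage all of whose prime factors have scale at most `X` -/
noncomputable def TT (B : ℕ) (X : ℝ) : Finset ℕ :=
  (Finset.Icc 1 B).filter (fun d => ∃ m : ℕ, 1 ≤ m ∧ Nat.totient m = d ∧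
    ∀ p : ℕ, p.Prime → p ∣ m → ll (p : ℝ) ≤ X)

noncomputable def Mx (B : ℕ) (X : ℝ) : ℝ := ∑ d ∈ TT B X, 1 / (d : ℝ)

lemma mem_TT {B : ℕ} {X : ℝ} {d : ℕ} : d ∈ TT B X ↔ (1 ≤ d ∧ d ≤ B) ∧ ∃ m : ℕ, 1 ≤ m ∧
    Nat.totient m = d ∧ ∀ p : ℕ, p.Prime → p ∣ m → ll (p : ℝ) ≤ X := by
  classical
  unfold TT
  rw [Finset.mem_filter, Finset.mem_Icc]

lemma Mx_nonneg (B : ℕ) (X : ℝ) : 0 ≤ Mx B X := Finset.sum_nonneg (fun _ _ => by positivity)

lemma Mx_mono (B : ℕ) {X Y : ℝ} (h : X ≤ Y) : Mx B X ≤ Mx B Y := by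
  apply Finset.sum_le_sum_of_subset_of_nonneg
  · intro d hd
    rw [mem_TT] at hd ⊢
    obtain ⟨h1, m, h2, h3, h4⟩ := hd
    exact ⟨h1, m, h2, h3, fun p hp hpm => (h4 p hp hpm).trans h⟩
  · intro _ _ _
    positivity

lemma one_le_Mx {B : ℕ} (hB : 1 ≤ B) (X : ℝ) : 1 ≤ Mx B X := by
  have h1 : (1 : ℕ) ∈ TT B X := by
    rw [mem_TT]
    refine ⟨⟨le_refl _, hB⟩, 1, le_refl _, by simp, ?_⟩
    intro p hp h
    exact absurd (Nat.dvd_one.mp h) hp.ne_one
  have := Finset.single_le_sum (f := fun d : ℕ => 1 / (d : ℝ)) (fun _ _ => by positivity) h1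
  simpa [Mx] using this

/-- primes with scale in `(Y, X]` -/
noncomputable def PP (B : ℕ) (Y X : ℝ) : Finset ℕ := by
  classical
  exact (Finset.range (B + 2)).filter (fun p => p.Prime ∧ Y < ll (p : ℝ) ∧ ll (p : ℝ) ≤ X)

lemma mem_PP {B : ℕ} {Y X : ℝ} {p : ℕ} : p ∈ PP B Y X ↔ p < B + 2 ∧ p.Prime ∧ Y < ll (p : ℝ) ∧
    ll (p : ℝ) ≤ X := by
  classical
  unfold PP
  rw [Finset.mem_filter, Finset.mem_range]

/-- the map `(p, d) ↦ (p - 1) d` -/
def gm (x : ℕ × ℕ) : ℕ := (x.1 - 1) * x.2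

/-- at most `j` primes of scale above `Y` -/
noncomputable def TJ (B : ℕ) (Y X : ℝ) : ℕ → Finset ℕ
  | 0 => TT B Y
  | (j + 1) => TJ B Y X j ∪ (PP B Y X ×ˢ TJ B Y X j).image gm

lemma mass_TJ (B : ℕ) (Y X σ : ℝ) (hσ : ∑ p ∈ PP B Y X, 1 / ((p : ℝ) - 1) ≤ σ) (j : ℕ) :
    ∑ d ∈ TJ B Y X j, 1 / (d : ℝ) ≤ (1 + σ) ^ j * Mx B Y := by
  have hcast : ∑ p ∈ PP B Y X, 1 / ((p - 1 : ℕ) : ℝ) = ∑ p ∈ PP B Y X, 1 / ((p : ℝ) - 1) := by
    apply Finset.sum_congr rfl
    intro p hp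
    rw [mem_PP] at hp
    rw [Nat.cast_sub hp.2.1.one_lt.le, Nat.cast_one]
  have hσ0 : 0 ≤ σ := by
    refine le_trans ?_ hσ
    rw [← hcast]
    exact Finset.sum_nonneg (fun _ _ => by positivity)
  induction j with
  | zero => simp [TJ, Mx]
  | succ j ih =>
    rw [TJ]
    refine (mass_union _ _).trans ?_
    have h1 : ∑ d ∈ (PP B Y X ×ˢ TJ B Y X j).image gm, 1 / (d : ℝ) ≤
        σ * ∑ d ∈ TJ B Y X j, 1 / (d : ℝ) := by
      refine (mass_cover _ (PP B Y X ×ˢ TJ B Y X j) gm ?_).trans ?_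
      · intro d hd
        rw [Finset.mem_image] at hd
        exact hd
      · have := mass_prod (PP B Y X) (TJ B Y X j) (fun p => p - 1)
        unfold gm
        rw [this, hcast]
        apply mul_le_mul_of_nonneg_right hσ
        exact Finset.sum_nonneg (fun _ _ => by positivity)
    calc ∑ d ∈ TJ B Y X j, 1 / (d : ℝ) + _ ≤ ∑ d ∈ TJ B Y X j, 1 / (d : ℝ) +
          σ * ∑ d ∈ TJ B Y X j, 1 / (d : ℝ) := by linarith only [h1]
      _ = (1 + σ) * ∑ d ∈ TJ B Y X j, 1 / (d : ℝ) := by ring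
      _ ≤ (1 + σ) * ((1 + σ) ^ j * Mx B Y) := mul_le_mul_of_nonneg_left ih (by linarith only [hσ0])
      _ = _ := by ring

lemma pred_le_of_dvd {m p B : ℕ} (hm : 1 ≤ m) (hp : p.Prime) (hpm : p ∣ m)
    (hB : Nat.totient m ≤ B) : p < B + 2 := by
  have h1 : p - 1 ∣ Nat.totient m := by
    have := Nat.totient_dvd_of_dvd hpm
    rwa [Nat.totient_prime hp] at this
  have h2 := Nat.le_of_dvd (Nat.totient_pos.mpr hm) h1
  omega

lemma mem_TJ (B : ℕ) (Y X : ℝ) (j : ℕ) : ∀ m : ℕ, 1 ≤ m → Nat.totient m ≤ B →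
    (∀ p : ℕ, p.Prime → p ∣ m → ll (p : ℝ) ≤ X) →
    (∀ p : ℕ, p.Prime → Y < ll (p : ℝ) → ¬ p * p ∣ m) →
    (Set.ncard {p : ℕ | p ∈ m.primeFactors ∧ Y < ll (p : ℝ)}) ≤ j →
    Nat.totient m ∈ TJ B Y X j := by
  classical
  induction j with
  | zero =>
    intro m hm hB hX hsq hcard
    have hfin : {p : ℕ | p ∈ m.primeFactors ∧ Y < ll (p : ℝ)}.Finite :=
      Set.Finite.subset m.primeFactors.finite_toSet (fun p hp => hp.1)
    have hem : {p : ℕ | p ∈ m.primeFactors ∧ Y < ll (p : ℝ)} = ∅ := by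
      rw [← Set.ncard_eq_zero hfin]; omega
    rw [TJ, mem_TT]
    refine ⟨⟨Nat.totient_pos.mpr hm, hB⟩, m, hm, rfl, ?_⟩
    intro p hp hpm
    by_contra hcon
    push Not at hcon
    have : p ∈ {p : ℕ | p ∈ m.primeFactors ∧ Y < ll (p : ℝ)} :=
      ⟨Nat.mem_primeFactors.mpr ⟨hp, hpm, by omega⟩, hcon⟩
    rw [hem] at this
    exact this
  | succ j ih =>
    intro m hm hB hX hsq hcard
    have hfin : ∀ m : ℕ, {p : ℕ | p ∈ m.primeFactors ∧ Y < ll (p : ℝ)}.Finite :=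
      fun m => Set.Finite.subset m.primeFactors.finite_toSet (fun p hp => hp.1)
    rw [TJ, Finset.mem_union]
    by_cases hex : ∃ p, p ∈ m.primeFactors ∧ Y < ll (p : ℝ)
    · right
      obtain ⟨p, hpm, hpY⟩ := hex
      have hp := Nat.prime_of_mem_primeFactors hpm
      obtain ⟨m', rfl⟩ := Nat.dvd_of_mem_primeFactors hpm
      have hm' : 1 ≤ m' := Nat.one_le_iff_ne_zero.mpr (by rintro rfl; simp at hm)
      have hnd : ¬ p ∣ m' := by
        intro hd
        exact hsq p hp hpY (mul_dvd_mul_left p hd)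
      have htot : Nat.totient (p * m') = (p - 1) * Nat.totient m' :=
        Nat.totient_mul_of_prime_of_not_dvd hp hnd
      have hp1 : 1 ≤ p - 1 := by have := hp.two_le; omega
      have hB' : Nat.totient m' ≤ B := by
        have : Nat.totient m' ≤ (p - 1) * Nat.totient m' := Nat.le_mul_of_pos_left _ hp1
        omega
      rw [Finset.mem_image]
      refine ⟨(p, Nat.totient m'), ?_, htot.symm⟩
      rw [Finset.mem_product]
      refine ⟨?_, ?_⟩
      · rw [mem_PP]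
        exact ⟨pred_le_of_dvd hm hp (dvd_mul_right p m') hB, hp, hpY,
          hX p hp (dvd_mul_right p m')⟩
      · apply ih m' hm' hB'
        · intro q hq hqm
          exact hX q hq (hqm.mul_left p)
        · intro q hq hqY hqq
          exact hsq q hq hqY (hqq.mul_left p)
        · have hss : {q : ℕ | q ∈ m'.primeFactors ∧ Y < ll (q : ℝ)} ⊂
              {q : ℕ | q ∈ (p * m').primeFactors ∧ Y < ll (q : ℝ)} := by
            refine ⟨?_, ?_⟩
            · intro q hq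
              refine ⟨?_, hq.2⟩
              rw [Nat.mem_primeFactors] at *
              exact ⟨(Nat.mem_primeFactors.mp hq.1).1, (Nat.mem_primeFactors.mp hq.1).2.1.mul_left p, by
                have := hpm.2.2; exact this⟩
            · intro hcon
              have := hcon (show p ∈ {q : ℕ | q ∈ (p * m').primeFactors ∧ Y < ll (q : ℝ)} from
                ⟨hpm, hpY⟩)
              exact hnd (Nat.dvd_of_mem_primeFactors this.1)
          have := Set.ncard_lt_ncard hss (hfin _)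
          omega
    · left
      apply ih m hm hB hX hsq
      have hem : {p : ℕ | p ∈ m.primeFactors ∧ Y < ll (p : ℝ)} = ∅ := by
        ext p
        simp only [Set.mem_ofPred_eq, Set.mem_empty_iff_false, iff_false]
        intro h
        exact hex ⟨p, h⟩
      rw [hem]
      simp

lemma PP_gt {B : ℕ} {Y X : ℝ} (hY : 2 ≤ Y) {p : ℕ} (hp : p ∈ PP B Y X) : 63 < p := by
  rw [mem_PP] at hp
  obtain ⟨-, hp1, hp2, -⟩ := hp
  by_contra hcon
  push Not at hcon
  have hp2' : (2 : ℝ) ≤ p := by exact_mod_cast hp1.two_le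
  have h1 : 0 < Real.log p := Real.log_pos (by linarith)
  have h2 : Real.exp 2 < Real.log p := by
    rw [← Real.exp_log h1]
    exact Real.exp_lt_exp.mpr (lt_of_le_of_lt hY hp2)
  have h3 : (1 : ℝ) + 2 + 2 ^ 2 / 2 ≤ Real.exp 2 := Real.quadratic_le_exp_of_nonneg (by norm_num)
  have h4 : Real.log p ≤ Real.log ((2 : ℝ) ^ 6) := by
    apply Real.log_le_log (by linarith only [hp2'])
    have : (p : ℝ) ≤ 63 := by exact_mod_cast hcon
    norm_num
    linarith only [hcon]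
  rw [Real.log_pow] at h4
  have h5 := Real.log_two_lt_d9
  push_cast at h4
  linarith only [h2, h4, h3, h5]

lemma PP_inv_sq (B : ℕ) (Y X : ℝ) (hY : 2 ≤ Y) :
    ∑ p ∈ PP B Y X, 1 / ((p * p : ℕ) : ℝ) ≤ 1 / 32 := by
  have h1 := sum_Ioo_inv_sq_le (α := ℝ) 63 (B + 2)
  have h2 : ∑ p ∈ PP B Y X, 1 / ((p * p : ℕ) : ℝ) ≤ ∑ i ∈ Finset.Ioo 63 (B + 2), ((i : ℝ) ^ 2)⁻¹ := by
    calc ∑ p ∈ PP B Y X, 1 / ((p * p : ℕ) : ℝ) = ∑ p ∈ PP B Y X, ((p : ℝ) ^ 2)⁻¹ := by
          apply Finset.sum_congr rfl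
          intro p _
          push_cast
          rw [one_div, pow_two]
      _ ≤ _ := by
          apply Finset.sum_le_sum_of_subset_of_nonneg
          · intro p hp
            rw [Finset.mem_Ioo]
            exact ⟨PP_gt hY hp, (mem_PP.mp hp).1⟩
          · intro _ _ _; positivity
  have h3 : (2 : ℝ) / ((63 : ℕ) + 1) = 1 / 32 := by norm_num
  rw [h3] at h1
  exact h2.trans h1

lemma PP_inv_sq' (B : ℕ) (Y X : ℝ) (hY : 2 ≤ Y) :
    ∑ p ∈ PP B Y X, 1 / ((p * (p - 1) : ℕ) : ℝ) ≤ 1 / 16 := by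
  have h1 := PP_inv_sq B Y X hY
  calc ∑ p ∈ PP B Y X, 1 / ((p * (p - 1) : ℕ) : ℝ) ≤ ∑ p ∈ PP B Y X, 2 * (1 / ((p * p : ℕ) : ℝ)) := by
        apply Finset.sum_le_sum
        intro p hp
        have hp1 := PP_gt hY hp
        have h2 : ((p - 1 : ℕ) : ℝ) = (p : ℝ) - 1 := by
          rw [Nat.cast_sub (by omega), Nat.cast_one]
        have h3 : (63 : ℝ) < p := by exact_mod_cast hp1
        push_cast
        rw [h2, ← mul_div_assoc, div_le_div_iff₀ (by nlinarith only [h3]) (by nlinarith only [h3])]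
        nlinarith only [h3]
    _ = 2 * ∑ p ∈ PP B Y X, (1 / ((p * p : ℕ) : ℝ)) := by rw [Finset.mul_sum]
    _ ≤ 1 / 16 := by linarith

lemma log19 : (3 : ℝ) / 5 ≤ Real.log (19 / 10) := by
  have h1 : Real.exp 3 ≤ (19 / 10 : ℝ) ^ 5 := by
    have h2 : Real.exp 3 = (Real.exp 1) ^ 3 := by
      rw [← Real.exp_nat_mul]; norm_num
    have h3 := Real.exp_one_lt_d9
    have h4 : (Real.exp 1) ^ 3 ≤ (2.7182818286 : ℝ) ^ 3 :=
      pow_le_pow_left₀ (Real.exp_pos 1).le h3.le 3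
    rw [h2]
    refine h4.trans ?_
    norm_num
  have h5 : (3 : ℝ) ≤ Real.log ((19 / 10 : ℝ) ^ 5) := by
    rw [Real.le_log_iff_exp_le (by positivity)]
    exact h1
  rw [Real.log_pow] at h5
  push_cast at h5
  linarith only [h5]

lemma A3_mass (C3 : ℝ)
    (hOm : ∀ (z : ℝ) (s : Finset ℕ), 3 ≤ z →
    (∀ n ∈ s, 1 ≤ n ∧ ∀ q : ℕ, q.Prime → q ∣ n → (q : ℝ) ≤ z) →
    ∑ n ∈ s, (19 / 10 : ℝ) ^ (Om n) / (n : ℝ) ≤ C3 * (Real.log z) ^ (19 / 10 : ℝ))
    (B : ℕ) (X : ℝ) (hX : 1 ≤ X) (s : Finset ℕ) (hs : ∀ d ∈ s, d ∈ TT B X ∧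
      81 / 25 * X ≤ (Om d : ℝ)) :
    ∑ d ∈ s, 1 / (d : ℝ) ≤ C3 * Real.exp (-(11 / 250 * X)) := by
  have hz3 : (3 : ℝ) ≤ Real.exp (Real.exp X) := by
    have h1 : (2 : ℝ) ≤ Real.exp X := by
      have := Real.add_one_le_exp X
      linarith
    have := Real.add_one_le_exp (Real.exp X)
    linarith
  have h1 := hOm (Real.exp (Real.exp X)) s hz3 (by
    intro d hd
    obtain ⟨h1, m, hm1, hm2, hm3⟩ := mem_TT.mp (hs d hd).1
    refine ⟨h1.1, ?_⟩
    intro q hq hqd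
    rw [← hm2] at hqd
    obtain ⟨p, hp, hpm, hqp⟩ := prime_dvd_totient (by omega) hq hqd
    have h4 := hm3 p hp hpm
    have hp2 : (2 : ℝ) ≤ p := by exact_mod_cast hp.two_le
    have h5 : 0 < Real.log p := Real.log_pos (by linarith only [hp2])
    have h6 : (p : ℝ) ≤ Real.exp (Real.exp X) := by
      rw [← Real.log_le_iff_le_exp (by linarith only [hp2]), ← Real.log_le_iff_le_exp h5]
      exact h4
    have h7 : (q : ℝ) ≤ p := by exact_mod_cast hqp
    linarith)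
  rw [Real.log_exp, ← Real.exp_mul] at h1
  have hl := log19
  calc ∑ d ∈ s, 1 / (d : ℝ) ≤ ∑ d ∈ s, Real.exp (-(243 / 125 * X)) *
        ((19 / 10 : ℝ) ^ (Om d) / (d : ℝ)) := by
        apply Finset.sum_le_sum
        intro d hd
        have h2 := (hs d hd).2
        have h3 : Real.exp (243 / 125 * X) ≤ (19 / 10 : ℝ) ^ (Om d) := by
          rw [← Real.rpow_natCast, Real.rpow_def_of_pos (by norm_num)]
          apply Real.exp_le_exp.mpr
          have : (3 : ℝ) / 5 * (Om d : ℝ) ≤ Real.log (19 / 10) * (Om d : ℝ) :=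
            mul_le_mul_of_nonneg_right hl (Nat.cast_nonneg _)
          linarith only [this, h2]
        have h4 : 1 ≤ Real.exp (-(243 / 125 * X)) * (19 / 10 : ℝ) ^ (Om d) := by
          calc (1 : ℝ) = Real.exp (-(243 / 125 * X)) * Real.exp (243 / 125 * X) := by
                rw [← Real.exp_add]; simp
            _ ≤ _ := mul_le_mul_of_nonneg_left h3 (Real.exp_pos _).le
        rw [← mul_div_assoc]
        exact div_le_div_of_nonneg_right h4 (Nat.cast_nonneg _)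
    _ = Real.exp (-(243 / 125 * X)) * ∑ d ∈ s, ((19 / 10 : ℝ) ^ (Om d) / (d : ℝ)) := by
        rw [Finset.mul_sum]
    _ ≤ Real.exp (-(243 / 125 * X)) * (C3 * Real.exp (X * (19 / 10))) :=
        mul_le_mul_of_nonneg_left h1 (Real.exp_pos _).le
    _ = C3 * Real.exp (-(11 / 250 * X)) := by
        rw [mul_left_comm, ← Real.exp_add]
        congr 2; ring

lemma rec_step : ∃ X0 : ℝ, 1 ≤ X0 ∧ ∀ (B : ℕ) (X : ℝ), 1 ≤ B → X0 ≤ X →
    Mx B X ≤ 3 * (1 + X) ^ 3 * Mx B (9 / 10 * X) := by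
  classical
  obtain ⟨c, C1, hc, hC1, hcn⟩ := cn_mass
  obtain ⟨C2, hC2, hinv⟩ := sum_inv_le
  obtain ⟨C3, hC3, hOm⟩ := sum_pow_Om (19 / 10) (by norm_num) (by norm_num)
  have e1 : ∀ᶠ X : ℝ in atTop, C1 * Real.exp (-(c * (9 / 10 * X))) ≤ 1 / 8 := by
    have h1 : Tendsto (fun X : ℝ => C1 * Real.exp (-(c * (9 / 10 * X)))) atTop (𝓝 (C1 * 0)) := by
      apply Tendsto.const_mul
      apply Real.tendsto_exp_neg_atTop_nhds_zero.comp
      have : Tendsto (fun X : ℝ => (c * (9 / 10)) * X) atTop atTop :=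
        tendsto_id.const_mul_atTop (by positivity)
      refine this.congr (fun X => by ring)
    rw [mul_zero] at h1
    exact (h1.eventually (ge_mem_nhds (by norm_num)))
  have e2 : ∀ᶠ X : ℝ in atTop, C3 * Real.exp (-(11 / 250 * X)) ≤ 1 := by
    have h1 : Tendsto (fun X : ℝ => C3 * Real.exp (-(11 / 250 * X))) atTop (𝓝 (C3 * 0)) := by
      apply Tendsto.const_mul
      apply Real.tendsto_exp_neg_atTop_nhds_zero.comp
      exact tendsto_id.const_mul_atTop (by norm_num)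
    rw [mul_zero] at h1
    exact (h1.eventually (ge_mem_nhds (by norm_num)))
  have e3 : ∀ᶠ X : ℝ in atTop, C2 ≤ 9 / 10 * X := by
    have : Tendsto (fun X : ℝ => (9 / 10) * X) atTop atTop :=
      tendsto_id.const_mul_atTop (by norm_num)
    exact this.eventually_ge_atTop C2
  obtain ⟨X0, hX0⟩ := (e1.and (e2.and (e3.and (eventually_ge_atTop 3)))).exists_forall_of_atTop
  refine ⟨max X0 1, le_max_right _ _, ?_⟩
  intro B X hB hX
  obtain ⟨h1, h2, h3, h4⟩ := hX0 X ((le_max_left _ _).trans hX)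
  set Y : ℝ := 9 / 10 * X with hY
  have hY2 : 2 ≤ Y := by rw [hY]; linarith only [h4]
  -- the covering sets
  set A1 : Finset ℕ := (PP B Y X ×ˢ TT B X).image (fun x : ℕ × ℕ => (x.1 * x.1) * x.2) with hA1
  set A1' : Finset ℕ := (PP B Y X ×ˢ TT B X).image (fun x : ℕ × ℕ => (x.1 * (x.1 - 1)) * x.2)
    with hA1'
  set Pb : Finset ℕ := (PP B Y X).filter (fun p => (Om (p - 1) : ℝ) < 9 / 10 * ll (p : ℝ)) with hPb
  set A2 : Finset ℕ := (Pb ×ˢ TT B X).image gm with hA2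
  set A3 : Finset ℕ := (TT B X).filter (fun d => 81 / 25 * X ≤ (Om d : ℝ)) with hA3
  have hcov : TT B X ⊆ ((A1 ∪ A1') ∪ A2) ∪ (A3 ∪ TJ B Y X 3) := by
    intro d hd
    obtain ⟨⟨hd1, hdB⟩, m, hm1, hm2, hm3⟩ := mem_TT.mp hd
    have hm0 : m ≠ 0 := by omega
    by_cases hq : ∃ p : ℕ, p.Prime ∧ Y < ll (p : ℝ) ∧ p * p ∣ m
    · -- square case
      obtain ⟨p, hp, hpY, m2, hm⟩ := hq
      have hpm : p ∣ m := ⟨p * m2, by rw [hm]; ring⟩
      have hm2pos : 1 ≤ m2 := Nat.one_le_iff_ne_zero.mpr (by rintro rfl; simp at hm; omega)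
      have hpP : p ∈ PP B Y X := mem_PP.mpr
        ⟨pred_le_of_dvd hm1 hp hpm (by omega), hp, hpY, hm3 p hp hpm⟩
      have hle : Nat.totient m2 ≤ Nat.totient m := by
        apply Nat.le_of_dvd (by omega)
        exact Nat.totient_dvd_of_dvd ⟨p * p, by rw [hm]; ring⟩
      have hmem : Nat.totient m2 ∈ TT B X := mem_TT.mpr
        ⟨⟨Nat.totient_pos.mpr hm2pos, by omega⟩, m2, hm2pos, rfl, fun q hq hqm =>
          hm3 q hq (by rw [hm]; exact hqm.mul_left _)⟩
      have ht1 : Nat.totient m = p * Nat.totient (p * m2) := by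
        rw [hm, mul_assoc]
        exact Nat.totient_mul_of_prime_of_dvd hp (dvd_mul_right p m2)
      apply Finset.mem_union_left
      apply Finset.mem_union_left
      by_cases hpm2 : p ∣ m2
      · apply Finset.mem_union_left
        rw [hA1, Finset.mem_image]
        refine ⟨(p, Nat.totient m2), Finset.mem_product.mpr ⟨hpP, hmem⟩, ?_⟩
        have ht2 := Nat.totient_mul_of_prime_of_dvd hp hpm2
        simp only
        rw [← hm2, ht1, ht2, mul_assoc]
      · apply Finset.mem_union_right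
        rw [hA1', Finset.mem_image]
        refine ⟨(p, Nat.totient m2), Finset.mem_product.mpr ⟨hpP, hmem⟩, ?_⟩
        have ht2 := Nat.totient_mul_of_prime_of_not_dvd hp hpm2
        simp only
        rw [← hm2, ht1, ht2, mul_assoc]
    · push Not at hq
      by_cases hb : ∃ p : ℕ, p.Prime ∧ p ∣ m ∧ Y < ll (p : ℝ) ∧
          (Om (p - 1) : ℝ) < 9 / 10 * ll (p : ℝ)
      · obtain ⟨p, hp, hpm, hpY, hpO⟩ := hb
        have hpP : p ∈ PP B Y X := mem_PP.mpr
          ⟨pred_le_of_dvd hm1 hp hpm (by omega), hp, hpY, hm3 p hp hpm⟩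
        obtain ⟨m', hm⟩ := hpm
        have hnd : ¬ p ∣ m' := by
          intro hd'
          apply hq p hp hpY
          rw [hm]
          exact mul_dvd_mul_left p hd'
        have hm'pos : 1 ≤ m' := Nat.one_le_iff_ne_zero.mpr (by rintro rfl; simp at hm; omega)
        have hle : Nat.totient m' ≤ Nat.totient m := by
          apply Nat.le_of_dvd (by omega)
          exact Nat.totient_dvd_of_dvd ⟨p, by rw [hm]; ring⟩
        have hmem : Nat.totient m' ∈ TT B X := mem_TT.mpr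
          ⟨⟨Nat.totient_pos.mpr hm'pos, by omega⟩, m', hm'pos, rfl, fun q hq hqm =>
            hm3 q hq (by rw [hm]; exact hqm.mul_left _)⟩
        apply Finset.mem_union_left
        apply Finset.mem_union_right
        rw [hA2, Finset.mem_image]
        refine ⟨(p, Nat.totient m'), Finset.mem_product.mpr ⟨?_, hmem⟩, ?_⟩
        · rw [hPb, Finset.mem_filter]
          exact ⟨hpP, hpO⟩
        · unfold gm
          simp only
          rw [← hm2, hm, Nat.totient_mul_of_prime_of_not_dvd hp hnd]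
      · push Not at hb
        apply Finset.mem_union_right
        by_cases hO : 81 / 25 * X ≤ (Om d : ℝ)
        · apply Finset.mem_union_left
          rw [hA3, Finset.mem_filter]
          exact ⟨hd, hO⟩
        · apply Finset.mem_union_right
          rw [← hm2]
          apply mem_TJ B Y X 3 m hm1 (by omega) hm3 hq
          by_contra hcon
          push Not at hcon hO
          apply absurd hO
          push Not
          set S : Finset ℕ := m.primeFactors.filter (fun p => Y < ll (p : ℝ)) with hS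
          have hScard : 4 ≤ S.card := by
            have : {p : ℕ | p ∈ m.primeFactors ∧ Y < ll (p : ℝ)} = (S : Set ℕ) := by
              ext p; simp [hS]
            rw [this, Set.ncard_coe_finset] at hcon
            omega
          have hOmle : ((∑ p ∈ m.primeFactors, Om (p - 1) : ℕ) : ℝ) ≤ (Om d : ℝ) := by
            rw [← hm2]
            exact_mod_cast Om_totient hm0
          have hsub : ((∑ p ∈ S, Om (p - 1) : ℕ) : ℝ) ≤
              ((∑ p ∈ m.primeFactors, Om (p - 1) : ℕ) : ℝ) := by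
            exact_mod_cast Finset.sum_le_sum_of_subset (Finset.filter_subset _ _)
          have hlow : (S.card : ℝ) * (81 / 100 * X) ≤ ((∑ p ∈ S, Om (p - 1) : ℕ) : ℝ) := by
            rw [← nsmul_eq_mul]
            push_cast
            apply Finset.card_nsmul_le_sum
            intro p hp
            rw [hS, Finset.mem_filter] at hp
            have h5 := hb p (Nat.prime_of_mem_primeFactors hp.1) (Nat.dvd_of_mem_primeFactors hp.1)
              hp.2
            have h6 := hp.2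
            rw [hY] at h6
            linarith only [hp, h5, hY]
          have h7 : (4 : ℝ) ≤ (S.card : ℝ) := by exact_mod_cast hScard
          have h8 : 0 ≤ 81 / 100 * X := by linarith only [h4]
          nlinarith only [h7, hsub, hOmle, hlow]
  -- masses
  have hM0 := Mx_nonneg B X
  have hm1 : ∑ d ∈ A1, 1 / (d : ℝ) ≤ 1 / 32 * Mx B X := by
    refine (mass_cover A1 (PP B Y X ×ˢ TT B X) (fun x : ℕ × ℕ => (x.1 * x.1) * x.2) ?_).trans ?_
    · intro d hd
      exact Finset.mem_image.mp hd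
    · have := mass_prod (PP B Y X) (TT B X) (fun p => p * p)
      rw [this]
      exact mul_le_mul_of_nonneg_right (PP_inv_sq B Y X hY2) hM0
  have hm1' : ∑ d ∈ A1', 1 / (d : ℝ) ≤ 1 / 16 * Mx B X := by
    refine (mass_cover A1' (PP B Y X ×ˢ TT B X)
      (fun x : ℕ × ℕ => (x.1 * (x.1 - 1)) * x.2) ?_).trans ?_
    · intro d hd
      exact Finset.mem_image.mp hd
    · have := mass_prod (PP B Y X) (TT B X) (fun p => p * (p - 1))
      rw [this]
      exact mul_le_mul_of_nonneg_right (PP_inv_sq' B Y X hY2) hM0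
  have hcast : ∀ Q : Finset ℕ, Q ⊆ PP B Y X →
      ∑ p ∈ Q, 1 / ((p - 1 : ℕ) : ℝ) = ∑ p ∈ Q, 1 / ((p : ℝ) - 1) := by
    intro Q hQ
    apply Finset.sum_congr rfl
    intro p hp
    have := mem_PP.mp (hQ hp)
    rw [Nat.cast_sub this.2.1.one_lt.le, Nat.cast_one]
  have hm2 : ∑ d ∈ A2, 1 / (d : ℝ) ≤ 1 / 8 * Mx B X := by
    refine (mass_cover A2 (Pb ×ˢ TT B X) gm ?_).trans ?_
    · intro d hd
      exact Finset.mem_image.mp hd
    · have := mass_prod Pb (TT B X) (fun p => p - 1)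
      unfold gm
      rw [this, hcast Pb (Finset.filter_subset _ _)]
      apply mul_le_mul_of_nonneg_right _ hM0
      refine (hcn Y Pb (by linarith only [hY, h4]) ?_).trans h1
      intro p hp
      rw [hPb, Finset.mem_filter] at hp
      have := mem_PP.mp hp.1
      exact ⟨this.2.1, this.2.2.1.le, hp.2⟩
  have hm3 : ∑ d ∈ A3, 1 / (d : ℝ) ≤ 1 := by
    refine (A3_mass C3 hOm B X (by linarith only [h4]) A3 ?_).trans h2
    intro d hd
    rw [hA3, Finset.mem_filter] at hd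
    exact hd
  have hσ : ∑ p ∈ PP B Y X, 1 / ((p : ℝ) - 1) ≤ X := by
    refine (hinv Y X (PP B Y X) (by linarith only [hY, h4]) (by rw [hY]; linarith only [h4]) ?_).trans ?_
    · intro p hp
      have := mem_PP.mp hp
      exact ⟨this.2.1, this.2.2.1.le, this.2.2.2⟩
    · linarith only [h3]
  have hm4 := mass_TJ B Y X X hσ 3
  have htot : Mx B X ≤ ∑ d ∈ A1, 1 / (d : ℝ) + ∑ d ∈ A1', 1 / (d : ℝ) + ∑ d ∈ A2, 1 / (d : ℝ) +
      (∑ d ∈ A3, 1 / (d : ℝ) + ∑ d ∈ TJ B Y X 3, 1 / (d : ℝ)) := by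
    calc Mx B X ≤ ∑ d ∈ ((A1 ∪ A1') ∪ A2) ∪ (A3 ∪ TJ B Y X 3), 1 / (d : ℝ) :=
          Finset.sum_le_sum_of_subset_of_nonneg hcov (fun _ _ _ => by positivity)
      _ ≤ _ := by
          have g1 := mass_union ((A1 ∪ A1') ∪ A2) (A3 ∪ TJ B Y X 3)
          have g2 := mass_union (A1 ∪ A1') A2
          have g3 := mass_union A1 A1'
          have g4 := mass_union A3 (TJ B Y X 3)
          linarith only [g3, g4, g2, g1]
  have hMY := one_le_Mx hB Y
  have hcube : 1 ≤ (1 + X) ^ 3 := one_le_pow₀ (by linarith only [h4])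
  have h5 : 1 ≤ (1 + X) ^ 3 * Mx B Y := by nlinarith only [hcube, hMY]
  linarith only [hm1, h5, htot, hm2, hm1', hm4, hm3]

lemma Mx_base (X0 : ℝ) (hX0 : 1 ≤ X0) : ∃ C0 : ℝ, 1 ≤ C0 ∧ ∀ B, Mx B X0 ≤ C0 := by
  obtain ⟨C, hC, h⟩ := sum_pow_Om 1 (by norm_num) (by norm_num)
  refine ⟨max 1 (C * (Real.exp X0) ^ (1 : ℝ)), le_max_left _ _, ?_⟩
  intro B
  refine le_trans ?_ (le_max_right _ _)
  have hz3 : (3 : ℝ) ≤ Real.exp (Real.exp X0) := by
    have h1 : (2 : ℝ) ≤ Real.exp X0 := by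
      have := Real.add_one_le_exp X0
      linarith
    have := Real.add_one_le_exp (Real.exp X0)
    linarith
  have h1 := h (Real.exp (Real.exp X0)) (TT B X0) hz3 (by
    intro d hd
    obtain ⟨h1, m, hm1, hm2, hm3⟩ := mem_TT.mp hd
    refine ⟨h1.1, ?_⟩
    intro q hq hqd
    rw [← hm2] at hqd
    obtain ⟨p, hp, hpm, hqp⟩ := prime_dvd_totient (by omega) hq hqd
    have h4 := hm3 p hp hpm
    have hp2 : (2 : ℝ) ≤ p := by exact_mod_cast hp.two_le
    have h5 : 0 < Real.log p := Real.log_pos (by linarith only [hp2])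
    have h6 : (p : ℝ) ≤ Real.exp (Real.exp X0) := by
      rw [← Real.log_le_iff_le_exp (by linarith only [hp2]), ← Real.log_le_iff_le_exp h5]
      exact h4
    have h7 : (q : ℝ) ≤ p := by exact_mod_cast hqp
    linarith)
  rw [Real.log_exp] at h1
  refine le_trans (le_of_eq ?_) h1
  unfold Mx
  apply Finset.sum_congr rfl
  intro d _
  rw [one_pow]

lemma Mx_iter (X0 C0 : ℝ) (hX0 : 1 ≤ X0)
    (h : ∀ (B : ℕ) (X : ℝ), 1 ≤ B → X0 ≤ X → Mx B X ≤ 3 * (1 + X) ^ 3 * Mx B (9 / 10 * X))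
    (hC0 : 1 ≤ C0) (hbase : ∀ B, Mx B X0 ≤ C0) (B : ℕ) (hB : 1 ≤ B) :
    ∀ (n : ℕ) (X : ℝ), 0 ≤ X → (9 / 10 : ℝ) ^ n * X ≤ X0 → Mx B X ≤ (3 * (1 + X) ^ 3) ^ n * C0 := by
  intro n
  induction n with
  | zero =>
    intro X _ hX
    rw [pow_zero, one_mul] at hX ⊢
    exact (Mx_mono B hX).trans (hbase B)
  | succ n ih =>
    intro X hX0' hX
    have hge1 : 1 ≤ 3 * (1 + X) ^ 3 := by
      have : 1 ≤ (1 + X) ^ 3 := one_le_pow₀ (by linarith only [hX0'])
      linarith only [this]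
    rcases le_or_gt X X0 with hle | hgt
    · refine ((Mx_mono B hle).trans (hbase B)).trans ?_
      have : 1 ≤ (3 * (1 + X) ^ 3) ^ (n + 1) := one_le_pow₀ hge1
      linarith only [mul_nonneg (sub_nonneg.2 this) (sub_nonneg.2 hC0), this]
    · have h1 := h B X hB hgt.le
      have h2 := ih (9 / 10 * X) (by linarith only [hX0, hgt]) (by rw [← mul_assoc, ← pow_succ]; exact hX)
      have h3 : (3 * (1 + 9 / 10 * X) ^ 3) ^ n ≤ (3 * (1 + X) ^ 3) ^ n := by
        apply pow_le_pow_left₀ (by positivity)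
        have : (1 + 9 / 10 * X) ^ 3 ≤ (1 + X) ^ 3 := pow_le_pow_left₀ (by linarith only [hX0, hgt]) (by linarith only [hX0, hgt]) 3
        linarith only [this]
      calc Mx B X ≤ 3 * (1 + X) ^ 3 * Mx B (9 / 10 * X) := h1
        _ ≤ 3 * (1 + X) ^ 3 * ((3 * (1 + X) ^ 3) ^ n * C0) := by
            apply mul_le_mul_of_nonneg_left _ (by linarith only [hge1])
            exact h2.trans (mul_le_mul_of_nonneg_right h3 (by linarith only [hC0]))
        _ = (3 * (1 + X) ^ 3) ^ (n + 1) * C0 := by ring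

lemma Mx_final : ∀ᶠ M : ℕ in atTop, ∀ B : ℕ, 1 ≤ B → Mx B (6 * (M : ℝ) ^ 20) ≤ Real.exp M := by
  obtain ⟨X0, hX0, hrec⟩ := rec_step
  obtain ⟨C0, hC0, hbase⟩ := Mx_base X0 hX0
  have hsq : Tendsto (fun M : ℕ => Nat.sqrt M) atTop atTop := by
    rw [tendsto_atTop]
    intro b
    filter_upwards [eventually_ge_atTop (b * b)] with M hM
    exact Nat.le_sqrt.mpr hM
  -- eventual inequalities in `n`
  have e1 : ∀ᶠ n : ℕ in atTop, (9 / 10 : ℝ) ^ n * (6 * ((n : ℝ) + 1) ^ 40) ≤ X0 := by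
    have h1 : Tendsto (fun n : ℕ => ((n : ℝ)) ^ 40 * (9 / 10 : ℝ) ^ n) atTop (𝓝 0) :=
      tendsto_pow_const_mul_const_pow_of_abs_lt_one 40 (by rw [abs_of_pos] <;> norm_num)
    have h2 := h1.comp (tendsto_add_atTop_nat 1)
    have h3 : Tendsto (fun n : ℕ => 6 * (10 / 9) * ((((n + 1 : ℕ)) : ℝ) ^ 40 *
        (9 / 10 : ℝ) ^ (n + 1))) atTop (𝓝 (6 * (10 / 9) * 0)) := h2.const_mul _
    rw [mul_zero] at h3
    have h4 := h3.eventually (ge_mem_nhds (show (0 : ℝ) < X0 by linarith))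
    filter_upwards [h4] with n hn
    refine le_trans (le_of_eq ?_) hn
    push_cast
    rw [pow_succ]
    ring
  have e2 : ∀ᶠ n : ℕ in atTop, 3 * (1 + 6 * ((n : ℝ) + 1) ^ 40) ^ 3 * C0 ≤ Real.exp n := by
    have h1 := (Real.tendsto_exp_div_pow_atTop 120).comp
      (tendsto_natCast_atTop_atTop (R := ℝ) |>.comp (tendsto_add_atTop_nat 1))
    have h2 := h1.eventually_ge_atTop (3 * 7 ^ 3 * C0 * Real.exp 1)
    filter_upwards [h2] with n hn
    simp only [Function.comp_apply] at hn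
    have hn1 : (1 : ℝ) ≤ (n : ℝ) + 1 := by
      have : (0 : ℝ) ≤ n := Nat.cast_nonneg n
      linarith
    have hp : (1 : ℝ) ≤ ((n : ℝ) + 1) ^ 40 := one_le_pow₀ hn1
    push_cast at hn
    rw [le_div_iff₀ (by positivity), Real.exp_add] at hn
    have h120 : ((n : ℝ) + 1) ^ 120 = (((n : ℝ) + 1) ^ 40) ^ 3 := by rw [← pow_mul]
    rw [h120] at hn
    generalize ((n : ℝ) + 1) ^ 40 = A at hn hp ⊢
    have h3 : (1 + 6 * A) ^ 3 ≤ (7 * A) ^ 3 := by
      apply pow_le_pow_left₀ (by positivity)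
      linarith only [hp]
    have h4 : 3 * (1 + 6 * A) ^ 3 * C0 ≤ 3 * 7 ^ 3 * C0 * A ^ 3 := by
      calc 3 * (1 + 6 * A) ^ 3 * C0 ≤ 3 * (7 * A) ^ 3 * C0 := by
            apply mul_le_mul_of_nonneg_right _ (by linarith only [hC0])
            linarith only [h3]
        _ = _ := by ring
    have he : 0 < Real.exp 1 := Real.exp_pos 1
    have h5 : 3 * 7 ^ 3 * C0 * A ^ 3 * Real.exp 1 ≤ Real.exp n * Real.exp 1 := by
      calc _ = 3 * 7 ^ 3 * C0 * Real.exp 1 * A ^ 3 := by ring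
        _ ≤ _ := hn
    exact h4.trans (le_of_mul_le_mul_right h5 he)
  filter_upwards [hsq.eventually e1, hsq.eventually e2, eventually_ge_atTop 1] with M h1 h2 h3 B hB
  set n : ℕ := Nat.sqrt M with hn
  have hn1 : 1 ≤ n := Nat.le_sqrt.mpr (by omega)
  have hM1 : (M : ℝ) ≤ ((n : ℝ) + 1) ^ 2 := by
    have := Nat.lt_succ_sqrt M
    have h4 : M ≤ (n + 1) * (n + 1) := this.le
    rw [pow_two]
    exact_mod_cast h4
  have hM2 : ((n : ℝ)) * n ≤ M := by
    exact_mod_cast Nat.sqrt_le M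
  have hX : 6 * (M : ℝ) ^ 20 ≤ 6 * ((n : ℝ) + 1) ^ 40 := by
    have : (M : ℝ) ^ 20 ≤ (((n : ℝ) + 1) ^ 2) ^ 20 := pow_le_pow_left₀ (Nat.cast_nonneg _) hM1 20
    have h40 : (((n : ℝ) + 1) ^ 2) ^ 20 = ((n : ℝ) + 1) ^ 40 := by rw [← pow_mul]
    rw [h40] at this
    exact mul_le_mul_of_nonneg_left this (by norm_num)
  have hA0 : (0 : ℝ) ≤ ((n : ℝ) + 1) ^ 40 := by positivity
  generalize ((n : ℝ) + 1) ^ 40 = A at h1 h2 hX hA0
  have h4 := Mx_iter X0 C0 hX0 hrec hC0 hbase B hB n (6 * A) (by positivity) h1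
  have hR : 0 ≤ 3 * (1 + 6 * A) ^ 3 := by positivity
  generalize 3 * (1 + 6 * A) ^ 3 = R at h4 h2 hR
  calc Mx B (6 * (M : ℝ) ^ 20) ≤ Mx B (6 * A) := Mx_mono B hX
    _ ≤ R ^ n * C0 := h4
    _ ≤ R ^ n * C0 ^ n := by
        apply mul_le_mul_of_nonneg_left _ (by positivity)
        exact le_self_pow₀ hC0 (by omega)
    _ = (R * C0) ^ n := by rw [mul_pow]
    _ ≤ (Real.exp n) ^ n := pow_le_pow_left₀ (by positivity) h2 n
    _ = Real.exp (n * n) := by rw [← Real.exp_nat_mul]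
    _ ≤ Real.exp M := Real.exp_le_exp.mpr hM2

end Crude

theorem cm : ∀ᶠ M : ℕ in atTop, ∀ (x : ℝ) (s : Finset ℕ), ll x ≤ 5 * (M : ℝ) ^ 20 →
    (∀ d ∈ s, IsTot d ∧ (d : ℝ) ≤ x) → ∑ d ∈ s, 1 / (d : ℝ) ≤ Real.exp (M : ℝ) := by
  filter_upwards [Mx_final, eventually_ge_atTop 1] with M hM hM1 x s hx hs
  rcases Finset.eq_empty_or_nonempty s with rfl | ⟨d0, hd0⟩
  · simp
    exact (Real.exp_pos _).le
  have hpos : ∀ d ∈ s, 1 ≤ d := by
    intro d hd
    obtain ⟨n, hn, rfl⟩ := (hs d hd).1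
    exact Nat.totient_pos.mpr hn
  have hx1 : 1 ≤ x := by
    have h1 := hpos d0 hd0
    have h2 : (1 : ℝ) ≤ d0 := by exact_mod_cast h1
    exact h2.trans (hs d0 hd0).2
  have hB : 1 ≤ ⌊x⌋₊ := by
    rw [Nat.one_le_floor_iff]
    exact hx1
  have hMr : (1 : ℝ) ≤ (M : ℝ) ^ 20 := one_le_pow₀ (by exact_mod_cast hM1)
  refine le_trans ?_ (hM ⌊x⌋₊ hB)
  apply Finset.sum_le_sum_of_subset_of_nonneg _ (fun _ _ _ => by positivity)
  intro d hd
  rw [mem_TT]
  obtain ⟨⟨m, hm1, hm2⟩, hdx⟩ := hs d hd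
  refine ⟨⟨hpos d hd, Nat.le_floor hdx⟩, m, hm1, hm2, ?_⟩
  intro p hp hpm
  have h1 : p - 1 ≤ d := by
    have h2 : p - 1 ∣ Nat.totient m := by
      have := Nat.totient_dvd_of_dvd hpm
      rwa [Nat.totient_prime hp] at this
    rw [← hm2]
    exact Nat.le_of_dvd (Nat.totient_pos.mpr hm1) h2
  have hp2 : (2 : ℝ) ≤ p := by exact_mod_cast hp.two_le
  have hpx : (p : ℝ) ≤ x + 1 := by
    have h3 : p ≤ d + 1 := by omega
    have h4 : (p : ℝ) ≤ (d : ℝ) + 1 := by exact_mod_cast h3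
    linarith only [h4, hdx]
  have hlogp : 0 < Real.log p := Real.log_pos (by linarith only [hp2])
  have hl2 : Real.log 2 ≤ 1 := by
    have := Real.log_two_lt_d9
    linarith only [this]
  rcases le_or_gt 3 x with h3 | h3
  · have hlx : 0 < Real.log x := Real.log_pos (by linarith only [h3])
    have h4 : Real.log p ≤ 2 * Real.log x := by
      have : Real.log p ≤ Real.log (x ^ 2) := Real.log_le_log (by linarith only [hp2]) (by nlinarith only [hpx, h3])
      rw [Real.log_pow] at this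
      push_cast at this
      exact this
    have h5 : ll p ≤ Real.log 2 + ll x := by
      unfold ll
      rw [← Real.log_mul (by norm_num) hlx.ne']
      exact Real.log_le_log hlogp h4
    linarith only [hMr, h5, hl2, hx]
  · have h4 : Real.log p ≤ 2 := by
      have h5 := Real.log_le_sub_one_of_pos (show (0 : ℝ) < p / 2 by linarith only [hp2])
      rw [Real.log_div (by linarith only [hp2]) (by norm_num)] at h5
      linarith only [h5, hpx, hl2, h3]
    have h5 : ll p ≤ Real.log 2 := Real.log_le_log hlogp h4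
    linarith only [hMr, h5, hl2]

/-! ### crude counting bound -/

namespace Crude

/-- Chebyshev upper bound -/
lemma cheb (y : ℝ) (hy : 2 ≤ y) (s : Finset ℕ) (hs : ∀ p ∈ s, p.Prime ∧ (p : ℝ) ≤ y) :
    (s.card : ℝ) ≤ 5 * y / Real.log y := by
  have h1 := Chebyshev.pi_le_log4_mul_div (x := y) (by linarith)
  have h2 : s.card ≤ Nat.primeCounting ⌊y⌋₊ := by
    rw [Nat.primeCounting, Nat.primeCounting', Nat.count_eq_card_filter_range]
    apply Finset.card_le_card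
    intro p hp
    rw [Finset.mem_filter, Finset.mem_range]
    exact ⟨Nat.lt_succ_of_le (Nat.le_floor (hs p hp).2), (hs p hp).1⟩
  have h3 : (s.card : ℝ) ≤ (Nat.primeCounting ⌊y⌋₊ : ℝ) := by exact_mod_cast h2
  have hly : 0 < Real.log y := Real.log_pos (by linarith)
  have hsq : Real.log (√y) = Real.log y / 2 := Real.log_sqrt (by linarith only [hy])
  have hsy : 0 < √y := Real.sqrt_pos.mpr (by linarith)
  have h4 : Real.log y ≤ 2 * √y := by
    have := Real.log_le_sub_one_of_pos hsy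
    rw [hsq] at this
    linarith only [this]
  have h5 : √y ≤ 2 * y / Real.log y := by
    rw [le_div_iff₀ hly]
    have : √y * √y = y := Real.mul_self_sqrt (by linarith)
    (by_contra nlg; linarith [mul_eq_zero_of_left (sub_eq_zero.2 this) (√y - (0)), mul_pos (sub_pos.2 (not_le.1 nlg)) (sub_pos.2 hsy), mul_nonneg (mul_self_nonneg (√y : ℝ)) (sub_nonneg.2 h4)])
  have h6 : Real.log 4 * y / Real.log (√y) ≤ 3 * y / Real.log y := by
    rw [hsq]
    have h7 : Real.log 4 = 2 * Real.log 2 := by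
      rw [show (4 : ℝ) = 2 ^ 2 by norm_num, Real.log_pow]; norm_num
    have h8 := Real.log_two_lt_d9
    rw [h7, div_div_eq_mul_div]
    apply div_le_div_of_nonneg_right _ hly.le
    nlinarith only [hy, h8]
  have h9 : 5 * y / Real.log y = 3 * y / Real.log y + 2 * y / Real.log y := by ring
  rw [h9]
  linarith only [h1, h6, h5, h3]

lemma prod_list_le (Y : ℝ) (hY : 0 ≤ Y) : ∀ l : List ℕ, (∀ q ∈ l, (q : ℝ) ≤ Y) →
    ((l.prod : ℕ) : ℝ) ≤ Y ^ l.length := by
  intro l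
  induction l with
  | nil => intro _; simp
  | cons a l ih =>
    intro h
    rw [List.prod_cons, List.length_cons, pow_succ, mul_comm (Y ^ _), Nat.cast_mul]
    have h1 := ih (fun q hq => h q (List.mem_cons_of_mem _ hq))
    exact mul_le_mul (h a List.mem_cons_self) h1 (Nat.cast_nonneg _) hY

/-- a large prime factor -/
lemma exists_large_prime {v : ℕ} (hv : v ≠ 0) (Y : ℝ) (hY : 1 ≤ Y) (T : ℕ) (hT : Om v ≤ T)
    (h : Y ^ T < v) : ∃ q : ℕ, q.Prime ∧ q ∣ v ∧ Y < q := by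
  by_contra hcon
  push Not at hcon
  have h1 := prod_list_le Y (by linarith) v.primeFactorsList (fun q hq => by
    exact hcon q (Nat.prime_of_mem_primeFactorsList hq) (Nat.dvd_of_mem_primeFactorsList hq))
  rw [Nat.prod_primeFactorsList hv] at h1
  have h2 : Y ^ (Om v) ≤ Y ^ T := pow_le_pow_right₀ hY hT
  have : Y ^ v.primeFactorsList.length = Y ^ (Om v) := rfl
  rw [this] at h1
  linarith

open Classical in
/-- totients up to `z` -/
noncomputable def WW (z : ℝ) : Finset ℕ := (Finset.Icc 1 ⌊z⌋₊).filter IsTot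

lemma mem_WW {z : ℝ} (hz : 0 ≤ z) {v : ℕ} : v ∈ WW z ↔ IsTot v ∧ (v : ℝ) ≤ z := by
  classical
  unfold WW
  rw [Finset.mem_filter, Finset.mem_Icc, Nat.le_floor_iff hz]
  constructor
  · rintro ⟨⟨_, h1⟩, h2⟩
    exact ⟨h2, h1⟩
  · rintro ⟨h1, h2⟩
    refine ⟨⟨?_, h2⟩, h1⟩
    obtain ⟨n, hn, rfl⟩ := h1
    exact Nat.totient_pos.mpr hn

lemma V_eq {z : ℝ} (hz : 0 ≤ z) : V z = (WW z).card := by
  unfold V
  have : {v : ℕ | IsTot v ∧ (v : ℝ) ≤ z} = (WW z : Set ℕ) := by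
    ext v
    rw [Finset.mem_coe, mem_WW hz]
    rfl
  rw [this, Set.ncard_coe_finset]

/-- structure of totients with a large prime factor -/
lemma tot_split {v q : ℕ} (hv : IsTot v) (hq : q.Prime) (hqv : q ∣ v) :
    (∃ p : ℕ, p.Prime ∧ q ≤ p ∧ p * (p - 1) ∣ v) ∨
      (∃ p d : ℕ, p.Prime ∧ q ≤ p ∧ IsTot d ∧ v = (p - 1) * d) := by
  obtain ⟨n, hn, rfl⟩ := hv
  obtain ⟨p, hp, ⟨m, rfl⟩, hqp⟩ := prime_dvd_totient (by omega) hq hqv
  by_cases hpm : p ∣ m
  · left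
    refine ⟨p, hp, hqp, ?_⟩
    have h1 : p * p ∣ p * m := mul_dvd_mul_left p hpm
    have h2 := Nat.totient_dvd_of_dvd h1
    rwa [Nat.totient_mul_of_prime_of_dvd hp dvd_rfl, Nat.totient_prime hp] at h2
  · right
    refine ⟨p, Nat.totient m, hp, hqp, ⟨m, ?_, rfl⟩,
      Nat.totient_mul_of_prime_of_not_dvd hp hpm⟩
    exact Nat.one_le_iff_ne_zero.mpr (by rintro rfl; simp at hn)

/-- number of integers `≤ z` divisible by `p (p-1)` for some prime `p > Y` -/
lemma W3_card (z Y : ℝ) (hz : 0 ≤ z) (hY : 2 ≤ Y) (s : Finset ℕ)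
    (hs : ∀ v ∈ s, 1 ≤ v ∧ (v : ℝ) ≤ z ∧ ∃ p : ℕ, p.Prime ∧ Y < (p : ℝ) ∧ p * (p - 1) ∣ v) :
    (s.card : ℝ) ≤ z * (2 / Y) := by
  classical
  set Q : Finset ℕ := (Finset.range (⌊z⌋₊ + 2)).filter (fun p => p.Prime ∧ Y < (p : ℝ)) with hQ
  set g : (Σ _ : ℕ, ℕ) → ℕ := fun x => x.1 * (x.1 - 1) * x.2 with hg
  have hsub : s ⊆ (Q.sigma (fun p => Finset.Icc 1 ⌊z / ((p : ℝ) * ((p : ℝ) - 1))⌋₊)).image g := by
    intro v hv
    obtain ⟨hv1, hvz, p, hp, hpY, k, hk⟩ := hs v hv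
    have hp2 := hp.two_le
    have hpr : (2 : ℝ) ≤ p := by exact_mod_cast hp2
    have hk1 : 1 ≤ k := Nat.one_le_iff_ne_zero.mpr (by rintro rfl; simp at hk; omega)
    have hvk : (v : ℝ) = (p : ℝ) * ((p : ℝ) - 1) * k := by
      rw [hk]; push_cast [Nat.cast_sub hp.one_lt.le]; ring
    rw [Finset.mem_image]
    refine ⟨⟨p, k⟩, ?_, hk.symm⟩
    rw [Finset.mem_sigma]
    refine ⟨?_, ?_⟩
    · rw [hQ, Finset.mem_filter, Finset.mem_range]
      refine ⟨?_, hp, hpY⟩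
      have h1 : p ≤ v := by
        rw [hk]
        calc p = p * 1 * 1 := by ring
          _ ≤ p * (p - 1) * k := Nat.mul_le_mul (Nat.mul_le_mul_left p (by omega)) hk1
      have h2 : p ≤ ⌊z⌋₊ := h1.trans (Nat.le_floor hvz)
      change p < ⌊z⌋₊ + 2
      omega
    · rw [Finset.mem_Icc]
      refine ⟨hk1, Nat.le_floor ?_⟩
      rw [le_div_iff₀ (mul_pos (by linarith only [hpY, hY]) (by linarith only [hpY, hY]))]
      linarith only [hvz, hvk]
  have h1 : s.card ≤ ∑ p ∈ Q, ⌊z / ((p : ℝ) * ((p : ℝ) - 1))⌋₊ := by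
    refine (Finset.card_le_card hsub).trans (Finset.card_image_le.trans ?_)
    rw [Finset.card_sigma]
    apply le_of_eq
    apply Finset.sum_congr rfl
    intro p _
    rw [Nat.card_Icc]; omega
  have hYc : 2 ≤ ⌈Y⌉₊ := by
    have := Nat.le_ceil Y
    have h2 : (2 : ℝ) ≤ ⌈Y⌉₊ := hY.trans this
    exact_mod_cast h2
  have h2 := sum_inv_mul_pred_le Q ⌈Y⌉₊ hYc (fun p hp => by
    rw [hQ, Finset.mem_filter] at hp
    exact Nat.ceil_le.mpr hp.2.2.le)
  have h3 : (1 : ℝ) / ((⌈Y⌉₊ : ℝ) - 1) ≤ 2 / Y := by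
    have := Nat.le_ceil Y
    rw [div_le_div_iff₀ (by linarith only [this, hY]) (by linarith only [hY])]
    linarith only [this, hY]
  calc (s.card : ℝ) ≤ ((∑ p ∈ Q, ⌊z / ((p : ℝ) * ((p : ℝ) - 1))⌋₊ : ℕ) : ℝ) := by exact_mod_cast h1
    _ = ∑ p ∈ Q, (⌊z / ((p : ℝ) * ((p : ℝ) - 1))⌋₊ : ℝ) := by push_cast; rfl
    _ ≤ ∑ p ∈ Q, z * (1 / ((p : ℝ) * ((p : ℝ) - 1))) := by
        apply Finset.sum_le_sum
        intro p hp
        rw [hQ, Finset.mem_filter] at hp
        have hpr : (2 : ℝ) ≤ p := by exact_mod_cast hp.2.1.two_le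
        have : 0 ≤ z / ((p : ℝ) * ((p : ℝ) - 1)) :=
          div_nonneg hz (mul_nonneg (by linarith only []) (by linarith only [hp, hY]))
        refine (Nat.floor_le this).trans (le_of_eq ?_)
        ring
    _ = z * ∑ p ∈ Q, (1 / ((p : ℝ) * ((p : ℝ) - 1))) := by rw [Finset.mul_sum]
    _ ≤ z * (2 / Y) := mul_le_mul_of_nonneg_left (h2.trans h3) hz

/-- number of products `(p-1) d ≤ z`, `p > Y` prime, `d ∈ D` -/
lemma W4_card (z Y m : ℝ) (hz0 : 0 ≤ z) (hY : 3 ≤ Y) (D s : Finset ℕ)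
    (hD : ∀ d ∈ D, 1 ≤ d ∧ (d : ℝ) ≤ z) (hm : ∑ d ∈ D, 1 / (d : ℝ) ≤ m)
    (hs : ∀ v ∈ s, (v : ℝ) ≤ z ∧ ∃ p d : ℕ, p.Prime ∧ Y < (p : ℝ) ∧ d ∈ D ∧ v = (p - 1) * d) :
    (s.card : ℝ) ≤ 10 * z / Real.log Y * m := by
  classical
  set g : (Σ _ : ℕ, ℕ) → ℕ := fun x => (x.2 - 1) * x.1 with hg
  set R : ℕ → Finset ℕ := fun d => (Finset.range (⌊z / d + 1⌋₊ + 1)).filter
    (fun p => p.Prime ∧ Y < (p : ℝ)) with hR
  have hlY : 0 < Real.log Y := Real.log_pos (by linarith only [hY])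
  have hsub : s ⊆ (D.sigma R).image g := by
    intro v hv
    obtain ⟨hvz, p, d, hp, hpY, hd, hvd⟩ := hs v hv
    rw [Finset.mem_image]
    refine ⟨⟨d, p⟩, ?_, hvd.symm⟩
    rw [Finset.mem_sigma]
    refine ⟨hd, ?_⟩
    simp only [hR]
    rw [Finset.mem_filter, Finset.mem_range]
    refine ⟨Nat.lt_succ_of_le (Nat.le_floor ?_), hp, hpY⟩
    have hd1 : (1 : ℝ) ≤ d := by exact_mod_cast (hD d hd).1
    have hvk : (v : ℝ) = ((p : ℝ) - 1) * d := by
      rw [hvd]; push_cast [Nat.cast_sub hp.one_lt.le]; ring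
    have : (p : ℝ) - 1 ≤ z / d := by
      rw [le_div_iff₀ (by linarith only [hd1])]
      linarith only [hvk, hvz]
    linarith only [this]
  have h1 : s.card ≤ ∑ d ∈ D, (R d).card := by
    refine (Finset.card_le_card hsub).trans (Finset.card_image_le.trans ?_)
    rw [Finset.card_sigma]
  have h2 : ∀ d ∈ D, ((R d).card : ℝ) ≤ 10 * z / Real.log Y * (1 / (d : ℝ)) := by
    intro d hd
    have hd1 : (1 : ℝ) ≤ d := by exact_mod_cast (hD d hd).1
    have hdz := (hD d hd).2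
    rcases Finset.eq_empty_or_nonempty (R d) with he | ⟨p, hp⟩
    · rw [he, Finset.card_empty, Nat.cast_zero]
      positivity
    · simp only [hR] at hp
      rw [Finset.mem_filter, Finset.mem_range] at hp
      have hzd : 1 ≤ z / d := by rw [le_div_iff₀ (by linarith only [hd1])]; linarith only [hdz]
      have hpy : (p : ℝ) ≤ z / d + 1 := by
        have : p ≤ ⌊z / d + 1⌋₊ := by omega
        exact (Nat.le_floor_iff (by positivity)).mp this
      have hYy : Y ≤ z / d + 1 := by linarith only [hpy, hp.2.2]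
      have h3 := cheb (z / d + 1) (by linarith only [hpy, hp, hY]) (R d) (by
        intro q hq
        simp only [hR] at hq
        rw [Finset.mem_filter, Finset.mem_range] at hq
        refine ⟨hq.2.1, ?_⟩
        have : q ≤ ⌊z / d + 1⌋₊ := by omega
        exact (Nat.le_floor_iff (by positivity)).mp this)
      refine h3.trans ?_
      have hlog : Real.log Y ≤ Real.log (z / d + 1) := Real.log_le_log (by linarith only [hY]) hYy
      calc 5 * (z / d + 1) / Real.log (z / d + 1) ≤ 5 * (z / d + 1) / Real.log Y := by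
            apply div_le_div_of_nonneg_left (by linarith only [hpy]) hlY hlog
        _ ≤ 5 * (2 * (z / d)) / Real.log Y := by
            apply div_le_div_of_nonneg_right (by linarith only [hpy, hp, hY]) hlY.le
        _ = 10 * z / Real.log Y * (1 / (d : ℝ)) := by ring
  calc (s.card : ℝ) ≤ ((∑ d ∈ D, (R d).card : ℕ) : ℝ) := by exact_mod_cast h1
    _ = ∑ d ∈ D, ((R d).card : ℝ) := by push_cast; rfl
    _ ≤ ∑ d ∈ D, 10 * z / Real.log Y * (1 / (d : ℝ)) := Finset.sum_le_sum h2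
    _ = 10 * z / Real.log Y * ∑ d ∈ D, (1 / (d : ℝ)) := by rw [Finset.mul_sum]
    _ ≤ 10 * z / Real.log Y * m := mul_le_mul_of_nonneg_left hm (by positivity)

end Crude

namespace Crude

lemma ev_tail (C : ℝ) : ∀ᶠ M : ℕ in atTop,
    C * Real.exp (15 * (M : ℝ) ^ 20) * (2 / 3 : ℝ) ^ (M ^ 25) ≤ 1 := by
  filter_upwards [eventually_ge_atTop 3, eventually_ge_atTop ⌈C⌉₊] with M hM hC
  have hM3 : (3 : ℝ) ≤ M := by exact_mod_cast hM
  have hMC : C ≤ M := (Nat.le_ceil C).trans (by exact_mod_cast hC)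
  have h1 : (2 / 3 : ℝ) ^ (M ^ 25) ≤ Real.exp (-((M : ℝ) ^ 25 / 3)) := by
    have h2 : (2 / 3 : ℝ) ≤ Real.exp (-(1 / 3)) := by
      have := Real.add_one_le_exp (-(1 / 3) : ℝ)
      linarith only [this]
    calc (2 / 3 : ℝ) ^ (M ^ 25) ≤ (Real.exp (-(1 / 3))) ^ (M ^ 25) :=
          pow_le_pow_left₀ (by norm_num) h2 _
      _ = Real.exp (-((M : ℝ) ^ 25 / 3)) := by
          rw [← Real.exp_nat_mul]
          congr 1
          push_cast
          ring
  have h3 : (M : ℝ) ^ 20 ≤ (M : ℝ) ^ 25 / 3 - 15 * (M : ℝ) ^ 20 := by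
    have h4 : (3 : ℝ) ^ 5 ≤ (M : ℝ) ^ 5 := pow_le_pow_left₀ (by norm_num) hM3 5
    have h5 : (M : ℝ) ^ 25 = (M : ℝ) ^ 20 * (M : ℝ) ^ 5 := by rw [← pow_add]
    have h6 : (0 : ℝ) ≤ (M : ℝ) ^ 20 := by positivity
    rw [h5]
    linarith only [mul_nonneg (sub_nonneg.2 h4) (sub_nonneg.2 h6), h6]
  have h7 : (M : ℝ) ≤ (M : ℝ) ^ 20 := le_self_pow₀ (by linarith only [hM3]) (by norm_num)
  have h8 : C ≤ Real.exp ((M : ℝ) ^ 20) := by
    have := Real.add_one_le_exp ((M : ℝ) ^ 20)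
    linarith only [hMC, this, h7]
  calc C * Real.exp (15 * (M : ℝ) ^ 20) * (2 / 3 : ℝ) ^ (M ^ 25)
      ≤ Real.exp ((M : ℝ) ^ 20) * Real.exp (15 * (M : ℝ) ^ 20) *
        Real.exp (-((M : ℝ) ^ 25 / 3)) := by
        apply mul_le_mul _ h1 (by positivity) (by positivity)
        exact mul_le_mul_of_nonneg_right h8 (Real.exp_pos _).le
    _ = Real.exp ((M : ℝ) ^ 20 + 15 * (M : ℝ) ^ 20 + -((M : ℝ) ^ 25 / 3)) := by
        rw [Real.exp_add, Real.exp_add]
    _ ≤ 1 := by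
        rw [Real.exp_le_one_iff]
        linarith only [h3]

lemma ev_poly (A : ℝ) (k : ℕ) : ∀ᶠ M : ℕ in atTop, A * (M : ℝ) ^ k ≤ Real.exp (M : ℝ) := by
  have h1 := (Real.tendsto_exp_div_pow_atTop k).comp (tendsto_natCast_atTop_atTop (R := ℝ))
  filter_upwards [h1.eventually_ge_atTop A, eventually_ge_atTop 1] with M hM hM1
  have hM1' : (1 : ℝ) ≤ M := by exact_mod_cast hM1
  simp only [Function.comp_apply] at hM
  rwa [le_div_iff₀ (by positivity)] at hM

end Crude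

theorem cmc : ∀ᶠ M : ℕ in atTop, ∀ z : ℝ, 3 ≤ z → (M : ℝ) ^ 14 ≤ ll z →
    ll z ≤ 5 * (M : ℝ) ^ 20 →
    (V z : ℝ) ≤ z / Real.log z * Real.exp (2 * (M : ℝ)) := by
  classical
  obtain ⟨C, hC, hOm⟩ := om_large
  filter_upwards [cm, ev_tail C, ev_poly 24 25, ev_poly 16 50, eventually_ge_atTop 1] with
    M hcm htail hp1 hp2 hM1 z hz hz1 hz2
  have hM1' : (1 : ℝ) ≤ M := by exact_mod_cast hM1
  set L : ℝ := Real.log z with hL
  have hL0 : 0 < L := Real.log_pos (by linarith only [hz])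
  have hLexp : Real.exp (ll z) = L := Real.exp_log hL0
  have hL1 : Real.exp (M : ℝ) ≤ L := by
    rw [← hLexp]
    apply Real.exp_le_exp.mpr
    refine le_trans ?_ hz1
    exact le_self_pow₀ hM1' (by norm_num)
  have hL2 : L ≤ Real.exp (5 * (M : ℝ) ^ 20) := by
    rw [← hLexp]
    exact Real.exp_le_exp.mpr hz2
  have hM25 : (1 : ℝ) ≤ (M : ℝ) ^ 25 := one_le_pow₀ hM1'
  set u : ℝ := L / (2 * (M : ℝ) ^ 25) with hu
  set Y : ℝ := Real.exp u with hY
  have h16 : 16 * (M : ℝ) ^ 50 ≤ L := hp2.trans hL1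
  have hM50 : (M : ℝ) ^ 50 = (M : ℝ) ^ 25 * (M : ℝ) ^ 25 := by rw [← pow_add]
  have hu0 : 0 < u := by positivity
  have hu8 : 8 ≤ u := by
    rw [hu, le_div_iff₀ (by positivity)]
    nlinarith only [hL1, hp1, hM25]
  have hY2 : 2 * L ≤ Y := by
    have h1 : 1 + u + u ^ 2 / 2 ≤ Y := Real.quadratic_le_exp_of_nonneg hu0.le
    have h2 : 2 * L ≤ u ^ 2 / 2 := by
      rw [hu, div_pow, div_div, le_div_iff₀ (by positivity)]
      have : (2 * (M : ℝ) ^ 25) ^ 2 = 4 * (M : ℝ) ^ 50 := by rw [hM50]; ring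
      rw [this]
      nlinarith only [hL0, hL1, hp2]
    linarith only [h2, h1, hu8]
  have hY3 : 3 ≤ Y := by
    have := Real.add_one_le_exp u
    linarith only [hL1, hp1, hY2, hM25]
  have hlogY : Real.log Y = u := Real.log_exp u
  have hz0 : (0 : ℝ) ≤ z := by linarith only [hz]
  have hYT : Y ^ (M ^ 25) = √z := by
    rw [hY, ← Real.exp_nat_mul, Real.sqrt_eq_rpow, Real.rpow_def_of_pos (by linarith only [hz])]
    congr 1
    rw [hu, ← hL]
    push_cast
    field_simp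
  -- the four classes
  set W := WW z with hW
  set W1 : Finset ℕ := Finset.Icc 1 ⌊√z⌋₊ with hW1
  set W2 : Finset ℕ := (Finset.Icc 1 ⌊z⌋₊).filter (fun n => M ^ 25 ≤ Om n) with hW2
  set W3 : Finset ℕ := W.filter (fun v => ∃ p : ℕ, p.Prime ∧ Y < (p : ℝ) ∧ p * (p - 1) ∣ v)
    with hW3
  set W4 : Finset ℕ := W.filter (fun v => ∃ p d : ℕ, p.Prime ∧ Y < (p : ℝ) ∧ d ∈ W ∧
    v = (p - 1) * d) with hW4
  have hWpos : ∀ v ∈ W, 1 ≤ v ∧ (v : ℝ) ≤ z := by
    intro v hv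
    rw [hW, mem_WW hz0] at hv
    obtain ⟨⟨n, hn, rfl⟩, hvz⟩ := hv
    exact ⟨Nat.totient_pos.mpr hn, hvz⟩
  have hcov : W ⊆ (W1 ∪ W2) ∪ (W3 ∪ W4) := by
    intro v hv
    obtain ⟨hv1, hvz⟩ := hWpos v hv
    have hvt : IsTot v := by
      rw [hW, mem_WW hz0] at hv
      exact hv.1
    by_cases h1 : (v : ℝ) ≤ √z
    · apply Finset.mem_union_left
      apply Finset.mem_union_left
      rw [hW1, Finset.mem_Icc]
      exact ⟨hv1, Nat.le_floor h1⟩
    by_cases h2 : M ^ 25 ≤ Om v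
    · apply Finset.mem_union_left
      apply Finset.mem_union_right
      rw [hW2, Finset.mem_filter, Finset.mem_Icc]
      exact ⟨⟨hv1, Nat.le_floor hvz⟩, h2⟩
    push Not at h1 h2
    apply Finset.mem_union_right
    obtain ⟨q, hq, hqv, hqY⟩ := exists_large_prime (v := v) (by omega) Y (by linarith only [hL1, hp1, hY2, hM25]) (M ^ 25)
      h2.le (by rw [hYT]; exact h1)
    rcases tot_split hvt hq hqv with ⟨p, hp, hqp, hdvd⟩ | ⟨p, d, hp, hqp, hd, hvd⟩
    · apply Finset.mem_union_left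
      rw [hW3, Finset.mem_filter]
      have : (q : ℝ) ≤ p := by exact_mod_cast hqp
      exact ⟨hv, p, hp, by linarith only [hqY, this], hdvd⟩
    · apply Finset.mem_union_right
      rw [hW4, Finset.mem_filter]
      have h3 : (q : ℝ) ≤ p := by exact_mod_cast hqp
      refine ⟨hv, p, d, hp, by linarith only [hqY, h3], ?_, hvd⟩
      rw [hW, mem_WW hz0]
      refine ⟨hd, ?_⟩
      have h4 : d ≤ v := by
        rw [hvd]
        exact Nat.le_mul_of_pos_left _ (by have := hp.two_le; omega)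
      have h5 : (d : ℝ) ≤ v := by exact_mod_cast h4
      linarith only [h5, hvz]
  have hzL : 0 < z / L := div_pos (by linarith only [hz]) hL0
  have c1 : (W1.card : ℝ) ≤ 2 * (z / L) := by
    rw [hW1, Nat.card_Icc]
    have h1 : ((⌊√z⌋₊ + 1 - 1 : ℕ) : ℝ) ≤ √z := by
      rw [Nat.add_sub_cancel]
      exact Nat.floor_le (Real.sqrt_nonneg z)
    refine h1.trans ?_
    have hsz : 0 < √z := Real.sqrt_pos.mpr (by linarith only [hz])
    have h4 : L ≤ 2 * √z := by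
      have := Real.log_le_sub_one_of_pos hsz
      rw [Real.log_sqrt hz0] at this
      linarith only [this]
    rw [← mul_div_assoc, le_div_iff₀ hL0]
    have : √z * √z = z := Real.mul_self_sqrt hz0
    nlinarith only [h1, this, h4]
  have c2 : (W2.card : ℝ) ≤ z / L := by
    refine (hOm z (M ^ 25) hz).trans ?_
    rw [le_div_iff₀ hL0]
    have h1 : L ^ 3 ≤ Real.exp (15 * (M : ℝ) ^ 20) := by
      calc L ^ 3 ≤ (Real.exp (5 * (M : ℝ) ^ 20)) ^ 3 := pow_le_pow_left₀ hL0.le hL2 3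
        _ = Real.exp (15 * (M : ℝ) ^ 20) := by
            rw [← Real.exp_nat_mul]
            congr 1
            push_cast
            ring
    have h2 : C * L ^ 3 * (2 / 3 : ℝ) ^ (M ^ 25) ≤ 1 := by
      refine le_trans ?_ htail
      apply mul_le_mul_of_nonneg_right _ (by positivity)
      exact mul_le_mul_of_nonneg_left h1 hC.le
    calc C * z * L ^ 2 * (2 / 3 : ℝ) ^ (M ^ 25) * L = z * (C * L ^ 3 * (2 / 3 : ℝ) ^ (M ^ 25)) := by
          ring
      _ ≤ z * 1 := mul_le_mul_of_nonneg_left h2 hz0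
      _ = z := mul_one z
  have c3 : (W3.card : ℝ) ≤ z / L := by
    refine (W3_card z Y hz0 (by linarith only [hL1, hp1, hY2, hM25]) W3 ?_).trans ?_
    · intro v hv
      rw [hW3, Finset.mem_filter] at hv
      obtain ⟨h1, h2⟩ := hWpos v hv.1
      exact ⟨h1, h2, hv.2⟩
    · have h1 : 2 / Y ≤ 1 / L := by
        rw [div_le_div_iff₀ (by linarith only [hL1, hp1, hY2, hM25]) hL0]
        linarith only [hY2]
      calc z * (2 / Y) ≤ z * (1 / L) := mul_le_mul_of_nonneg_left h1 hz0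
        _ = z / L := by ring
  have c4 : (W4.card : ℝ) ≤ 20 * (M : ℝ) ^ 25 * (z / L) * Real.exp (M : ℝ) := by
    have hmass : ∑ d ∈ W, 1 / (d : ℝ) ≤ Real.exp (M : ℝ) := by
      apply hcm z W hz2
      intro d hd
      rw [hW, mem_WW hz0] at hd
      exact hd
    refine (W4_card z Y (Real.exp (M : ℝ)) hz0 hY3 W W4 hWpos hmass ?_).trans ?_
    · intro v hv
      rw [hW4, Finset.mem_filter] at hv
      exact ⟨(hWpos v hv.1).2, hv.2⟩
    · rw [hlogY, hu]
      apply le_of_eq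
      field_simp
      ring
  have htot : (V z : ℝ) ≤ (W1.card : ℝ) + W2.card + (W3.card + W4.card) := by
    rw [V_eq hz0]
    have h1 : W.card ≤ W1.card + W2.card + (W3.card + W4.card) := by
      calc W.card ≤ ((W1 ∪ W2) ∪ (W3 ∪ W4)).card := Finset.card_le_card hcov
        _ ≤ (W1 ∪ W2).card + (W3 ∪ W4).card := Finset.card_union_le _ _
        _ ≤ W1.card + W2.card + (W3.card + W4.card) :=
            Nat.add_le_add (Finset.card_union_le _ _) (Finset.card_union_le _ _)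
    exact_mod_cast h1
  have hE : 1 ≤ Real.exp (M : ℝ) := Real.one_le_exp (by linarith only [])
  have hfin : 2 + 1 + 1 + 20 * (M : ℝ) ^ 25 * Real.exp (M : ℝ) ≤ Real.exp (2 * (M : ℝ)) := by
    have h1 : Real.exp (2 * (M : ℝ)) = Real.exp (M : ℝ) * Real.exp (M : ℝ) := by
      rw [← Real.exp_add]; congr 1; ring
    rw [h1]
    have h2 : (M : ℝ) ^ 25 ≤ (M : ℝ) ^ 25 * Real.exp (M : ℝ) := by
      have : (0 : ℝ) ≤ (M : ℝ) ^ 25 := by positivity
      nlinarith only [hp1, hM25]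
    have h3 : 24 * (M : ℝ) ^ 25 * Real.exp (M : ℝ) ≤ Real.exp (M : ℝ) * Real.exp (M : ℝ) :=
      mul_le_mul_of_nonneg_right hp1 (by linarith only [hp1, hM25])
    linarith only [h2, hM25, h3]
  calc (V z : ℝ) ≤ (W1.card : ℝ) + W2.card + (W3.card + W4.card) := htot
    _ ≤ z / L * (2 + 1 + 1 + 20 * (M : ℝ) ^ 25 * Real.exp (M : ℝ)) := by
        have : z / L * (2 + 1 + 1 + 20 * (M : ℝ) ^ 25 * Real.exp (M : ℝ)) =
          2 * (z / L) + z / L + (z / L + 20 * (M : ℝ) ^ 25 * (z / L) * Real.exp (M : ℝ)) := by ring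
        rw [this]
        linarith only [c3, c1, c4, c2]
    _ ≤ z / L * Real.exp (2 * (M : ℝ)) := mul_le_mul_of_nonneg_left hfin hzL.le

end Vale.Agent.P031
end
end

section

section

/-! Module `th`: almost all totients are good. -/

namespace Vale.Agent.P031

open Finset Filter Topology

/-- Almost all totients are good. -/
theorem th : ∀ᶠ M : ℕ in atTop, ∀ (z : ℝ) (s : Finset ℕ), 3 ≤ z → (M : ℝ) ^ 16 ≤ ll z →
    ll z ≤ 5 * (M : ℝ) ^ 20 → (∀ v ∈ s, IsTot v ∧ (v : ℝ) ≤ z ∧ v ∉ DD M 0) →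
    (s.card : ℝ) ≤ z / Real.log z * Real.exp (-(M : ℝ) ^ 2) :=
  ThinM.th_of sum_inv_le' sum_pow_Om om_large nosq_count ub_mass ub_count np_count np_mass cm cmc

end Vale.Agent.P031
end
end

section

section

namespace Vale.Agent.P031

namespace J3

open Finset Filter Topology

/-- every good totient `v` with `√x < v ≤ x` is `(p - 1) n` with `n` in the triple extension
of the set of totients of cost at most `9 T / 10` -/
theorem growth_struct {M : ℕ} (hM : 1000 ≤ M) (hs : StepAt M) {x T : ℝ} {v : ℕ} (hx : 3 ≤ x)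
    (hT : 1 / 2 * (M : ℝ) ^ 20 ≤ T) (hT2 : T ≤ 21 / 10 * (M : ℝ) ^ 20)
    (hTx : T ≤ ll x) (hllx : ll x ≤ 21 / 10 * T) (hv : v ∈ DD M 0) (hvx : (v : ℝ) ≤ x)
    (hvx2 : x < (v : ℝ) ^ 2) :
    ∃ n ∈ ext (PP M) (ext (PP M) (ext (PP M) (DF M 0 1 (9 / 10 * T)))),
      (1 ≤ n ∧ (n : ℝ) ^ 4 ≤ x ^ 3) ∧ ∃ p : ℕ, p.Prime ∧ v = (p - 1) * n := by
  have hm : (1000 : ℝ) ≤ M := by exact_mod_cast hM
  obtain ⟨q1, q2, q3, q4, q5, q6⟩ := pows hm
  have hm20 : (0 : ℝ) ≤ (M : ℝ) ^ 20 := by positivity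
  have h26 : M ^ 25 ≤ M ^ 26 := Nat.pow_le_pow_right (by omega) (by norm_num)
  have hllx4 : (M : ℝ) ^ 20 / 4 ≤ ll x := by linarith only [q6, hTx, q4, hT, q3, q2, q5, q1]
  have hll5 : ll x + 1 ≤ 5 * (M : ℝ) ^ 20 := by linarith only [hm, q1, q5, q2, q3, q4, hllx, q6, hT2]
  have hτ : (0 : ℝ) ≤ 9 / 10 * T := by linarith only [q1, q5, q2, q3, hT, q4, q6]
  obtain ⟨J₁, P₁, p₀, D₁, rfl, hp₀, hP₁, hC₁, hG₀, hJ₁, hO₁⟩ := top_exists hM hx hllx4 hv hvx2
  obtain ⟨hb₀, hD₁x⟩ := pred_le_of_mul_le hp₀.ge_two (Ch_ne_zero hC₁) hvx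
  have hl₀ : ll (p₀ : ℝ) ≤ ll x + 1 := ll_le_of_pred_le hx (prime_one_lt hp₀.big.1) hb₀
  have hN₁ : D₁ < NN M := lt_NN hx hll5 (by linarith only [hD₁x])
  have hl₀5 : ll (p₀ : ℝ) ≤ 5 * (M : ℝ) ^ 20 := by linarith only [hm, hl₀, q1, q5, q2, q3, q4, hllx, q6, hT2]
  have h1D₁ : 1 ≤ D₁ := Nat.one_le_iff_ne_zero.mpr (Ch_ne_zero hC₁)
  cases J₁ with
  | zero =>
    refine ⟨D₁, mem_ext_left (mem_ext_left (mem_ext_left
      (mem_DF_small (by omega) hC₁ hO₁ hN₁ hτ))), ⟨h1D₁, ?_⟩, p₀, hp₀.big.1, rfl⟩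
    apply pow_four_le_of_sq hx
    have hS : Small M D₁ := (Ch_zero hC₁).2
    have h2 : Real.log (D₁ : ℝ) ≤ (M : ℝ) ^ 25 * Real.exp ((M : ℝ) ^ 15) := by
      refine hS.log_le.trans (mul_le_mul_of_nonneg_right ?_ (Real.exp_pos _).le)
      exact_mod_cast hO₁
    exact sq_le_of_log (M := M) (t := (M : ℝ) ^ 15) hx (Ch_ne_zero hC₁) h2 (by linarith only [hm, q1, q5, q2, q3, hT, q4, hTx, q6])
  | succ J₂ =>
    obtain ⟨P₂, D₂, hD₁eq, hp₁, hP₂, hC₂, hG₁, -⟩ := Ch_succ hC₁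
    have hO₂ : Om D₂ ≤ M ^ 25 := by
      refine le_trans ?_ hO₁
      rw [hD₁eq]
      exact Om_le_Om_mul (Ch_ne_zero hC₂) hp₁.ge_two
    have hC₁' : Ch M (J₂ + 1) P₁ ((P₁ - 1) * D₂) := hD₁eq ▸ hC₁
    have hsq : (D₂ : ℝ) ^ 2 ≤ x :=
      second_small hM hs hx hllx4 hl₀ hl₀5 hp₀ hp₁ hP₁ hP₂ hC₂ hC₁' (hD₁eq ▸ hO₁) (hD₁eq ▸ hG₀)
    have h4 : (D₁ : ℝ) ^ 4 ≤ x ^ 3 := by
      have := pow_four_le (D := D₂) hx hp₀.ge_two hp₁.ge_two hP₁ hsq (hD₁eq ▸ hvx)
      rw [← hD₁eq] at this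
      exact this
    refine ⟨D₁, ?_, ⟨h1D₁, h4⟩, p₀, hp₀.big.1, rfl⟩
    obtain ⟨hb₁, hD₂x⟩ := pred_le_of_mul_le hp₁.ge_two (Ch_ne_zero hC₂) (hD₁eq ▸ hD₁x)
    have hPP₁ : P₁ ∈ PP M := mem_PP.mpr ⟨lt_NN hx hll5 hb₁, hp₁.big.1⟩
    have hN₂ : D₂ < NN M := lt_NN hx hll5 (by linarith only [hD₂x])
    have hl₁₀ : ll (P₁ : ℝ) ≤ ll (p₀ : ℝ) :=
      ll_le_ll (prime_one_lt hp₁.big.1) (by exact_mod_cast hP₁.le)
    rw [hD₁eq]
    apply mem_ext_mul hPP₁
    cases J₂ with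
    | zero =>
      exact mem_ext_left (mem_ext_left (mem_DF_small (by omega) hC₂ hO₂ hN₂ hτ))
    | succ J₃ =>
      obtain ⟨P₃, D₃, hD₂eq, hp₂, hP₃, hC₃, hG₂, -⟩ := Ch_succ hC₂
      have hO₃ : Om D₃ ≤ M ^ 25 := by
        refine le_trans ?_ hO₂
        rw [hD₂eq]
        exact Om_le_Om_mul (Ch_ne_zero hC₃) hp₂.ge_two
      obtain ⟨hb₂, hD₃x⟩ := pred_le_of_mul_le hp₂.ge_two (Ch_ne_zero hC₃) (hD₂eq ▸ hD₂x)
      have hPP₂ : P₂ ∈ PP M := mem_PP.mpr ⟨lt_NN hx hll5 hb₂, hp₂.big.1⟩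
      have hN₃ : D₃ < NN M := lt_NN hx hll5 (by linarith only [hD₃x])
      have hl₂₁ : ll (P₂ : ℝ) ≤ ll (P₁ : ℝ) :=
        ll_le_ll (prime_one_lt hp₂.big.1) (by exact_mod_cast hP₂.le)
      rw [hD₂eq]
      apply mem_ext_mul hPP₂
      cases J₃ with
      | zero =>
        exact mem_ext_left (mem_DF_small (by omega) hC₃ hO₃ hN₃ hτ)
      | succ J₄ =>
        obtain ⟨P₄, D₄, hD₃eq, hp₃, hP₄, hC₄, hG₃, -⟩ := Ch_succ hC₃
        have hO₄ : Om D₄ ≤ M ^ 25 := by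
          refine le_trans ?_ hO₃
          rw [hD₃eq]
          exact Om_le_Om_mul (Ch_ne_zero hC₄) hp₃.ge_two
        obtain ⟨hb₃, hD₄x⟩ := pred_le_of_mul_le hp₃.ge_two (Ch_ne_zero hC₄) (hD₃eq ▸ hD₃x)
        have hPP₃ : P₃ ∈ PP M := mem_PP.mpr ⟨lt_NN hx hll5 hb₃, hp₃.big.1⟩
        have hN₄ : D₄ < NN M := lt_NN hx hll5 (by linarith only [hD₄x])
        have hl₃₂ : ll (P₃ : ℝ) ≤ ll (P₂ : ℝ) :=
          ll_le_ll (prime_one_lt hp₃.big.1) (by exact_mod_cast hP₃.le)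
        rw [hD₃eq]
        apply mem_ext_mul hPP₃
        -- the cost of `D₄`
        have e1 := HH_one_le hs hp₀ hl₀5 hP₁ hC₁ (hO₁.trans h26) hG₀
        have e2 := chain_step hs (j := 1) (by norm_num) hp₁ (by linarith only [hT2, hl₁₀, q6, hllx, q4, q3, q2, q5, q1, hl₀, hm]) hP₂ hC₂ (hO₂.trans h26)
        have e3 := chain_step hs (j := 2) (by norm_num) hp₂ (by linarith only [hm, hl₀, q1, q5, q2, q3, q4, hllx, hl₂₁, q6, hl₁₀, hT2]) hP₃ hC₃ (hO₃.trans h26)
        have e4 := chain_step hs (j := 3) (by norm_num) hp₃ (by linarith only [hl₃₂, hm, hl₀, q1, q5, q2, q3, q4, hllx, hl₂₁, q6, hl₁₀, hT2]) hP₄ hC₄ (hO₄.trans h26)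
        rw [← hD₁eq] at e2
        rw [← hD₂eq] at e3
        rw [← hD₃eq] at e4
        norm_num at e2 e3 e4
        rw [abs_le] at e2 e3 e4
        have e5 := HH_nonneg M 4 D₄ (by omega) (by norm_num)
        have e6 := HH_one_le hs hp₃ (by linarith only [hl₃₂, hm, hl₀, q1, q5, q2, q3, q4, hllx, hl₂₁, q6, hl₁₀, hT2]) hP₄ hC₄ (hO₄.trans h26)
          (by rw [← hD₃eq]; rw [hD₃eq]; exact hG₃)
        have a1 := aa_one_ge
        have a2 := aa_two_ge
        have a123 := aa_sum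
        have hξ₃ : (0 : ℝ) ≤ ll (P₃ : ℝ) - (M : ℝ) ^ 15 := by linarith only [hp₃.big.2]
        have f1 : aa 1 * (ll (P₃ : ℝ) - (M : ℝ) ^ 15) ≤ aa 1 * (ll (P₁ : ℝ) - (M : ℝ) ^ 15) :=
          mul_le_mul_of_nonneg_left (by linarith only [hl₃₂, hl₂₁]) (by linarith only [a1])
        have f2 : aa 2 * (ll (P₃ : ℝ) - (M : ℝ) ^ 15) ≤ aa 2 * (ll (P₂ : ℝ) - (M : ℝ) ^ 15) :=
          mul_le_mul_of_nonneg_left (by linarith only [hl₃₂]) (by linarith only [a2])
        have f3 : (2.54 : ℝ) * (ll (P₃ : ℝ) - (M : ℝ) ^ 15) ≤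
            (aa 1 + aa 2 + aa 3) * (ll (P₃ : ℝ) - (M : ℝ) ^ 15) :=
          mul_le_mul_of_nonneg_right a123 hξ₃
        have f4 : (2.54 : ℝ) * (ll (P₃ : ℝ) - (M : ℝ) ^ 15) ≤
            21 / 10 * T + (M : ℝ) ^ 18 + 4 * (M : ℝ) ^ 17 := by
          linarith only [f1, hm, hl₀, q1, e5, f2, e1, hllx, f3, e2.1, e3.1, e4.1]
        have f5 : ll (P₃ : ℝ) - (M : ℝ) ^ 15 + (M : ℝ) ^ 18 + (M : ℝ) ^ 17 ≤ 9 / 10 * T := by
          linarith only [f1, hm, hl₀, q1, e5, f2, q5, q2, e1, e3, hT, q4, hllx, e2, f3, e4, q6]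
        refine mem_DF_of hC₄ (by omega) hO₄ hN₄ (YY_le hτ fun q hq hd => ?_) (e6.trans f5)
        have h5 : q < P₃ := Ch_prime_lt hC₄ P₃ hp₃.big hP₄ q hq hd
        have h6 : ll (q : ℝ) ≤ ll (P₃ : ℝ) :=
          ll_le_ll (prime_one_lt hq) (by exact_mod_cast h5.le)
        have h7 : (0 : ℝ) ≤ (M : ℝ) ^ 18 + (M : ℝ) ^ 17 := by positivity
        linarith only [f1, hm, hl₀, q1, e5, f2, q5, e1, h6, e3, hT, q4, hllx, e2, f3, e4, q6]

theorem one_le_FF {M : ℕ} (hM : 1000 ≤ M) {T : ℝ} (hT : 0 ≤ T) : 1 ≤ FF M 0 1 0 T := by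
  have hCh : Ch M 0 1 1 := Ch.nil 1 1 (Small_one M) Nat.totient_one
  have hN : 1 < NN M := by
    have hm : (1000 : ℝ) ≤ M := by exact_mod_cast hM
    obtain ⟨q1, q2, q3, q4, q5, q6⟩ := pows hm
    have h3 : ll 3 + 1 ≤ 5 * (M : ℝ) ^ 20 := by
      have h4 : ll 3 ≤ 3 := by
        unfold ll
        have h5 : Real.log 3 ≤ 3 := by
          have := Real.log_le_sub_one_of_pos (x := 3) (by norm_num)
          linarith
        have h6 : 0 < Real.log 3 := Real.log_pos (by norm_num)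
        have := Real.log_le_sub_one_of_pos h6
        linarith
      linarith only [q6, q1, q5, q3, q4, h4, hm, q2]
    exact lt_NN (x := 3) le_rfl h3 (by norm_num)
  have hmem : 1 ∈ DF M 0 1 T :=
    mem_DF_small (by omega) hCh (by simp [Om_one]) hN hT
  unfold FF
  calc (1 : ℝ) = (T - Cost M 1 1) ^ 0 / ((1 : ℕ) : ℝ) := by simp
    _ ≤ _ := Finset.single_le_sum (f := fun D : ℕ => (T - Cost M 1 D) ^ 0 / (D : ℝ))
        (fun D _ => by simp) hmem

theorem FF_zero_eq (M r j : ℕ) (T : ℝ) : FF M r j 0 T = ∑ D ∈ DF M r j T, 1 / (D : ℝ) := by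
  simp [FF]

/-- `v_growth` from `th` (the bound for thin totients, proved in `Thin.lean`) -/
theorem v_growth_of
    (th : ∀ᶠ M : ℕ in atTop, ∀ (z : ℝ) (s : Finset ℕ), 3 ≤ z → (M : ℝ) ^ 16 ≤ ll z →
      ll z ≤ 5 * (M : ℝ) ^ 20 → (∀ v ∈ s, IsTot v ∧ (v : ℝ) ≤ z ∧ v ∉ DD M 0) →
      (s.card : ℝ) ≤ z / Real.log z * Real.exp (-(M : ℝ) ^ 2)) :
    ∀ᶠ M : ℕ in atTop, ∀ (x T : ℝ), 3 ≤ x →
    1 / 2 * (M : ℝ) ^ 20 ≤ T → T ≤ 21 / 10 * (M : ℝ) ^ 20 → T ≤ ll x → ll x ≤ 21 / 10 * T →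
    (V x : ℝ) ≤ x / Real.log x * (M : ℝ) ^ 61 * FF M 0 1 0 (9 / 10 * T) := by
  classical
  obtain ⟨C, hC0, hC⟩ := sum_inv_le'
  filter_upwards [th, step 3, eventually_ge_atTop (10000 : ℕ), eventually_ge_atTop ⌈C + 1⌉₊]
    with M hth hstep hM hMC x T hx hT hT2 hTx hllx
  have hM1 : 1000 ≤ M := by omega
  have hs : StepAt M := hstep
  have hm4 : (10000 : ℝ) ≤ M := by exact_mod_cast hM
  have hm : (1000 : ℝ) ≤ M := by linarith only [hm4]
  obtain ⟨q1, q2, q3, q4, q5, q6⟩ := pows hm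
  have hmC : C + 1 ≤ (M : ℝ) := (Nat.le_ceil _).trans (by exact_mod_cast hMC)
  have hx0 : 0 < x := by linarith only [hx]
  have hlx : 0 < Real.log x := Real.log_pos (by linarith only [hx])
  have hxl : 0 < x / Real.log x := by positivity
  have hllx4 : (M : ℝ) ^ 20 / 4 ≤ ll x := by linarith only [q5, q4, q1, hTx, q3, hT, q6, q2]
  obtain ⟨S, hVS, hS⟩ := V_eq_card x
  set F := FF M 0 1 0 (9 / 10 * T) with hF
  have hF1 : 1 ≤ F := one_le_FF hM1 (by linarith only [q5, q4, q1, q3, hT, q6, q2])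
  -- three parts
  have hcard : S.card ≤ (S.filter (fun v => v ∉ DD M 0)).card +
      ((S.filter (fun v : ℕ => (v : ℝ) ^ 2 ≤ x)).card +
        (S.filter (fun v : ℕ => v ∈ DD M 0 ∧ x < (v : ℝ) ^ 2)).card) := by
    have h1 : S ⊆ S.filter (fun v => v ∉ DD M 0) ∪ (S.filter (fun v : ℕ => (v : ℝ) ^ 2 ≤ x) ∪
        S.filter (fun v : ℕ => v ∈ DD M 0 ∧ x < (v : ℝ) ^ 2)) := by
      intro v hv
      simp only [Finset.mem_union, Finset.mem_filter]
      by_cases h1 : v ∈ DD M 0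
      · by_cases h2 : (v : ℝ) ^ 2 ≤ x
        · exact Or.inr (Or.inl ⟨hv, h2⟩)
        · exact Or.inr (Or.inr ⟨hv, h1, not_le.mp h2⟩)
      · exact Or.inl ⟨hv, h1⟩
    refine (Finset.card_le_card h1).trans ((Finset.card_union_le _ _).trans ?_)
    exact Nat.add_le_add_left (Finset.card_union_le _ _) _
  -- part 1
  have c1 : ((S.filter (fun v => v ∉ DD M 0)).card : ℝ) ≤ x / Real.log x := by
    have h1 := hth x (S.filter (fun v => v ∉ DD M 0)) hx (by linarith only [q5, q4, q1, hTx, q3, hT, q6, q2]) (by linarith only [q5, q4, hT2, q1, q3, q6, hllx, q2])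
      (fun v hv => by
        rw [Finset.mem_filter] at hv
        exact ⟨(hS v hv.1).2.1, (hS v hv.1).2.2, hv.2⟩)
    refine h1.trans ?_
    have h2 : Real.exp (-(M : ℝ) ^ 2) ≤ 1 := by
      rw [Real.exp_le_one_iff]
      have : (0 : ℝ) ≤ (M : ℝ) ^ 2 := by positivity
      linarith only [this]
    calc x / Real.log x * Real.exp (-(M : ℝ) ^ 2) ≤ x / Real.log x * 1 :=
          mul_le_mul_of_nonneg_left h2 hxl.le
      _ = x / Real.log x := mul_one _
  -- part 2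
  have c2 : ((S.filter (fun v : ℕ => (v : ℝ) ^ 2 ≤ x)).card : ℝ) ≤ x / Real.log x := by
    have h1 := sqrt_count hx0.le (S.filter (fun v : ℕ => (v : ℝ) ^ 2 ≤ x)) (fun v hv => by
      rw [Finset.mem_filter] at hv
      exact ⟨(hS v hv.1).1, hv.2⟩)
    refine h1.trans ((sqrt_le_small hM1 hx hllx4).trans ?_)
    have h2 : Real.exp (-(M : ℝ)) ≤ 1 := by
      rw [Real.exp_le_one_iff]
      linarith only []
    calc x / Real.log x * Real.exp (-(M : ℝ)) ≤ x / Real.log x * 1 :=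
          mul_le_mul_of_nonneg_left h2 hxl.le
      _ = x / Real.log x := mul_one _
  -- part 3
  have hPPsum : ∑ p ∈ PP M, 1 / ((p : ℝ) - 1) ≤ 5 * (M : ℝ) ^ 20 + C := by
    apply hC (5 * (M : ℝ) ^ 20) (PP M) (by positivity)
    intro p hp
    rw [mem_PP] at hp
    exact ⟨hp.2, ll_le_of_le_NN hp.1.le⟩
  have hPPprime : ∀ p ∈ PP M, p.Prime := fun p hp => (mem_PP.mp hp).2
  have hPPnn : 0 ≤ 1 + ∑ p ∈ PP M, 1 / ((p : ℝ) - 1) := by
    have : 0 ≤ ∑ p ∈ PP M, 1 / ((p : ℝ) - 1) := Finset.sum_nonneg fun p hp => by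
      have h1 := prime_one_lt (hPPprime p hp)
      have : (0 : ℝ) < (p : ℝ) - 1 := by linarith only [h1]
      positivity
    linarith only [this]
  have hm20 : (M : ℝ) ≤ (M : ℝ) ^ 20 := by linarith only [q5, q4, q1, q3, q6, q2]
  have hbd : 1 + ∑ p ∈ PP M, 1 / ((p : ℝ) - 1) ≤ 6 * (M : ℝ) ^ 20 := by linarith only [q5, q4, q1, hPPsum, q3, q6, q2, hmC]
  have hmass : ∑ n ∈ ext (PP M) (ext (PP M) (ext (PP M) (DF M 0 1 (9 / 10 * T)))), 1 / (n : ℝ)
      ≤ (6 * (M : ℝ) ^ 20) ^ 3 * F := by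
    have g1 := sum_ext_le (PP M) (DF M 0 1 (9 / 10 * T)) hPPprime
    have g2 := sum_ext_le (PP M) (ext (PP M) (DF M 0 1 (9 / 10 * T))) hPPprime
    have g3 := sum_ext_le (PP M) (ext (PP M) (ext (PP M) (DF M 0 1 (9 / 10 * T)))) hPPprime
    rw [← FF_zero_eq, ← hF] at g1
    set A := 1 + ∑ p ∈ PP M, 1 / ((p : ℝ) - 1) with hA
    have hF0 : 0 ≤ F := by linarith only [hF1]
    have g4 : ∑ n ∈ ext (PP M) (ext (PP M) (DF M 0 1 (9 / 10 * T))), 1 / (n : ℝ) ≤
        A * (A * F) := g2.trans (mul_le_mul_of_nonneg_left g1 hPPnn)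
    have g5 := g3.trans (mul_le_mul_of_nonneg_left g4 hPPnn)
    refine g5.trans ?_
    have g6 : A ^ 3 ≤ (6 * (M : ℝ) ^ 20) ^ 3 := pow_le_pow_left₀ hPPnn hbd 3
    calc A * (A * (A * F)) = A ^ 3 * F := by ring
      _ ≤ _ := mul_le_mul_of_nonneg_right g6 hF0
  have c3 : ((S.filter (fun v : ℕ => v ∈ DD M 0 ∧ x < (v : ℝ) ^ 2)).card : ℝ) ≤
      40 * (x / Real.log x) * ((6 * (M : ℝ) ^ 20) ^ 3 * F) := by
    have hx16 : 16 ≤ x := by
      by_contra hc
      have h1 : ll x ≤ ll 16 := ll_le_ll (by linarith only [hx]) (not_le.mp hc).le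
      have h2 : ll 16 ≤ 16 := by
        unfold ll
        have h5 : Real.log 16 ≤ 16 := by
          have := Real.log_le_sub_one_of_pos (x := 16) (by norm_num)
          linarith only [this]
        have h6 : 0 < Real.log 16 := Real.log_pos (by norm_num)
        have := Real.log_le_sub_one_of_pos h6
        linarith only [h5, this]
      linarith only [q5, q4, h1, q1, hTx, q3, hT, q6, h2, hm4, q2]
    have h1 := one_prime_count x
      ((ext (PP M) (ext (PP M) (ext (PP M) (DF M 0 1 (9 / 10 * T))))).filter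
        (fun n : ℕ => 1 ≤ n ∧ (n : ℝ) ^ 4 ≤ x ^ 3))
      (S.filter (fun v : ℕ => v ∈ DD M 0 ∧ x < (v : ℝ) ^ 2)) hx16
      (fun n hn => (Finset.mem_filter.mp hn).2) (fun v hv => by
        rw [Finset.mem_filter] at hv
        refine ⟨(hS v hv.1).2.2, ?_⟩
        obtain ⟨n, hn, hn2, hp⟩ := growth_struct hM1 hs hx hT hT2 hTx hllx hv.2.1
          (hS v hv.1).2.2 hv.2.2
        exact ⟨n, Finset.mem_filter.mpr ⟨hn, hn2⟩, hp⟩)
    refine h1.trans (mul_le_mul_of_nonneg_left ?_ (by positivity))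
    refine le_trans ?_ hmass
    exact Finset.sum_le_sum_of_subset_of_nonneg (Finset.filter_subset _ _)
      (fun n _ _ => by positivity)
  have hfinal : (V x : ℝ) ≤ x / Real.log x + (x / Real.log x +
      40 * (x / Real.log x) * ((6 * (M : ℝ) ^ 20) ^ 3 * F)) := by
    rw [hVS]
    have h1 : (S.card : ℝ) ≤ ((S.filter (fun v => v ∉ DD M 0)).card : ℝ) +
      (((S.filter (fun v : ℕ => (v : ℝ) ^ 2 ≤ x)).card : ℝ) +
        ((S.filter (fun v : ℕ => v ∈ DD M 0 ∧ x < (v : ℝ) ^ 2)).card : ℝ)) := by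
      exact_mod_cast hcard
    linarith only [h1, c1, c2, c3]
  refine hfinal.trans ?_
  have hpow : (2 : ℝ) + 40 * (6 * (M : ℝ) ^ 20) ^ 3 ≤ (M : ℝ) ^ 61 := by
    have h1 : (6 * (M : ℝ) ^ 20) ^ 3 = 216 * (M : ℝ) ^ 60 := by ring
    have h2 : (1 : ℝ) ≤ (M : ℝ) ^ 60 := one_le_pow₀ (by linarith only [hm4])
    have h3 : (10000 : ℝ) * (M : ℝ) ^ 60 ≤ (M : ℝ) ^ 61 := by
      calc (10000 : ℝ) * (M : ℝ) ^ 60 ≤ (M : ℝ) * (M : ℝ) ^ 60 :=
            mul_le_mul_of_nonneg_right hm4 (by positivity)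
        _ = (M : ℝ) ^ 61 := by ring
    rw [h1]
    linarith only [h2, h3]
  calc x / Real.log x + (x / Real.log x + 40 * (x / Real.log x) * ((6 * (M : ℝ) ^ 20) ^ 3 * F))
      = x / Real.log x * (2 + 40 * (6 * (M : ℝ) ^ 20) ^ 3 * F) := by ring
    _ ≤ x / Real.log x * ((2 + 40 * (6 * (M : ℝ) ^ 20) ^ 3) * F) := by
        apply mul_le_mul_of_nonneg_left _ hxl.le
        nlinarith only [hF1]
    _ ≤ x / Real.log x * ((M : ℝ) ^ 61 * F) := by
        apply mul_le_mul_of_nonneg_left _ hxl.le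
        exact mul_le_mul_of_nonneg_right hpow (by linarith only [hF1])
    _ = x / Real.log x * (M : ℝ) ^ 61 * F := by ring

end J3

end Vale.Agent.P031
end
end

section

section

namespace Vale.Agent.P031

namespace J3

open Finset Filter Topology

/-- the primes `p₁` that are possible above `D` for a top cost in `[a, b]` -/
noncomputable def Win (M : ℕ) (a b : ℝ) (D : ℕ) : Finset ℕ :=
  open Classical in (PP M).filter (fun p => Big M p ∧
    a ≤ max (ll (p : ℝ) - (M : ℝ) ^ 15) (aa 1 * (ll (p : ℝ) - (M : ℝ) ^ 15) + HH M 2 D) ∧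
    max (ll (p : ℝ) - (M : ℝ) ^ 15) (aa 1 * (ll (p : ℝ) - (M : ℝ) ^ 15) + HH M 2 D) ≤ b)

theorem mem_Win {M : ℕ} {a b : ℝ} {D p : ℕ} : p ∈ Win M a b D ↔ p ∈ PP M ∧ Big M p ∧
    a ≤ max (ll (p : ℝ) - (M : ℝ) ^ 15) (aa 1 * (ll (p : ℝ) - (M : ℝ) ^ 15) + HH M 2 D) ∧
    max (ll (p : ℝ) - (M : ℝ) ^ 15) (aa 1 * (ll (p : ℝ) - (M : ℝ) ^ 15) + HH M 2 D) ≤ b := by
  classical
  simp only [Win, Finset.mem_filter]

theorem max_slope {a h s t : ℝ} (ha : 0.38 ≤ a) (ha1 : a ≤ 1) (hst : s ≤ t) :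
    max s (a * s + h) + 0.38 * (t - s) ≤ max t (a * t + h) := by
  have h1 : s + 0.38 * (t - s) ≤ t := by linarith only [hst]
  have h2 : a * s + h + 0.38 * (t - s) ≤ a * t + h := by linarith only [mul_nonneg (sub_nonneg.2 hst) (sub_nonneg.2 ha)]
  rcases le_total s (a * s + h) with h3 | h3
  · rw [max_eq_right h3]
    exact h2.trans (le_max_right _ _)
  · rw [max_eq_left h3]
    exact h1.trans (le_max_left _ _)

theorem Win_mass : ∃ C : ℝ, 0 < C ∧ ∀ (M D : ℕ) (a b : ℝ), a ≤ b →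
    ∑ p ∈ Win M a b D, 1 / ((p : ℝ) - 1) ≤ 3 * (b - a) + C := by
  obtain ⟨C, hC0, hC⟩ := sum_inv_le
  refine ⟨C, hC0, fun M D a b hab => ?_⟩
  by_cases hne : (Win M a b D).Nonempty
  · obtain ⟨q, hq, hqmin⟩ := Finset.exists_min_image (Win M a b D) (fun p : ℕ => ll (p : ℝ)) hne
    have hq' := mem_Win.mp hq
    have hq0 : 0 ≤ ll (q : ℝ) := le_trans (by positivity) hq'.2.1.2
    have h1 := hC (ll (q : ℝ)) (ll (q : ℝ) + 3 * (b - a)) (Win M a b D) hq0 (by linarith)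
      (fun p hp => by
        have hp' := mem_Win.mp hp
        refine ⟨hp'.2.1.1, hqmin p hp, ?_⟩
        have h2 := max_slope (h := HH M 2 D) aa_one_ge aa_one_le
          (show ll (q : ℝ) - (M : ℝ) ^ 15 ≤ ll (p : ℝ) - (M : ℝ) ^ 15 by linarith [hqmin p hp])
        have h3 := hp'.2.2.2
        have h4 := hq'.2.2.1
        linarith only [hp', h2, hq'])
    linarith only [h1]
  · rw [Finset.not_nonempty_iff_eq_empty] at hne
    rw [hne, Finset.sum_empty]
    linarith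

/-- products `(p - 1) D` with `D` in a set and `p` in the window of `D` -/
noncomputable def WinExt (M : ℕ) (a b : ℝ) (N : Finset ℕ) : Finset ℕ :=
  (N.sigma (fun D => Win M a b D)).image (fun c => (c.2 - 1) * c.1)

theorem mem_WinExt {M : ℕ} {a b : ℝ} {N : Finset ℕ} {D p : ℕ} (hD : D ∈ N)
    (hp : p ∈ Win M a b D) : (p - 1) * D ∈ WinExt M a b N := by
  unfold WinExt
  rw [Finset.mem_image]
  exact ⟨⟨D, p⟩, Finset.mem_sigma.mpr ⟨hD, hp⟩, rfl⟩

theorem WinExt_mass {M : ℕ} {a b K : ℝ} (N : Finset ℕ)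
    (hK : ∀ D ∈ N, ∑ p ∈ Win M a b D, 1 / ((p : ℝ) - 1) ≤ K) :
    ∑ n ∈ WinExt M a b N, 1 / (n : ℝ) ≤ K * ∑ D ∈ N, 1 / (D : ℝ) := by
  classical
  unfold WinExt
  have h1 := sum_image_le_sum (N.sigma (fun D => Win M a b D))
    (fun c => (c.2 - 1) * c.1) (fun n => 1 / (n : ℝ)) (fun n => by positivity)
  refine h1.trans ?_
  rw [Finset.sum_sigma, Finset.mul_sum]
  refine Finset.sum_le_sum fun D hD => ?_
  calc ∑ p ∈ Win M a b D, 1 / (((p - 1) * D : ℕ) : ℝ)
      = ∑ p ∈ Win M a b D, 1 / ((p : ℝ) - 1) * (1 / (D : ℝ)) := by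
        refine Finset.sum_congr rfl fun p hp => ?_
        have h2 := cast_pm (a := (p, D)) (mem_Win.mp hp).2.1.1
        unfold pm at h2
        rw [h2, one_div_mul_one_div]
    _ = (∑ p ∈ Win M a b D, 1 / ((p : ℝ) - 1)) * (1 / (D : ℝ)) := by rw [Finset.sum_mul]
    _ ≤ K * (1 / (D : ℝ)) := mul_le_mul_of_nonneg_right (hK D hD) (by positivity)

theorem Cost_one (M D : ℕ) : Cost M 1 D = max (YY M D) (HH M 1 D) := rfl

theorem Cost_two (M D : ℕ) : Cost M 2 D = max (max (YY M D) (HH M 1 D))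
    (aa 1 * max (YY M D) (HH M 1 D) + HH M 2 D) := rfl

/-- structure of the good totients with large cost -/
theorem bad_struct {M : ℕ} (hM : 1000 ≤ M) (hs : StepAt M)
    (hY : ∀ (J P D : ℕ), 1 ≤ J → Ch M J P D → ll (P : ℝ) ≤ 5 * (M : ℝ) ^ 20 →
      ll (P : ℝ) - (M : ℝ) ^ 15 - M ≤ YY M D ∧ YY M D ≤ ll (P : ℝ) - (M : ℝ) ^ 15)
    {E x T : ℝ} {v : ℕ} (hx : 3 ≤ x) (hE : (M : ℝ) ^ 18 ≤ E) (hE2 : E ≤ (M : ℝ) ^ 19)
    (hTx : |ll x - (M : ℝ) ^ 15 - T| ≤ 1)
    (hT : 1 / 2 * (M : ℝ) ^ 20 ≤ T) (hT2 : T ≤ 3 * (M : ℝ) ^ 20) (hv : v ∈ DD M 0)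
    (hvx : (v : ℝ) ≤ x) (hvx2 : x < (v : ℝ) ^ 2)
    (hbad : ∀ p D : ℕ, v = (p - 1) * D → p.Prime → D ∈ DD M 0 → D ∉ DF M 0 1 (T - E)) :
    ∃ n ∈ WinExt M (T - 2 * E) (T + 3 * E) (DF M 0 2 (T + 8 * E)),
      (1 ≤ n ∧ (n : ℝ) ^ 4 ≤ x ^ 3) ∧ ∃ p : ℕ, p.Prime ∧ v = (p - 1) * n := by
  have hm : (1000 : ℝ) ≤ M := by exact_mod_cast hM
  obtain ⟨q1, q2, q3, q4, q5, q6⟩ := pows hm
  rw [abs_le] at hTx
  have hm20 : (0 : ℝ) ≤ (M : ℝ) ^ 20 := by positivity
  have hm17 : (0 : ℝ) ≤ (M : ℝ) ^ 17 := by positivity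
  have h26 : M ^ 25 ≤ M ^ 26 := Nat.pow_le_pow_right (by omega) (by norm_num)
  have hllx4 : (M : ℝ) ^ 20 / 4 ≤ ll x := by linarith only [hT, hm, q4, q5, q6, q1, q3, hTx, q2]
  have hll5 : ll x + 1 ≤ 5 * (M : ℝ) ^ 20 := by linarith only [hT2, hm, q4, q5, q6, q1, q3, hTx, q2]
  obtain ⟨J₁, P₁, p₀, D₁, rfl, hp₀, hP₁, hC₁, hG₀, hJ₁, hO₁⟩ := top_exists hM hx hllx4 hv hvx2
  obtain ⟨hb₀, hD₁x⟩ := pred_le_of_mul_le hp₀.ge_two (Ch_ne_zero hC₁) hvx
  have hl₀ : ll (p₀ : ℝ) ≤ ll x + 1 := ll_le_of_pred_le hx (prime_one_lt hp₀.big.1) hb₀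
  have hN₁ : D₁ < NN M := lt_NN hx hll5 (by linarith only [hD₁x])
  have hl₀5 : ll (p₀ : ℝ) ≤ 5 * (M : ℝ) ^ 20 := by linarith only [hT2, hm, q4, q5, q6, q1, q3, hTx, hl₀, q2]
  have h1D₁ : 1 ≤ D₁ := Nat.one_le_iff_ne_zero.mpr (Ch_ne_zero hC₁)
  have hDD₁ : D₁ ∈ DD M 0 := ⟨⟨J₁, P₁, by omega, hC₁⟩, by omega⟩
  have hnot := hbad p₀ D₁ rfl hp₀.big.1 hDD₁
  cases J₁ with
  | zero =>
    exact absurd (mem_DF_small (by omega) hC₁ hO₁ hN₁ (by linarith only [hT, q4, q5, q6, q1, q3, hE2, q2])) hnot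
  | succ J₂ =>
    have hcost : T - E < Cost M 1 D₁ := by
      by_contra hc
      exact hnot (mem_DF.mpr ⟨⟨h1D₁, hN₁⟩, hDD₁, not_lt.mp hc⟩)
    obtain ⟨P₂, D₂, hD₁eq, hp₁, hP₂, hC₂, hG₁, -⟩ := Ch_succ hC₁
    have hO₂ : Om D₂ ≤ M ^ 25 := by
      refine le_trans ?_ hO₁
      rw [hD₁eq]
      exact Om_le_Om_mul (Ch_ne_zero hC₂) hp₁.ge_two
    have hC₁' : Ch M (J₂ + 1) P₁ ((P₁ - 1) * D₂) := hD₁eq ▸ hC₁
    have hsq : (D₂ : ℝ) ^ 2 ≤ x :=
      second_small hM hs hx hllx4 hl₀ hl₀5 hp₀ hp₁ hP₁ hP₂ hC₂ hC₁' (hD₁eq ▸ hO₁) (hD₁eq ▸ hG₀)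
    have h4 : (D₁ : ℝ) ^ 4 ≤ x ^ 3 := by
      have := pow_four_le (D := D₂) hx hp₀.ge_two hp₁.ge_two hP₁ hsq (hD₁eq ▸ hvx)
      rw [← hD₁eq] at this
      exact this
    refine ⟨D₁, ?_, ⟨h1D₁, h4⟩, p₀, hp₀.big.1, rfl⟩
    obtain ⟨hb₁, hD₂x⟩ := pred_le_of_mul_le hp₁.ge_two (Ch_ne_zero hC₂) (hD₁eq ▸ hD₁x)
    have hPP₁ : P₁ ∈ PP M := mem_PP.mpr ⟨lt_NN hx hll5 hb₁, hp₁.big.1⟩
    have hN₂ : D₂ < NN M := lt_NN hx hll5 (by linarith only [hD₂x])
    have hl₁₀ : ll (P₁ : ℝ) ≤ ll (p₀ : ℝ) :=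
      ll_le_ll (prime_one_lt hp₁.big.1) (by exact_mod_cast hP₁.le)
    have hY₁ := hY (J₂ + 1) P₁ D₁ (by omega) hC₁ (by linarith only [hT2, hm, q4, q5, hl₁₀, q6, q1, q3, hTx, hl₀, q2])
    have e1 := HH_one_le hs hp₀ hl₀5 hP₁ hC₁ (hO₁.trans h26) hG₀
    have e2 := chain_step hs (j := 1) (by norm_num) hp₁ (by linarith only [hT2, hm, q4, q5, hl₁₀, q6, q1, q3, hTx, hl₀, q2]) hP₂ hC₂ (hO₂.trans h26)
    rw [← hD₁eq] at e2
    norm_num at e2
    rw [abs_le] at e2
    have e3 := HH_one_le hs hp₁ (by linarith only [hT2, hm, q4, q5, hl₁₀, q6, q1, q3, hTx, hl₀, q2]) hP₂ hC₂ (hO₂.trans h26)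
      (by rw [← hD₁eq]; rw [hD₁eq]; exact hG₁)
    rw [Cost_one] at hcost
    set ξ := ll (P₁ : ℝ) - (M : ℝ) ^ 15 with hξ
    have hξ0 : 0 ≤ ξ := by
      rw [hξ]
      linarith only [hp₁.big.2]
    have hξT : ξ ≤ T + 2 := by linarith only [hl₁₀, hTx, hl₀]
    have a1 := aa_one_ge
    have a1' := aa_one_le
    -- lower and upper bounds for the maximum
    have hlow : T - 2 * E ≤ max ξ (aa 1 * ξ + HH M 2 D₂) := by
      rcases le_total (YY M D₁) (HH M 1 D₁) with h5 | h5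
      · rw [max_eq_right h5] at hcost
        refine le_trans ?_ (le_max_right _ _)
        linarith only [hE, q4, e2, hcost]
      · rw [max_eq_left h5] at hcost
        refine le_trans ?_ (le_max_left _ _)
        linarith only [hE, q4, q1, q3, q2, hcost, hY₁.2]
    have hup : max ξ (aa 1 * ξ + HH M 2 D₂) ≤ T + 3 * E := by
      apply max_le
      · linarith only [hE, hm, q4, hl₁₀, q1, q3, hTx, hl₀, q2]
      · linarith only [e1, hE, hm, q4, q1, q3, hTx, hl₀, q2, e2.1]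
    have hwin : P₁ ∈ Win M (T - 2 * E) (T + 3 * E) D₂ :=
      mem_Win.mpr ⟨hPP₁, hp₁.big, hlow, hup⟩
    rw [hD₁eq]
    refine mem_WinExt ?_ hwin
    rw [mem_DF]
    refine ⟨⟨Nat.one_le_iff_ne_zero.mpr (Ch_ne_zero hC₂), hN₂⟩,
      ⟨⟨J₂, P₂, by omega, hC₂⟩, by omega⟩, ?_⟩
    rw [Cost_two]
    have hYY₂ : YY M D₂ ≤ ξ := by
      refine YY_le hξ0 fun q hq hd => ?_
      have h5 : q < P₁ := Ch_prime_lt hC₂ P₁ hp₁.big hP₂ q hq hd
      have h6 : ll (q : ℝ) ≤ ll (P₁ : ℝ) := ll_le_ll (prime_one_lt hq) (by exact_mod_cast h5.le)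
      linarith only [h6]
    have hmax : max (YY M D₂) (HH M 1 D₂) ≤ ξ + 2 * E := by
      apply max_le
      · linarith only [hE, q4, hYY₂, q1, q3, q2]
      · linarith only [hE, q4, q1, e3, q3, q2]
    have hup1 : ξ ≤ T + 3 * E := (le_max_left _ _).trans hup
    have hup2 : aa 1 * ξ + HH M 2 D₂ ≤ T + 3 * E := (le_max_right _ _).trans hup
    apply max_le
    · linarith only [hE, hm, q4, hl₁₀, q1, q3, hTx, hl₀, q2, hmax]
    · have h5 : aa 1 * max (YY M D₂) (HH M 1 D₂) ≤ aa 1 * (ξ + 2 * E) :=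
        mul_le_mul_of_nonneg_left hmax (by linarith only [a1])
      have h6 : aa 1 * (2 * E) ≤ 1 * (2 * E) :=
        mul_le_mul_of_nonneg_right a1' (by linarith only [hE, q4, q1, q3, q2])
      linarith only [h6, e1, hE, hm, q4, e2, q1, h5, q3, hTx, hl₀, q2]

/-- totients with large cost -/
theorem _root_.Vale.Agent.P031.v_bad : ∃ C : ℝ, 0 < C ∧ ∀ᶠ M : ℕ in atTop, ∀ (E x T : ℝ) (s : Finset ℕ), 3 ≤ x →
    (M : ℝ) ^ 18 ≤ E → E ≤ (M : ℝ) ^ 19 →
    |ll x - (M : ℝ) ^ 15 - T| ≤ 1 → 1 / 2 * (M : ℝ) ^ 20 ≤ T → T ≤ 3 * (M : ℝ) ^ 20 →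
    (∀ v ∈ s, (v : ℝ) ≤ x ∧ v ∈ DD M 0 ∧ ∀ p D : ℕ, v = (p - 1) * D → p.Prime →
      D ∈ DD M 0 → D ∉ DF M 0 1 (T - E)) →
    (s.card : ℝ) ≤ x / Real.log x * (C * E * FF M 0 2 0 (T + C * E) + Real.exp (-(M : ℝ))) := by
  classical
  obtain ⟨C, hC0, hC⟩ := Win_mass
  refine ⟨1000, by norm_num, ?_⟩
  filter_upwards [YY_near, step 3, eventually_ge_atTop (1000 : ℕ), eventually_ge_atTop ⌈C⌉₊]
    with M hY hstep hM hMC E x T s hx hE hE2 hTx hT hT2 hsv
  have hs : StepAt M := hstep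
  have hm : (1000 : ℝ) ≤ M := by exact_mod_cast hM
  obtain ⟨q1, q2, q3, q4, q5, q6⟩ := pows hm
  have hmC : C ≤ (M : ℝ) := (Nat.le_ceil _).trans (by exact_mod_cast hMC)
  have hx0 : 0 < x := by linarith only [hx]
  have hlx : 0 < Real.log x := Real.log_pos (by linarith only [hx])
  have hxl : 0 < x / Real.log x := by positivity
  have hTx' := abs_le.mp hTx
  have hllx4 : (M : ℝ) ^ 20 / 4 ≤ ll x := by linarith only [q4, hT, hTx', q2, q3, q1, hm, q6, q5]
  have hE0 : 0 < E := by linarith only [q4, q2, q3, hE, q1, hm]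
  have hcard : s.card ≤ (s.filter (fun v : ℕ => (v : ℝ) ^ 2 ≤ x)).card +
        (s.filter (fun v : ℕ => x < (v : ℝ) ^ 2)).card := by
    have h1 : s ⊆ s.filter (fun v : ℕ => (v : ℝ) ^ 2 ≤ x) ∪
        s.filter (fun v : ℕ => x < (v : ℝ) ^ 2) := by
      intro v hv
      simp only [Finset.mem_union, Finset.mem_filter]
      by_cases h2 : (v : ℝ) ^ 2 ≤ x
      · exact Or.inl ⟨hv, h2⟩
      · exact Or.inr ⟨hv, not_le.mp h2⟩
    exact (Finset.card_le_card h1).trans (Finset.card_union_le _ _)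
  have c2 : ((s.filter (fun v : ℕ => (v : ℝ) ^ 2 ≤ x)).card : ℝ) ≤
      x / Real.log x * Real.exp (-(M : ℝ)) := by
    have h1 := sqrt_count hx0.le (s.filter (fun v : ℕ => (v : ℝ) ^ 2 ≤ x)) (fun v hv => by
      rw [Finset.mem_filter] at hv
      refine ⟨?_, hv.2⟩
      obtain ⟨⟨J, P, _, hCh⟩, _⟩ := (hsv v hv.1).2.1
      exact Nat.one_le_iff_ne_zero.mpr (Ch_ne_zero hCh))
    exact h1.trans (sqrt_le_small hM hx hllx4)
  have hx16 : 16 ≤ x := by
    by_contra hc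
    have h1 : ll x ≤ ll 16 := ll_le_ll (by linarith only [hx]) (not_le.mp hc).le
    have h2 : ll 16 ≤ 16 := by
      unfold ll
      have h5 : Real.log 16 ≤ 16 := by
        have := Real.log_le_sub_one_of_pos (x := 16) (by norm_num)
        linarith only [this]
      have h6 : 0 < Real.log 16 := Real.log_pos (by norm_num)
      have := Real.log_le_sub_one_of_pos h6
      linarith only [h5, this]
    linarith only [q4, hT, hTx', q2, q3, h1, q1, hm, q6, q5, h2]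
  have hmass : ∑ n ∈ WinExt M (T - 2 * E) (T + 3 * E) (DF M 0 2 (T + 8 * E)), 1 / (n : ℝ)
      ≤ 25 * E * FF M 0 2 0 (T + 8 * E) := by
    have h1 := WinExt_mass (M := M) (a := T - 2 * E) (b := T + 3 * E) (K := 25 * E)
      (DF M 0 2 (T + 8 * E)) (fun D _ => by
        have h2 := hC M D (T - 2 * E) (T + 3 * E) (by linarith only [q4, q2, q3, hE, q1])
        linarith only [q4, hmC, h2, q2, q3, hE, q1])
    refine h1.trans (le_of_eq ?_)
    simp [FF]
  have c3 : ((s.filter (fun v : ℕ => x < (v : ℝ) ^ 2)).card : ℝ) ≤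
      40 * (x / Real.log x) * (25 * E * FF M 0 2 0 (T + 8 * E)) := by
    have h1 := one_prime_count x
      ((WinExt M (T - 2 * E) (T + 3 * E) (DF M 0 2 (T + 8 * E))).filter
        (fun n : ℕ => 1 ≤ n ∧ (n : ℝ) ^ 4 ≤ x ^ 3))
      (s.filter (fun v : ℕ => x < (v : ℝ) ^ 2)) hx16
      (fun n hn => (Finset.mem_filter.mp hn).2) (fun v hv => by
        rw [Finset.mem_filter] at hv
        obtain ⟨g1, g2, g3⟩ := hsv v hv.1
        refine ⟨g1, ?_⟩
        obtain ⟨n, hn, hn2, hp⟩ := bad_struct hM hs hY hx hE hE2 hTx hT hT2 g2 g1 hv.2 g3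
        exact ⟨n, Finset.mem_filter.mpr ⟨hn, hn2⟩, hp⟩)
    refine h1.trans (mul_le_mul_of_nonneg_left ?_ (by positivity))
    refine le_trans ?_ hmass
    exact Finset.sum_le_sum_of_subset_of_nonneg (Finset.filter_subset _ _)
      (fun n _ _ => by positivity)
  have hmono : FF M 0 2 0 (T + 8 * E) ≤ FF M 0 2 0 (T + 1000 * E) := FF_mono (by linarith only [q4, q2, q3, hE, q1])
  have h5 : (s.card : ℝ) ≤ ((s.filter (fun v : ℕ => (v : ℝ) ^ 2 ≤ x)).card : ℝ) +
      ((s.filter (fun v : ℕ => x < (v : ℝ) ^ 2)).card : ℝ) := by exact_mod_cast hcard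
  calc (s.card : ℝ) ≤ x / Real.log x * Real.exp (-(M : ℝ)) +
        40 * (x / Real.log x) * (25 * E * FF M 0 2 0 (T + 8 * E)) := by linarith only [c2, c3, h5]
    _ = x / Real.log x * (1000 * E * FF M 0 2 0 (T + 8 * E) + Real.exp (-(M : ℝ))) := by ring
    _ ≤ _ := by
        apply mul_le_mul_of_nonneg_left _ hxl.le
        have h6 : 1000 * E * FF M 0 2 0 (T + 8 * E) ≤ 1000 * E * FF M 0 2 0 (T + 1000 * E) :=
          mul_le_mul_of_nonneg_left hmono (by linarith only [q4, q2, q3, hE, q1])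
        linarith only [h6]

end J3

end Vale.Agent.P031
end
end

section

section

/-!
# P031: final assembly, second part
-/

namespace Vale.Agent.P031

open Finset Filter Topology

/-- `V(cx)/V(x) → c`, from the collision bound. -/
theorem main_of_ClCount (hcl : ClCount) (c : ℝ) (hc : 0 < c) :
    Tendsto (fun x : ℝ => (V (c * x) : ℝ) / (V x : ℝ)) atTop (𝓝 c) :=
  main_of up (low_of np_mass (col_use_mass_of (cl_mass_of hcl))) (v_low_of np_count hcl)
    (v_low_sharp_of np_count hcl) (J3.v_growth_of th) v_bad th c hc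

end Vale.Agent.P031
end
end

section

section

/-!
Cell inequality and weighted sums over integers for the collision lemma.
-/

open Finset Filter Topology

namespace Vale.Agent.P031

open Vale.Agent.P003 (PLE mem_PLE)
open Vale.Agent.P005.Selberg (cm cm_apply)

/-! ### The exponent inequality -/

lemma cell_aux (lam S : ℝ) (N r : ℕ) (hlam : 0 < lam) (hN0 : 0 < N) (hr : 0 < r)
    (hS : 2 * Real.sqrt r ≤ S) :
    (N:ℝ) * Real.log (lam * r / N) + N - lam * S ≤ ph lam N := by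
  have hN : (0:ℝ) < N := by exact_mod_cast hN0
  have hr' : (0:ℝ) < r := by exact_mod_cast hr
  have hs : 0 < Real.sqrt r := Real.sqrt_pos.2 hr'
  have hsq : Real.sqrt r * Real.sqrt r = r := Real.mul_self_sqrt hr'.le
  unfold ph
  have h1 : Real.log (lam * r / N) = Real.log (N / lam) + 2 * Real.log (lam * Real.sqrt r / N) := by
    have e1 : 2 * Real.log (lam * Real.sqrt r / N) =
        Real.log ((lam * Real.sqrt r / N) * (lam * Real.sqrt r / N)) := by
      rw [Real.log_mul (by positivity) (by positivity)]; ring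
    rw [e1, ← Real.log_mul (by positivity) (by positivity)]
    congr 1
    have : (lam * Real.sqrt r / N) * (lam * Real.sqrt r / N) =
        lam * lam * (Real.sqrt r * Real.sqrt r) / (N * N) := by ring
    rw [this, hsq]
    field_simp
  have h2 := Real.log_le_sub_one_of_pos (x := lam * Real.sqrt r / N) (by positivity)
  have h3 : (N:ℝ) * (2 * Real.log (lam * Real.sqrt r / N)) ≤ 2 * lam * Real.sqrt r - 2 * N := by
    have : (N:ℝ) * (2 * Real.log (lam * Real.sqrt r / N)) ≤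
        N * (2 * (lam * Real.sqrt r / N - 1)) := by gcongr
    refine this.trans (le_of_eq ?_)
    field_simp
  have h4 : lam * (2 * Real.sqrt r) ≤ lam * S := by gcongr
  rw [h1]
  linarith only [h4, h3]

theorem cell_exp (lam : ℝ) (N a b t r : ℕ) (hlam : 0 < lam) (hr : r ≤ a * b + t)
    (hN : 0 < N → 0 < r) :
    (N:ℝ) * Real.log (lam * r / N) + N - lam * ((a:ℝ) + b + t) ≤ ph lam N + lam := by
  rcases Nat.eq_zero_or_pos N with h0 | hpos
  · subst h0
    have : 0 ≤ lam * ((a:ℝ) + b + t) := by positivity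
    simp only [Nat.cast_zero, ph_zero]
    simp
    linarith only [this, hlam]
  · have hrr := hN hpos
    have hS : 2 * Real.sqrt r ≤ (a:ℝ) + b + t + 1 := by
      have h1 : Real.sqrt r ≤ ((a:ℝ) + b + t + 1) / 2 := by
        apply Real.sqrt_le_iff.2
        refine ⟨by positivity, ?_⟩
        have h2 : (r:ℝ) ≤ a * b + t := by exact_mod_cast hr
        have ha : (0:ℝ) ≤ a := Nat.cast_nonneg a
        have hb : (0:ℝ) ≤ b := Nat.cast_nonneg b
        have ht : (0:ℝ) ≤ t := Nat.cast_nonneg t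
        nlinarith only [h2, sq_nonneg ((a:ℝ) - b), sq_nonneg ((t:ℝ) - 1)]
      linarith only [h1]
    have h := cell_aux lam ((a:ℝ) + b + t + 1) N r hlam hpos hrr hS
    linarith only [h]

theorem cell_exp' (lam : ℝ) (N a b t r : ℕ) (hlam : 0 < lam) (hr : r ≤ a * b + t)
    (hN : 0 < N → 0 < r) (hab : 1 ≤ a + b) :
    (N:ℝ) * Real.log (lam * r / N) + N - lam * ((a:ℝ) + b + t) ≤ ph lam N := by
  rcases Nat.eq_zero_or_pos N with h0 | hpos
  · subst h0
    have : 0 ≤ lam * ((a:ℝ) + b + t) := by positivity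
    simp only [Nat.cast_zero, ph_zero]
    simp
    linarith only [this]
  · have hrr := hN hpos
    have hS : 2 * Real.sqrt r ≤ (a:ℝ) + b + t := by
      have h1 : Real.sqrt r ≤ ((a:ℝ) + b + t) / 2 := by
        apply Real.sqrt_le_iff.2
        refine ⟨by positivity, ?_⟩
        have hkey : 4 * (a * b + t) ≤ (a + b + t) * (a + b + t) := by
          rcases Nat.lt_or_ge 1 (a + b) with h2 | h2
          · -- a + b ≥ 2
            have h3 : 4 * (a * b) ≤ (a + b) * (a + b) := by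
              have := sq_nonneg ((a:ℤ) - b)
              have h4 : (4 * (a * b) : ℤ) ≤ ((a:ℤ) + b) * (a + b) := by linarith only [this]
              exact_mod_cast h4
            have h5 : 2 * t ≤ (a + b) * t := Nat.mul_le_mul_right t h2
            nlinarith only [h3, h5]
          · have hab1 : a + b = 1 := by omega
            have h6 : a * b = 0 := by
              rcases Nat.eq_zero_or_pos a with ha | ha
              · simp [ha]
              · have : b = 0 := by omega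
                simp [this]
            rw [h6, hab1, zero_add]
            have : 4 * (t:ℤ) ≤ (1 + t) * (1 + t) := by nlinarith only [sq_nonneg ((t:ℤ) - 1)]
            exact_mod_cast this
        have h2 : (r:ℝ) ≤ a * b + t := by exact_mod_cast hr
        have h3 : (4:ℝ) * (a * b + t) ≤ (a + b + t) * (a + b + t) := by exact_mod_cast hkey
        linarith only [h2, h3]
      linarith only [h1]
    exact cell_aux lam ((a:ℝ) + b + t) N r hlam hpos hrr hS

/-! ### Sums of reciprocals of primes in ranges of `log log` -/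

lemma le_exp_exp_of_ll_le {p : ℕ} (hp : 2 ≤ p) {b : ℝ} (h : ll (p:ℝ) ≤ b) :
    (p:ℝ) ≤ Real.exp (Real.exp b) := by
  have hp1 : (1:ℝ) < p := by exact_mod_cast (by omega : 1 < p)
  have hl : 0 < Real.log p := Real.log_pos hp1
  have h1 := (Real.log_le_iff_le_exp hl).1 h
  exact (Real.log_le_iff_le_exp (by linarith)).1 h1

lemma exp_exp_le_of_le_ll {p : ℕ} (hp : 2 ≤ p) {a : ℝ} (h : a ≤ ll (p:ℝ)) :
    Real.exp (Real.exp a) ≤ (p:ℝ) := by
  have hp1 : (1:ℝ) < p := by exact_mod_cast (by omega : 1 < p)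
  have hl : 0 < Real.log p := Real.log_pos hp1
  have h1 := (Real.le_log_iff_exp_le hl).1 h
  exact (Real.le_log_iff_exp_le (by linarith)).1 h1

lemma sum_inv_range (a b : ℝ) (s : Finset ℕ) (ha : 0 ≤ a)
    (hs : ∀ p ∈ s, p.Prime ∧ a ≤ ll (p : ℝ) ∧ ll (p : ℝ) ≤ b) :
    ∑ p ∈ s, 1 / (p : ℝ) ≤ max 0 (b - a + 41) := by
  rcases s.eq_empty_or_nonempty with he | ⟨p₀, hp₀⟩
  · rw [he, Finset.sum_empty]; exact le_max_left _ _
  refine le_trans ?_ (le_max_right _ _)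
  set B := ⌊Real.exp (Real.exp b)⌋₊ with hB
  set A := ⌈Real.exp (Real.exp a)⌉₊ with hA
  have hge : ∀ p ∈ s, A ≤ p := fun p hp =>
    Nat.ceil_le.2 (exp_exp_le_of_le_ll (hs p hp).1.two_le (hs p hp).2.1)
  have hle : ∀ p ∈ s, p ≤ B := fun p hp =>
    Nat.le_floor (le_exp_exp_of_ll_le (hs p hp).1.two_le (hs p hp).2.2)
  have hea : 1 ≤ Real.exp a := Real.one_le_exp ha
  have hee : 2.7182818283 < Real.exp (Real.exp a) :=
    lt_of_lt_of_le Real.exp_one_gt_d9 (Real.exp_le_exp.2 hea)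
  have hA3 : 3 ≤ A := by
    have : (2:ℝ) < Real.exp (Real.exp a) := by linarith only [hee]
    have : 2 < A := Nat.lt_ceil.2 (by exact_mod_cast this)
    omega
  have hAB : A ≤ B := (hge p₀ hp₀).trans (hle p₀ hp₀)
  have hsub : s ⊆ PLE B \ PLE (A - 1) := by
    intro p hp
    rw [Finset.mem_sdiff, mem_PLE, mem_PLE]
    refine ⟨⟨hle p hp, (hs p hp).1⟩, fun h => ?_⟩
    have := hge p hp
    omega
  have hsub2 : PLE (A - 1) ⊆ PLE B := by
    intro p hp
    rw [mem_PLE] at hp ⊢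
    exact ⟨by omega, hp.2⟩
  have h1 : ∑ p ∈ s, 1 / (p : ℝ) ≤ recipSum B - recipSum (A - 1) := by
    have h2 : ∑ p ∈ s, 1 / (p : ℝ) ≤ ∑ p ∈ PLE B \ PLE (A - 1), 1 / (p:ℝ) :=
      Finset.sum_le_sum_of_subset_of_nonneg hsub (fun _ _ _ => by positivity)
    have h3 := Finset.sum_sdiff (f := fun p : ℕ => 1 / (p:ℝ)) hsub2
    unfold recipSum
    linarith only [h3, h2]
  have hBn := (abs_le.1 (recipSum_near B (by omega))).2
  have hAn := (abs_le.1 (recipSum_near (A - 1) (by omega))).1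
  have hllB : Real.log (Real.log B) ≤ b := by
    have hB1 : (1:ℝ) < B := by exact_mod_cast (by omega : 1 < B)
    have h5 : (B:ℝ) ≤ Real.exp (Real.exp b) := Nat.floor_le (Real.exp_pos _).le
    rw [Real.log_le_iff_le_exp (Real.log_pos hB1), Real.log_le_iff_le_exp (by linarith only [hB1])]
    exact h5
  have hllA : a ≤ Real.log (Real.log ((A - 1 : ℕ):ℝ)) + Real.log 2 := by
    have hA1 : (2:ℝ) ≤ ((A - 1 : ℕ):ℝ) := by exact_mod_cast (by omega : 2 ≤ A - 1)
    have h6 : Real.exp (Real.exp a) ≤ ((A - 1 : ℕ):ℝ) ^ 2 := by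
      have h7 : Real.exp (Real.exp a) ≤ (A:ℝ) := Nat.le_ceil _
      have h8 : (A:ℝ) = ((A - 1 : ℕ):ℝ) + 1 := by
        have : A = (A - 1) + 1 := by omega
        exact_mod_cast this
      nlinarith only [h8, hA1, h7]
    have h9 : Real.exp a ≤ 2 * Real.log ((A - 1 : ℕ):ℝ) := by
      have := (Real.le_log_iff_exp_le (by positivity)).2 h6
      rw [Real.log_pow] at this
      exact_mod_cast this
    have hl0 : 0 < Real.log ((A - 1 : ℕ):ℝ) := Real.log_pos (by linarith only [hA1])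
    have h10 := (Real.le_log_iff_exp_le (by positivity)).2 h9
    rw [Real.log_mul (by norm_num) hl0.ne'] at h10
    linarith only [h10]
  have hl2 := Real.log_two_lt_d9
  linarith only [hAn, hBn, hllB, hllA, h1, hl2]

/-! ### The weights -/

open Classical in
/-- completely multiplicative weight with value `w k` on the big primes of level `k` and `1`
on the other primes -/
noncomputable def wt (M : ℕ) (w : ℕ → ℝ) (m : ℕ) : ℝ :=
  ∏ p ∈ m.primeFactors, (if Big M p then w (lev M p) else 1) ^ (m.factorization p)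

open Classical in
lemma wt_eq_cm (M : ℕ) (w : ℕ → ℝ) {m : ℕ} (hm : m ≠ 0) :
    wt M w m = Vale.Agent.P005.Selberg.cm (fun p => if Big M p then w (lev M p) else 1) m := by
  rw [cm_apply hm, Finset.prod_list_map_count]
  unfold wt
  apply Finset.prod_congr rfl
  intro p _
  rw [Nat.primeFactorsList_count_eq]

lemma wt_mul (M : ℕ) (w : ℕ → ℝ) {a b : ℕ} (ha : a ≠ 0) (hb : b ≠ 0) :
    wt M w (a * b) = wt M w a * wt M w b := by
  rw [wt_eq_cm M w (mul_ne_zero ha hb), wt_eq_cm M w ha, wt_eq_cm M w hb, map_mul]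

open Classical in
/-- value of the weight in terms of the profile -/
lemma wt_eq_prof {M : ℕ} (hM : 1 ≤ M) (w : ℕ → ℝ) {n : ℕ}
    (hll : ∀ p : ℕ, p.Prime → p ∣ n → ll (p:ℝ) ≤ 5 * (M:ℝ) ^ 20) :
    wt M w n = ∏ k ∈ Finset.Ico (M ^ 2) (KK M), (w k) ^ (prof M n k) := by
  have h1 : ∀ k ∈ Finset.Ico (M ^ 2) (KK M), (w k) ^ (prof M n k) =
      ∏ q ∈ n.primeFactors.filter (fun q => lev M q = k),
        (if Big M q then w (lev M q) else 1) ^ (n.factorization q) := by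
    intro k hk
    rw [Finset.mem_Ico] at hk
    unfold prof
    rw [← Finset.prod_pow_eq_pow_sum]
    apply Finset.prod_congr rfl
    intro q hq
    rw [Finset.mem_filter] at hq
    have hqp := Nat.prime_of_mem_primeFactors hq.1
    have hbig : Big M q := by
      by_contra hcon
      have := lev_lt_of_not_big hM hqp hcon
      omega
    rw [if_pos hbig, hq.2]
  rw [Finset.prod_congr rfl h1]
  unfold wt
  have h2 : ∏ p ∈ n.primeFactors, (if Big M p then w (lev M p) else 1) ^ (n.factorization p) =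
      ∏ p ∈ n.primeFactors.filter (fun p => lev M p ∈ Finset.Ico (M ^ 2) (KK M)),
        (if Big M p then w (lev M p) else 1) ^ (n.factorization p) := by
    symm
    apply Finset.prod_subset (Finset.filter_subset _ _)
    intro p hp hnot
    have hpp := Nat.prime_of_mem_primeFactors hp
    have hnb : ¬ Big M p := by
      intro hb
      apply hnot
      rw [Finset.mem_filter, Finset.mem_Ico]
      exact ⟨hp, lev_ge_of_big hM hb, lev_lt_KK hM (hll p hpp (Nat.dvd_of_mem_primeFactors hp))⟩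
    rw [if_neg hnb, one_pow]
  rw [h2]
  rw [← Finset.prod_fiberwise_of_maps_to (s := n.primeFactors.filter
    (fun p => lev M p ∈ Finset.Ico (M ^ 2) (KK M))) (t := Finset.Ico (M ^ 2) (KK M))
    (g := fun p => lev M p) (fun p hp => (Finset.mem_filter.1 hp).2)]
  apply Finset.prod_congr rfl
  intro k hk
  apply Finset.prod_congr _ (fun _ _ => rfl)
  ext p
  simp only [Finset.mem_filter]
  constructor
  · rintro ⟨⟨h3, _⟩, h5⟩; exact ⟨h3, h5⟩
  · rintro ⟨h3, h5⟩; exact ⟨⟨h3, h5 ▸ hk⟩, h5⟩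

/-! ### The cell sum -/

lemma big_gt {M p : ℕ} (hM : 3 ≤ M) (hp : Big M p) : 16 * ((M:ℝ) ^ 13) ^ 2 < p := by
  have h1 := exp_exp_le_of_le_ll hp.1.two_le hp.2
  refine lt_of_lt_of_le ?_ h1
  have hM3 : (3:ℝ) ≤ M := by exact_mod_cast hM
  set y : ℝ := (M:ℝ) ^ 15 with hy
  have hy0 : 0 ≤ y := by positivity
  have h2 := Real.quadratic_le_exp_of_nonneg hy0
  have h3 := Real.add_one_le_exp (Real.exp y)
  have h4 : 16 * ((M:ℝ) ^ 13) ^ 2 ≤ y ^ 2 / 2 := by
    have h5 : (81:ℝ) ≤ (M:ℝ) ^ 4 := by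
      calc (81:ℝ) = 3 ^ 4 := by norm_num
        _ ≤ (M:ℝ) ^ 4 := by gcongr
    have h6 : y ^ 2 = (M:ℝ) ^ 26 * (M:ℝ) ^ 4 := by rw [hy]; ring
    have h7 : ((M:ℝ) ^ 13) ^ 2 = (M:ℝ) ^ 26 := by ring
    have h8 : 0 < (M:ℝ) ^ 26 := by positivity
    rw [h6, h7]
    linarith only [mul_nonneg (le_of_lt (sub_pos.2 h8)) (sub_nonneg.2 h5), h8]
  linarith only [h3, h4, hy0, h2]

theorem cell_sum : ∃ C : ℝ, 0 < C ∧ ∀ᶠ M : ℕ in atTop, ∀ (X : ℕ) (w : ℕ → ℝ),
    ll (X:ℝ) ≤ 5 * (M:ℝ) ^ 20 → (∀ k, 0 ≤ w k ∧ w k ≤ (M:ℝ) ^ 13) →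
    ∑ m ∈ Finset.Icc 1 X, wt M w m / (m:ℝ) ≤
      C * Real.exp ((M:ℝ) ^ 15) *
        Real.exp (∑ k ∈ Finset.Ico (M ^ 2) (KK M), w k * ((M:ℝ) ^ 13 + C)) := by
  classical
  have hC41 : (41:ℝ) ≤ Real.exp 46 := by
    have := Real.add_one_le_exp (46:ℝ)
    linarith
  refine ⟨Real.exp 46, Real.exp_pos _, ?_⟩
  filter_upwards [eventually_ge_atTop 3] with M hM X w hX hw
  have hM1 : 1 ≤ M := by omega
  have hM0 : (1:ℝ) ≤ M := by exact_mod_cast hM1
  have hMpos : (0:ℝ) < (M:ℝ) ^ 13 := by positivity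
  set ω : ℕ → ℝ := fun p => if Big M p then w (lev M p) else 1 with hω
  have hT1 : (1:ℝ) ≤ (M:ℝ) ^ 13 := one_le_pow₀ hM0
  have hWt : Wt ω ((M:ℝ) ^ 13) := by
    refine ⟨hT1, ?_, ?_, ?_⟩
    · intro p _
      simp only [hω]
      split_ifs
      · exact (hw _).1
      · exact zero_le_one
    · intro p _
      simp only [hω]
      split_ifs
      · exact (hw _).2
      · exact hT1
    · intro p _ hsm
      simp only [hω]
      rw [if_neg]
      intro hb
      have := big_gt hM hb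
      linarith only [hsm, this]
  have hsum := log_sum_le hWt X
  have hleft : ∑ m ∈ Finset.Icc 1 X, wt M w m / (m:ℝ) = ∑ m ∈ Finset.Icc 1 X, Vale.Agent.P005.Selberg.cm ω m / (m:ℝ) := by
    apply Finset.sum_congr rfl
    intro m hm
    rw [wt_eq_cm M w (by have := (Finset.mem_Icc.1 hm).1; omega)]
  rw [hleft]
  refine hsum.trans ?_
  -- split the sum over primes
  have hsplit : ∑ p ∈ PLE X, ω p / p =
      ∑ p ∈ (PLE X).filter (fun p => Big M p), ω p / p +
      ∑ p ∈ (PLE X).filter (fun p => ¬ Big M p), ω p / p :=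
    (Finset.sum_filter_add_sum_filter_not _ _ _).symm
  have hnonbig : ∑ p ∈ (PLE X).filter (fun p => ¬ Big M p), ω p / p ≤ (M:ℝ) ^ 15 + 42 := by
    have h1 : ∀ p ∈ (PLE X).filter (fun p => ¬ Big M p), ω p / p = 1 / (p:ℝ) := by
      intro p hp
      simp only [hω, if_neg (Finset.mem_filter.1 hp).2]
    rw [Finset.sum_congr rfl h1]
    set t := ((PLE X).filter (fun p => ¬ Big M p)).filter (fun p => 3 ≤ p) with ht
    have h2 : (PLE X).filter (fun p => ¬ Big M p) ⊆ {2} ∪ t := by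
      intro p hp
      rw [Finset.mem_union, Finset.mem_singleton, ht, Finset.mem_filter]
      have hpp : p.Prime := (mem_PLE.1 (Finset.mem_filter.1 hp).1).2
      by_cases h3 : 3 ≤ p
      · right; exact ⟨hp, h3⟩
      · left; have := hpp.two_le; omega
    have h3 : ∑ p ∈ (PLE X).filter (fun p => ¬ Big M p), 1 / (p:ℝ) ≤
        ∑ p ∈ ({2} : Finset ℕ) ∪ t, 1 / (p:ℝ) :=
      Finset.sum_le_sum_of_subset_of_nonneg h2 (fun _ _ _ => by positivity)
    have h4 : ∑ p ∈ ({2} : Finset ℕ) ∪ t, 1 / (p:ℝ) ≤ 1 / 2 + ∑ p ∈ t, 1 / (p:ℝ) := by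
      have := Finset.sum_union_inter (s₁ := ({2} : Finset ℕ)) (s₂ := t) (f := fun p : ℕ => 1 / (p:ℝ))
      have h5 : 0 ≤ ∑ p ∈ ({2} : Finset ℕ) ∩ t, 1 / (p:ℝ) :=
        Finset.sum_nonneg fun _ _ => by positivity
      rw [Finset.sum_singleton] at this
      push_cast at this
      linarith only [h5, this]
    have h6 := sum_inv_range 0 ((M:ℝ) ^ 15) t le_rfl (by
      intro p hp
      rw [ht, Finset.mem_filter, Finset.mem_filter, mem_PLE] at hp
      refine ⟨hp.1.1.2, ll_nonneg_of_three_le hp.2, ?_⟩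
      by_contra hcon
      push Not at hcon
      exact hp.1.2 ⟨hp.1.1.2, hcon.le⟩)
    have h7 : max 0 ((M:ℝ) ^ 15 - 0 + 41) = (M:ℝ) ^ 15 + 41 := by
      rw [sub_zero, max_eq_right (by positivity)]
    rw [h7] at h6
    linarith only [h6, h4, h3]
  have hbig : ∑ p ∈ (PLE X).filter (fun p => Big M p), ω p / p ≤
      ∑ k ∈ Finset.Ico (M ^ 2) (KK M), w k * ((M:ℝ) ^ 13 + 41) := by
    have h3le : ∀ p ∈ (PLE X).filter (fun p => Big M p), 3 ≤ p := by
      intro p hp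
      have hb := (Finset.mem_filter.1 hp).2
      have := big_gt hM hb
      have h2 : (2:ℝ) < p := by nlinarith only [hT1, this]
      have : 2 < p := by exact_mod_cast h2
      omega
    have hmaps : ∀ p ∈ (PLE X).filter (fun p => Big M p), lev M p ∈ Finset.Ico (M ^ 2) (KK M) := by
      intro p hp
      have h3p := h3le p hp
      rw [Finset.mem_filter, mem_PLE] at hp
      rw [Finset.mem_Ico]
      refine ⟨lev_ge_of_big hM1 hp.2, lev_lt_KK hM1 (le_trans ?_ hX)⟩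
      unfold ll
      have h3p' : (3:ℝ) ≤ p := by exact_mod_cast h3p
      apply Real.log_le_log (Real.log_pos (by linarith only [h3p']))
      apply Real.log_le_log (by linarith only [h3p'])
      exact_mod_cast hp.1.1
    rw [← Finset.sum_fiberwise_of_maps_to hmaps]
    apply Finset.sum_le_sum
    intro k _
    have h1 : ∀ p ∈ ((PLE X).filter (fun p => Big M p)).filter (fun p => lev M p = k),
        ω p / p = w k * (1 / (p:ℝ)) := by
      intro p hp
      rw [Finset.mem_filter, Finset.mem_filter] at hp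
      simp only [hω, if_pos hp.1.2, hp.2]
      ring
    rw [Finset.sum_congr rfl h1, ← Finset.mul_sum]
    apply mul_le_mul_of_nonneg_left _ (hw k).1
    have h2 := sum_inv_range ((k:ℝ) * (M:ℝ) ^ 13) (((k:ℝ) + 1) * (M:ℝ) ^ 13)
      (((PLE X).filter (fun p => Big M p)).filter (fun p => lev M p = k)) (by positivity) (by
        intro p hp
        have hp' := hp
        rw [Finset.mem_filter] at hp'
        have h3p := h3le p hp'.1
        have hb := lev_bounds hM1 (ll_nonneg_of_three_le h3p) hp'.2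
        rw [Finset.mem_filter, mem_PLE] at hp'
        exact ⟨hp'.1.1.2, hb.1, hb.2⟩)
    refine h2.trans (le_of_eq ?_)
    have : ((k:ℝ) + 1) * (M:ℝ) ^ 13 - (k:ℝ) * (M:ℝ) ^ 13 + 41 = (M:ℝ) ^ 13 + 41 := by ring
    rw [this, max_eq_right (by positivity)]
  have hfin : ∑ p ∈ PLE X, ω p / p ≤ (M:ℝ) ^ 15 + 42 +
      ∑ k ∈ Finset.Ico (M ^ 2) (KK M), w k * ((M:ℝ) ^ 13 + Real.exp 46) := by
    have h1 : ∑ k ∈ Finset.Ico (M ^ 2) (KK M), w k * ((M:ℝ) ^ 13 + 41) ≤
        ∑ k ∈ Finset.Ico (M ^ 2) (KK M), w k * ((M:ℝ) ^ 13 + Real.exp 46) := by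
      apply Finset.sum_le_sum
      intro k _
      exact mul_le_mul_of_nonneg_left (by linarith only [hC41]) (hw k).1
    rw [hsplit]
    linarith only [hnonbig, hbig, h1]
  rw [← Real.exp_add, ← Real.exp_add, ← Real.exp_add]
  apply Real.exp_le_exp.2
  linarith only [hfin]

end Vale.Agent.P031
end
end

section

section

/-! Collision lemma, part 2: the weights. -/

namespace Vale.Agent.P031.Col

open Finset Filter Topology

variable {m : ℕ}

/-- number of rows at level `k` -/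
def na (κ : Line m → ℕ) (k : ℕ) : ℕ :=
  (Finset.univ.filter (fun i : Fin m => k ≤ κ (.inl i))).card

/-- number of columns at level `k` -/
def nb (κ : Line m → ℕ) (k : ℕ) : ℕ :=
  (Finset.univ.filter (fun j : Fin m => k ≤ κ (.inr (.inl j)))).card

/-- number of single lines at level `k` -/
def nt (κ : Line m → ℕ) (k : ℕ) : ℕ :=
  (Finset.univ.filter (fun t : Fin m => k ≤ κ (.inr (.inr t)))).card

/-- number of cells at level `k` -/
def rr (κ : Line m → ℕ) (k : ℕ) : ℕ := na κ k * nb κ k + nt κ k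

/-- Rankin weight of level `k` -/
noncomputable def zk (M : ℕ) (κ : Line m → ℕ) (N : ℕ → ℕ) (k : ℕ) : ℝ :=
  (N k : ℝ) / ((M : ℝ) ^ 13 * (rr κ k : ℝ))

open Classical in
/-- Rankin weights of a cell -/
noncomputable def wc (M : ℕ) (κ : Line m → ℕ) (N : ℕ → ℕ) (c : Cell m) (k : ℕ) : ℝ :=
  if okc κ c k then zk M κ N k else 0

theorem zk_nonneg (M : ℕ) (κ : Line m → ℕ) (N : ℕ → ℕ) (k : ℕ) : 0 ≤ zk M κ N k := by
  unfold zk; positivity

theorem wc_nonneg (M : ℕ) (κ : Line m → ℕ) (N : ℕ → ℕ) (c : Cell m) (k : ℕ) :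
    0 ≤ wc M κ N c k := by
  classical
  unfold wc
  split_ifs
  · exact zk_nonneg M κ N k
  · exact le_refl _

theorem zk_le {M : ℕ} (hM : 1 ≤ M) (κ : Line m → ℕ) (N : ℕ → ℕ) (hN : ∀ k, N k ≤ M ^ 26) (k : ℕ) :
    zk M κ N k ≤ (M : ℝ) ^ 13 := by
  have hM' : (0 : ℝ) < (M : ℝ) ^ 13 := by positivity
  unfold zk
  rcases Nat.eq_zero_or_pos (rr κ k) with h | h
  · rw [h]; simp
  · have h1 : (1 : ℝ) ≤ rr κ k := by exact_mod_cast h
    have h2 : (N k : ℝ) ≤ (M : ℝ) ^ 26 := by exact_mod_cast hN k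
    rw [div_le_iff₀ (by positivity)]
    calc (N k : ℝ) ≤ (M : ℝ) ^ 26 * 1 := by linarith only [h2]
      _ ≤ (M : ℝ) ^ 26 * rr κ k := by
        apply mul_le_mul_of_nonneg_left h1 (by positivity)
      _ = _ := by ring

theorem wc_le {M : ℕ} (hM : 1 ≤ M) (κ : Line m → ℕ) (N : ℕ → ℕ) (hN : ∀ k, N k ≤ M ^ 26)
    (c : Cell m) (k : ℕ) : wc M κ N c k ≤ (M : ℝ) ^ 13 := by
  classical
  unfold wc
  split_ifs
  · exact zk_le hM κ N hN k
  · positivity

theorem rr_pos_of_okc {κ : Line m → ℕ} {c : Cell m} {k : ℕ} (h : okc κ c k) : 0 < rr κ k := by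
  unfold rr
  rcases c with ⟨o, o'⟩ | t
  · cases o with
    | none => exact absurd h (by simp [okc])
    | some i =>
      cases o' with
      | none => exact absurd h (by simp [okc])
      | some j =>
        have h1 : 0 < na κ k := by
          unfold na
          exact Finset.card_pos.2 ⟨i, Finset.mem_filter.2 ⟨Finset.mem_univ _, h.1⟩⟩
        have h2 : 0 < nb κ k := by
          unfold nb
          exact Finset.card_pos.2 ⟨j, Finset.mem_filter.2 ⟨Finset.mem_univ _, h.2⟩⟩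
        have := Nat.mul_pos h1 h2
        omega
  · have h1 : 0 < nt κ k := by
      unfold nt
      exact Finset.card_pos.2 ⟨t, Finset.mem_filter.2 ⟨Finset.mem_univ _, h⟩⟩
    omega

theorem sum_ite_card {ι : Type*} [Fintype ι] (P : ι → Prop) [DecidablePred P] (z : ℝ) :
    ∑ i, (if P i then z else 0) = ((Finset.univ.filter P).card : ℝ) * z := by
  rw [← Finset.sum_filter, Finset.sum_const, nsmul_eq_mul]

theorem sum_wc (M : ℕ) (κ : Line m → ℕ) (N : ℕ → ℕ) (k : ℕ) :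
    ∑ c : Cell m, wc M κ N c k = rr κ k * zk M κ N k := by
  classical
  have h1 : ∀ i j : Fin m, wc M κ N (.inl (some i, some j)) k =
      if k ≤ κ (.inl i) then (if k ≤ κ (.inr (.inl j)) then zk M κ N k else 0) else 0 := by
    intro i j
    unfold wc
    by_cases ha : k ≤ κ (.inl i) <;> by_cases hb : k ≤ κ (.inr (.inl j)) <;> simp [okc, ha, hb]
  have h2 : ∀ o, wc M κ N (.inl (none, o)) k = 0 := by
    intro o; unfold wc; simp [okc]
  have h3 : ∀ i : Fin m, wc M κ N (.inl (some i, none)) k = 0 := by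
    intro o; unfold wc; simp [okc]
  have h4 : ∀ t : Fin m, wc M κ N (.inr t) k =
      if k ≤ κ (.inr (.inr t)) then zk M κ N k else 0 := by
    intro t
    unfold wc
    by_cases ha : k ≤ κ (.inr (.inr t)) <;> simp [okc, ha]
  have h5 : ∀ i : Fin m, ∑ o, wc M κ N (.inl (some i, o)) k =
      if k ≤ κ (.inl i) then (nb κ k : ℝ) * zk M κ N k else 0 := by
    intro i
    rw [Fintype.sum_option, h3, zero_add, Finset.sum_congr rfl (fun j _ => h1 i j)]
    by_cases ha : k ≤ κ (.inl i)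
    · simp only [if_pos ha]
      rw [sum_ite_card]
      rfl
    · simp [ha]
  rw [Fintype.sum_sum_type, Fintype.sum_prod_type, Fintype.sum_option,
    Finset.sum_congr rfl (fun i _ => h5 i), Finset.sum_congr rfl (fun t _ => h4 t),
    Finset.sum_congr rfl (fun o _ => h2 o), sum_ite_card, sum_ite_card, Finset.sum_const_zero]
  unfold rr na nt
  push_cast
  ring

theorem prof_prod (M : ℕ) {ι : Type*} (s : Finset ι) (n : ι → ℕ) (h : ∀ c ∈ s, n c ≠ 0) (k : ℕ) :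
    prof M (∏ c ∈ s, n c) k = ∑ c ∈ s, prof M (n c) k := by
  classical
  induction s using Finset.induction_on with
  | empty => simp [prof]
  | insert a s ha ih =>
    rw [Finset.prod_insert ha, Finset.sum_insert ha, prof_mul]
    · rw [ih (fun c hc => h c (Finset.mem_insert_of_mem hc))]
    · exact h a (Finset.mem_insert_self _ _)
    · exact Finset.prod_ne_zero_iff.2 (fun c hc => h c (Finset.mem_insert_of_mem hc))

theorem GoodN.pos {M X : ℕ} {κ : Line m → ℕ} {N : ℕ → ℕ} {n : Cell m → ℕ}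
    (h : GoodN M m X κ N n) (c : Cell m) : 0 < n c := (mem_box.1 h.box c).1

theorem GoodN.le {M X : ℕ} {κ : Line m → ℕ} {N : ℕ → ℕ} {n : Cell m → ℕ}
    (h : GoodN M m X κ N n) (c : Cell m) : n c ≤ X := (mem_box.1 h.box c).2

theorem GoodN.okc_of_prof {M X : ℕ} (hM : 1 ≤ M) {κ : Line m → ℕ} {N : ℕ → ℕ} {n : Cell m → ℕ}
    (h : GoodN M m X κ N n) {c : Cell m} {k : ℕ} (hk : M ^ 2 ≤ k) (hp : 0 < Vale.Agent.P031.prof M (n c) k) :
    okc κ c k := by
  obtain ⟨q, hq, hd, hlev⟩ := exists_of_prof_pos hp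
  have hbig : Big M q := big_of_le_lev hM hq (by rw [hlev]; exact hk)
  rw [← hlev]
  exact h.ok c q hbig hd

theorem GoodN.rr_pos {M X : ℕ} (hM : 1 ≤ M) {κ : Line m → ℕ} {N : ℕ → ℕ} {n : Cell m → ℕ}
    (h : GoodN M m X κ N n) {k : ℕ} (hk : k ∈ Finset.Ico (M ^ 2) (KK M)) (hp : 0 < N k) :
    0 < rr κ k := by
  have h1 := h.prof k hk
  rw [prof_prod M Finset.univ n (fun c _ => (h.pos c).ne')] at h1
  have h2 : 0 < ∑ c, Vale.Agent.P031.prof M (n c) k := by omega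
  obtain ⟨c, -, hc⟩ := Finset.exists_ne_zero_of_sum_ne_zero h2.ne'
  exact rr_pos_of_okc (h.okc_of_prof hM (Finset.mem_Ico.1 hk).1 (Nat.pos_of_ne_zero hc))

/-- the weight of a good matrix -/
theorem GoodN.weight {M X : ℕ} (hM : 1 ≤ M) {κ : Line m → ℕ} {N : ℕ → ℕ} {n : Cell m → ℕ}
    (hX : ll (X : ℝ) ≤ 5 * (M : ℝ) ^ 20) (h : GoodN M m X κ N n) :
    ∏ c, wt M (wc M κ N c) (n c) = ∏ k ∈ Finset.Ico (M ^ 2) (KK M), (zk M κ N k) ^ (N k) := by
  classical
  have h1 : ∀ c, wt M (wc M κ N c) (n c) =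
      ∏ k ∈ Finset.Ico (M ^ 2) (KK M), (zk M κ N k) ^ (Vale.Agent.P031.prof M (n c) k) := by
    intro c
    rw [wt_eq_prof hM]
    · apply Finset.prod_congr rfl
      intro k hk
      rcases Nat.eq_zero_or_pos (Vale.Agent.P031.prof M (n c) k) with h0 | h0
      · rw [h0, pow_zero, pow_zero]
      · have := h.okc_of_prof hM (Finset.mem_Ico.1 hk).1 h0
        congr 1
        unfold wc
        rw [if_pos this]
    · intro p hp hd
      refine le_trans (ll_mono ?_ ?_) hX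
      · exact_mod_cast hp.one_lt
      · exact_mod_cast (Nat.le_of_dvd (h.pos c) hd).trans (h.le c)
  rw [Finset.prod_congr rfl (fun c _ => h1 c), Finset.prod_comm]
  apply Finset.prod_congr rfl
  intro k hk
  rw [Finset.prod_pow_eq_pow_sum, ← prof_prod M Finset.univ n (fun c _ => (h.pos c).ne'),
    h.prof k hk]

end Vale.Agent.P031.Col
end
end

section

section

/-! Upper bound sieve for `p, a p + 1 (a ∈ A)` simultaneously prime, with a crude
uniform singular series bound. -/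

open Finset

namespace Vale.Agent.P031

/-- `Q / φ(Q) ≤ C (log (log Q + 3))^2`. -/
theorem totient_ratio_le : ∃ C : ℝ, 0 < C ∧ ∀ Q : ℕ, Q ≠ 0 →
    (Q:ℝ) / Q.totient ≤ C * (Real.log (Real.log Q + 3)) ^ 2 := by
  refine ⟨Real.exp (2 * (21 + 1 / Real.log 2)), Real.exp_pos _, fun Q hQ => ?_⟩
  have hQ1 : (1:ℝ) ≤ Q := by exact_mod_cast Nat.one_le_iff_ne_zero.2 hQ
  have hlQ : 0 ≤ Real.log Q := Real.log_nonneg hQ1
  have hl2 : 0 < Real.log 2 := Real.log_pos (by norm_num)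
  set y := Real.log Q + 3 with hy
  have hy3 : 3 ≤ y := by linarith
  have hly : 1 ≤ Real.log y := by
    rw [Real.le_log_iff_exp_le (by linarith)]
    linarith only [hlQ, Real.exp_one_lt_d9]
  -- sum of reciprocals
  have hcard : (Q.primeFactors.card : ℝ) ≤ Real.log Q / Real.log 2 := by
    rw [le_div_iff₀ hl2, ← Real.log_pow]
    apply Real.log_le_log (by positivity)
    have h1 : 2 ^ Q.primeFactors.card ≤ ∏ p ∈ Q.primeFactors, p := by
      rw [← Finset.prod_const]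
      exact Finset.prod_le_prod' fun p hp => (Nat.prime_of_mem_primeFactors hp).two_le
    have h2 : ∏ p ∈ Q.primeFactors, p ≤ Q :=
      Nat.le_of_dvd (Nat.pos_of_ne_zero hQ) (Nat.prod_primeFactors_dvd Q)
    exact_mod_cast h1.trans h2
  have hsum : ∑ p ∈ Q.primeFactors, (1:ℝ) / p ≤ Real.log (Real.log y) + 21 + 1 / Real.log 2 := by
    have hM := mertens_explicit y hy3
    have hM2 := (abs_le.1 hM).2
    have hsplit : ∑ p ∈ Q.primeFactors, (1:ℝ) / p ≤
        ∑ p ∈ (Finset.range (⌊y⌋₊ + 1)).filter Nat.Prime, (1 : ℝ) / p +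
        ∑ p ∈ Q.primeFactors, 1 / y := by
      rw [← Finset.sum_filter_add_sum_filter_not Q.primeFactors (fun p => p ≤ ⌊y⌋₊)]
      apply add_le_add
      · apply Finset.sum_le_sum_of_subset_of_nonneg
        · intro p hp
          rw [Finset.mem_filter] at hp ⊢
          rw [Finset.mem_range]
          exact ⟨by omega, Nat.prime_of_mem_primeFactors hp.1⟩
        · intro p _ _; positivity
      · calc ∑ p ∈ Q.primeFactors with ¬ p ≤ ⌊y⌋₊, (1:ℝ) / p
            ≤ ∑ p ∈ Q.primeFactors with ¬ p ≤ ⌊y⌋₊, (1:ℝ) / y := by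
              apply Finset.sum_le_sum
              intro p hp
              have := (Finset.mem_filter.1 hp).2
              push Not at this
              have h3 := Nat.lt_of_floor_lt this
              exact one_div_le_one_div_of_le (by linarith only [hlQ]) h3.le
          _ ≤ _ := by
              apply Finset.sum_le_sum_of_subset_of_nonneg (Finset.filter_subset _ _)
              intro p _ _; positivity
    have h4 : ∑ p ∈ Q.primeFactors, 1 / y ≤ 1 / Real.log 2 := by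
      rw [Finset.sum_const, nsmul_eq_mul]
      calc (Q.primeFactors.card : ℝ) * (1 / y) ≤ (Real.log Q / Real.log 2) * (1 / y) := by
            gcongr
        _ = (Real.log Q / y) * (1 / Real.log 2) := by ring
        _ ≤ 1 * (1 / Real.log 2) := by
            apply mul_le_mul_of_nonneg_right _ (by positivity)
            rw [div_le_one (by linarith only [hlQ])]; linarith only []
        _ = _ := one_mul _
    linarith only [hM2, h4, hsplit]
  have hprod : (Q:ℝ) / Q.totient = ∏ p ∈ Q.primeFactors, (1 - (p:ℝ)⁻¹)⁻¹ := by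
    have h7 := Nat.totient_eq_mul_prod_factors Q
    have h8 : (Q.totient : ℝ) = Q * ∏ p ∈ Q.primeFactors, (1 - (p:ℝ)⁻¹) := by
      have := congrArg (fun q : ℚ => (q : ℝ)) h7
      push_cast at this
      exact this
    rw [h8, Finset.prod_inv_distrib]
    have : (Q:ℝ) ≠ 0 := by linarith only [hQ1]
    field_simp
  rw [hprod]
  have hle : ∏ p ∈ Q.primeFactors, (1 - (p:ℝ)⁻¹)⁻¹ ≤
      ∏ p ∈ Q.primeFactors, Real.exp (2 * (1 / (p:ℝ))) := by
    apply Finset.prod_le_prod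
    · intro p hp
      have h2 : (2:ℝ) ≤ p := by exact_mod_cast (Nat.prime_of_mem_primeFactors hp).two_le
      have : (p:ℝ)⁻¹ ≤ 1 := inv_le_one_of_one_le₀ (by linarith only [h2])
      exact inv_nonneg.2 (by linarith only [this])
    · intro p hp
      have h2 : (2:ℝ) ≤ p := by exact_mod_cast (Nat.prime_of_mem_primeFactors hp).two_le
      have hp0 : (0:ℝ) < p := by linarith only [h2]
      have h3 : (p:ℝ)⁻¹ ≤ 1/2 := by
        rw [inv_eq_one_div]; exact one_div_le_one_div_of_le (by norm_num) h2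
      have h4 := Real.add_one_le_exp (2 * (1 / (p:ℝ)))
      have h5 : 0 < 1 - (p:ℝ)⁻¹ := by linarith only [h3]
      rw [inv_le_comm₀ h5 (Real.exp_pos _)]
      have hx : 1 / (p:ℝ) = (p:ℝ)⁻¹ := by ring
      rw [hx] at h4 ⊢
      have hx0 : 0 < (p:ℝ)⁻¹ := by positivity
      calc (Real.exp (2 * (p:ℝ)⁻¹))⁻¹ ≤ (2 * (p:ℝ)⁻¹ + 1)⁻¹ := by
            apply inv_anti₀ (by positivity) h4
        _ ≤ 1 - (p:ℝ)⁻¹ := by
            rw [inv_le_comm₀ (by positivity) h5, inv_eq_one_div, div_le_iff₀ h5]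
            nlinarith only [h3, hx0]
  refine hle.trans ?_
  rw [← Real.exp_sum, ← Finset.mul_sum]
  calc Real.exp (2 * ∑ p ∈ Q.primeFactors, 1 / (p:ℝ))
      ≤ Real.exp (2 * (Real.log (Real.log y) + 21 + 1 / Real.log 2)) := by
        apply Real.exp_le_exp.2; linarith only [hsum]
    _ = Real.exp (2 * (21 + 1 / Real.log 2)) * (Real.log y) ^ 2 := by
        have : 2 * (Real.log (Real.log y) + 21 + 1 / Real.log 2) =
          2 * (21 + 1 / Real.log 2) + 2 * Real.log (Real.log y) := by ring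
        rw [this, Real.exp_add]
        congr 1
        rw [mul_comm 2, Real.exp_mul, Real.exp_log (by linarith only [hly])]
        norm_cast

/-- difference (absolute value), `1` on the diagonal -/
def dif (a b : ℕ) : ℕ := if a = b then 1 else (a - b) + (b - a)

lemma dif_ne_zero (a b : ℕ) : dif a b ≠ 0 := by
  unfold dif; split_ifs with h <;> omega

/-- modulus containing all exceptional primes -/
def modQ (A : Finset ℕ) : ℕ :=
  Nat.factorial (A.card + 1) * (∏ a ∈ A, a) * ∏ a ∈ A, ∏ b ∈ A, dif a b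

lemma sadm_modQ (A : Finset ℕ) (hA : ∀ a ∈ A, 0 < a) : SAdm A (modQ A) := by
  have hdvd1 : Nat.factorial (A.card + 1) ∣ modQ A := by
    unfold modQ; exact (dvd_mul_right _ _).trans (dvd_mul_right _ _)
  have hdvd2 : (∏ a ∈ A, a) ∣ modQ A := by
    unfold modQ; exact (dvd_mul_left _ _).trans (dvd_mul_right _ _)
  have hdvd3 : (∏ a ∈ A, ∏ b ∈ A, dif a b) ∣ modQ A := by
    unfold modQ; exact dvd_mul_left _ _
  refine ⟨?_, ?_, ?_⟩
  · unfold modQ
    have h1 := Nat.factorial_ne_zero (A.card + 1)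
    have h2 : (∏ a ∈ A, a) ≠ 0 := Finset.prod_ne_zero_iff.2 fun a ha => (hA a ha).ne'
    have h3 : (∏ a ∈ A, ∏ b ∈ A, dif a b) ≠ 0 :=
      Finset.prod_ne_zero_iff.2 fun a _ => Finset.prod_ne_zero_iff.2 fun b _ => dif_ne_zero a b
    exact mul_ne_zero (mul_ne_zero h1 h2) h3
  · intro p hp hpQ
    by_contra hcon
    push Not at hcon
    exact hpQ ((Nat.dvd_factorial hp.pos hcon).trans hdvd1)
  · intro p hp hpQ
    apply rt_prime A hp
    · intro a ha hpa
      exact hpQ ((hpa.trans (Finset.dvd_prod_of_mem _ ha)).trans hdvd2)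
    · intro a ha b hb hab
      by_contra hne
      apply hpQ
      have h1 : p ∣ dif a b := by
        have hmod : a ≡ b [MOD p] := (ZMod.natCast_eq_natCast_iff a b p).1 hab
        unfold dif
        rw [if_neg hne]
        rcases Nat.lt_or_ge a b with hlt | hge
        · have : a - b = 0 := by omega
          rw [this, zero_add]
          exact (Nat.modEq_iff_dvd' hlt.le).1 hmod
        · have : b - a = 0 := by omega
          rw [this, add_zero]
          exact (Nat.modEq_iff_dvd' hge).1 hmod.symm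
      have h2 : dif a b ∣ ∏ a ∈ A, ∏ b ∈ A, dif a b :=
        (Finset.dvd_prod_of_mem (fun b => dif a b) hb).trans
          (Finset.dvd_prod_of_mem (fun a => ∏ b ∈ A, dif a b) ha)
      exact (h1.trans h2).trans hdvd3

lemma log_modQ_le (A : Finset ℕ) (K : ℕ) (hK : A.card ≤ K) (hA : ∀ a ∈ A, 0 < a) (L : ℝ)
    (hL : ∀ a ∈ A, Real.log (Real.log ((a:ℝ) + 3)) ≤ L) :
    Real.log (modQ A) ≤ Real.log (Nat.factorial (K + 1)) + (K + K ^ 2) * Real.exp L := by
  have ha : ∀ a ∈ A, Real.log ((a:ℝ) + 3) ≤ Real.exp L := by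
    intro a haA
    have h1 : 0 < Real.log ((a:ℝ) + 3) := Real.log_pos (by
      have : (0:ℝ) ≤ a := Nat.cast_nonneg a
      linarith)
    exact (Real.log_le_iff_le_exp h1).1 (hL a haA)
  have hE : 0 < Real.exp L := Real.exp_pos L
  have hcardK : (A.card : ℝ) ≤ K := by exact_mod_cast hK
  unfold modQ
  have h1 := Nat.factorial_ne_zero (A.card + 1)
  have h2 : (∏ a ∈ A, a) ≠ 0 := Finset.prod_ne_zero_iff.2 fun a ha => (hA a ha).ne'
  have h3 : (∏ a ∈ A, ∏ b ∈ A, dif a b) ≠ 0 :=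
    Finset.prod_ne_zero_iff.2 fun a _ => Finset.prod_ne_zero_iff.2 fun b _ => dif_ne_zero a b
  rw [Nat.cast_mul, Nat.cast_mul, Real.log_mul (by exact_mod_cast mul_ne_zero h1 h2) (by exact_mod_cast h3),
    Real.log_mul (by exact_mod_cast h1) (by exact_mod_cast h2)]
  have e1 : Real.log (Nat.factorial (A.card + 1)) ≤ Real.log (Nat.factorial (K + 1)) := by
    apply Real.log_le_log (by exact_mod_cast Nat.factorial_pos _)
    exact_mod_cast Nat.factorial_le (by omega)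
  have e2 : Real.log ((∏ a ∈ A, a : ℕ) : ℝ) ≤ K * Real.exp L := by
    push_cast
    rw [Real.log_prod (fun a haA => by exact_mod_cast (hA a haA).ne')]
    calc ∑ a ∈ A, Real.log a ≤ ∑ a ∈ A, Real.exp L := by
          apply Finset.sum_le_sum
          intro a haA
          refine le_trans ?_ (ha a haA)
          apply Real.log_le_log (by exact_mod_cast hA a haA) (by linarith)
      _ = A.card * Real.exp L := by rw [Finset.sum_const, nsmul_eq_mul]
      _ ≤ _ := by gcongr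
  have e3 : Real.log ((∏ a ∈ A, ∏ b ∈ A, dif a b : ℕ) : ℝ) ≤ K ^ 2 * Real.exp L := by
    push_cast
    rw [Real.log_prod (fun a _ => Finset.prod_ne_zero_iff.2 fun b _ => by
      exact_mod_cast dif_ne_zero a b)]
    calc ∑ a ∈ A, Real.log (∏ b ∈ A, (dif a b : ℝ)) ≤ ∑ a ∈ A, (K * Real.exp L) := by
          apply Finset.sum_le_sum
          intro a haA
          rw [Real.log_prod (fun b _ => by exact_mod_cast dif_ne_zero a b)]
          calc ∑ b ∈ A, Real.log (dif a b : ℝ) ≤ ∑ b ∈ A, Real.exp L := by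
                apply Finset.sum_le_sum
                intro b hbA
                have hd : (0:ℝ) < dif a b := by exact_mod_cast Nat.pos_of_ne_zero (dif_ne_zero a b)
                rcases Nat.lt_or_ge a b with hlt | hge
                · refine le_trans ?_ (ha b hbA)
                  apply Real.log_le_log hd
                  have : dif a b ≤ b + 3 := by unfold dif; split_ifs <;> omega
                  exact_mod_cast this
                · refine le_trans ?_ (ha a haA)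
                  apply Real.log_le_log hd
                  have : dif a b ≤ a + 3 := by unfold dif; split_ifs <;> omega
                  exact_mod_cast this
            _ = A.card * Real.exp L := by rw [Finset.sum_const, nsmul_eq_mul]
            _ ≤ _ := by gcongr
      _ = A.card * (K * Real.exp L) := by rw [Finset.sum_const, nsmul_eq_mul]
      _ ≤ K * (K * Real.exp L) := by gcongr
      _ = _ := by ring
  linarith

/-- `z^{1/2}` is small compared to `z / (log z)^κ`. -/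
lemma half_pow_le {K κ : ℕ} {z : ℝ} (hz1 : 1 ≤ z) (hlz : 0 < Real.log z) (hκ : 0 < κ)
    (hκK : κ ≤ K + 1) :
    z ^ (1 / 2 : ℝ) ≤ (2 * (K + 1)) ^ (K + 1) * z / (Real.log z) ^ κ := by
  have hz0 : (0:ℝ) < z := by linarith only [hz1]
  have hκ0 : (0:ℝ) < κ := by exact_mod_cast hκ
  have hκK' : (κ:ℝ) ≤ K + 1 := by exact_mod_cast hκK
  rw [le_div_iff₀ (by positivity)]
  have h1 : Real.log z ≤ z ^ (1 / (2 * κ) : ℝ) / (1 / (2 * κ)) :=
    Real.log_le_rpow_div hz0.le (by positivity)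
  have h2 : (Real.log z) ^ κ ≤ (2 * κ) ^ κ * z ^ (1 / 2 : ℝ) := by
    calc (Real.log z) ^ κ ≤ (z ^ (1 / (2 * κ) : ℝ) / (1 / (2 * κ))) ^ κ := by gcongr
      _ = (2 * κ) ^ κ * (z ^ (1 / (2 * κ) : ℝ)) ^ κ := by
          rw [← mul_pow]; congr 1; field_simp
      _ = (2 * κ) ^ κ * z ^ (1 / 2 : ℝ) := by
          congr 1
          rw [← Real.rpow_natCast, ← Real.rpow_mul hz0.le]
          congr 1
          field_simp
  have h3 : z ^ (1 / 2 : ℝ) * z ^ (1 / 2 : ℝ) = z := by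
    rw [← Real.rpow_add hz0]; norm_num
  have h4 : ((2 * κ : ℝ)) ^ κ ≤ (2 * (K + 1)) ^ (K + 1) := by
    calc ((2 * κ : ℝ)) ^ κ ≤ (2 * (K + 1)) ^ κ := by gcongr
      _ ≤ (2 * (K + 1)) ^ (K + 1) := by
          apply pow_le_pow_right₀ _ hκK
          have := Nat.cast_nonneg (α := ℝ) K
          linarith only []
  have hzh : 0 ≤ z ^ (1 / 2 : ℝ) := by positivity
  calc z ^ (1 / 2 : ℝ) * (Real.log z) ^ κ ≤ z ^ (1 / 2 : ℝ) * ((2 * κ) ^ κ * z ^ (1 / 2 : ℝ)) := by
        gcongr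
    _ = (2 * κ) ^ κ * (z ^ (1 / 2 : ℝ) * z ^ (1 / 2 : ℝ)) := by ring
    _ = (2 * κ) ^ κ * z := by rw [h3]
    _ ≤ _ := by gcongr

/-- the main term estimate -/
lemma mid_bound {K κ : ℕ} {z L C1 C2 B q t l : ℝ} (hz0 : 0 < z) (hlz : 0 < Real.log z)
    (hκ0 : (0:ℝ) < κ) (hκK' : (κ:ℝ) ≤ K + 1) (hC1 : 0 < C1) (hC2 : 0 < C2) (hL : 1 ≤ L)
    (hB : B = 8 * (K + 1) * C1 * C2 ^ 2 + 1) (hratio : q / t ≤ C1 * (C2 * L) ^ 2)
    (hq : 0 < q) (ht : 0 < t) (hl : Real.log z / (8 * κ) ≤ l) :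
    (⌊z⌋₊ : ℝ) / (t / q * l) ^ κ ≤ z * (B * L ^ 2) ^ κ / (Real.log z) ^ κ := by
  have hB1 : 0 < B := by rw [hB]; positivity
  have hfl : (⌊z⌋₊ : ℝ) ≤ z := Nat.floor_le hz0.le
  have hpos2 : 0 < Real.log z / (8 * κ) := by positivity
  have h1 : Real.log z / (B * L ^ 2) ≤ t / q * l := by
    have h2 : 1 / (C1 * (C2 * L) ^ 2) ≤ t / q := by
      have h3 : t / q = 1 / (q / t) := by field_simp
      rw [h3]
      exact one_div_le_one_div_of_le (by positivity) hratio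
    calc Real.log z / (B * L ^ 2) ≤ Real.log z / ((8 * κ) * (C1 * (C2 * L) ^ 2)) := by
          apply div_le_div_of_nonneg_left hlz.le (by positivity)
          have : (8 * κ) * (C1 * (C2 * L) ^ 2) = (8 * κ * C1 * C2 ^ 2) * L ^ 2 := by ring
          rw [this]
          apply mul_le_mul_of_nonneg_right _ (by positivity)
          rw [hB]
          have : 8 * (κ:ℝ) * C1 * C2 ^ 2 ≤ 8 * (K + 1) * C1 * C2 ^ 2 := by gcongr
          linarith only [this]
      _ = 1 / (C1 * (C2 * L) ^ 2) * (Real.log z / (8 * κ)) := by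
          field_simp
      _ ≤ _ := by
          apply mul_le_mul h2 hl hpos2.le (by positivity)
  have hpos3 : 0 < Real.log z / (B * L ^ 2) := by positivity
  calc (⌊z⌋₊ : ℝ) / (t / q * l) ^ κ ≤ z / (Real.log z / (B * L ^ 2)) ^ κ := by
        gcongr
    _ = _ := by
        rw [div_pow]
        field_simp

/-- The sieve bound for at most `K` extra linear forms. -/
theorem sieve_general (K : ℕ) : ∃ C : ℕ, ∀ z L : ℝ, 3 ≤ z → 1 ≤ L → ∀ A : Finset ℕ,
    A.card ≤ K → (∀ a ∈ A, 0 < a) → (∀ a ∈ A, Real.log (Real.log ((a:ℝ) + 3)) ≤ L) →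
    (((Icc 1 ⌊z⌋₊).filter (fun p => p.Prime ∧ ∀ a ∈ A, (a * p + 1).Prime)).card : ℝ) ≤
      C * z * L ^ C / (Real.log z) ^ (1 + A.card) := by
  obtain ⟨C1, hC1, hC1b⟩ := totient_ratio_le
  set D2 : ℝ := Real.log (Nat.factorial (K + 1)) + 3 + (K + K ^ 2) with hD2
  have hfac : 0 ≤ Real.log (Nat.factorial (K + 1)) :=
    Real.log_nonneg (by exact_mod_cast Nat.factorial_pos _)
  have hD23 : 3 ≤ D2 := by rw [hD2]; nlinarith only [hfac]
  have hlD2 : 0 ≤ Real.log D2 := Real.log_nonneg (by linarith)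
  set C2 : ℝ := 1 + Real.log D2 with hC2
  set B : ℝ := 8 * (K + 1) * C1 * C2 ^ 2 + 1 with hB
  have hB1 : 1 ≤ B := by
    have : 0 ≤ 8 * (K + 1) * C1 * C2 ^ 2 := by positivity
    linarith
  set D : ℝ := 2 * (2 * (K + 1)) ^ (K + 1) + B ^ (K + 1) with hD
  refine ⟨⌈D⌉₊ + 2 * (K + 1), fun z L hz hL A hK hA hLA => ?_⟩
  set κ := A.card + 1 with hκ
  have hκK : κ ≤ K + 1 := by omega
  have hκ0 : (0:ℝ) < κ := by rw [hκ]; positivity
  have hκK' : (κ:ℝ) ≤ K + 1 := by exact_mod_cast hκK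
  have hz0 : (0:ℝ) < z := by linarith only [hz]
  have hz1 : (1:ℝ) ≤ z := by linarith only [hz]
  have hlz : 0 < Real.log z := Real.log_pos (by linarith only [hz])
  set w := ⌊z ^ (1 / (8 * κ) : ℝ)⌋₊ with hw
  have hrp1 : (1:ℝ) ≤ z ^ (1 / (8 * κ) : ℝ) := Real.one_le_rpow hz1 (by positivity)
  have hw1 : 1 ≤ w := Nat.le_floor (by exact_mod_cast hrp1)
  have hwle : (w:ℝ) ≤ z ^ (1 / (8 * κ) : ℝ) := Nat.floor_le (by positivity)
  have hwlt : z ^ (1 / (8 * κ) : ℝ) < w + 1 := Nat.lt_floor_add_one _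
  have hraw := tuple_bound_raw (N := ⌊z⌋₊) (sadm_modQ A hA) hA w hw1
  have hwk : ((w ^ κ : ℕ) : ℝ) ≤ z ^ (1 / 8 : ℝ) := by
    push_cast
    calc (w:ℝ) ^ κ ≤ (z ^ (1 / (8 * κ) : ℝ)) ^ κ := by gcongr
      _ = z ^ (1 / 8 : ℝ) := by
          rw [← Real.rpow_natCast, ← Real.rpow_mul hz0.le]
          congr 1
          field_simp
  have hzhalf : z ^ (1 / 8 : ℝ) ≤ z ^ (1 / 2 : ℝ) := Real.rpow_le_rpow_of_exponent_le hz1 (by norm_num)
  have hwk4 : ((w ^ κ : ℕ) : ℝ) ^ 4 ≤ z ^ (1 / 2 : ℝ) := by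
    calc ((w ^ κ : ℕ) : ℝ) ^ 4 ≤ (z ^ (1 / 8 : ℝ)) ^ 4 := by gcongr
      _ = z ^ (1 / 2 : ℝ) := by
          rw [← Real.rpow_natCast, ← Real.rpow_mul hz0.le]; norm_num
  have hlogw : Real.log z / (8 * κ) ≤ Real.log ((w:ℝ) + 1) := by
    have : Real.log z / (8 * κ) = Real.log (z ^ (1 / (8 * κ) : ℝ)) := by
      rw [Real.log_rpow hz0]; ring
    rw [this]
    exact Real.log_le_log (by positivity) hwlt.le
  -- totient ratio
  have hQ := (sadm_modQ A hA).ne_zero
  have hQ0 : (0:ℝ) < modQ A := by exact_mod_cast Nat.pos_of_ne_zero hQ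
  have ht0 : (0:ℝ) < (modQ A).totient := by exact_mod_cast Nat.totient_pos.2 (Nat.pos_of_ne_zero hQ)
  have hratio := hC1b (modQ A) hQ
  have hlogQ := log_modQ_le A K hK hA L hLA
  have hlQ0 : 0 ≤ Real.log (modQ A) := Real.log_nonneg (by exact_mod_cast Nat.one_le_iff_ne_zero.2 hQ)
  have hE1 : 1 ≤ Real.exp L := by
    rw [← Real.exp_zero]; exact Real.exp_le_exp.2 (by linarith only [hL])
  have hll : Real.log (Real.log (modQ A) + 3) ≤ C2 * L := by
    have h1 : Real.log (modQ A) + 3 ≤ D2 * Real.exp L := by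
      rw [hD2]; linarith only [mul_nonneg (sub_nonneg.2 hfac) (sub_nonneg.2 hE1), hE1, hlogQ]
    calc Real.log (Real.log (modQ A) + 3) ≤ Real.log (D2 * Real.exp L) :=
          Real.log_le_log (by linarith only [hlQ0]) h1
      _ = Real.log D2 + L := by rw [Real.log_mul (by linarith only [hD23]) (by positivity), Real.log_exp]
      _ ≤ C2 * L := by rw [hC2]; nlinarith only [hlD2, hL]
  have hll0 : 0 ≤ Real.log (Real.log (modQ A) + 3) := Real.log_nonneg (by linarith only [hlQ0])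
  have hratio2 : ((modQ A : ℕ):ℝ) / (modQ A).totient ≤ C1 * (C2 * L) ^ 2 := by
    refine hratio.trans ?_
    gcongr
  -- middle term
  have hmid : (⌊z⌋₊ : ℝ) / (((modQ A).totient : ℝ) / (modQ A : ℕ) * Real.log ((w:ℝ) + 1)) ^ κ ≤
      z * (B * L ^ 2) ^ κ / (Real.log z) ^ κ :=
    mid_bound hz0 hlz hκ0 hκK' hC1 (by rw [hC2]; linarith only [hlD2]) hL hB hratio2 hQ0 ht0 hlogw
  -- small terms
  have hsmall := half_pow_le (K := K) hz1 hlz (by omega : 0 < κ) hκK
  have hB' : (B * L ^ 2) ^ κ ≤ B ^ (K + 1) * L ^ (2 * (K + 1)) := by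
    rw [mul_pow, ← pow_mul]
    have h1 : B ^ κ ≤ B ^ (K + 1) := pow_le_pow_right₀ hB1 hκK
    have h2 : L ^ (2 * κ) ≤ L ^ (2 * (K + 1)) := pow_le_pow_right₀ hL (by omega)
    gcongr
  have hLpow : (1:ℝ) ≤ L ^ (2 * (K + 1)) := one_le_pow₀ hL
  have hlzκ : 0 < (Real.log z) ^ κ := by positivity
  have htotal : (((Icc 1 ⌊z⌋₊).filter (fun p => p.Prime ∧ ∀ a ∈ A, (a * p + 1).Prime)).card : ℝ) ≤
      D * z * L ^ (2 * (K + 1)) / (Real.log z) ^ κ := by
    refine hraw.trans ?_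
    have e1 : ((w ^ κ : ℕ) : ℝ) + (⌊z⌋₊ : ℝ) / (((modQ A).totient : ℝ) / (modQ A : ℕ) *
        Real.log ((w:ℝ) + 1)) ^ κ + ((w ^ κ : ℕ) : ℝ) ^ 4 ≤
        2 * ((2 * (K + 1)) ^ (K + 1) * z / (Real.log z) ^ κ) +
          z * (B ^ (K + 1) * L ^ (2 * (K + 1))) / (Real.log z) ^ κ := by
      have h5 : z * (B * L ^ 2) ^ κ / (Real.log z) ^ κ ≤
          z * (B ^ (K + 1) * L ^ (2 * (K + 1))) / (Real.log z) ^ κ := by gcongr
      linarith only [hwk4, hmid, hzhalf, hwk, hsmall, h5]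
    refine e1.trans ?_
    have e2 : 2 * ((2 * ((K:ℝ) + 1)) ^ (K + 1) * z / (Real.log z) ^ κ) +
          z * (B ^ (K + 1) * L ^ (2 * (K + 1))) / (Real.log z) ^ κ =
          (2 * (2 * ((K:ℝ) + 1)) ^ (K + 1) * z * 1 + B ^ (K + 1) * z * L ^ (2 * (K + 1))) /
            (Real.log z) ^ κ := by ring
    rw [e2, hD]
    apply div_le_div_of_nonneg_right _ hlzκ.le
    have h6 : 2 * (2 * ((K:ℝ) + 1)) ^ (K + 1) * z * 1 ≤
      2 * (2 * ((K:ℝ) + 1)) ^ (K + 1) * z * L ^ (2 * (K + 1)) := by gcongr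
    linarith only [h6]
  refine htotal.trans ?_
  have hD0 : 0 ≤ D := by rw [hD]; positivity
  have hcast : D ≤ ((⌈D⌉₊ + 2 * (K + 1) : ℕ) : ℝ) := by
    have := Nat.le_ceil D
    push_cast
    have := Nat.cast_nonneg (α := ℝ) K
    linarith
  have hpow : L ^ (2 * (K + 1)) ≤ L ^ (⌈D⌉₊ + 2 * (K + 1)) := pow_le_pow_right₀ hL (by omega)
  have e3 : 1 + A.card = κ := by omega
  rw [e3]
  gcongr

/-- The sieve statement of the blueprint: at most two extra linear forms. -/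
theorem sieve : ∃ C : ℕ, ∀ (z L : ℝ) (A : Finset ℕ), 3 ≤ z → 1 ≤ L → ll z ≤ L → A.card ≤ 2 →
    (∀ a ∈ A, 1 ≤ a ∧ ll ((a : ℝ) + 3) ≤ L) →
    (((Finset.range (⌊z⌋₊ + 1)).filter
      (fun p => p.Prime ∧ ∀ a ∈ A, (a * p + 1).Prime)).card : ℝ)
      ≤ C * z * L ^ C / (Real.log z) ^ (1 + A.card) := by
  obtain ⟨C, hC⟩ := sieve_general 2
  refine ⟨C, fun z L A hz hL _ hA hLA => ?_⟩
  refine le_trans ?_ (hC z L hz hL A hA (fun a ha => (hLA a ha).1) (fun a ha => (hLA a ha).2))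
  have : (Finset.range (⌊z⌋₊ + 1)).filter (fun p => p.Prime ∧ ∀ a ∈ A, (a * p + 1).Prime) ⊆
      (Icc 1 ⌊z⌋₊).filter (fun p => p.Prime ∧ ∀ a ∈ A, (a * p + 1).Prime) := by
    intro p hp
    rw [Finset.mem_filter, Finset.mem_range] at hp
    rw [Finset.mem_filter, Finset.mem_Icc]
    exact ⟨⟨hp.2.1.one_le, by omega⟩, hp.2⟩
  exact_mod_cast Finset.card_le_card this

lemma sum_pow_tel (a b : ℝ) (ha : 0 < a) (hb : 0 < b) (k : ℕ) (hk : 1 ≤ k) (I : ℕ) :
    ∑ i ∈ Finset.range I, 1 / (a + (i + 1) * b) ^ (1 + k) ≤ 1 / (b * a ^ k) := by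
  have hterm : ∀ i ∈ Finset.range I, 1 / (a + (i + 1) * b) ^ (1 + k) ≤
      1 / (b * a ^ (k - 1)) * (1 / (a + i * b) - 1 / (a + (i + 1 : ℕ) * b)) := by
    intro i _
    have h1 : 0 < a + i * b := by positivity
    have h2 : 0 < a + (i + 1) * b := by positivity
    have h3 : 1 / (b * a ^ (k - 1)) * (1 / (a + i * b) - 1 / (a + (i + 1 : ℕ) * b)) =
        1 / (a ^ (k - 1) * (a + i * b) * (a + (i + 1) * b)) := by
      push_cast
      field_simp
      ring
    rw [h3]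
    apply one_div_le_one_div_of_le (by positivity)
    have e : 1 + k = (k - 1) + 1 + 1 := by omega
    rw [e, pow_succ, pow_succ]
    have h4 : a ≤ a + (i + 1) * b := by
      have : 0 ≤ ((i:ℝ) + 1) * b := by positivity
      linarith only [this]
    have h5 : a + i * b ≤ a + (i + 1) * b := by nlinarith only [hb]
    gcongr
  refine (Finset.sum_le_sum hterm).trans ?_
  rw [← Finset.mul_sum]
  have htel : ∑ i ∈ Finset.range I, (1 / (a + i * b) - 1 / (a + (i + 1 : ℕ) * b)) =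
      1 / a - 1 / (a + I * b) := by
    have := Finset.sum_range_sub' (fun i : ℕ => 1 / (a + i * b)) I
    simpa using this
  rw [htel]
  have h6 : 0 ≤ 1 / (a + I * b) := by positivity
  have h7 : 1 / (b * a ^ k) = 1 / (b * a ^ (k - 1)) * (1 / a) := by
    have e : k = (k - 1) + 1 := by omega
    rw [e, pow_succ]
    simp only [Nat.add_sub_cancel]
    field_simp
  rw [h7]
  apply mul_le_mul_of_nonneg_left _ (by positivity)
  linarith only [h6]

theorem sieve_mass : ∃ C : ℕ, ∀ (z₁ L : ℝ) (A s : Finset ℕ), 3 ≤ z₁ → 1 ≤ L →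
    1 ≤ A.card → A.card ≤ 2 → (∀ a ∈ A, 1 ≤ a ∧ ll ((a : ℝ) + 3) ≤ L) →
    (∀ p ∈ s, p.Prime ∧ z₁ ≤ (p : ℝ) ∧ ll (p : ℝ) ≤ L ∧ ∀ a ∈ A, (a * p + 1).Prime) →
    ∑ p ∈ s, 1 / (p : ℝ) ≤ C * L ^ C / (Real.log z₁) ^ A.card := by
  obtain ⟨C, hC⟩ := sieve_general 2
  refine ⟨4 * C, fun z₁ L A s hz hL hA1 hA2 hLA hs => ?_⟩
  have hz0 : 0 < z₁ := by linarith only [hz]
  have hlz : 0 < Real.log z₁ := Real.log_pos (by linarith)
  have hl2 : 0 < Real.log 2 := Real.log_pos (by norm_num)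
  have hL0 : 0 < L := by linarith
  set k := A.card with hk
  set f : ℕ → ℕ := fun p => Nat.log 2 ⌊(p:ℝ) / z₁⌋₊ with hf
  have hfl : ∀ p ∈ s, 1 ≤ ⌊(p:ℝ) / z₁⌋₊ := by
    intro p hp
    apply Nat.le_floor
    rw [Nat.cast_one, le_div_iff₀ hz0, one_mul]
    exact (hs p hp).2.1
  have hlow : ∀ p ∈ s, (2:ℝ) ^ (f p) * z₁ ≤ p := by
    intro p hp
    have h1 := Nat.pow_log_le_self 2 (x := ⌊(p:ℝ) / z₁⌋₊) (by have := hfl p hp; omega)
    have h2 : (2:ℝ) ^ (f p) ≤ ⌊(p:ℝ) / z₁⌋₊ := by exact_mod_cast h1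
    have h3 : (⌊(p:ℝ) / z₁⌋₊ : ℝ) ≤ p / z₁ := Nat.floor_le (by positivity)
    have h4 := h2.trans h3
    rwa [le_div_iff₀ hz0] at h4
  have hupp : ∀ p ∈ s, (p:ℝ) ≤ (2:ℝ) ^ (f p + 1) * z₁ := by
    intro p hp
    have h1 := Nat.lt_pow_succ_log_self (b := 2) (by norm_num) ⌊(p:ℝ) / z₁⌋₊
    have h2 : (⌊(p:ℝ) / z₁⌋₊ : ℝ) + 1 ≤ (2:ℝ) ^ (f p + 1) := by exact_mod_cast h1
    have h3 : (p:ℝ) / z₁ < (⌊(p:ℝ) / z₁⌋₊ : ℝ) + 1 := Nat.lt_floor_add_one _
    have h4 := h3.le.trans h2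
    rwa [div_le_iff₀ hz0] at h4
  set I := s.sup f + 1 with hI
  have hmaps : ∀ p ∈ s, f p ∈ Finset.range I := by
    intro p hp
    rw [Finset.mem_range]
    have := Finset.le_sup (f := f) hp
    omega
  rw [← Finset.sum_fiberwise_of_maps_to hmaps]
  have hfib : ∀ i ∈ Finset.range I, ∑ p ∈ s.filter (fun p => f p = i), 1 / (p:ℝ) ≤
      2 * C * L ^ C * (1 / (Real.log z₁ + (i + 1) * Real.log 2) ^ (1 + k)) := by
    intro i _
    have h2i : (0:ℝ) < (2:ℝ) ^ i * z₁ := by positivity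
    have hzz : 3 ≤ (2:ℝ) ^ (i + 1) * z₁ := by
      have : (1:ℝ) ≤ (2:ℝ) ^ (i + 1) := one_le_pow₀ (by norm_num)
      nlinarith only [this, hz]
    have hcard := hC ((2:ℝ) ^ (i + 1) * z₁) L hzz hL A hA2 (fun a ha => (hLA a ha).1)
      (fun a ha => (hLA a ha).2)
    have hsub : s.filter (fun p => f p = i) ⊆ (Icc 1 ⌊(2:ℝ) ^ (i + 1) * z₁⌋₊).filter
        (fun p => p.Prime ∧ ∀ a ∈ A, (a * p + 1).Prime) := by
      intro p hp
      rw [Finset.mem_filter] at hp
      rw [Finset.mem_filter, Finset.mem_Icc]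
      have h1 := hs p hp.1
      refine ⟨⟨h1.1.one_le, ?_⟩, h1.1, h1.2.2.2⟩
      apply Nat.le_floor
      have := hupp p hp.1
      rwa [hp.2] at this
    have hc2 : ((s.filter (fun p => f p = i)).card : ℝ) ≤
        C * ((2:ℝ) ^ (i + 1) * z₁) * L ^ C / (Real.log ((2:ℝ) ^ (i + 1) * z₁)) ^ (1 + k) := by
      refine le_trans ?_ hcard
      exact_mod_cast Finset.card_le_card hsub
    have hlog : Real.log ((2:ℝ) ^ (i + 1) * z₁) = Real.log z₁ + (i + 1) * Real.log 2 := by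
      rw [Real.log_mul (by positivity) (by positivity), Real.log_pow]
      push_cast; ring
    rw [hlog] at hc2
    calc ∑ p ∈ s.filter (fun p => f p = i), 1 / (p:ℝ)
        ≤ ∑ p ∈ s.filter (fun p => f p = i), 1 / ((2:ℝ) ^ i * z₁) := by
          apply Finset.sum_le_sum
          intro p hp
          rw [Finset.mem_filter] at hp
          apply one_div_le_one_div_of_le h2i
          have := hlow p hp.1
          rwa [hp.2] at this
      _ = (s.filter (fun p => f p = i)).card * (1 / ((2:ℝ) ^ i * z₁)) := by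
          rw [Finset.sum_const, nsmul_eq_mul]
      _ ≤ (C * ((2:ℝ) ^ (i + 1) * z₁) * L ^ C / (Real.log z₁ + (i + 1) * Real.log 2) ^ (1 + k)) *
            (1 / ((2:ℝ) ^ i * z₁)) := by gcongr
      _ = _ := by
          rw [pow_succ]
          field_simp
  refine (Finset.sum_le_sum hfib).trans ?_
  rw [← Finset.mul_sum]
  have htel := sum_pow_tel (Real.log z₁) (Real.log 2) hlz hl2 k hA1 I
  have hCL : (0:ℝ) ≤ 2 * C * L ^ C := by positivity
  calc 2 * C * L ^ C * ∑ i ∈ Finset.range I, 1 / (Real.log z₁ + (i + 1) * Real.log 2) ^ (1 + k)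
      ≤ 2 * C * L ^ C * (1 / (Real.log 2 * (Real.log z₁) ^ k)) := by gcongr
    _ = (2 / Real.log 2) * C * L ^ C / (Real.log z₁) ^ k := by field_simp
    _ ≤ ((4 * C : ℕ) : ℝ) * L ^ (4 * C) / (Real.log z₁) ^ k := by
        have h1 : 2 / Real.log 2 ≤ 4 := by
          rw [div_le_iff₀ hl2]
          have := Real.log_two_gt_d9
          linarith only [this]
        have h2 : L ^ C ≤ L ^ (4 * C) := pow_le_pow_right₀ hL (by omega)
        push_cast
        gcongr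

end Vale.Agent.P031
end
end

section

section

/-! Collision lemma, part 3: sieve input. -/

namespace Vale.Agent.P031.Col

open Finset Filter Topology

theorem wt_prime (M : ℕ) (w : ℕ → ℝ) {R : ℕ} (hR : R.Prime)
    {B : ℝ} (hB : 1 ≤ B) (hwB : ∀ k, w k ≤ B) : wt M w R ≤ B := by
  classical
  unfold wt
  rw [hR.primeFactors, Finset.prod_singleton, hR.factorization_self, pow_one]
  split_ifs
  · exact hwB _
  · exact hB

theorem card_cell_le (M : ℕ) (hM : 2 ≤ M) : Fintype.card (Cell (2 * M)) + 1 ≤ 9 * M ^ 2 := by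
  rw [card_cell]
  nlinarith only [hM]

theorem ll_pow_le {M : ℕ} (hM : 2 ≤ M) {x : ℝ} (hx : 3 ≤ x) (hll : ll x ≤ 5 * (M : ℝ) ^ 20)
    {a : ℕ} (ha : a ≤ ⌊x⌋₊ ^ Fintype.card (Cell (2 * M))) :
    ll ((a : ℝ) + 3) ≤ 6 * (M : ℝ) ^ 20 := by
  set c₀ := Fintype.card (Cell (2 * M)) with hc₀
  have hc1 : 1 ≤ c₀ := by rw [hc₀, card_cell]; nlinarith only []
  have hcle := card_cell_le M hM
  rw [← hc₀] at hcle
  have hM' : (2 : ℝ) ≤ M := by exact_mod_cast hM
  have h1 : (a : ℝ) ≤ x ^ c₀ := by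
    have h2 : (⌊x⌋₊ : ℝ) ≤ x := Nat.floor_le (by linarith only [hx])
    calc (a : ℝ) ≤ ((⌊x⌋₊ ^ c₀ : ℕ) : ℝ) := by exact_mod_cast ha
      _ = (⌊x⌋₊ : ℝ) ^ c₀ := by push_cast; rfl
      _ ≤ x ^ c₀ := pow_le_pow_left₀ (by positivity) h2 _
  have h2 : x ≤ x ^ c₀ := by
    calc x = x ^ 1 := (pow_one x).symm
      _ ≤ x ^ c₀ := pow_le_pow_right₀ (by linarith only [hx]) hc1
  have h3 : (a : ℝ) + 3 ≤ x ^ (c₀ + 1) := by
    rw [pow_succ]
    nlinarith only [h1, h2, hx]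
  have hlogx : 1 < Real.log x := by
    rw [Real.lt_log_iff_exp_lt (by linarith only [hx])]
    have := Real.exp_one_lt_d9
    linarith only [hx, this]
  have h4 : Real.log ((a : ℝ) + 3) ≤ (c₀ + 1 : ℕ) * Real.log x := by
    rw [← Real.log_pow]
    exact Real.log_le_log (by positivity) h3
  have h5 : 0 < Real.log ((a : ℝ) + 3) := Real.log_pos (by
    have : (0 : ℝ) ≤ a := Nat.cast_nonneg a
    linarith only [])
  unfold ll at hll ⊢
  have h6 : ((c₀ + 1 : ℕ) : ℝ) ≤ 9 * (M : ℝ) ^ 2 := by exact_mod_cast hcle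
  calc Real.log (Real.log ((a : ℝ) + 3)) ≤ Real.log ((9 * (M : ℝ) ^ 2) * Real.log x) := by
        apply Real.log_le_log h5
        exact h4.trans (mul_le_mul_of_nonneg_right h6 (by linarith only [hlogx]))
    _ = Real.log (9 * (M : ℝ) ^ 2) + Real.log (Real.log x) :=
        Real.log_mul (by positivity) (by linarith only [hlogx])
    _ ≤ 9 * (M : ℝ) ^ 2 + 5 * (M : ℝ) ^ 20 := by
        have := Real.log_le_sub_one_of_pos (x := 9 * (M : ℝ) ^ 2) (by positivity)
        linarith only [hll, this]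
    _ ≤ 6 * (M : ℝ) ^ 20 := by
        have h7 : (9 : ℝ) ≤ (M : ℝ) ^ 18 := by
          calc (9 : ℝ) ≤ 2 ^ 18 := by norm_num
            _ ≤ (M : ℝ) ^ 18 := pow_le_pow_left₀ (by norm_num) hM' _
        have h8 : (M : ℝ) ^ 20 = (M : ℝ) ^ 18 * (M : ℝ) ^ 2 := by ring
        nlinarith only [h7]

theorem three_le_zz {M m : ℕ} (hM : 1 ≤ M) {κ : Line m → ℕ} {l : Line m} (hl : l ∈ Lset M κ) :
    3 ≤ zz M κ l := by
  rw [Lset, Finset.mem_filter] at hl
  unfold zz
  have h1 : (1 : ℝ) ≤ (κ l : ℝ) * (M : ℝ) ^ 13 := by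
    have hM1 : (1 : ℝ) ≤ (M : ℝ) ^ 13 := one_le_pow₀ (by exact_mod_cast hM)
    have hk1 : 1 ≤ κ l := le_trans (Nat.one_le_pow _ _ hM) hl.2
    have hk : (1 : ℝ) ≤ κ l := by exact_mod_cast hk1
    nlinarith only [hk, hM1]
  have h2 := Real.add_one_le_exp ((κ l : ℝ) * (M : ℝ) ^ 13)
  have h3 := Real.add_one_le_exp (Real.exp ((κ l : ℝ) * (M : ℝ) ^ 13))
  linarith

open Classical in
theorem sieve_in : ∃ C : ℕ, ∀ M : ℕ, 2 ≤ M → ∀ (x : ℝ) (κ : Line (2 * M) → ℕ) (N : ℕ → ℕ),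
    3 ≤ x → ll x ≤ 5 * (M : ℝ) ^ 20 → (∀ k, N k ≤ M ^ 26) →
    ∀ c : Cell (2 * M), ∀ L' ⊆ Lset M κ, L'.Nonempty → (∀ l ∈ L', c ∈ linc (2 * M) l) →
    ∀ A : Line (2 * M) → ℕ,
    (∀ l ∈ L', 0 < A l ∧ A l ≤ ⌊x⌋₊ ^ Fintype.card (Cell (2 * M))) →
    (∀ l ∈ L', ∀ l' ∈ L', l ≠ l' → A l ≠ A l') →
    ∑ R ∈ (Finset.Icc 1 ⌊x⌋₊).filter
      (fun R : ℕ => R.Prime ∧ ∀ l ∈ L', zz M κ l ≤ R ∧ (R * A l + 1).Prime),
        wt M (wc M κ N c) R / R ≤
      ((M : ℝ) ^ 13 * ((C + 1) * (6 * (M : ℝ) ^ 20) ^ C)) * ∏ l ∈ L', sv M κ l := by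
  obtain ⟨C, hC⟩ := sieve_mass
  refine ⟨C, ?_⟩
  intro M hM x κ N hx hll hN c L' hL' hne hc A hA hdist
  have hM1 : 1 ≤ M := by omega
  have hM' : (2 : ℝ) ≤ M := by exact_mod_cast hM
  obtain ⟨l1, hl1, hmax⟩ := Finset.exists_max_image L' κ hne
  set F := (Finset.Icc 1 ⌊x⌋₊).filter
      (fun R : ℕ => R.Prime ∧ ∀ l ∈ L', zz M κ l ≤ R ∧ (R * A l + 1).Prime) with hF
  have hwB : ∀ R ∈ F, wt M (wc M κ N c) R / R ≤ (M : ℝ) ^ 13 * (1 / (R : ℝ)) := by
    intro R hR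
    rw [hF, Finset.mem_filter] at hR
    have h1 := wt_prime M (wc M κ N c) hR.2.1
      (B := (M : ℝ) ^ 13) (one_le_pow₀ (by linarith only [hM'])) (wc_le hM1 κ N hN c)
    rw [mul_one_div]
    exact div_le_div_of_nonneg_right h1 (Nat.cast_nonneg R)
  have hcardA : (L'.image A).card = L'.card := by
    apply Finset.card_image_of_injOn
    intro a ha b hb hab
    by_contra hne'
    exact hdist a ha b hb hne' hab
  have hcard1 : 1 ≤ L'.card := Finset.card_pos.2 hne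
  have hcard2 : L'.card ≤ 2 := lines_le_two c L' hc
  have hMpow : (1 : ℝ) ≤ (M : ℝ) ^ 20 := one_le_pow₀ (by linarith only [hM'])
  have hsm := hC (zz M κ l1) (6 * (M : ℝ) ^ 20) (L'.image A) F
    (three_le_zz hM1 (hL' hl1)) (by linarith only [hMpow]) (by rw [hcardA]; exact hcard1)
    (by rw [hcardA]; exact hcard2)
    (by
      intro a ha
      obtain ⟨l, hl, rfl⟩ := Finset.mem_image.1 ha
      exact ⟨(hA l hl).1, ll_pow_le hM hx hll (hA l hl).2⟩)
    (by
      intro R hR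
      rw [hF, Finset.mem_filter, Finset.mem_Icc] at hR
      obtain ⟨⟨hR1, hR2⟩, hRp, hR3⟩ := hR
      have hRx : (R : ℝ) ≤ x := by
        have : (⌊x⌋₊ : ℝ) ≤ x := Nat.floor_le (by linarith only [hx])
        have h' : (R : ℝ) ≤ (⌊x⌋₊ : ℝ) := by exact_mod_cast hR2
        linarith only [this, h']
      refine ⟨hRp, (hR3 l1 hl1).1, ?_, ?_⟩
      · have := ll_mono (a := (R : ℝ)) (b := x) (by exact_mod_cast hRp.one_lt) hRx
        linarith only [hll, hMpow, this]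
      · intro a ha
        obtain ⟨l, hl, rfl⟩ := Finset.mem_image.1 ha
        have := (hR3 l hl).2
        rwa [mul_comm] at this)
  rw [hcardA] at hsm
  have hlogzz : Real.log (zz M κ l1) = Real.exp ((κ l1 : ℝ) * (M : ℝ) ^ 13) := by
    unfold zz; rw [Real.log_exp]
  have hsv : 1 / (Real.log (zz M κ l1)) ^ L'.card ≤ ∏ l ∈ L', sv M κ l := by
    rw [hlogzz, ← Real.exp_nat_mul, one_div, ← Real.exp_neg]
    unfold sv
    rw [← Real.exp_sum]
    apply Real.exp_le_exp.2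
    rw [Finset.sum_neg_distrib, neg_le_neg_iff]
    calc ∑ l ∈ L', (κ l : ℝ) * (M : ℝ) ^ 13 ≤ ∑ _l ∈ L', (κ l1 : ℝ) * (M : ℝ) ^ 13 := by
          apply Finset.sum_le_sum
          intro l hl
          apply mul_le_mul_of_nonneg_right _ (by positivity)
          exact_mod_cast hmax l hl
      _ = _ := by rw [Finset.sum_const, nsmul_eq_mul]
  have hprod0 : 0 ≤ ∏ l ∈ L', sv M κ l :=
    Finset.prod_nonneg (fun l _ => (Real.exp_pos _).le)
  calc ∑ R ∈ F, wt M (wc M κ N c) R / R ≤ ∑ R ∈ F, (M : ℝ) ^ 13 * (1 / (R : ℝ)) :=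
        Finset.sum_le_sum hwB
    _ = (M : ℝ) ^ 13 * ∑ R ∈ F, 1 / (R : ℝ) := by rw [Finset.mul_sum]
    _ ≤ (M : ℝ) ^ 13 * (C * (6 * (M : ℝ) ^ 20) ^ C / (Real.log (zz M κ l1)) ^ L'.card) :=
        mul_le_mul_of_nonneg_left hsm (by positivity)
    _ = ((M : ℝ) ^ 13 * (C * (6 * (M : ℝ) ^ 20) ^ C)) * (1 / (Real.log (zz M κ l1)) ^ L'.card) := by
        ring
    _ ≤ ((M : ℝ) ^ 13 * (C * (6 * (M : ℝ) ^ 20) ^ C)) * ∏ l ∈ L', sv M κ l :=
        mul_le_mul_of_nonneg_left hsv (by positivity)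
    _ ≤ _ := by
        apply mul_le_mul_of_nonneg_right _ hprod0
        apply mul_le_mul_of_nonneg_left _ (by positivity)
        apply mul_le_mul_of_nonneg_right _ (by positivity)
        linarith only []

open Classical in
theorem sieve_in_count : ∃ C : ℕ, ∀ M : ℕ, 2 ≤ M → ∀ (x Z : ℝ) (κ : Line (2 * M) → ℕ) (N : ℕ → ℕ),
    3 ≤ x → ll x ≤ 5 * (M : ℝ) ^ 20 → (∀ k, N k ≤ M ^ 26) →
    (∀ l ∈ Lset M κ, (κ l : ℝ) * (M : ℝ) ^ 13 ≤ ll x) → 3 ≤ Z →
    Real.log x ≤ 2 * (M : ℝ) ^ 26 * Real.log Z →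
    ∀ c : Cell (2 * M), ∀ L' ⊆ Lset M κ, (∀ l ∈ L', c ∈ linc (2 * M) l) →
    ∀ A : Line (2 * M) → ℕ,
    (∀ l ∈ L', 0 < A l ∧ A l ≤ ⌊x⌋₊ ^ Fintype.card (Cell (2 * M))) →
    (∀ l ∈ L', ∀ l' ∈ L', l ≠ l' → A l ≠ A l') → ∀ y : ℝ, Z ≤ y → y ≤ x →
    ∑ R ∈ (Finset.Icc 1 ⌊x⌋₊).filter
      (fun R : ℕ => R.Prime ∧ (R : ℝ) ≤ y ∧ ∀ l ∈ L', (R * A l + 1).Prime),
        wt M (wc M κ N c) R ≤
      (((M : ℝ) ^ 13 * ((C + 1) * (6 * (M : ℝ) ^ 20) ^ C)) * (2 * (M : ℝ) ^ 26) ^ 3 / Real.log x)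
        * y * ∏ l ∈ L', sv M κ l := by
  obtain ⟨C, hC⟩ := sieve
  refine ⟨C, ?_⟩
  intro M hM x Z κ N hx hll hN hκ hZ hlogZ c L' hL' hc A hA hdist y hy hyx
  have hM1 : 1 ≤ M := by omega
  have hM' : (2 : ℝ) ≤ M := by exact_mod_cast hM
  set F := (Finset.Icc 1 ⌊x⌋₊).filter
      (fun R : ℕ => R.Prime ∧ (R : ℝ) ≤ y ∧ ∀ l ∈ L', (R * A l + 1).Prime) with hF
  have hwB : ∀ R ∈ F, wt M (wc M κ N c) R ≤ (M : ℝ) ^ 13 := by
    intro R hR
    rw [hF, Finset.mem_filter] at hR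
    exact wt_prime M (wc M κ N c) hR.2.1
      (B := (M : ℝ) ^ 13) (one_le_pow₀ (by linarith only [hM'])) (wc_le hM1 κ N hN c)
  have hcardA : (L'.image A).card = L'.card := by
    apply Finset.card_image_of_injOn
    intro a ha b hb hab
    by_contra hne'
    exact hdist a ha b hb hne' hab
  have hcard2 : L'.card ≤ 2 := lines_le_two c L' hc
  have hMpow : (1 : ℝ) ≤ (M : ℝ) ^ 20 := one_le_pow₀ (by linarith only [hM'])
  have hy3 : 3 ≤ y := hZ.trans hy
  have hsm := hC y (6 * (M : ℝ) ^ 20) (L'.image A) hy3 (by linarith only [hMpow])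
    (by
      have := ll_mono (a := y) (b := x) (by linarith) hyx
      linarith only [this, hMpow, hll])
    (by rw [hcardA]; exact hcard2)
    (by
      intro a ha
      obtain ⟨l, hl, rfl⟩ := Finset.mem_image.1 ha
      exact ⟨(hA l hl).1, ll_pow_le hM hx hll (hA l hl).2⟩)
  rw [hcardA] at hsm
  have hFcard : (F.card : ℝ) ≤ C * y * (6 * (M : ℝ) ^ 20) ^ C / (Real.log y) ^ (1 + L'.card) := by
    refine le_trans ?_ hsm
    have : F ⊆ (Finset.range (⌊y⌋₊ + 1)).filter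
        (fun p => p.Prime ∧ ∀ a ∈ L'.image A, (a * p + 1).Prime) := by
      intro R hR
      rw [hF, Finset.mem_filter] at hR
      rw [Finset.mem_filter, Finset.mem_range]
      refine ⟨?_, hR.2.1, ?_⟩
      · exact Nat.lt_succ_of_le (Nat.le_floor hR.2.2.1)
      · intro a ha
        obtain ⟨l, hl, rfl⟩ := Finset.mem_image.1 ha
        have := hR.2.2.2 l hl
        rwa [mul_comm] at this
    exact_mod_cast Finset.card_le_card this
  have hlogx : 1 < Real.log x := by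
    rw [Real.lt_log_iff_exp_lt (by linarith only [hx])]
    have := Real.exp_one_lt_d9
    linarith only [hx, this]
  have hlogZ0 : 0 < Real.log Z := Real.log_pos (by linarith only [hZ])
  have hlogy : Real.log Z ≤ Real.log y := Real.log_le_log (by linarith only [hZ]) hy
  have hlogy0 : 0 < Real.log y := by linarith only [hlogy, hlogZ0]
  have hinv : 1 / Real.log y ≤ 2 * (M : ℝ) ^ 26 / Real.log x := by
    rw [div_le_div_iff₀ hlogy0 (by linarith only [hlogx])]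
    have : 2 * (M : ℝ) ^ 26 * Real.log Z ≤ 2 * (M : ℝ) ^ 26 * Real.log y :=
      mul_le_mul_of_nonneg_left hlogy (by positivity)
    linarith only [this, hlogZ]
  have hsv1 : ∀ l ∈ L', 1 / Real.log x ≤ sv M κ l := by
    intro l hl
    unfold sv
    have h1 := hκ l (hL' hl)
    have h2 : 1 / Real.log x = Real.exp (-(ll x)) := by
      unfold ll
      rw [Real.exp_neg, Real.exp_log (by linarith only [hlogx]), one_div]
    rw [h2]
    exact Real.exp_le_exp.2 (by linarith only [h1])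
  have hprod : (1 / Real.log x) ^ L'.card ≤ ∏ l ∈ L', sv M κ l := by
    rw [← Finset.prod_const]
    exact Finset.prod_le_prod (fun l _ => by positivity) hsv1
  have hprod0 : 0 ≤ ∏ l ∈ L', sv M κ l :=
    Finset.prod_nonneg (fun l _ => (Real.exp_pos _).le)
  have h2M : (1 : ℝ) ≤ 2 * (M : ℝ) ^ 26 := by
    have : (1 : ℝ) ≤ (M : ℝ) ^ 26 := one_le_pow₀ (by linarith only [hM'])
    linarith only [this]
  have hmain : 1 / (Real.log y) ^ (1 + L'.card) ≤
      (2 * (M : ℝ) ^ 26) ^ 3 / Real.log x * ∏ l ∈ L', sv M κ l := by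
    calc 1 / (Real.log y) ^ (1 + L'.card) = (1 / Real.log y) ^ (1 + L'.card) := by
          rw [one_div_pow]
      _ ≤ (2 * (M : ℝ) ^ 26 / Real.log x) ^ (1 + L'.card) :=
          pow_le_pow_left₀ (by positivity) hinv _
      _ = (2 * (M : ℝ) ^ 26) ^ (1 + L'.card) * ((1 / Real.log x) * (1 / Real.log x) ^ L'.card) := by
          rw [← pow_succ', div_eq_mul_one_div, mul_pow, Nat.add_comm 1]
      _ ≤ (2 * (M : ℝ) ^ 26) ^ 3 * ((1 / Real.log x) * ∏ l ∈ L', sv M κ l) := by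
          apply mul_le_mul
          · exact pow_le_pow_right₀ h2M (by omega)
          · exact mul_le_mul_of_nonneg_left hprod (by positivity)
          · positivity
          · positivity
      _ = _ := by ring
  calc ∑ R ∈ F, wt M (wc M κ N c) R ≤ ∑ _R ∈ F, (M : ℝ) ^ 13 := Finset.sum_le_sum hwB
    _ = (M : ℝ) ^ 13 * F.card := by rw [Finset.sum_const, nsmul_eq_mul, mul_comm]
    _ ≤ (M : ℝ) ^ 13 * (C * y * (6 * (M : ℝ) ^ 20) ^ C / (Real.log y) ^ (1 + L'.card)) :=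
        mul_le_mul_of_nonneg_left hFcard (by positivity)
    _ = ((M : ℝ) ^ 13 * (C * (6 * (M : ℝ) ^ 20) ^ C) * y) * (1 / (Real.log y) ^ (1 + L'.card)) := by
        ring
    _ ≤ ((M : ℝ) ^ 13 * (C * (6 * (M : ℝ) ^ 20) ^ C) * y) *
        ((2 * (M : ℝ) ^ 26) ^ 3 / Real.log x * ∏ l ∈ L', sv M κ l) :=
        mul_le_mul_of_nonneg_left hmain (by
          have : 0 ≤ y := by linarith only [hy, hZ]
          positivity)
    _ ≤ ((M : ℝ) ^ 13 * ((C + 1) * (6 * (M : ℝ) ^ 20) ^ C) * y) *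
        ((2 * (M : ℝ) ^ 26) ^ 3 / Real.log x * ∏ l ∈ L', sv M κ l) := by
        have h0 : 0 ≤ (2 * (M : ℝ) ^ 26) ^ 3 / Real.log x * ∏ l ∈ L', sv M κ l := by
          apply mul_nonneg _ hprod0
          positivity
        apply mul_le_mul_of_nonneg_right _ h0
        apply mul_le_mul_of_nonneg_right _ (by linarith only [hy, hZ])
        apply mul_le_mul_of_nonneg_left _ (by positivity)
        apply mul_le_mul_of_nonneg_right _ (by positivity)
        linarith only []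
    _ = _ := by ring

end Vale.Agent.P031.Col
end
end

section

section

/-! Collision lemma, part 4: the exponent. -/

namespace Vale.Agent.P031.Col

open Finset Filter Topology

variable {m : ℕ}

theorem sum_lines_le {M : ℕ} (hM : 1 ≤ M) (κ : Line m → ℕ) (K : ℕ) :
    ∑ k ∈ Finset.Ico (M ^ 2) K, (na κ k + nb κ k + nt κ k) ≤ ∑ l ∈ Lset M κ, κ l := by
  classical
  have h1 : ∀ k, na κ k + nb κ k + nt κ k = ∑ l : Line m, if k ≤ κ l then 1 else 0 := by
    intro k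
    rw [Fintype.sum_sum_type, Fintype.sum_sum_type]
    simp only [Finset.sum_boole, Nat.cast_id]
    unfold na nb nt
    ring
  rw [Finset.sum_congr rfl (fun k _ => h1 k), Finset.sum_comm]
  have h2 : ∀ l : Line m, ∑ k ∈ Finset.Ico (M ^ 2) K, (if k ≤ κ l then 1 else 0) ≤
      if M ^ 2 ≤ κ l then κ l else 0 := by
    intro l
    rw [Finset.sum_boole]
    simp only [Nat.cast_id]
    have hM2 : 1 ≤ M ^ 2 := Nat.one_le_pow _ _ hM
    split_ifs with h
    · calc _ ≤ (Finset.Icc (M ^ 2) (κ l)).card := by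
            apply Finset.card_le_card
            intro k hk
            rw [Finset.mem_filter, Finset.mem_Ico] at hk
            rw [Finset.mem_Icc]
            exact ⟨hk.1.1, hk.2⟩
        _ = κ l + 1 - M ^ 2 := Nat.card_Icc _ _
        _ ≤ κ l := by omega
    · rw [Nat.le_zero, Finset.card_eq_zero, Finset.filter_eq_empty_iff]
      intro k hk hk'
      rw [Finset.mem_Ico] at hk
      omega
  calc _ ≤ ∑ l : Line m, if M ^ 2 ≤ κ l then κ l else 0 := Finset.sum_le_sum (fun l _ => h2 l)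
    _ = _ := by
      unfold Lset
      rw [Finset.sum_filter]

/-- the sum of the exponents over the levels -/
theorem levels_sum {M : ℕ} (hM : 1 ≤ M) (κ : Line m → ℕ) (N : ℕ → ℕ)
    (hrr : ∀ k ∈ Finset.Ico (M ^ 2) (KK M), 0 < N k → 0 < rr κ k)
    (htop : ∃ ks, ∀ k ∈ Finset.Ico (M ^ 2) (KK M), k ≠ ks →
      1 ≤ na κ k + nb κ k ∨ nt κ k = 0) :
    ∑ k ∈ Finset.Ico (M ^ 2) (KK M),
      ((N k : ℝ) * Real.log ((M : ℝ) ^ 13 * rr κ k / N k) + N k
        - (M : ℝ) ^ 13 * ((na κ k : ℝ) + nb κ k + nt κ k)) ≤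
      ∑ k ∈ Finset.Ico (M ^ 2) (KK M), ph ((M : ℝ) ^ 13) (N k) + (M : ℝ) ^ 13 := by
  classical
  obtain ⟨ks, hks⟩ := htop
  have hlam : (0 : ℝ) < (M : ℝ) ^ 13 := by positivity
  have h1 : ∀ k ∈ Finset.Ico (M ^ 2) (KK M),
      ((N k : ℝ) * Real.log ((M : ℝ) ^ 13 * rr κ k / N k) + N k
        - (M : ℝ) ^ 13 * ((na κ k : ℝ) + nb κ k + nt κ k)) ≤
      ph ((M : ℝ) ^ 13) (N k) + (if k = ks then (M : ℝ) ^ 13 else 0) := by
    intro k hk
    have hr : rr κ k ≤ na κ k * nb κ k + nt κ k := le_refl _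
    by_cases hkk : k = ks
    · rw [if_pos hkk]
      exact cell_exp _ _ _ _ _ _ hlam hr (hrr k hk)
    · rw [if_neg hkk, add_zero]
      rcases hks k hk hkk with h | h
      · exact cell_exp' _ _ _ _ _ _ hlam hr (hrr k hk) h
      · by_cases hab : 1 ≤ na κ k + nb κ k
        · exact cell_exp' _ _ _ _ _ _ hlam hr (hrr k hk) hab
        · have ha : na κ k = 0 := by omega
          have hb : nb κ k = 0 := by omega
          have hr0 : rr κ k = 0 := by unfold rr; rw [ha, h]; simp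
          have hN0 : N k = 0 := by
            by_contra hcon
            have := hrr k hk (Nat.pos_of_ne_zero hcon)
            omega
          rw [hN0, ha, hb, h]
          simp [ph]
  calc _ ≤ ∑ k ∈ Finset.Ico (M ^ 2) (KK M),
        (ph ((M : ℝ) ^ 13) (N k) + (if k = ks then (M : ℝ) ^ 13 else 0)) := Finset.sum_le_sum h1
    _ = ∑ k ∈ Finset.Ico (M ^ 2) (KK M), ph ((M : ℝ) ^ 13) (N k) +
        ∑ k ∈ Finset.Ico (M ^ 2) (KK M), (if k = ks then (M : ℝ) ^ 13 else 0) := by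
        rw [Finset.sum_add_distrib]
    _ ≤ _ := by
        have : ∑ k ∈ Finset.Ico (M ^ 2) (KK M), (if k = ks then (M : ℝ) ^ 13 else 0) ≤
            (M : ℝ) ^ 13 := by
          rw [Finset.sum_ite_eq']
          split_ifs
          · exact le_refl _
          · exact hlam.le
        linarith

/-- product formula for the box sum -/
theorem box_sum (M X : ℕ) (w : Cell m → ℕ → ℝ) :
    ∑ n ∈ box (Cell m) X, ∏ c, (wt M (w c) (n c) / (n c : ℝ)) =
      ∏ c, ∑ j ∈ Finset.Icc 1 X, wt M (w c) j / (j : ℝ) := by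
  unfold box
  rw [Finset.prod_univ_sum]

theorem zk_pow {M : ℕ} (hM : 1 ≤ M) (κ : Line m → ℕ) (N : ℕ → ℕ)
    (hrr : ∀ k ∈ Finset.Ico (M ^ 2) (KK M), 0 < N k → 0 < rr κ k) :
    ∏ k ∈ Finset.Ico (M ^ 2) (KK M), (zk M κ N k) ^ (N k) =
      Real.exp (-∑ k ∈ Finset.Ico (M ^ 2) (KK M),
        (N k : ℝ) * Real.log ((M : ℝ) ^ 13 * rr κ k / N k)) := by
  rw [← Finset.sum_neg_distrib, Real.exp_sum]
  apply Finset.prod_congr rfl
  intro k hk
  rcases Nat.eq_zero_or_pos (N k) with h | h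
  · rw [h]; simp
  · have h1 := hrr k hk h
    have h2 : (0 : ℝ) < N k := by exact_mod_cast h
    have h3 : (0 : ℝ) < rr κ k := by exact_mod_cast h1
    have h4 : (0 : ℝ) < (M : ℝ) ^ 13 := by positivity
    have h5 : zk M κ N k = ((M : ℝ) ^ 13 * rr κ k / N k)⁻¹ := by
      unfold zk
      rw [inv_div]
    rw [h5, ← Real.exp_log (show (0 : ℝ) < ((M : ℝ) ^ 13 * rr κ k / N k)⁻¹ by positivity),
      ← Real.exp_nat_mul, Real.log_inv]
    congr 1
    ring

/-- the error term -/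
noncomputable def errM (C₁ : ℝ) (B : ℝ) (M : ℕ) : ℝ :=
  6 * (M : ℝ) * Real.log (9 * (M : ℝ) ^ 2 * B) + 9 * (M : ℝ) ^ 2 * (C₁ + (M : ℝ) ^ 15)
    + (C₁ + 1) * (M : ℝ) ^ 13

theorem core {M : ℕ} (hM : 2 ≤ M) {C₁ : ℝ} (hC₁ : 0 < C₁)
    (hcs : ∀ (X : ℕ) (w : ℕ → ℝ), ll (X : ℝ) ≤ 5 * (M : ℝ) ^ 20 →
      (∀ k, 0 ≤ w k ∧ w k ≤ (M : ℝ) ^ 13) →
      ∑ j ∈ Finset.Icc 1 X, wt M w j / (j : ℝ) ≤ C₁ * Real.exp ((M : ℝ) ^ 15) *
        Real.exp (∑ k ∈ Finset.Ico (M ^ 2) (KK M), w k * ((M : ℝ) ^ 13 + C₁)))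
    {B : ℝ} (hB : 1 ≤ B) {X : ℕ} (hX : ll (X : ℝ) ≤ 5 * (M : ℝ) ^ 20)
    (κ : Line (2 * M) → ℕ) (N : ℕ → ℕ) (hN : ∀ k, N k ≤ M ^ 26)
    (hNs : ∑ k ∈ Finset.Ico (M ^ 2) (KK M), N k ≤ M ^ 26)
    (hrr : ∀ k ∈ Finset.Ico (M ^ 2) (KK M), 0 < N k → 0 < rr κ k)
    (htop : ∃ ks, ∀ k ∈ Finset.Ico (M ^ 2) (KK M), k ≠ ks →
      1 ≤ na κ k + nb κ k ∨ nt κ k = 0) :
    (Fintype.card (Cell (2 * M)) * B) ^ (Lset M κ).card * (∏ l ∈ Lset M κ, sv M κ l) *
      ∑ n ∈ box (Cell (2 * M)) X, ∏ c, (wt M (wc M κ N c) (n c) / (n c : ℝ)) ≤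
    Real.exp (errM C₁ B M + ∑ k ∈ Finset.Ico (M ^ 2) (KK M), ph ((M : ℝ) ^ 13) (N k)) *
      ∏ k ∈ Finset.Ico (M ^ 2) (KK M), (zk M κ N k) ^ (N k) := by
  have hM1 : 1 ≤ M := by omega
  have hM' : (2 : ℝ) ≤ M := by exact_mod_cast hM
  have hlam : (0 : ℝ) < (M : ℝ) ^ 13 := by positivity
  set c₀ := Fintype.card (Cell (2 * M)) with hc₀
  have hc₀1 : 1 ≤ c₀ := by rw [hc₀, card_cell]; nlinarith only []
  have hc₀le : c₀ ≤ 9 * M ^ 2 := by
    have := card_cell_le M hM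
    rw [← hc₀] at this
    omega
  have hc₀r : (c₀ : ℝ) ≤ 9 * (M : ℝ) ^ 2 := by exact_mod_cast hc₀le
  have hc₀r1 : (1 : ℝ) ≤ c₀ := by exact_mod_cast hc₀1
  -- first factor
  have f1 : ((c₀ : ℝ) * B) ^ (Lset M κ).card ≤
      Real.exp (6 * (M : ℝ) * Real.log (9 * (M : ℝ) ^ 2 * B)) := by
    have h1 : (c₀ : ℝ) * B ≤ 9 * (M : ℝ) ^ 2 * B := mul_le_mul_of_nonneg_right hc₀r (by linarith only [hB])
    have h2 : 1 ≤ (c₀ : ℝ) * B := by nlinarith only [hc₀r1, hB]
    have h3 : (Lset M κ).card ≤ 6 * M := by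
      calc (Lset M κ).card ≤ Fintype.card (Line (2 * M)) := Finset.card_le_univ _
        _ = 6 * M := by simp [Line]; ring
    calc ((c₀ : ℝ) * B) ^ (Lset M κ).card ≤ ((c₀ : ℝ) * B) ^ (6 * M) := pow_le_pow_right₀ h2 h3
      _ ≤ (9 * (M : ℝ) ^ 2 * B) ^ (6 * M) := pow_le_pow_left₀ (by linarith only [h2]) h1 _
      _ = _ := by
        conv_lhs => rw [← Real.exp_log (show (0 : ℝ) < 9 * (M : ℝ) ^ 2 * B by positivity)]
        rw [← Real.exp_nat_mul]
        congr 1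
        push_cast
        ring
  -- second factor
  have f2 : ∏ l ∈ Lset M κ, sv M κ l = Real.exp (-((M : ℝ) ^ 13 * ∑ l ∈ Lset M κ, (κ l : ℝ))) := by
    unfold sv
    rw [← Real.exp_sum]
    congr 1
    rw [Finset.sum_neg_distrib, Finset.mul_sum]
    congr 1
    exact Finset.sum_congr rfl (fun l _ => by ring)
  -- third factor
  have f3 : ∑ n ∈ box (Cell (2 * M)) X, ∏ c, (wt M (wc M κ N c) (n c) / (n c : ℝ)) ≤
      Real.exp (9 * (M : ℝ) ^ 2 * (C₁ + (M : ℝ) ^ 15) +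
        (∑ k ∈ Finset.Ico (M ^ 2) (KK M), (N k : ℝ)) + C₁ * (M : ℝ) ^ 13) := by
    rw [box_sum]
    have h1 : ∀ c : Cell (2 * M), ∑ j ∈ Finset.Icc 1 X, wt M (wc M κ N c) j / (j : ℝ) ≤
        Real.exp (C₁ + (M : ℝ) ^ 15 +
          ∑ k ∈ Finset.Ico (M ^ 2) (KK M), wc M κ N c k * ((M : ℝ) ^ 13 + C₁)) := by
      intro c
      have := hcs X (wc M κ N c) hX (fun k => ⟨wc_nonneg M κ N c k, wc_le hM1 κ N hN c k⟩)
      refine this.trans ?_
      rw [Real.exp_add, Real.exp_add]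
      apply mul_le_mul_of_nonneg_right _ (Real.exp_pos _).le
      apply mul_le_mul_of_nonneg_right _ (Real.exp_pos _).le
      have := Real.add_one_le_exp C₁
      linarith only [this]
    have h0 : ∀ c : Cell (2 * M), 0 ≤ ∑ j ∈ Finset.Icc 1 X, wt M (wc M κ N c) j / (j : ℝ) := by
      intro c
      apply Finset.sum_nonneg
      intro j _
      apply div_nonneg _ (Nat.cast_nonneg _)
      classical
      unfold wt
      apply Finset.prod_nonneg
      intro p _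
      apply pow_nonneg
      split_ifs
      · exact wc_nonneg M κ N c _
      · exact zero_le_one
    calc ∏ c : Cell (2 * M), ∑ j ∈ Finset.Icc 1 X, wt M (wc M κ N c) j / (j : ℝ)
        ≤ ∏ c : Cell (2 * M), Real.exp (C₁ + (M : ℝ) ^ 15 +
          ∑ k ∈ Finset.Ico (M ^ 2) (KK M), wc M κ N c k * ((M : ℝ) ^ 13 + C₁)) :=
          Finset.prod_le_prod (fun c _ => h0 c) (fun c _ => h1 c)
      _ = Real.exp (∑ c : Cell (2 * M), (C₁ + (M : ℝ) ^ 15 +
          ∑ k ∈ Finset.Ico (M ^ 2) (KK M), wc M κ N c k * ((M : ℝ) ^ 13 + C₁))) := by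
          rw [Real.exp_sum]
      _ ≤ _ := by
          apply Real.exp_le_exp.2
          rw [Finset.sum_add_distrib, Finset.sum_const, nsmul_eq_mul, Finset.card_univ, ← hc₀,
            Finset.sum_comm]
          have h2 : ∀ k ∈ Finset.Ico (M ^ 2) (KK M),
              ∑ c : Cell (2 * M), wc M κ N c k * ((M : ℝ) ^ 13 + C₁) ≤
                (N k : ℝ) + C₁ / (M : ℝ) ^ 13 * N k := by
            intro k _
            rw [← Finset.sum_mul, sum_wc]
            have h3 : (rr κ k : ℝ) * zk M κ N k ≤ (N k : ℝ) / (M : ℝ) ^ 13 := by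
              unfold zk
              rcases Nat.eq_zero_or_pos (rr κ k) with h | h
              · rw [h]; simp; positivity
              · have : (0 : ℝ) < rr κ k := by exact_mod_cast h
                apply le_of_eq
                field_simp
            calc (rr κ k : ℝ) * zk M κ N k * ((M : ℝ) ^ 13 + C₁) ≤
                  (N k : ℝ) / (M : ℝ) ^ 13 * ((M : ℝ) ^ 13 + C₁) :=
                  mul_le_mul_of_nonneg_right h3 (by positivity)
              _ = _ := by field_simp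
          have h4 : ∑ k ∈ Finset.Ico (M ^ 2) (KK M), ((N k : ℝ) + C₁ / (M : ℝ) ^ 13 * N k) ≤
              (∑ k ∈ Finset.Ico (M ^ 2) (KK M), (N k : ℝ)) + C₁ * (M : ℝ) ^ 13 := by
            rw [Finset.sum_add_distrib, ← Finset.mul_sum]
            have h5 : ∑ k ∈ Finset.Ico (M ^ 2) (KK M), (N k : ℝ) ≤ (M : ℝ) ^ 26 := by
              exact_mod_cast hNs
            have h6 : C₁ / (M : ℝ) ^ 13 * ∑ k ∈ Finset.Ico (M ^ 2) (KK M), (N k : ℝ) ≤
                C₁ * (M : ℝ) ^ 13 := by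
              calc _ ≤ C₁ / (M : ℝ) ^ 13 * (M : ℝ) ^ 26 :=
                    mul_le_mul_of_nonneg_left h5 (by positivity)
                _ = _ := by field_simp
            linarith only [h6]
          have h7 : (c₀ : ℝ) * (C₁ + (M : ℝ) ^ 15) ≤ 9 * (M : ℝ) ^ 2 * (C₁ + (M : ℝ) ^ 15) :=
            mul_le_mul_of_nonneg_right hc₀r (by positivity)
          have h8 := Finset.sum_le_sum h2
          linarith only [h4, h8, h7]
  have f4 : (∑ k ∈ Finset.Ico (M ^ 2) (KK M), ((na κ k : ℝ) + nb κ k + nt κ k)) ≤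
      ∑ l ∈ Lset M κ, (κ l : ℝ) := by
    exact_mod_cast sum_lines_le hM1 κ (KK M)
  have f5 := levels_sum hM1 κ N hrr htop
  rw [zk_pow hM1 κ N hrr, ← Real.exp_add]
  have hprodsv : 0 ≤ ∏ l ∈ Lset M κ, sv M κ l :=
    Finset.prod_nonneg (fun l _ => (Real.exp_pos _).le)
  have hsum0 : 0 ≤ ∑ n ∈ box (Cell (2 * M)) X, ∏ c, (wt M (wc M κ N c) (n c) / (n c : ℝ)) := by
    apply Finset.sum_nonneg
    intro n _
    apply Finset.prod_nonneg
    intro c _
    apply div_nonneg _ (Nat.cast_nonneg _)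
    classical
    unfold wt
    apply Finset.prod_nonneg
    intro p _
    apply pow_nonneg
    split_ifs
    · exact wc_nonneg M κ N c _
    · exact zero_le_one
  calc _ ≤ Real.exp (6 * (M : ℝ) * Real.log (9 * (M : ℝ) ^ 2 * B)) *
        Real.exp (-((M : ℝ) ^ 13 * ∑ l ∈ Lset M κ, (κ l : ℝ))) *
        Real.exp (9 * (M : ℝ) ^ 2 * (C₁ + (M : ℝ) ^ 15) +
        (∑ k ∈ Finset.Ico (M ^ 2) (KK M), (N k : ℝ)) + C₁ * (M : ℝ) ^ 13) := by
        rw [← f2]
        apply mul_le_mul _ f3 hsum0 (mul_nonneg (Real.exp_pos _).le hprodsv)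
        exact mul_le_mul_of_nonneg_right f1 hprodsv
    _ ≤ _ := by
        rw [← Real.exp_add, ← Real.exp_add]
        apply Real.exp_le_exp.2
        unfold errM
        rw [Finset.sum_sub_distrib, Finset.sum_add_distrib, ← Finset.mul_sum] at f5
        have f6 : (M : ℝ) ^ 13 * ∑ k ∈ Finset.Ico (M ^ 2) (KK M),
            ((na κ k : ℝ) + nb κ k + nt κ k) ≤
            (M : ℝ) ^ 13 * ∑ l ∈ Lset M κ, (κ l : ℝ) := mul_le_mul_of_nonneg_left f4 hlam.le
        linarith only [f5, f6]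

end Vale.Agent.P031.Col
end
end

section

section

/-! Collision lemma, part 5: the top line. -/

namespace Vale.Agent.P031.Col

open Finset Filter Topology

/-- largest prime factor, with the basic size bound -/
theorem exists_gpf {n : ℕ} (hn : 2 ≤ n) : ∃ R : ℕ, R.Prime ∧ R ∣ n ∧
    (∀ q : ℕ, q.Prime → q ∣ n → q ≤ R) ∧ n ≤ R ^ Om n := by
  have hne : n.primeFactors.Nonempty := Nat.nonempty_primeFactors.2 (by omega)
  have hmem := Finset.max'_mem _ hne
  set R := n.primeFactors.max' hne with hR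
  rw [Nat.mem_primeFactors] at hmem
  have hmax : ∀ q : ℕ, q.Prime → q ∣ n → q ≤ R := by
    intro q hq hd
    exact Finset.le_max' _ _ (Nat.mem_primeFactors.2 ⟨hq, hd, by omega⟩)
  refine ⟨R, hmem.1, hmem.2.1, hmax, ?_⟩
  unfold Om
  have h1 : n.primeFactorsList.prod ≤ R ^ n.primeFactorsList.length := by
    apply List.prod_le_pow_card
    intro q hq
    exact hmax q (Nat.prime_of_mem_primeFactorsList hq) (Nat.dvd_of_mem_primeFactorsList hq)
  rwa [Nat.prod_primeFactorsList (by omega)] at h1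

theorem log_nat_le (M : ℕ) (hM : 1 ≤ M) : Real.log M ≤ M := by
  have : (0 : ℝ) < M := by exact_mod_cast hM
  have := Real.log_le_sub_one_of_pos this
  linarith

theorem ll_gpf {M p R : ℕ} (hM : 3 ≤ M) (hR : R.Prime) (hp : 2 ≤ p - 1)
    (h : p - 1 ≤ R ^ Om (p - 1)) (hom : Om (p - 1) ≤ M ^ 25) :
    ll ((p - 1 : ℕ) : ℝ) ≤ ll (R : ℝ) + (M : ℝ) ^ 13 := by
  have hM1 : (3 : ℝ) ≤ M := by exact_mod_cast hM
  have hR2 : (2 : ℝ) ≤ R := by exact_mod_cast hR.two_le
  have h1 : ((p - 1 : ℕ) : ℝ) ≤ (R : ℝ) ^ (M ^ 25) := by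
    calc ((p - 1 : ℕ) : ℝ) ≤ ((R ^ Om (p - 1) : ℕ) : ℝ) := by exact_mod_cast h
      _ ≤ ((R ^ (M ^ 25) : ℕ) : ℝ) := by
        exact_mod_cast Nat.pow_le_pow_right hR.pos hom
      _ = _ := by push_cast; rfl
  have hp2 : (2 : ℝ) ≤ ((p - 1 : ℕ) : ℝ) := by exact_mod_cast hp
  have hlogR : 0 < Real.log R := Real.log_pos (by linarith only [hR2])
  have h2 : Real.log ((p - 1 : ℕ) : ℝ) ≤ (M : ℝ) ^ 25 * Real.log R := by
    have := Real.log_le_log (by linarith only [hp2]) h1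
    rw [Real.log_pow] at this
    push_cast at this ⊢
    exact this
  have h3 : 0 < Real.log ((p - 1 : ℕ) : ℝ) := Real.log_pos (by linarith only [hp2])
  unfold ll
  calc Real.log (Real.log ((p - 1 : ℕ) : ℝ)) ≤ Real.log ((M : ℝ) ^ 25 * Real.log R) :=
        Real.log_le_log h3 h2
    _ = 25 * Real.log M + Real.log (Real.log R) := by
        rw [Real.log_mul (by positivity) (by positivity), Real.log_pow]
        push_cast
        ring
    _ ≤ 25 * M + Real.log (Real.log R) := by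
        have := log_nat_le M (by omega)
        linarith only [this]
    _ ≤ _ := by
        have h4 : (25 : ℝ) ≤ (M : ℝ) ^ 12 := by
          calc (25 : ℝ) ≤ 3 ^ 12 := by norm_num
            _ ≤ (M : ℝ) ^ 12 := pow_le_pow_left₀ (by norm_num) hM1 _
        have h5 : (M : ℝ) ^ 13 = (M : ℝ) ^ 12 * M := by ring
        nlinarith only [h4]

theorem lev_le_succ {M a b : ℕ} (hM : 1 ≤ M) (h : ll (a : ℝ) ≤ ll (b : ℝ) + (M : ℝ) ^ 13)
    (ha : 0 < lev M a) : lev M a ≤ lev M b + 1 := by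
  have hlam : (0 : ℝ) < (M : ℝ) ^ 13 := by positivity
  have h1 := lt_lev_succ_mul b hM
  have h2 : ll (a : ℝ) < ((lev M b : ℝ) + 2) * (M : ℝ) ^ 13 := by linarith only [h1, h]
  have h3 : (lev M a : ℝ) ≤ ll (a : ℝ) / (M : ℝ) ^ 13 := by
    have h5 := (Nat.le_floor_iff' (a := ll (a : ℝ) / (M : ℝ) ^ 13) (n := lev M a) ha.ne').1
    exact h5 (le_refl _)
  have h4 : (lev M a : ℝ) < lev M b + 2 := by
    have : ll (a : ℝ) / (M : ℝ) ^ 13 < (lev M b : ℝ) + 2 := by
      rw [div_lt_iff₀ hlam]; exact h2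
    linarith only [h3, this]
  have h5 : lev M a < lev M b + 2 := by exact_mod_cast h4
  omega

/-- the top line is longer than all the others, up to one level -/
theorem top_line {M : ℕ} (hM : 3 ≤ M) {m : ℕ} {S : Finset ℕ} {D : ℕ} {S' : Finset ℕ}
    {D' u : ℕ} {n : Cell m → ℕ} (hmat : Mat m S D S' D' u n)
    (htop : ∃ p p' : ℕ, p ∈ S ∧ p' ∈ S' ∧ (∀ t ∈ S, t ≤ p) ∧ (∀ t ∈ S', t ≤ p') ∧
      p ≠ p' ∧ Nrm M p ∧ Nrm M p') :
    ∃ ks, ∀ k ∈ Finset.Ico (M ^ 2) (KK M), k ≠ ks →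
      1 ≤ na (kap M m n) k + nb (kap M m n) k ∨ nt (kap M m n) k = 0 := by
  have hM1 : 1 ≤ M := by omega
  obtain ⟨p, p', hp, hp', hmax, hmax', hne, hN, hN'⟩ := htop
  -- the top prime and its line
  have key : ∃ (pm : ℕ) (l0 : Line m), ((∃ i, l0 = .inl i) ∨ (∃ j, l0 = .inr (.inl j))) ∧
      lineProd (linc m) n l0 + 1 = pm ∧ Nrm M pm ∧ (∀ t ∈ S ∪ S', t ≤ pm) := by
    rcases lt_or_gt_of_ne hne with h | h
    · have hnot : p' ∉ S := fun h' => by have := hmax p' h'; omega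
      obtain ⟨j, hj⟩ := hmat.col p' hp' hnot
      refine ⟨p', .inr (.inl j), Or.inr ⟨j, rfl⟩, hj, hN', ?_⟩
      intro t ht
      rcases Finset.mem_union.1 ht with h' | h'
      · have := hmax t h'; omega
      · exact hmax' t h'
    · have hnot : p ∉ S' := fun h' => by have := hmax' p h'; omega
      obtain ⟨i, hi⟩ := hmat.row p hp hnot
      refine ⟨p, .inl i, Or.inl ⟨i, rfl⟩, hi, hN, ?_⟩
      intro t ht
      rcases Finset.mem_union.1 ht with h' | h'
      · exact hmax t h'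
      · have := hmax' t h'; omega
  obtain ⟨pm, l0, hl0, hline, hNpm, hmaxpm⟩ := key
  have hpm3 := big_three_le hNpm.big
  obtain ⟨R, hR, hRd, hRmax, hRpow⟩ := exists_gpf (n := pm - 1) (by omega)
  have hllR := ll_gpf hM hR (by omega) hRpow hNpm.om_le
  refine ⟨max (M ^ 2) (lev M R + 1), ?_⟩
  intro k hk hkne
  rw [Finset.mem_Ico] at hk
  by_cases hnt : nt (kap M m n) k = 0
  · exact Or.inr hnt
  left
  have hpos : 0 < nt (kap M m n) k := Nat.pos_of_ne_zero hnt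
  unfold nt at hpos
  obtain ⟨t, ht⟩ := Finset.card_pos.1 hpos
  rw [Finset.mem_filter] at ht
  have hM2 : 0 < M ^ 2 := by positivity
  obtain ⟨R', hR', hRd', hlev'⟩ := kap_pos_iff (M := M) (n := n) (l := .inr (.inr t)) (by omega)
  have hle1 : R' ≤ pm - 1 := by
    rcases hmat.line (.inr (.inr t)) with h1 | h1
    · rw [h1] at hRd'
      have := big_three_le hR'
      have := Nat.le_of_dvd one_pos hRd'
      omega
    · have h2 := hmaxpm _ h1
      have h3 : 0 < lineProd (linc m) n (.inr (.inr t)) :=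
        Finset.prod_pos (fun c _ => hmat.pos c)
      have h4 := Nat.le_of_dvd h3 hRd'
      omega
  have h1 : lev M R' ≤ lev M R + 1 := by
    have h2 : ll (R' : ℝ) ≤ ll ((pm - 1 : ℕ) : ℝ) := by
      apply ll_mono
      · exact_mod_cast hR'.1.one_lt
      · exact_mod_cast hle1
    apply lev_le_succ hM1 (h2.trans hllR)
    omega
  have hkR : k ≤ lev M R := by
    have : k ≤ lev M R + 1 := by omega
    rcases le_or_gt (M ^ 2) (lev M R + 1) with h3 | h3
    · rw [max_eq_right h3] at hkne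
      omega
    · omega
  have hbigR : Big M R := big_of_le_lev hM1 hR (by omega)
  have hRl : R ∣ lineProd (linc m) n l0 := by
    have : lineProd (linc m) n l0 = pm - 1 := by omega
    rw [this]; exact hRd
  have hkap := le_kap hmat.pos hbigR hRl
  rcases hl0 with ⟨i, rfl⟩ | ⟨j, rfl⟩
  · have : 0 < na (kap M m n) k := by
      unfold na
      exact Finset.card_pos.2 ⟨i, Finset.mem_filter.2 ⟨Finset.mem_univ _, by omega⟩⟩
    omega
  · have : 0 < nb (kap M m n) k := by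
      unfold nb
      exact Finset.card_pos.2 ⟨j, Finset.mem_filter.2 ⟨Finset.mem_univ _, by omega⟩⟩
    omega

/-- bounds on the levels of the lines -/
theorem kap_bounds {M : ℕ} (hM : 1 ≤ M) {m : ℕ} {S : Finset ℕ} {D : ℕ} {S' : Finset ℕ}
    {D' u : ℕ} {n : Cell m → ℕ} {x : ℝ} (hmat : Mat m S D S' D' u n)
    (hu : (u : ℝ) ≤ x) (hx : ll x ≤ 5 * (M : ℝ) ^ 20) (l : Line m) :
    kap M m n l < KK M ∧ (l ∈ Lset M (kap M m n) →
      (kap M m n l : ℝ) * (M : ℝ) ^ 13 ≤ ll x) := by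
  have hM2 : 0 < M ^ 2 := by positivity
  have hKK : 0 < KK M := by unfold KK; positivity
  have hupos : 0 < u := by
    rw [← hmat.prod]; exact Finset.prod_pos (fun c _ => hmat.pos c)
  have hlp : lineProd (linc m) n l ∣ u := by
    rw [← hmat.prod]
    unfold lineProd
    exact Finset.prod_dvd_prod_of_subset _ _ _ (Finset.subset_univ _)
  have key : ∀ R : ℕ, Big M R → R ∣ lineProd (linc m) n l → ll (R : ℝ) ≤ ll x := by
    intro R hR hd
    apply ll_mono
    · exact_mod_cast hR.1.one_lt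
    · have h1 : R ≤ u := Nat.le_of_dvd hupos (hd.trans hlp)
      have h2 : (R : ℝ) ≤ u := by exact_mod_cast h1
      linarith only [hu, h2]
  constructor
  · by_cases h : kap M m n l = 0
    · omega
    · obtain ⟨R, hR, hd, hlev⟩ := kap_pos_iff h
      rw [← hlev]
      exact lev_lt_KK hM ((key R hR hd).trans hx)
  · intro hl
    rw [Lset, Finset.mem_filter] at hl
    obtain ⟨R, hR, hd, hlev⟩ := kap_pos_iff (M := M) (n := n) (l := l) (by omega)
    rw [← hlev]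
    exact (lev_mul_le hM hR).trans (key R hR hd)

end Vale.Agent.P031.Col
end
end

section

section

/-! Collision lemma, part 6: summation over the data. -/

namespace Vale.Agent.P031.Col

open Finset Filter Topology

/-- configurations -/
structure Cfg (M : ℕ) (x : ℝ) (n : Cell (2 * M) → ℕ) : Prop where
  good : GoodN M (2 * M) ⌊x⌋₊ (kap M (2 * M) n) (prof M (∏ c, n c)) n
  top : ∃ ks, ∀ k ∈ Finset.Ico (M ^ 2) (KK M), k ≠ ks →
      1 ≤ na (kap M (2 * M) n) k + nb (kap M (2 * M) n) k ∨ nt (kap M (2 * M) n) k = 0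
  kapKK : ∀ l, kap M (2 * M) n l < KK M
  kapll : ∀ l ∈ Lset M (kap M (2 * M) n), (kap M (2 * M) n l : ℝ) * (M : ℝ) ^ 13 ≤ ll x
  om : Om (∏ c, n c) ≤ M ^ 26
  gg : GG M (∏ c, n c) ≤ -(M : ℝ) ^ 18
  le : ((∏ c, n c : ℕ) : ℝ) ≤ x

/-- the data of a configuration -/
noncomputable def dat (M : ℕ) (n : Cell (2 * M) → ℕ) : (Line (2 * M) → ℕ) × (Fin (KK M) → ℕ) :=
  (kap M (2 * M) n, fun k => prof M (∏ c, n c) k)

/-- all data -/
def Data (M : ℕ) : Finset ((Line (2 * M) → ℕ) × (Fin (KK M) → ℕ)) :=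
  (Fintype.piFinset fun _ => Finset.range (KK M)) ×ˢ
    (Fintype.piFinset fun _ => Finset.range (M ^ 26 + 1))

theorem card_Data (M : ℕ) : (Data M).card = (KK M) ^ (6 * M) * (M ^ 26 + 1) ^ (KK M) := by
  unfold Data
  rw [Finset.card_product, Fintype.card_piFinset, Fintype.card_piFinset,
    Finset.prod_const, Finset.prod_const, Finset.card_range, Finset.card_range,
    Finset.card_univ, Finset.card_univ, Fintype.card_fin]
  congr 2
  simp [Line]
  ring

theorem prof_le_Om (M n k : ℕ) : prof M n k ≤ Om n := by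
  have := prof_sum_le M n {k}
  rwa [Finset.sum_singleton] at this

theorem Cfg.dat_mem {M : ℕ} {x : ℝ} {n : Cell (2 * M) → ℕ} (h : Cfg M x n) : dat M n ∈ Data M := by
  unfold Data dat
  rw [Finset.mem_product, Fintype.mem_piFinset, Fintype.mem_piFinset]
  refine ⟨fun l => Finset.mem_range.2 (h.kapKK l), fun k => Finset.mem_range.2 ?_⟩
  have h1 := prof_le_Om M (∏ c, n c) k
  exact Nat.lt_succ_of_le (h1.trans h.om)

/-- same data implies same `GoodN` -/
theorem Cfg.good_of_dat {M : ℕ} {x : ℝ} {n n0 : Cell (2 * M) → ℕ} (h : Cfg M x n)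
    (hd : dat M n = dat M n0) :
    GoodN M (2 * M) ⌊x⌋₊ (kap M (2 * M) n0) (prof M (∏ c, n0 c)) n := by
  unfold dat at hd
  rw [Prod.mk.injEq] at hd
  obtain ⟨h1, h2⟩ := hd
  have hg := h.good
  rw [h1] at hg
  refine ⟨hg.box, hg.adm, hg.ok, ?_⟩
  intro k hk
  rw [Finset.mem_Ico] at hk
  exact congrFun h2 ⟨k, hk.2⟩

theorem wt_nonneg' (M : ℕ) (w : ℕ → ℝ) (hw : ∀ k, 0 ≤ w k) (n : ℕ) : 0 ≤ wt M w n := by
  classical
  unfold wt
  apply Finset.prod_nonneg
  intro p _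
  apply pow_nonneg
  split_ifs
  · exact hw _
  · exact zero_le_one

theorem wt_mul_prime (M : ℕ) (w : ℕ → ℝ) (n R : ℕ) (hR : R.Prime) (hn : 0 < n) :
    wt M w (n * R) = wt M w n * wt M w R :=
  wt_mul M w hn.ne' hR.ne_zero

section Fixed

variable {M : ℕ} (hM : 3 ≤ M) {C₁ : ℝ} (hC₁ : 0 < C₁)
    (hcs : ∀ (X : ℕ) (w : ℕ → ℝ), ll (X : ℝ) ≤ 5 * (M : ℝ) ^ 20 →
      (∀ k, 0 ≤ w k ∧ w k ≤ (M : ℝ) ^ 13) →
      ∑ j ∈ Finset.Icc 1 X, wt M w j / (j : ℝ) ≤ C₁ * Real.exp ((M : ℝ) ^ 15) *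
        Real.exp (∑ k ∈ Finset.Ico (M ^ 2) (KK M), w k * ((M : ℝ) ^ 13 + C₁)))
    {B : ℝ} (hB : 1 ≤ B) {x : ℝ} (hx3 : 3 ≤ x) (hx : ll x ≤ 5 * (M : ℝ) ^ 20)

include hx3 hx in
theorem ll_floor_le : ll ((⌊x⌋₊ : ℕ) : ℝ) ≤ 5 * (M : ℝ) ^ 20 := by
  refine le_trans (ll_mono ?_ (Nat.floor_le (by linarith))) hx
  have : 3 ≤ ⌊x⌋₊ := Nat.le_floor (by exact_mod_cast hx3)
  have : (3 : ℝ) ≤ (⌊x⌋₊ : ℝ) := by exact_mod_cast this
  linarith

include hM in
/-- the data of one configuration satisfy all the hypotheses of `core` -/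
theorem Cfg.core_hyp {n0 : Cell (2 * M) → ℕ} (h : Cfg M x n0) :
    (∀ k, prof M (∏ c, n0 c) k ≤ M ^ 26) ∧
    (∑ k ∈ Finset.Ico (M ^ 2) (KK M), prof M (∏ c, n0 c) k ≤ M ^ 26) ∧
    (∀ k ∈ Finset.Ico (M ^ 2) (KK M), 0 < prof M (∏ c, n0 c) k → 0 < rr (kap M (2 * M) n0) k) ∧
    0 < ∏ k ∈ Finset.Ico (M ^ 2) (KK M),
      (zk M (kap M (2 * M) n0) (prof M (∏ c, n0 c)) k) ^ (prof M (∏ c, n0 c) k) := by
  have hM1 : 1 ≤ M := by omega
  have h3 : ∀ k ∈ Finset.Ico (M ^ 2) (KK M), 0 < prof M (∏ c, n0 c) k →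
      0 < rr (kap M (2 * M) n0) k := fun k hk hp => h.good.rr_pos hM1 hk hp
  refine ⟨fun k => (prof_le_Om _ _ _).trans h.om, (prof_sum_le _ _ _).trans h.om, h3, ?_⟩
  rw [zk_pow hM1 _ _ h3]
  exact Real.exp_pos _

open Classical in
include hM hC₁ hcs hB hx3 hx in
theorem fiber_mass
    (hsv : ∀ (κ : Line (2 * M) → ℕ) (N : ℕ → ℕ), (∀ k, N k ≤ M ^ 26) →
      ∀ c : Cell (2 * M), ∀ L' ⊆ Lset M κ, L'.Nonempty → (∀ l ∈ L', c ∈ linc (2 * M) l) →
      ∀ A : Line (2 * M) → ℕ,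
      (∀ l ∈ L', 0 < A l ∧ A l ≤ ⌊x⌋₊ ^ Fintype.card (Cell (2 * M))) →
      (∀ l ∈ L', ∀ l' ∈ L', l ≠ l' → A l ≠ A l') →
      ∑ R ∈ (Finset.Icc 1 ⌊x⌋₊).filter
        (fun R : ℕ => R.Prime ∧ ∀ l ∈ L', zz M κ l ≤ R ∧ (R * A l + 1).Prime),
          wt M (wc M κ N c) R / R ≤ B * ∏ l ∈ L', sv M κ l)
    (F : Finset (Cell (2 * M) → ℕ)) (n0 : Cell (2 * M) → ℕ) (hn0 : Cfg M x n0)
    (hF : ∀ n ∈ F, Cfg M x n ∧ dat M n = dat M n0) :
    ∑ n ∈ F, 1 / ((∏ c, n c : ℕ) : ℝ) ≤ Real.exp (errM C₁ B M - (M : ℝ) ^ 18) := by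
  classical
  have hM1 : 1 ≤ M := by omega
  have hM2 : 2 ≤ M := by omega
  have hX := ll_floor_le hx3 hx
  obtain ⟨hN, hNs, hrr, hpos⟩ := hn0.core_hyp hM
  set κ := kap M (2 * M) n0 with hκ
  set N : ℕ → ℕ := prof M (∏ c, n0 c) with hNdef
  set P := ∏ k ∈ Finset.Ico (M ^ 2) (KK M), (zk M κ N k) ^ (N k) with hP
  have hcore := core hM2 hC₁ hcs hB hX κ N hN hNs hrr hn0.top
  have hpeel := peel (linc (2 * M)) (zz M κ) (sv M κ)
    (fun c j => wt M (wc M κ N c) j / (j : ℝ)) ⌊x⌋₊ B hB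
    (fun c j => div_nonneg (wt_nonneg' M _ (wc_nonneg M κ N c) j) (Nat.cast_nonneg j))
    (by
      intro c j R hR hj
      rw [wt_mul_prime M _ j R hR hj]
      push_cast
      have : (j : ℝ) ≠ 0 := by positivity
      have : (R : ℝ) ≠ 0 := by exact_mod_cast hR.ne_zero
      field_simp)
    (Lset M κ) (fun l _ => (Real.exp_pos _).le)
    (fun c L' hL' hne hc A hA hdist => by
      convert hsv κ N hN c L' hL' hne hc A hA hdist)
    (Lset M κ) (Finset.Subset.refl _)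
  have hsub : F ⊆ (box (Cell (2 * M)) ⌊x⌋₊).filter
      (fun n => LAdm (linc (2 * M)) (zz M κ) (Lset M κ) n) := by
    intro n hn
    have hg := (hF n hn).1.good_of_dat (hF n hn).2
    exact Finset.mem_filter.2 ⟨hg.box, hg.adm⟩
  have hwn : ∀ n ∈ F, P * (1 / ((∏ c, n c : ℕ) : ℝ)) =
      ∏ c, (wt M (wc M κ N c) (n c) / (n c : ℝ)) := by
    intro n hn
    have hg := (hF n hn).1.good_of_dat (hF n hn).2
    rw [Finset.prod_div_distrib, hg.weight hM1 hX, ← hκ, ← hP]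
    push_cast
    rw [mul_one_div]
  have hS : P * ∑ n ∈ F, 1 / ((∏ c, n c : ℕ) : ℝ) ≤
      Real.exp (errM C₁ B M + ∑ k ∈ Finset.Ico (M ^ 2) (KK M), ph ((M : ℝ) ^ 13) (N k)) * P := by
    rw [Finset.mul_sum, Finset.sum_congr rfl hwn]
    calc ∑ n ∈ F, ∏ c, (wt M (wc M κ N c) (n c) / (n c : ℝ)) ≤
          ∑ n ∈ (box (Cell (2 * M)) ⌊x⌋₊).filter
            (fun n => LAdm (linc (2 * M)) (zz M κ) (Lset M κ) n),
              ∏ c, (wt M (wc M κ N c) (n c) / (n c : ℝ)) := by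
          apply Finset.sum_le_sum_of_subset_of_nonneg hsub
          intro n _ _
          apply Finset.prod_nonneg
          intro c _
          exact div_nonneg (wt_nonneg' M _ (wc_nonneg M κ N c) _) (Nat.cast_nonneg _)
      _ ≤ _ := hpeel
      _ ≤ _ := hcore
  have hS2 : ∑ n ∈ F, 1 / ((∏ c, n c : ℕ) : ℝ) ≤
      Real.exp (errM C₁ B M + ∑ k ∈ Finset.Ico (M ^ 2) (KK M), ph ((M : ℝ) ^ 13) (N k)) := by
    rw [mul_comm] at hS
    exact le_of_mul_le_mul_right hS hpos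
  refine hS2.trans (Real.exp_le_exp.2 ?_)
  have := hn0.gg
  unfold GG at this
  linarith only [this]

open Classical in
include hM hC₁ hcs hB hx3 hx in
theorem fiber_count {Z B₁ : ℝ} (hB₁ : 0 ≤ B₁)
    (hsv : ∀ (κ : Line (2 * M) → ℕ) (N : ℕ → ℕ), (∀ k, N k ≤ M ^ 26) →
      ∀ c : Cell (2 * M), ∀ L' ⊆ Lset M κ, L'.Nonempty → (∀ l ∈ L', c ∈ linc (2 * M) l) →
      ∀ A : Line (2 * M) → ℕ,
      (∀ l ∈ L', 0 < A l ∧ A l ≤ ⌊x⌋₊ ^ Fintype.card (Cell (2 * M))) →
      (∀ l ∈ L', ∀ l' ∈ L', l ≠ l' → A l ≠ A l') →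
      ∑ R ∈ (Finset.Icc 1 ⌊x⌋₊).filter
        (fun R : ℕ => R.Prime ∧ ∀ l ∈ L', zz M κ l ≤ R ∧ (R * A l + 1).Prime),
          wt M (wc M κ N c) R / R ≤ B * ∏ l ∈ L', sv M κ l)
    (hsc : ∀ (κ : Line (2 * M) → ℕ) (N : ℕ → ℕ), (∀ k, N k ≤ M ^ 26) →
      (∀ l ∈ Lset M κ, (κ l : ℝ) * (M : ℝ) ^ 13 ≤ ll x) →
      ∀ c : Cell (2 * M), ∀ L' ⊆ Lset M κ, (∀ l ∈ L', c ∈ linc (2 * M) l) →
      ∀ A : Line (2 * M) → ℕ,
      (∀ l ∈ L', 0 < A l ∧ A l ≤ ⌊x⌋₊ ^ Fintype.card (Cell (2 * M))) →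
      (∀ l ∈ L', ∀ l' ∈ L', l ≠ l' → A l ≠ A l') → ∀ y : ℝ, Z ≤ y → y ≤ x →
      ∑ R ∈ (Finset.Icc 1 ⌊x⌋₊).filter
        (fun R : ℕ => R.Prime ∧ (R : ℝ) ≤ y ∧ ∀ l ∈ L', (R * A l + 1).Prime),
          wt M (wc M κ N c) R ≤ B₁ * y * ∏ l ∈ L', sv M κ l)
    (F : Finset (Cell (2 * M) → ℕ)) (n0 : Cell (2 * M) → ℕ) (hn0 : Cfg M x n0)
    (hF : ∀ n ∈ F, Cfg M x n ∧ dat M n = dat M n0 ∧
      ∃ R : ℕ, R.Prime ∧ Z ≤ R ∧ R ∣ ∏ c, n c) :
    (F.card : ℝ) ≤ 9 * (M : ℝ) ^ 2 * B₁ * x * Real.exp (errM C₁ B M - (M : ℝ) ^ 18) := by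
  classical
  have hM1 : 1 ≤ M := by omega
  have hM2 : 2 ≤ M := by omega
  have hX := ll_floor_le hx3 hx
  obtain ⟨hN, hNs, hrr, hpos⟩ := hn0.core_hyp hM
  set κ := kap M (2 * M) n0 with hκ
  set N : ℕ → ℕ := prof M (∏ c, n0 c) with hNdef
  set P := ∏ k ∈ Finset.Ico (M ^ 2) (KK M), (zk M κ N k) ^ (N k) with hP
  have hcore := core hM2 hC₁ hcs hB hX κ N hN hNs hrr hn0.top
  have hpeel := peel_count (linc (2 * M)) (zz M κ) (sv M κ)
    (fun c j => wt M (wc M κ N c) j) ⌊x⌋₊ B B₁ x Z hB hB₁ (by linarith only [hx3])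
    (fun c j => wt_nonneg' M _ (wc_nonneg M κ N c) j)
    (fun c j R hR hj => wt_mul_prime M _ j R hR hj)
    (Lset M κ) (fun l _ => (Real.exp_pos _).le)
    (fun c L' hL' hne hc A hA hdist => by
      convert hsv κ N hN c L' hL' hne hc A hA hdist)
    (fun c L' hL' hc A hA hdist y hy hyx => by
      convert hsc κ N hN hn0.kapll c L' hL' hc A hA hdist y hy hyx)
  have hsub : F ⊆ (box (Cell (2 * M)) ⌊x⌋₊).filter
      (fun n => LAdm (linc (2 * M)) (zz M κ) (Lset M κ) n ∧ ((∏ c, n c : ℕ) : ℝ) ≤ x ∧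
        ∃ R : ℕ, R.Prime ∧ Z ≤ R ∧ R ∣ ∏ c, n c) := by
    intro n hn
    have hg := (hF n hn).1.good_of_dat (hF n hn).2.1
    exact Finset.mem_filter.2 ⟨hg.box, hg.adm, (hF n hn).1.le, (hF n hn).2.2⟩
  have hwn : ∀ n ∈ F, P = ∏ c, (wt M (wc M κ N c) (n c)) := by
    intro n hn
    have hg := (hF n hn).1.good_of_dat (hF n hn).2.1
    rw [hg.weight hM1 hX]
  have hcard0 : (Fintype.card (Cell (2 * M)) : ℝ) ≤ 9 * (M : ℝ) ^ 2 := by
    have := card_cell_le M hM2
    have h' : Fintype.card (Cell (2 * M)) ≤ 9 * M ^ 2 := by omega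
    exact_mod_cast h'
  have hx0 : 0 ≤ x := by linarith only [hx3]
  set T := Real.exp (errM C₁ B M + ∑ k ∈ Finset.Ico (M ^ 2) (KK M), ph ((M : ℝ) ^ 13) (N k))
    with hT
  have hT0 : 0 < T := Real.exp_pos _
  have hS : P * (F.card : ℝ) ≤ (9 * (M : ℝ) ^ 2 * B₁ * x * T) * P := by
    have e : P * (F.card : ℝ) = ∑ n ∈ F, ∏ c, (wt M (wc M κ N c) (n c)) := by
      rw [← Finset.sum_congr rfl hwn, Finset.sum_const, nsmul_eq_mul, mul_comm]
    rw [e]
    calc ∑ n ∈ F, ∏ c, (wt M (wc M κ N c) (n c)) ≤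
          ∑ n ∈ (box (Cell (2 * M)) ⌊x⌋₊).filter
            (fun n => LAdm (linc (2 * M)) (zz M κ) (Lset M κ) n ∧ ((∏ c, n c : ℕ) : ℝ) ≤ x ∧
              ∃ R : ℕ, R.Prime ∧ Z ≤ R ∧ R ∣ ∏ c, n c),
              ∏ c, (wt M (wc M κ N c) (n c)) := by
          apply Finset.sum_le_sum_of_subset_of_nonneg hsub
          intro n _ _
          apply Finset.prod_nonneg
          intro c _
          exact wt_nonneg' M _ (wc_nonneg M κ N c) _
      _ ≤ Fintype.card (Cell (2 * M)) * B₁ * x *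
          ((Fintype.card (Cell (2 * M)) * B) ^ (Lset M κ).card * (∏ l ∈ Lset M κ, sv M κ l) *
          ∑ n ∈ box (Cell (2 * M)) ⌊x⌋₊, ∏ c, (wt M (wc M κ N c) (n c) / (n c : ℝ))) := by
          refine hpeel.trans (le_of_eq ?_)
          ring
      _ ≤ Fintype.card (Cell (2 * M)) * B₁ * x * (T * P) := by
          apply mul_le_mul_of_nonneg_left hcore (by positivity)
      _ ≤ 9 * (M : ℝ) ^ 2 * B₁ * x * (T * P) := by
          apply mul_le_mul_of_nonneg_right _ (by positivity)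
          apply mul_le_mul_of_nonneg_right _ hx0
          exact mul_le_mul_of_nonneg_right hcard0 hB₁
      _ = _ := by ring
  have hS2 : (F.card : ℝ) ≤ 9 * (M : ℝ) ^ 2 * B₁ * x * T := by
    rw [mul_comm] at hS
    exact le_of_mul_le_mul_right hS hpos
  refine hS2.trans ?_
  apply mul_le_mul_of_nonneg_left _ (by positivity)
  apply Real.exp_le_exp.2
  have := hn0.gg
  unfold GG at this
  linarith only [this]

end Fixed

end Vale.Agent.P031.Col
end
end

section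

section

/-! Collision lemma: `cl_mass` and `cl_count`. -/

namespace Vale.Agent.P031.Col

open Finset Filter Topology

theorem cfg_of_colPair {M : ℕ} (hM : 3 ≤ M) {x : ℝ}
    (hx : ll x ≤ 5 * (M : ℝ) ^ 20) {q : Finset ℕ × ℕ × Finset ℕ × ℕ} {u : ℕ}
    (h : ColPair M x q u) :
    ∃ n : Cell (2 * M) → ℕ, Cfg M x n ∧ decode (2 * M) n = q ∧ ∏ c, n c = u := by
  have hM1 : 1 ≤ M := by omega
  obtain ⟨S, D, S', D'⟩ := q
  have hrep := h.rep
  have hrep' := h.rep'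
  simp only at hrep hrep'
  have heq : (∏ p ∈ S, (p - 1)) * D = (∏ p ∈ S', (p - 1)) * D' := by
    rw [← hrep.val, ← hrep'.val]
  obtain ⟨n, hmat⟩ := exists_mat (2 * M) S S' D D'
    (fun p hp => big_three_le (hrep.big p hp)) (fun p hp => big_three_le (hrep'.big p hp))
    hrep.card hrep'.card (Nat.pos_of_ne_zero hrep.small.1) (Nat.pos_of_ne_zero hrep'.small.1) heq
  rw [← hrep.val] at hmat
  have hg := goodN_of_mat (X := ⌊x⌋₊) hM1 hmat hrep.big hrep'.big hrep.small hrep'.small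
    (Nat.le_floor h.le)
  refine ⟨n, ⟨?_, ?_, ?_, ?_, ?_, ?_, ?_⟩, hmat.dec, hmat.prod⟩
  · rw [hmat.prod]; exact hg
  · exact top_line hM hmat h.top
  · exact fun l => (kap_bounds hM1 hmat h.le hx l).1
  · exact fun l => (kap_bounds hM1 hmat h.le hx l).2
  · rw [hmat.prod]; exact h.om
  · rw [hmat.prod]; exact h.gg
  · rw [hmat.prod]; exact h.le

/-- the sieve constant -/
noncomputable def BB (C₂ M : ℕ) : ℝ := (M : ℝ) ^ 13 * ((C₂ + 1) * (6 * (M : ℝ) ^ 20) ^ C₂)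

theorem one_le_BB {C₂ M : ℕ} (hM : 1 ≤ M) : 1 ≤ BB C₂ M := by
  have hM1 : (1 : ℝ) ≤ M := by exact_mod_cast hM
  have h1 : (1 : ℝ) ≤ (M : ℝ) ^ 13 := one_le_pow₀ hM1
  have h2 : (1 : ℝ) ≤ (M : ℝ) ^ 20 := one_le_pow₀ hM1
  have h3 : (1 : ℝ) ≤ (6 * (M : ℝ) ^ 20) ^ C₂ := one_le_pow₀ (by linarith only [h2])
  have h4 : (1 : ℝ) ≤ (C₂ : ℝ) + 1 := by
    have : (0 : ℝ) ≤ (C₂ : ℝ) := Nat.cast_nonneg _
    linarith
  unfold BB
  have h5 : (1 : ℝ) ≤ ((C₂ : ℝ) + 1) * (6 * (M : ℝ) ^ 20) ^ C₂ := one_le_mul_of_one_le_of_one_le h4 h3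
  exact one_le_mul_of_one_le_of_one_le h1 h5

/-- logarithm of the number of data -/
noncomputable def logData (M : ℕ) : ℝ :=
  6 * (M : ℝ) * Real.log (KK M) + (KK M : ℝ) * Real.log ((M : ℝ) ^ 26 + 1)

theorem exp_logData {M : ℕ} (hM : 1 ≤ M) : ((Data M).card : ℝ) = Real.exp (logData M) := by
  have hK : (0 : ℝ) < KK M := by
    have : 0 < KK M := by unfold KK; positivity
    exact_mod_cast this
  rw [card_Data]
  unfold logData
  rw [Real.exp_add]
  push_cast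
  congr 1
  · conv_lhs => rw [← Real.exp_log hK]
    rw [← Real.exp_nat_mul]
    congr 1
    push_cast
    ring
  · conv_lhs => rw [← Real.exp_log (show (0 : ℝ) < (M : ℝ) ^ 26 + 1 by positivity)]
    rw [← Real.exp_nat_mul]

theorem numerics (C₁ : ℝ) (hC₁ : 0 < C₁) (C₂ : ℕ) : ∀ᶠ M : ℕ in atTop,
    errM C₁ (BB C₂ M) M + logData M +
      Real.log (9 * (M : ℝ) ^ 2 * (BB C₂ M * (2 * (M : ℝ) ^ 26) ^ 3)) ≤ (M : ℝ) ^ 18 / 8 := by
  set a : ℝ := Real.log (72 * ((C₂ + 1) * 6 ^ C₂)) with ha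
  set b : ℝ := 93 + 20 * C₂ with hb
  have ha0 : 0 ≤ a := by
    apply Real.log_nonneg
    have h1 : (1 : ℝ) ≤ 6 ^ C₂ := one_le_pow₀ (by norm_num)
    have h2 : (1 : ℝ) ≤ (C₂ : ℝ) + 1 := by
      have : (0 : ℝ) ≤ (C₂ : ℝ) := Nat.cast_nonneg _
      linarith
    nlinarith only [h1]
  have hb0 : 0 ≤ b := by positivity
  set K : ℝ := 7 * a + 7 * b + 9 * C₁ + 9 + C₁ + 1 + 36 + 162 with hK
  have hlarge : ∀ᶠ M : ℕ in atTop, 8 * K ≤ (M : ℝ) :=
    (tendsto_natCast_atTop_atTop (R := ℝ)).eventually_ge_atTop _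
  filter_upwards [hlarge, eventually_ge_atTop 2] with M hMK hM2
  have hM1 : 1 ≤ M := by omega
  have hMr : (2 : ℝ) ≤ M := by exact_mod_cast hM2
  have hM0 : (0 : ℝ) < M := by linarith
  have hlogM := log_nat_le M hM1
  have hlogM0 : 0 ≤ Real.log M := Real.log_nonneg (by linarith)
  have hB1 := one_le_BB (C₂ := C₂) hM1
  -- the last logarithm
  have hLg : Real.log (9 * (M : ℝ) ^ 2 * (BB C₂ M * (2 * (M : ℝ) ^ 26) ^ 3)) = a + b * Real.log M := by
    have e : 9 * (M : ℝ) ^ 2 * (BB C₂ M * (2 * (M : ℝ) ^ 26) ^ 3) =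
        (72 * ((C₂ + 1) * 6 ^ C₂)) * (M : ℝ) ^ (93 + 20 * C₂) := by
      unfold BB
      rw [mul_pow 6, ← pow_mul, pow_add]
      ring
    rw [e, Real.log_mul (by positivity) (by positivity), Real.log_pow, ha, hb]
    push_cast
    ring
  have hLg1 : Real.log (9 * (M : ℝ) ^ 2 * BB C₂ M) ≤ a + b * Real.log M := by
    rw [← hLg]
    apply Real.log_le_log (by positivity)
    have h1 : (1 : ℝ) ≤ (2 * (M : ℝ) ^ 26) ^ 3 := by
      apply one_le_pow₀
      have : (1 : ℝ) ≤ (M : ℝ) ^ 26 := one_le_pow₀ (by linarith)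
      linarith
    have h2 : 9 * (M : ℝ) ^ 2 * BB C₂ M * 1 ≤ 9 * (M : ℝ) ^ 2 * BB C₂ M * (2 * (M : ℝ) ^ 26) ^ 3 :=
      mul_le_mul_of_nonneg_left h1 (by positivity)
    calc _ = 9 * (M : ℝ) ^ 2 * BB C₂ M * 1 := by ring
      _ ≤ _ := h2
      _ = _ := by ring
  have hpow : ∀ j : ℕ, j ≤ 17 → (M : ℝ) ^ j ≤ (M : ℝ) ^ 17 := fun j hj =>
    pow_le_pow_right₀ (by linarith) hj
  have hlin : a + b * Real.log M ≤ (a + b) * M := by
    have h1 : b * Real.log M ≤ b * M := mul_le_mul_of_nonneg_left hlogM hb0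
    (by_contra nlg; linarith [mul_nonneg (sub_nonneg.2 h1) (sub_nonneg.2 h1), mul_nonneg (sub_nonneg.2 hb0) (sub_nonneg.2 hlogM), mul_nonneg (sub_nonneg.2 ha0) (sub_nonneg.2 hMr), mul_pos (sub_pos.2 (not_le.1 nlg)) (sub_pos.2 hM0), mul_nonneg (sq_nonneg (↑M : ℝ)) (sub_nonneg.2 ha0)])
  -- bounds of the individual terms
  have t1 : 6 * (M : ℝ) * Real.log (9 * (M : ℝ) ^ 2 * BB C₂ M) ≤ 6 * (a + b) * (M : ℝ) ^ 17 := by
    calc _ ≤ 6 * (M : ℝ) * ((a + b) * M) :=
          mul_le_mul_of_nonneg_left (hLg1.trans hlin) (by positivity)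
      _ = 6 * (a + b) * (M : ℝ) ^ 2 := by ring
      _ ≤ _ := mul_le_mul_of_nonneg_left (hpow 2 (by norm_num)) (by positivity)
  have t2 : 9 * (M : ℝ) ^ 2 * (C₁ + (M : ℝ) ^ 15) ≤ (9 * C₁ + 9) * (M : ℝ) ^ 17 := by
    calc _ = 9 * C₁ * (M : ℝ) ^ 2 + 9 * (M : ℝ) ^ 17 := by ring
      _ ≤ 9 * C₁ * (M : ℝ) ^ 17 + 9 * (M : ℝ) ^ 17 := by
        have := mul_le_mul_of_nonneg_left (hpow 2 (by norm_num)) (show (0 : ℝ) ≤ 9 * C₁ by positivity)
        linarith only [this]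
      _ = _ := by ring
  have t3 : (C₁ + 1) * (M : ℝ) ^ 13 ≤ (C₁ + 1) * (M : ℝ) ^ 17 :=
    mul_le_mul_of_nonneg_left (hpow 13 (by norm_num)) (by positivity)
  have t4 : 6 * (M : ℝ) * Real.log (KK M) ≤ 36 * (M : ℝ) ^ 17 := by
    have hK0 : (0 : ℝ) < KK M := by
      have : 0 < KK M := by unfold KK; positivity
      exact_mod_cast this
    have h1 : Real.log (KK M) ≤ 6 * (M : ℝ) ^ 7 := by
      have h2 := Real.log_le_sub_one_of_pos hK0
      have h3 : (KK M : ℝ) = 6 * (M : ℝ) ^ 7 := by unfold KK; push_cast; ring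
      linarith only [h2, h3]
    calc _ ≤ 6 * (M : ℝ) * (6 * (M : ℝ) ^ 7) := mul_le_mul_of_nonneg_left h1 (by positivity)
      _ = 36 * (M : ℝ) ^ 8 := by ring
      _ ≤ _ := mul_le_mul_of_nonneg_left (hpow 8 (by norm_num)) (by positivity)
  have t5 : (KK M : ℝ) * Real.log ((M : ℝ) ^ 26 + 1) ≤ 162 * (M : ℝ) ^ 17 := by
    have h1 : Real.log ((M : ℝ) ^ 26 + 1) ≤ 27 * M := by
      have h2 : (1 : ℝ) ≤ (M : ℝ) ^ 26 := one_le_pow₀ (by linarith)
      calc Real.log ((M : ℝ) ^ 26 + 1) ≤ Real.log (2 * (M : ℝ) ^ 26) :=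
            Real.log_le_log (by positivity) (by linarith only [h2])
        _ = Real.log 2 + 26 * Real.log M := by
            rw [Real.log_mul (by norm_num) (by positivity), Real.log_pow]
            push_cast
            ring
        _ ≤ 1 + 26 * M := by
            have := Real.log_two_lt_d9
            linarith only [this, hlogM]
        _ ≤ 27 * M := by linarith
    have h3 : (KK M : ℝ) = 6 * (M : ℝ) ^ 7 := by unfold KK; push_cast; ring
    calc _ ≤ (KK M : ℝ) * (27 * M) := mul_le_mul_of_nonneg_left h1 (Nat.cast_nonneg _)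
      _ = 162 * (M : ℝ) ^ 8 := by rw [h3]; ring
      _ ≤ _ := mul_le_mul_of_nonneg_left (hpow 8 (by norm_num)) (by positivity)
  have t6 : Real.log (9 * (M : ℝ) ^ 2 * (BB C₂ M * (2 * (M : ℝ) ^ 26) ^ 3)) ≤
      (a + b) * (M : ℝ) ^ 17 := by
    rw [hLg]
    refine hlin.trans (mul_le_mul_of_nonneg_left ?_ (by positivity))
    have := hpow 1 (by norm_num)
    rwa [pow_one] at this
  have tot : errM C₁ (BB C₂ M) M + logData M +
      Real.log (9 * (M : ℝ) ^ 2 * (BB C₂ M * (2 * (M : ℝ) ^ 26) ^ 3)) ≤ K * (M : ℝ) ^ 17 := by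
    unfold errM logData
    rw [hK]
    have e : (7 * a + 7 * b + 9 * C₁ + 9 + C₁ + 1 + 36 + 162) * (M : ℝ) ^ 17 =
        6 * (a + b) * (M : ℝ) ^ 17 + (9 * C₁ + 9) * (M : ℝ) ^ 17 + (C₁ + 1) * (M : ℝ) ^ 17 +
        36 * (M : ℝ) ^ 17 + 162 * (M : ℝ) ^ 17 + (a + b) * (M : ℝ) ^ 17 := by ring
    rw [e]
    linarith only [t4, t6, t2, t5, t3, t1]
  refine tot.trans ?_
  have hfin : K * (M : ℝ) ^ 17 ≤ (M : ℝ) / 8 * (M : ℝ) ^ 17 := by
    apply mul_le_mul_of_nonneg_right _ (by positivity)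
    linarith only [hMK]
  calc _ ≤ _ := hfin
    _ = _ := by ring

/-- summation over the data -/
theorem sum_over_data {M : ℕ} (𝒩 : Finset (Cell (2 * M) → ℕ)) (f : (Cell (2 * M) → ℕ) → ℝ) (b : ℝ)
    (hmem : ∀ n ∈ 𝒩, dat M n ∈ Data M)
    (hb : 0 ≤ b)
    (hfib : ∀ n0 ∈ 𝒩, ∀ F : Finset (Cell (2 * M) → ℕ),
      (∀ n ∈ F, n ∈ 𝒩 ∧ dat M n = dat M n0) → ∑ n ∈ F, f n ≤ b) :
    ∑ n ∈ 𝒩, f n ≤ (Data M).card * b := by
  classical
  rw [← Finset.sum_fiberwise_of_maps_to hmem, ← nsmul_eq_mul, ← Finset.sum_const]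
  apply Finset.sum_le_sum
  intro d _
  rcases (𝒩.filter (fun n => dat M n = d)).eq_empty_or_nonempty with h | ⟨n0, hn0⟩
  · rw [h, Finset.sum_empty]; exact hb
  · rw [Finset.mem_filter] at hn0
    apply hfib n0 hn0.1
    intro n hn
    rw [Finset.mem_filter] at hn
    exact ⟨hn.1, by rw [hn.2, hn0.2]⟩

/-- strong form of `cl_mass` -/
theorem mass_strong : ∀ᶠ M : ℕ in atTop, ∀ (x : ℝ) (Q : Finset (Finset ℕ × ℕ × Finset ℕ × ℕ))
    (u : Finset ℕ × ℕ × Finset ℕ × ℕ → ℕ), 3 ≤ x → ll x ≤ 5 * (M : ℝ) ^ 20 →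
    (∀ q ∈ Q, ColPair M x q (u q)) →
    ∑ q ∈ Q, 1 / (u q : ℝ) ≤ Real.exp (-(3 / 4 * (M : ℝ) ^ 18)) := by
  obtain ⟨C₁, hC₁, hcell⟩ := cell_sum
  obtain ⟨C₂, hC₂⟩ := sieve_in
  filter_upwards [hcell, numerics C₁ hC₁ C₂, eventually_ge_atTop 3] with M hcs hnum hM
  intro x Q u hx3 hx hQ
  classical
  have hM1 : 1 ≤ M := by omega
  have hM2 : 2 ≤ M := by omega
  have hMr : (3 : ℝ) ≤ M := by exact_mod_cast hM
  have hBB := one_le_BB (C₂ := C₂) hM1
  -- choose matrices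
  have hex : ∀ q ∈ Q, ∃ n : Cell (2 * M) → ℕ, Cfg M x n ∧ decode (2 * M) n = q ∧
      ∏ c, n c = u q := fun q hq => cfg_of_colPair hM hx (hQ q hq)
  choose! nn hnn using hex
  have hinj : Set.InjOn nn (Q : Set (Finset ℕ × ℕ × Finset ℕ × ℕ)) := by
    intro q hq q' hq' h
    rw [← (hnn q hq).2.1, ← (hnn q' hq').2.1, h]
  have hcfg : ∀ n ∈ Q.image nn, Cfg M x n := by
    intro n hn
    obtain ⟨q, hq, rfl⟩ := Finset.mem_image.1 hn
    exact (hnn q hq).1
  have e1 : ∑ q ∈ Q, 1 / (u q : ℝ) = ∑ n ∈ Q.image nn, 1 / ((∏ c, n c : ℕ) : ℝ) := by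
    rw [Finset.sum_image hinj]
    apply Finset.sum_congr rfl
    intro q hq
    rw [(hnn q hq).2.2]
  rw [e1]
  have h1 := sum_over_data (Q.image nn) (fun n => 1 / ((∏ c, n c : ℕ) : ℝ))
    (Real.exp (errM C₁ (BB C₂ M) M - (M : ℝ) ^ 18)) (fun n hn => (hcfg n hn).dat_mem)
    (Real.exp_pos _).le
    (by
      intro n0 hn0 F hF
      exact fiber_mass hM hC₁ hcs hBB hx3 hx
        (fun κ N hN c L' hL' hne hc A hA hdist =>
          hC₂ M hM2 x κ N hx3 hx hN c L' hL' hne hc A hA hdist)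
        F n0 (hcfg n0 hn0) (fun n hn => ⟨hcfg n (hF n hn).1, (hF n hn).2⟩))
  refine h1.trans ?_
  rw [exp_logData hM1, ← Real.exp_add]
  apply Real.exp_le_exp.2
  have hlg : 0 ≤ Real.log (9 * (M : ℝ) ^ 2 * (BB C₂ M * (2 * (M : ℝ) ^ 26) ^ 3)) := by
    apply Real.log_nonneg
    have h2 : (1 : ℝ) ≤ (M : ℝ) ^ 2 := one_le_pow₀ (by linarith only [hMr])
    have h3 : (1 : ℝ) ≤ (M : ℝ) ^ 26 := one_le_pow₀ (by linarith only [hMr])
    have h4 : (1 : ℝ) ≤ (2 * (M : ℝ) ^ 26) ^ 3 := one_le_pow₀ (by linarith only [h3])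
    have h5 : 1 ≤ BB C₂ M * (2 * (M : ℝ) ^ 26) ^ 3 := one_le_mul_of_one_le_of_one_le hBB h4
    exact one_le_mul_of_one_le_of_one_le (by linarith only [h2]) h5
  have hM18 : (0 : ℝ) ≤ (M : ℝ) ^ 18 := by positivity
  linarith only [hM18, hnum, hlg]

theorem log_x_ge {M : ℕ} (hM : 3 ≤ M) {x : ℝ} {q : Finset ℕ × ℕ × Finset ℕ × ℕ} {u : ℕ}
    (h : ColPair M x q u) : 4 * (M : ℝ) ^ 26 ≤ Real.log x := by
  obtain ⟨p, p', hp, -⟩ := h.top
  have hbig := h.rep.big p hp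
  have hp3 := big_three_le hbig
  have hupos : 0 < u := by
    rw [h.rep.val]
    apply Nat.mul_pos
    · apply Finset.prod_pos
      intro t ht
      have := big_three_le (h.rep.big t ht)
      omega
    · exact Nat.pos_of_ne_zero h.rep.small.1
  have hpu : p - 1 ≤ u := by
    apply Nat.le_of_dvd hupos
    rw [h.rep.val]
    exact Dvd.dvd.mul_right (Finset.dvd_prod_of_mem (fun t => t - 1) hp) _
  have hMr : (3 : ℝ) ≤ M := by exact_mod_cast hM
  have hpr : (3 : ℝ) ≤ p := by exact_mod_cast hp3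
  have hlogp : 0 < Real.log p := Real.log_pos (by linarith only [hpr])
  have h1 : Real.exp ((M : ℝ) ^ 15) ≤ Real.log p := by
    rw [← Real.exp_log hlogp]
    exact Real.exp_le_exp.2 hbig.2
  have h2 : (p : ℝ) / 2 ≤ x := by
    have h3 : ((p - 1 : ℕ) : ℝ) ≤ x := by
      have : ((p - 1 : ℕ) : ℝ) ≤ u := by exact_mod_cast hpu
      linarith only [this, h.le]
    rw [Nat.cast_sub (by omega)] at h3
    push_cast at h3
    linarith only [hpr, h3]
  have h4 : Real.log p - Real.log 2 ≤ Real.log x := by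
    rw [← Real.log_div (by linarith only [hpr]) (by norm_num)]
    exact Real.log_le_log (by linarith only [hpr]) h2
  have h5 : Real.log 2 ≤ 1 := by
    have := Real.log_two_lt_d9
    linarith only [this]
  have h6 := Real.quadratic_le_exp_of_nonneg (x := (M : ℝ) ^ 15) (by positivity)
  have h7 : (9 : ℝ) ≤ (M : ℝ) ^ 4 := by
    calc (9 : ℝ) ≤ 3 ^ 4 := by norm_num
      _ ≤ (M : ℝ) ^ 4 := pow_le_pow_left₀ (by norm_num) hMr _
  have h8 : ((M : ℝ) ^ 15) ^ 2 = (M : ℝ) ^ 4 * (M : ℝ) ^ 26 := by ring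
  have h9 : (0 : ℝ) ≤ (M : ℝ) ^ 26 := by positivity
  have h10 : (1 : ℝ) ≤ (M : ℝ) ^ 15 := one_le_pow₀ (by linarith only [hMr])
  linarith only [mul_nonneg (sub_nonneg.2 h10) (sub_nonneg.2 h10), mul_nonneg (sub_nonneg.2 h7) (sub_nonneg.2 h9), h4, h10, h5, h6, h1]

theorem sqrt_le_of {x : ℝ} (hx : 3 ≤ x) : Real.sqrt x ≤ 2 * (x / Real.log x) := by
  have hlog : 0 < Real.log x := Real.log_pos (by linarith)
  have hs : 0 < Real.sqrt x := Real.sqrt_pos.2 (by linarith)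
  have h1 : Real.log x ≤ 2 * Real.sqrt x := by
    have h2 := Real.log_le_sub_one_of_pos hs
    rw [Real.log_sqrt (by linarith)] at h2
    linarith
  have h3 : Real.sqrt x * Real.sqrt x = x := Real.mul_self_sqrt (by linarith)
  rw [← mul_div_assoc, le_div_iff₀ hlog]
  (by_contra nlg; linarith [mul_eq_zero_of_left (sub_eq_zero.2 h3) (√x - (0)), mul_pos (sub_pos.2 (not_le.1 nlg)) (sub_pos.2 hs), mul_nonneg (mul_self_nonneg (√x : ℝ)) (sub_nonneg.2 h1)])

/-- strong form of `cl_count` -/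
theorem count_strong : ∀ᶠ M : ℕ in atTop, ∀ (x : ℝ)
    (Q : Finset (Finset ℕ × ℕ × Finset ℕ × ℕ)),
    3 ≤ x → ll x ≤ 5 * (M : ℝ) ^ 20 → (∀ q ∈ Q, ∃ u : ℕ, ColPair M x q u) →
    (Q.card : ℝ) ≤ 3 * (x / Real.log x * Real.exp (-(3 / 4 * (M : ℝ) ^ 18))) := by
  obtain ⟨C₁, hC₁, hcell⟩ := cell_sum
  obtain ⟨C₂, hC₂⟩ := sieve_in
  obtain ⟨C₃, hC₃⟩ := sieve_in_count
  -- a common constant
  set C₄ := max C₂ C₃ with hC₄
  filter_upwards [hcell, numerics C₁ hC₁ C₄, eventually_ge_atTop 3, mass_strong]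
    with M hcs hnum hM hmass
  intro x Q hx3 hx hQ
  classical
  have hM1 : 1 ≤ M := by omega
  have hM2 : 2 ≤ M := by omega
  have hMr : (3 : ℝ) ≤ M := by exact_mod_cast hM
  have hBB := one_le_BB (C₂ := C₄) hM1
  have hlogx : 0 < Real.log x := Real.log_pos (by linarith only [hx3])
  have hx0 : 0 < x := by linarith only [hx3]
  have hmono : ∀ C : ℕ, C ≤ C₄ → (M : ℝ) ^ 13 * ((C + 1) * (6 * (M : ℝ) ^ 20) ^ C) ≤ BB C₄ M := by
    intro C hC
    unfold BB
    have h2 : (1 : ℝ) ≤ 6 * (M : ℝ) ^ 20 := by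
      have : (1 : ℝ) ≤ (M : ℝ) ^ 20 := one_le_pow₀ (by linarith only [hMr])
      linarith only [this]
    apply mul_le_mul_of_nonneg_left _ (by positivity)
    apply mul_le_mul _ (pow_le_pow_right₀ h2 hC) (by positivity) (by positivity)
    have : (C : ℝ) ≤ C₄ := by exact_mod_cast hC
    linarith only [this]
  choose! u hu using hQ
  -- small values
  set Q1 := Q.filter (fun q => (u q : ℝ) ≤ Real.sqrt x) with hQ1
  set Q2 := Q.filter (fun q => ¬ (u q : ℝ) ≤ Real.sqrt x) with hQ2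
  have hcard : (Q.card : ℝ) = Q1.card + Q2.card := by
    rw [← Finset.card_filter_add_card_filter_not (fun q => (u q : ℝ) ≤ Real.sqrt x)]
    push_cast
    rfl
  have b1 : (Q1.card : ℝ) ≤ 2 * (x / Real.log x * Real.exp (-(3 / 4 * (M : ℝ) ^ 18))) := by
    have h1 : (Q1.card : ℝ) ≤ Real.sqrt x * ∑ q ∈ Q1, 1 / (u q : ℝ) := by
      rw [Finset.card_eq_sum_ones, Finset.mul_sum]
      push_cast
      apply Finset.sum_le_sum
      intro q hq
      rw [hQ1, Finset.mem_filter] at hq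
      have hupos : 0 < u q := by
        rw [(hu q hq.1).rep.val]
        apply Nat.mul_pos
        · apply Finset.prod_pos
          intro t ht
          have := big_three_le ((hu q hq.1).rep.big t ht)
          omega
        · exact Nat.pos_of_ne_zero (hu q hq.1).rep.small.1
      have hupos' : (0 : ℝ) < u q := by exact_mod_cast hupos
      rw [mul_one_div, le_div_iff₀ hupos', one_mul]
      exact hq.2
    have h2 := hmass x Q1 u hx3 hx (fun q hq => hu q (Finset.mem_filter.1 hq).1)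
    calc (Q1.card : ℝ) ≤ Real.sqrt x * ∑ q ∈ Q1, 1 / (u q : ℝ) := h1
      _ ≤ Real.sqrt x * Real.exp (-(3 / 4 * (M : ℝ) ^ 18)) :=
          mul_le_mul_of_nonneg_left h2 (Real.sqrt_nonneg _)
      _ ≤ 2 * (x / Real.log x) * Real.exp (-(3 / 4 * (M : ℝ) ^ 18)) :=
          mul_le_mul_of_nonneg_right (sqrt_le_of hx3) (Real.exp_pos _).le
      _ = _ := by ring
  have b2 : (Q2.card : ℝ) ≤ x / Real.log x * Real.exp (-(3 / 4 * (M : ℝ) ^ 18)) := by
    rcases Q2.eq_empty_or_nonempty with hemp | ⟨q0, hq0⟩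
    · rw [hemp]
      simp only [Finset.card_empty, Nat.cast_zero]
      positivity
    have hlogbig : 4 * (M : ℝ) ^ 26 ≤ Real.log x :=
      log_x_ge hM (hu q0 (Finset.mem_filter.1 hq0).1)
    set Z : ℝ := Real.exp (Real.log x / (2 * (M : ℝ) ^ 26)) with hZ
    have hM26 : (0 : ℝ) < 2 * (M : ℝ) ^ 26 := by positivity
    have hZ3 : 3 ≤ Z := by
      have h2 : 2 ≤ Real.log x / (2 * (M : ℝ) ^ 26) := by
        rw [le_div_iff₀ hM26]; linarith only [hlogbig]
      have h3 := Real.add_one_le_exp (Real.log x / (2 * (M : ℝ) ^ 26))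
      linarith only [h2, h3]
    have hlogZ : Real.log x ≤ 2 * (M : ℝ) ^ 26 * Real.log Z := by
      rw [hZ, Real.log_exp]
      apply le_of_eq
      field_simp
    have hex : ∀ q ∈ Q2, ∃ n : Cell (2 * M) → ℕ, Cfg M x n ∧ decode (2 * M) n = q ∧
        ∏ c, n c = u q := fun q hq => cfg_of_colPair hM hx (hu q (Finset.mem_filter.1 hq).1)
    choose! nn hnn using hex
    have hinj : Set.InjOn nn (Q2 : Set (Finset ℕ × ℕ × Finset ℕ × ℕ)) := by
      intro q hq q' hq' h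
      rw [← (hnn q hq).2.1, ← (hnn q' hq').2.1, h]
    have hcfg : ∀ n ∈ Q2.image nn, Cfg M x n := by
      intro n hn
      obtain ⟨q, hq, rfl⟩ := Finset.mem_image.1 hn
      exact (hnn q hq).1
    have hbigp : ∀ n ∈ Q2.image nn, ∃ R : ℕ, R.Prime ∧ Z ≤ R ∧ R ∣ ∏ c, n c := by
      intro n hn
      obtain ⟨q, hq, rfl⟩ := Finset.mem_image.1 hn
      rw [(hnn q hq).2.2]
      have hq' := Finset.mem_filter.1 hq
      have hcol := hu q hq'.1
      have hus : Real.sqrt x < u q := not_le.1 hq'.2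
      have hsx : 1 ≤ Real.sqrt x := by
        rw [Real.one_le_sqrt]; linarith only [hx3]
      have hu1 : (1 : ℝ) < u q := by linarith only [hq', hsx]
      have hu2 : 2 ≤ u q := by exact_mod_cast hu1
      obtain ⟨R, hR, hRd, -, hpow⟩ := exists_gpf hu2
      refine ⟨R, hR, ?_, hRd⟩
      have hR2 : (2 : ℝ) ≤ R := by exact_mod_cast hR.two_le
      have h1 : (u q : ℝ) ≤ (R : ℝ) ^ (M ^ 26) := by
        calc (u q : ℝ) ≤ ((R ^ Om (u q) : ℕ) : ℝ) := by exact_mod_cast hpow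
          _ ≤ ((R ^ (M ^ 26) : ℕ) : ℝ) := by
            exact_mod_cast Nat.pow_le_pow_right hR.pos hcol.om
          _ = _ := by push_cast; rfl
      have h2 : Real.log (u q) ≤ (M : ℝ) ^ 26 * Real.log R := by
        have := Real.log_le_log (by linarith only [hq', hsx]) h1
        rw [Real.log_pow] at this
        push_cast at this
        exact this
      have h3 : Real.log x / 2 ≤ Real.log (u q) := by
        rw [← Real.log_sqrt hx0.le]
        exact Real.log_le_log (by linarith only [hsx]) hus.le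
      have h4 : Real.log x / (2 * (M : ℝ) ^ 26) ≤ Real.log R := by
        rw [div_le_iff₀ hM26]
        linarith only [h3, h2]
      calc Z ≤ Real.exp (Real.log R) := Real.exp_le_exp.2 h4
        _ = R := Real.exp_log (by linarith only [hR2])
    set B₁ : ℝ := BB C₄ M * (2 * (M : ℝ) ^ 26) ^ 3 / Real.log x with hB₁
    have hB₁0 : 0 ≤ B₁ := by positivity
    have h1 := sum_over_data (Q2.image nn) (fun _ => (1 : ℝ))
      (9 * (M : ℝ) ^ 2 * B₁ * x * Real.exp (errM C₁ (BB C₄ M) M - (M : ℝ) ^ 18))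
      (fun n hn => (hcfg n hn).dat_mem) (by positivity)
      (by
        intro n0 hn0 F hF
        have := fiber_count hM hC₁ hcs hBB hx3 hx (Z := Z) hB₁0
          (fun κ N hN c L' hL' hne hc A hA hdist => by
            refine (hC₂ M hM2 x κ N hx3 hx hN c L' hL' hne hc A hA hdist).trans ?_
            apply mul_le_mul_of_nonneg_right (hmono C₂ (le_max_left _ _))
            exact Finset.prod_nonneg (fun l _ => (Real.exp_pos _).le))
          (fun κ N hN hκ c L' hL' hc A hA hdist y hy hyx => by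
            refine (hC₃ M hM2 x Z κ N hx3 hx hN hκ hZ3 hlogZ c L' hL' hc A hA hdist y hy
              hyx).trans ?_
            apply mul_le_mul_of_nonneg_right _
              (Finset.prod_nonneg (fun l _ => (Real.exp_pos _).le))
            apply mul_le_mul_of_nonneg_right _ (by linarith only [hZ3, hy])
            apply div_le_div_of_nonneg_right _ hlogx.le
            exact mul_le_mul_of_nonneg_right (hmono C₃ (le_max_right _ _)) (by positivity))
          F n0 (hcfg n0 hn0)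
          (fun n hn => ⟨hcfg n (hF n hn).1, (hF n hn).2, hbigp n (hF n hn).1⟩)
        rw [Finset.sum_const, nsmul_eq_mul, mul_one]
        exact this)
    have h2 : (Q2.card : ℝ) = ∑ n ∈ Q2.image nn, (1 : ℝ) := by
      rw [Finset.sum_const, nsmul_eq_mul, mul_one, Finset.card_image_of_injOn hinj]
    rw [h2]
    refine h1.trans ?_
    rw [exp_logData hM1]
    have hposLg : (0 : ℝ) < 9 * (M : ℝ) ^ 2 * (BB C₄ M * (2 * (M : ℝ) ^ 26) ^ 3) := by positivity
    have e2 : Real.exp (logData M) *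
        (9 * (M : ℝ) ^ 2 * B₁ * x * Real.exp (errM C₁ (BB C₄ M) M - (M : ℝ) ^ 18)) =
        x / Real.log x * Real.exp (logData M +
          Real.log (9 * (M : ℝ) ^ 2 * (BB C₄ M * (2 * (M : ℝ) ^ 26) ^ 3)) +
          (errM C₁ (BB C₄ M) M - (M : ℝ) ^ 18)) := by
      rw [Real.exp_add, Real.exp_add, Real.exp_log hposLg, hB₁]
      ring
    rw [e2]
    apply mul_le_mul_of_nonneg_left _ (by positivity)
    apply Real.exp_le_exp.2
    have hM18 : (0 : ℝ) ≤ (M : ℝ) ^ 18 := by positivity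
    linarith only [hnum, hM18]
  rw [hcard]
  linarith only [b2, b1]

end Vale.Agent.P031.Col

namespace Vale.Agent.P031

open Finset Filter Topology

theorem cl_count : ∀ᶠ M : ℕ in atTop, ∀ (x : ℝ) (Q : Finset (Finset ℕ × ℕ × Finset ℕ × ℕ)),
    3 ≤ x → ll x ≤ 5 * (M : ℝ) ^ 20 → (∀ q ∈ Q, ∃ u : ℕ, ColPair M x q u) →
    (Q.card : ℝ) ≤ x / Real.log x * Real.exp (-(M : ℝ) ^ 18 / 2) := by
  filter_upwards [Col.count_strong, eventually_ge_atTop 3] with M h hM x Q hx3 hx hQ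
  refine (h x Q hx3 hx hQ).trans ?_
  have hMr : (3 : ℝ) ≤ M := by exact_mod_cast hM
  have hlogx : 0 < Real.log x := Real.log_pos (by linarith)
  have h1 : (3 : ℝ) ≤ Real.exp ((M : ℝ) ^ 18 / 4) := by
    have h2 : (8 : ℝ) ≤ (M : ℝ) ^ 18 := by
      calc (8 : ℝ) ≤ 3 ^ 18 := by norm_num
        _ ≤ (M : ℝ) ^ 18 := pow_le_pow_left₀ (by norm_num) hMr _
    have h3 := Real.add_one_le_exp ((M : ℝ) ^ 18 / 4)
    linarith only [h2, h3]
  have h4 : Real.exp (-(M : ℝ) ^ 18 / 2) =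
      Real.exp ((M : ℝ) ^ 18 / 4) * Real.exp (-(3 / 4 * (M : ℝ) ^ 18)) := by
    rw [← Real.exp_add]
    congr 1
    ring
  rw [h4]
  have h5 : 0 ≤ x / Real.log x * Real.exp (-(3 / 4 * (M : ℝ) ^ 18)) := by positivity
  calc 3 * (x / Real.log x * Real.exp (-(3 / 4 * (M : ℝ) ^ 18))) ≤
        Real.exp ((M : ℝ) ^ 18 / 4) * (x / Real.log x * Real.exp (-(3 / 4 * (M : ℝ) ^ 18))) :=
        mul_le_mul_of_nonneg_right h1 h5
    _ = _ := by ring

end Vale.Agent.P031
end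
end

section

section

/-!
# P031: main theorem
-/

namespace Vale.Agent.P031

open Filter Topology

/-- **Erdős–Hall (1976)**: `V(cx)/V(x) → c` for every fixed `c > 0`. -/
theorem main (c : ℝ) (hc : 0 < c) :
    Tendsto (fun x : ℝ => (V (c * x) : ℝ) / (V x : ℝ)) atTop (𝓝 c) :=
  main_of_ClCount cl_count c hc

end Vale.Agent.P031
end
end
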